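import Claimed.Agent.R316.S5.EndPos

/-!
# Row 316, Section 5, `S5-E1`: the Fejer test for the negative part of the boundary symbol (5.19)
-/

set_option autoImplicit false
set_option linter.unusedSectionVars false
open scoped ContDiff ComplexOrder Topology Matrix
open MeasureTheory Filter

namespace Claimed.Agent.R316

section EndNeg

variable {κ : Type} [Fintype κ] [DecidableEq κ]

theorem s5n_cont_qf {A : ℝ → Matrix κ κ ℂ} {v : ℝ → κ → ℂ} (hA : Continuous A) (hv : Continuous v) :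
    Continuous fun θ => qf (A θ) (v θ) := by
  simp only [qf_eq_sum]
  refine Complex.continuous_re.comp ?_
  refine continuous_finsetSum _ fun j _ => continuous_finsetSum _ fun k _ => ?_
  exact ((Complex.continuous_conj.comp ((continuous_apply j).comp hv)).mul
    (hA.matrix_elem j k)).mul ((continuous_apply k).comp hv)

/-- the pointwise matrix inequality of the Fejer test. -/
theorem s5n_neg_pointwise {T B : Matrix κ κ ℂ} {C : ℝ} (hT : T.IsHermitian) (hC : frobSq T ≤ C)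
    (hB : ∀ i j, ‖B i j‖ ≤ Real.sqrt C) :
    (negPartM T * negPartM T * negPartM T).trace.re ≤
      -(Bᴴ * T * B).trace.re +
        C * ((Fintype.card κ : ℝ) + 1) * Real.sqrt (frobSq (B - negPartM T)) := by
  set N := negPartM T with hN
  set n : ℝ := (Fintype.card κ : ℝ) with hn
  have hC0 : 0 ≤ C := (frobSq_nonneg T).trans hC
  have hNH : Nᴴ = N := (negPartM_posSemidef T).1
  have e1 : (N * N * N).trace = -(Nᴴ * T * N).trace := by
    have h1 : (N * T * N).trace = (T * (N * N)).trace := by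
      rw [Matrix.mul_assoc, Matrix.trace_mul_comm, Matrix.mul_assoc]
    rw [hNH, h1, trace_mul_negPartM_sq hT, neg_neg]
  set E := B - N with hE
  have e2 : Bᴴ * T * B - Nᴴ * T * N = Eᴴ * (T * B) + (Nᴴ * T) * E := by
    rw [hE, Matrix.conjTranspose_sub, Matrix.sub_mul, Matrix.mul_sub]
    simp only [Matrix.mul_assoc]
    abel
  have sT : Real.sqrt (frobSq T) ≤ Real.sqrt C := Real.sqrt_le_sqrt hC
  have sN : Real.sqrt (frobSq N) ≤ Real.sqrt C :=
    Real.sqrt_le_sqrt ((frobSq_negPartM_le hT).trans hC)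
  have sB : Real.sqrt (frobSq B) ≤ n * Real.sqrt C :=
    s5n_sqrt_frobSq_le_of_entries (Real.sqrt_nonneg C) hB
  have sCC : Real.sqrt C * Real.sqrt C = C := Real.mul_self_sqrt hC0
  have b1 : ‖(Eᴴ * (T * B)).trace‖ ≤ Real.sqrt (frobSq E) * (C * n) := by
    refine (symp_norm_trace_mul_le _ _).trans ?_
    rw [B14.frobSq_conjTranspose]
    refine mul_le_mul_of_nonneg_left ?_ (Real.sqrt_nonneg _)
    calc Real.sqrt (frobSq (T * B)) ≤ Real.sqrt (frobSq T) * Real.sqrt (frobSq B) :=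
          B14.sqrt_frobSq_mul_le T B
      _ ≤ Real.sqrt C * (n * Real.sqrt C) := by gcongr
      _ = (Real.sqrt C * Real.sqrt C) * n := by ring
      _ = C * n := by rw [sCC]
  have b2 : ‖((Nᴴ * T) * E).trace‖ ≤ C * Real.sqrt (frobSq E) := by
    refine (symp_norm_trace_mul_le _ _).trans ?_
    refine mul_le_mul_of_nonneg_right ?_ (Real.sqrt_nonneg _)
    calc Real.sqrt (frobSq (Nᴴ * T)) ≤ Real.sqrt (frobSq Nᴴ) * Real.sqrt (frobSq T) :=
          B14.sqrt_frobSq_mul_le _ _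
      _ ≤ Real.sqrt C * Real.sqrt C := by rw [B14.frobSq_conjTranspose]; gcongr
      _ = C := sCC
  have e3 : (Bᴴ * T * B).trace.re - (Nᴴ * T * N).trace.re =
      (Eᴴ * (T * B)).trace.re + ((Nᴴ * T) * E).trace.re := by
    rw [← Complex.sub_re, ← Matrix.trace_sub, e2, Matrix.trace_add, Complex.add_re]
  have r1 := (Complex.abs_re_le_norm _).trans b1
  have r2 := (Complex.abs_re_le_norm _).trans b2
  have r3 := le_abs_self (Eᴴ * (T * B)).trace.re
  have r4 := le_abs_self ((Nᴴ * T) * E).trace.re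
  rw [e1, Complex.neg_re]
  nlinarith

/-- the test columns of the Fejer test and the resulting inequality for one symbol. -/
theorem s5n_neg_core {T : ℂ → Matrix κ κ ℂ} {C : ℝ} (hT : ∀ i j, CircLip fun ζ => T ζ i j)
    (hH : ∀ ζ ∈ uCirc, (T ζ).IsHermitian) (hC : ∀ ζ ∈ uCirc, frobSq (T ζ) ≤ C) (P : ℕ) :
    ∃ l : κ → ℂ → κ → ℂ, (∀ i k, HolSm fun ζ => l i ζ k) ∧ (∀ i, l i 0 = 0) ∧
      (∀ i, ∀ ζ ∈ uCirc, ∑ k, ‖l i ζ k‖ ^ 2 ≤ (Fintype.card κ : ℝ) * C) ∧
      (∀ i, DsqV (l i) ≤ (Fintype.card κ : ℝ) * ((2 * P + 1) * C)) ∧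
      cA (fun ζ => (negPartM (T ζ) * negPartM (T ζ) * negPartM (T ζ)).trace.re) ≤
        - ∑ i, cA (fun ζ => qf (T ζ) (l i ζ)) +
          C * ((Fintype.card κ : ℝ) + 1) * Real.sqrt (DsqM T / (P + 1)) := by
  set n : ℝ := (Fintype.card κ : ℝ) with hn
  have hC0 : 0 ≤ C := (frobSq_nonneg _).trans (hC 1 (by simp))
  set S : ℂ → Matrix κ κ ℂ := fun ζ => negPartM (T ζ) with hS
  obtain ⟨hSlip, hSD⟩ := s5n_clip (R := S) hT
    (fun ζ hζ ξ hξ => frobSq_negPartM_sub_le (hH ζ hζ) (hH ξ hξ))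
  have hSle : ∀ k i, ∀ ζ ∈ uCirc, ‖S ζ k i‖ ≤ Real.sqrt C := fun k i ζ hζ =>
    (s5n_norm_entry_le (S ζ) k i).trans
      (Real.sqrt_le_sqrt ((frobSq_negPartM_le (hH ζ hζ)).trans (hC ζ hζ)))
  choose l₀ h1 h2 h3 h4 using fun k i : κ =>
    exists_holSm_shift_fejer P (hSlip k i).continuousOn (hSle k i)
  have hSPle : ∀ k i, ∀ ζ ∈ uCirc, ‖fejerM P S ζ k i‖ ≤ Real.sqrt C := fun k i =>
    norm_fejer_le P (hSlip k i).continuousOn (hSle k i)
  have hcol : ∀ i, ∀ ζ ∈ uCirc, (fun k => l₀ k i ζ) = ζ ^ (P + 1) • fun k => fejerM P S ζ k i := by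
    intro i ζ hζ
    funext k
    exact h3 k i ζ hζ
  have hnorm : ∀ ζ ∈ uCirc, ‖ζ ^ (P + 1)‖ = 1 := by
    intro ζ hζ
    have : ‖ζ‖ = 1 := by simpa using hζ
    rw [norm_pow, this, one_pow]
  have hSPlip : ∀ i j, CircLip fun ζ => fejerM P S ζ i j := fun i j =>
    (isTrigPoly_fejer P fun ξ => S ξ i j).circSm.circLip
  have cT : Continuous (B14.bd T) := s5n_cont_mat hT
  have cS : Continuous (B14.bd S) := s5n_cont_mat hSlip
  have cSP : Continuous (B14.bd (fejerM P S)) := s5n_cont_mat hSPlip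
  have cl : ∀ i, Continuous (B14.bd fun ζ => fun k => l₀ k i ζ) := fun i =>
    continuous_pi fun k => (circLip_iff.1 (h1 k i).circSm.circLip).continuous
  have cq : ∀ i, Continuous (B14.bd fun ζ => qf (T ζ) fun k => l₀ k i ζ) := fun i =>
    s5n_cont_qf cT (cl i)
  have c3 : Continuous (B14.bd fun ζ => (S ζ * S ζ * S ζ).trace.re) :=
    Complex.continuous_re.comp ((cS.matrix_mul cS).matrix_mul cS).matrix_trace
  have cE2 : Continuous (B14.bd fun ζ => frobSq (fejerM P S ζ - S ζ)) :=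
    s5n_cont_frobSq (cSP.sub cS)
  have cE : Continuous (B14.bd fun ζ => Real.sqrt (frobSq (fejerM P S ζ - S ζ))) :=
    Real.continuous_sqrt.comp cE2
  refine ⟨fun i ζ k => l₀ k i ζ, fun i k => h1 k i, fun i => funext fun k => h2 k i, ?_, ?_, ?_⟩
  · intro i ζ hζ
    calc ∑ k, ‖l₀ k i ζ‖ ^ 2 ≤ ∑ _k : κ, C := by
          refine Finset.sum_le_sum fun k _ => ?_
          rw [h3 k i ζ hζ, norm_mul, hnorm ζ hζ, one_mul]
          have := pow_le_pow_left₀ (norm_nonneg _) (hSPle k i ζ hζ) 2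
          rwa [Real.sq_sqrt hC0] at this
      _ = n * C := by simp [hn]
  · intro i
    unfold DsqV
    calc ∑ k, Dsq (fun ζ => l₀ k i ζ) ≤ ∑ _k : κ, (2 * (P : ℝ) + 1) * C := by
          refine Finset.sum_le_sum fun k _ => ?_
          have := h4 k i
          rwa [Real.sq_sqrt hC0] at this
      _ = n * ((2 * P + 1) * C) := by simp [hn]
  · -- the averaged inequality
    have hpt : ∀ θ, B14.bd (fun ζ => (S ζ * S ζ * S ζ).trace.re) θ ≤
        (∑ i, -B14.bd (fun ζ => qf (T ζ) fun k => l₀ k i ζ) θ) +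
          C * (n + 1) * B14.bd (fun ζ => Real.sqrt (frobSq (fejerM P S ζ - S ζ))) θ := by
      intro θ
      have hθ := circleMap_mem_uCirc θ
      simp only [B14.bd]
      set ζ := circleMap 0 1 θ
      have h5 := s5n_neg_pointwise (B := fejerM P S ζ) (hH ζ hθ) (hC ζ hθ)
        (fun i j => hSPle i j ζ hθ)
      rw [s5n_trace_conj_eq_sum] at h5
      have h6 : ∀ i, qf (T ζ) (fun k => l₀ k i ζ) = qf (T ζ) fun k => fejerM P S ζ k i := by
        intro i
        rw [hcol i ζ hθ, qf_smul_vec, hnorm ζ hθ]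
        ring
      simp only [h6, Finset.sum_neg_distrib]
      exact h5
    have cm : ∀ i ∈ (Finset.univ : Finset κ),
        Continuous fun θ => -B14.bd (fun ζ => qf (T ζ) fun k => l₀ k i ζ) θ := fun i _ => (cq i).neg
    have cs : Continuous fun θ => ∑ i, -B14.bd (fun ζ => qf (T ζ) fun k => l₀ k i ζ) θ :=
      continuous_finsetSum _ cm
    have ce : Continuous fun θ =>
        C * (n + 1) * B14.bd (fun ζ => Real.sqrt (frobSq (fejerM P S ζ - S ζ))) θ :=
      continuous_const.mul cE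
    have cse : Continuous fun θ => (∑ i, -B14.bd (fun ζ => qf (T ζ) fun k => l₀ k i ζ) θ) +
        C * (n + 1) * B14.bd (fun ζ => Real.sqrt (frobSq (fejerM P S ζ - S ζ))) θ := cs.add ce
    have h7 := B14.pavg_mono c3 cse hpt
    rw [B14.pavg_add cs ce, B14.pavg_const_mul_real,
      B14.pavg_sum Finset.univ (fun i θ => -B14.bd (fun ζ => qf (T ζ) fun k => l₀ k i ζ) θ) cm]
      at h7
    simp only [B14.pavg_neg, Finset.sum_neg_distrib] at h7
    have h8 : B14.pavg (B14.bd fun ζ => Real.sqrt (frobSq (fejerM P S ζ - S ζ))) ≤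
        Real.sqrt (DsqM T / (P + 1)) := by
      refine (s5n_pavg_le_sqrt cE).trans (Real.sqrt_le_sqrt ?_)
      have e1 : (fun θ => B14.bd (fun ζ => Real.sqrt (frobSq (fejerM P S ζ - S ζ))) θ ^ 2) =
          fun θ => ∑ i, ∑ j, B14.bd (fun ζ => ‖fejer P (fun ξ => S ξ i j) ζ - S ζ i j‖ ^ 2) θ := by
        funext θ
        simp only [B14.bd]
        rw [Real.sq_sqrt (frobSq_nonneg _)]
        rfl
      have cij : ∀ i j, Continuous
          (B14.bd fun ζ => ‖fejer P (fun ξ => S ξ i j) ζ - S ζ i j‖ ^ 2) := fun i j =>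
        (((circLip_iff.1 (hSPlip i j)).continuous.sub
          (circLip_iff.1 (hSlip i j)).continuous).norm).pow 2
      rw [e1, B14.pavg_sum Finset.univ
        (fun i θ => ∑ j, B14.bd (fun ζ => ‖fejer P (fun ξ => S ξ i j) ζ - S ζ i j‖ ^ 2) θ)
        (fun i _ => continuous_finsetSum _ fun j _ => cij i j)]
      have e2 : ∀ i, B14.pavg
          (fun θ => ∑ j, B14.bd (fun ζ => ‖fejer P (fun ξ => S ξ i j) ζ - S ζ i j‖ ^ 2) θ) =
          ∑ j, B14.pavg (B14.bd fun ζ => ‖fejer P (fun ξ => S ξ i j) ζ - S ζ i j‖ ^ 2) := fun i =>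
        B14.pavg_sum Finset.univ
          (fun j θ => B14.bd (fun ζ => ‖fejer P (fun ξ => S ξ i j) ζ - S ζ i j‖ ^ 2) θ)
          (fun j _ => cij i j)
      simp only [e2]
      have h9 : ∑ i, ∑ j, B14.pavg (B14.bd fun ζ => ‖fejer P (fun ξ => S ξ i j) ζ - S ζ i j‖ ^ 2) ≤
          ∑ i, ∑ j, Dsq (fun ζ => S ζ i j) / (P + 1) :=
        Finset.sum_le_sum fun i _ => Finset.sum_le_sum fun j _ =>
          cA_normSq_fejer_sub_le P (hSlip i j)
      refine h9.trans ?_
      simp only [← Finset.sum_div]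
      exact div_le_div_of_nonneg_right hSD (by positivity)
    have h10 : 0 ≤ C * (n + 1) := by positivity
    have h11 := mul_le_mul_of_nonneg_left h8 h10
    exact h7.trans (add_le_add le_rfl h11)

/-- from the cubic mean to the mean of the Frobenius norm. -/
theorem s5n_neg_final {T : ℂ → Matrix κ κ ℂ} (hT : ∀ i j, CircLip fun ζ => T ζ i j)
    (hH : ∀ ζ ∈ uCirc, (T ζ).IsHermitian) {t : ℝ} (ht : 0 < t) :
    cA (fun ζ => Real.sqrt (frobSq (negPartM (T ζ)))) ≤
      Real.sqrt ((Fintype.card κ : ℝ) * t ^ 2 +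
        cA (fun ζ => (negPartM (T ζ) * negPartM (T ζ) * negPartM (T ζ)).trace.re) / t) := by
  set S : ℂ → Matrix κ κ ℂ := fun ζ => negPartM (T ζ) with hS
  obtain ⟨hSlip, -⟩ := s5n_clip (R := S) hT
    (fun ζ hζ ξ hξ => frobSq_negPartM_sub_le (hH ζ hζ) (hH ξ hξ))
  have cS : Continuous (B14.bd S) := s5n_cont_mat hSlip
  have c2 : Continuous (B14.bd fun ζ => frobSq (S ζ)) := s5n_cont_frobSq cS
  have c1 : Continuous (B14.bd fun ζ => Real.sqrt (frobSq (S ζ))) := Real.continuous_sqrt.comp c2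
  have c3 : Continuous (B14.bd fun ζ => (S ζ * S ζ * S ζ).trace.re) :=
    Complex.continuous_re.comp ((cS.matrix_mul cS).matrix_mul cS).matrix_trace
  refine (s5n_pavg_le_sqrt c1).trans (Real.sqrt_le_sqrt ?_)
  have c4 : Continuous fun θ => B14.bd (fun ζ => (S ζ * S ζ * S ζ).trace.re) θ / t :=
    c3.div_const t
  have c5 : Continuous fun θ => (Fintype.card κ : ℝ) * t ^ 2 +
      B14.bd (fun ζ => (S ζ * S ζ * S ζ).trace.re) θ / t := continuous_const.add c4
  have c6 : Continuous fun θ => B14.bd (fun ζ => Real.sqrt (frobSq (S ζ))) θ ^ 2 := c1.pow 2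
  have h1 := B14.pavg_mono c6 c5 (fun θ => by
    simp only [B14.bd]
    rw [Real.sq_sqrt (frobSq_nonneg _)]
    exact s5n_frobSq_le_cube (negPartM_posSemidef _) ht)
  rw [B14.pavg_add continuous_const c4, B14.pavg_const, B14.pavg_div_const_real] at h1
  exact h1

/-- the deterministic part of `negPart_small`. -/
theorem s5n_neg_combine {T : ℂ → Matrix κ κ ℂ} {C En ε s CL τ₁ : ℝ}
    (hT : ∀ i j, CircLip fun ζ => T ζ i j) (hH : ∀ ζ ∈ uCirc, (T ζ).IsHermitian)
    (hC : ∀ ζ ∈ uCirc, frobSq (T ζ) ≤ C) (hEn : 0 ≤ En) (hD : DsqM T ≤ C * (1 + En))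
    (hε : 0 < ε) (hεs : ε ≤ s) (hpen : ε * (1 + En) ≤ s ^ 2)
    (hdefo : ∀ l : ℂ → κ → ℂ, (∀ i, HolSm fun ζ => l ζ i) →
      (∀ ζ ∈ uCirc, ∑ i, ‖l ζ i‖ ^ 2 ≤ (Fintype.card κ : ℝ) * C) →
      DsqV l ≤ (Fintype.card κ : ℝ) * ((2 * (⌈s / ε⌉₊ : ℕ) + 1) * C) → l 0 = 0 →
      - cA (fun ζ => qf (T ζ) (l ζ)) - CL * ε * (1 + En + DsqV l) ≤ τ₁) :
    cA (fun ζ => (negPartM (T ζ) * negPartM (T ζ) * negPartM (T ζ)).trace.re) ≤
      (Fintype.card κ : ℝ) * τ₁ +
        ((Fintype.card κ : ℝ) * |CL| * (s ^ 2 + 5 * (Fintype.card κ : ℝ) * C * s) +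
          C * ((Fintype.card κ : ℝ) + 1) * Real.sqrt (C * s)) := by
  set n : ℝ := (Fintype.card κ : ℝ) with hn
  have hn0 : 0 ≤ n := Nat.cast_nonneg _
  have hC0 : 0 ≤ C := (frobSq_nonneg _).trans (hC 1 (by simp))
  have hs : 0 < s := hε.trans_le hεs
  set P : ℕ := ⌈s / ε⌉₊ with hP
  have hP1 : s / ε ≤ (P : ℝ) := Nat.le_ceil _
  have hP2 : (P : ℝ) < s / ε + 1 := Nat.ceil_lt_add_one (by positivity)
  have hP1' : s ≤ ε * P := by
    rw [div_le_iff₀ hε] at hP1
    linarith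
  have hP2' : ε * P < s + ε := by
    have := mul_lt_mul_of_pos_left hP2 hε
    rw [mul_add, mul_div_cancel₀ _ hε.ne', mul_one] at this
    exact this
  obtain ⟨l, l1, l2, l3, l4, l5⟩ := s5n_neg_core hT hH hC P
  have hi : ∀ i, - cA (fun ζ => qf (T ζ) (l i ζ)) ≤ τ₁ + |CL| * (s ^ 2 + 5 * n * C * s) := by
    intro i
    have h1 := hdefo (l i) (l1 i) (l3 i) (l4 i) (l2 i)
    have hx0 : 0 ≤ 1 + En + DsqV (l i) := by
      have := DsqV_nonneg (l i)
      linarith
    have h2 : CL * ε * (1 + En + DsqV (l i)) ≤ |CL| * (ε * (1 + En + DsqV (l i))) := by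
      rw [mul_assoc]
      exact mul_le_mul_of_nonneg_right (le_abs_self CL) (by positivity)
    have h3 : ε * (1 + En + DsqV (l i)) ≤ s ^ 2 + 5 * n * C * s := by
      have h4 : ε * DsqV (l i) ≤ ε * (n * ((2 * P + 1) * C)) :=
        mul_le_mul_of_nonneg_left (l4 i) hε.le
      have h5 : ε * (n * ((2 * P + 1) * C)) = n * C * (2 * (ε * P) + ε) := by ring
      have h6 : n * C * (2 * (ε * P) + ε) ≤ n * C * (5 * s) :=
        mul_le_mul_of_nonneg_left (by linarith) (by positivity)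
      nlinarith
    have h7 := mul_le_mul_of_nonneg_left h3 (abs_nonneg CL)
    linarith
  have hsum : - ∑ i, cA (fun ζ => qf (T ζ) (l i ζ)) ≤ n * (τ₁ + |CL| * (s ^ 2 + 5 * n * C * s)) := by
    rw [← Finset.sum_neg_distrib]
    calc ∑ i, - cA (fun ζ => qf (T ζ) (l i ζ)) ≤ ∑ _i : κ, (τ₁ + |CL| * (s ^ 2 + 5 * n * C * s)) :=
          Finset.sum_le_sum fun i _ => hi i
      _ = n * (τ₁ + |CL| * (s ^ 2 + 5 * n * C * s)) := by
          rw [Finset.sum_const, Finset.card_univ, nsmul_eq_mul]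
  have hq : DsqM T / (P + 1) ≤ C * s := by
    rw [div_le_iff₀ (by positivity)]
    refine hD.trans ?_
    rw [mul_assoc]
    refine mul_le_mul_of_nonneg_left ?_ hC0
    have h8 : ε * (1 + En) ≤ ε * (s * (P + 1)) := by
      have : s * s ≤ s * (ε * P) := mul_le_mul_of_nonneg_left hP1' hs.le
      nlinarith
    exact le_of_mul_le_mul_left h8 hε
  have h9 : C * (n + 1) * Real.sqrt (DsqM T / (P + 1)) ≤ C * (n + 1) * Real.sqrt (C * s) :=
    mul_le_mul_of_nonneg_left (Real.sqrt_le_sqrt hq) (by positivity)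
  refine l5.trans ?_
  have e : n * τ₁ + (n * |CL| * (s ^ 2 + 5 * n * C * s) + C * (n + 1) * Real.sqrt (C * s)) =
      n * (τ₁ + |CL| * (s ^ 2 + 5 * n * C * s)) + C * (n + 1) * Real.sqrt (C * s) := by ring
  rw [e]
  exact add_le_add hsum h9

/-- the error function of `s5n_neg_combine` is small for small `s`. -/
theorem s5n_exists_small (n K C : ℝ) {σ : ℝ} (hσ : 0 < σ) :
    ∃ s : ℝ, 0 < s ∧ n * K * (s ^ 2 + 5 * n * C * s) + C * (n + 1) * Real.sqrt (C * s) < σ := by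
  have hc : Continuous fun s : ℝ =>
      n * K * (s ^ 2 + 5 * n * C * s) + C * (n + 1) * Real.sqrt (C * s) := by
    fun_prop
  have h0 : (fun s : ℝ => n * K * (s ^ 2 + 5 * n * C * s) + C * (n + 1) * Real.sqrt (C * s)) 0 < σ := by
    simpa using hσ
  have h1 := (hc.tendsto 0).eventually (gt_mem_nhds h0)
  have h2 : ∀ᶠ s in 𝓝[>] (0 : ℝ),
      n * K * (s ^ 2 + 5 * n * C * s) + C * (n + 1) * Real.sqrt (C * s) < σ :=
    h1.filter_mono nhdsWithin_le_nhds
  obtain ⟨s, hs, hs0⟩ := (h2.and self_mem_nhdsWithin).exists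
  exact ⟨s, hs0, hs⟩

end EndNeg

end Claimed.Agent.R316
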