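import Claimed.Agent.R316.S5.EndAux

/-!
# Row 316, Section 5, `S5-E2`: the positive boundary form (Fejer mean of `posPartM T + (3/2) δ`)
-/

set_option autoImplicit false
set_option linter.unusedSectionVars false
open scoped ContDiff ComplexOrder Topology Matrix
open MeasureTheory Filter

namespace Claimed.Agent.R316

section EndPos

variable {κ : Type} [Fintype κ] [DecidableEq κ]

theorem s5n_frobSq_eq_sum_prod (A : Matrix κ κ ℂ) :
    frobSq A = ∑ p : κ × κ, ‖A p.1 p.2‖ ^ 2 := by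
  rw [Fintype.sum_prod_type]
  rfl

theorem s5n_DsqM_eq_sum_prod (A : ℂ → Matrix κ κ ℂ) :
    DsqM A = ∑ p : κ × κ, Dsq fun ζ => A ζ p.1 p.2 := by
  rw [Fintype.sum_prod_type]
  rfl

/-- maps which are `1`-Lipschitz in the Frobenius norm. -/
theorem s5n_clip {T R : ℂ → Matrix κ κ ℂ} (hT : ∀ i j, CircLip fun ζ => T ζ i j)
    (h : ∀ ζ ∈ uCirc, ∀ ξ ∈ uCirc, frobSq (R ζ - R ξ) ≤ frobSq (T ζ - T ξ)) :
    (∀ i j, CircLip fun ζ => R ζ i j) ∧ DsqM R ≤ DsqM T := by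
  constructor
  · intro i j
    refine circLip_of_diff (J := κ × κ) (f := fun p ζ => T ζ p.1 p.2) (c := fun _ => 1)
      (fun p => hT p.1 p.2) ?_
    intro ζ hζ ξ hξ
    calc ‖R ζ i j - R ξ i j‖ ^ 2 ≤ frobSq (R ζ - R ξ) := norm_entry_sq_le_frobSq (R ζ - R ξ) i j
      _ ≤ frobSq (T ζ - T ξ) := h ζ hζ ξ hξ
      _ = ∑ p : κ × κ, 1 * ‖T ζ p.1 p.2 - T ξ p.1 p.2‖ ^ 2 := by
          rw [s5n_frobSq_eq_sum_prod]
          simp
  · rw [s5n_DsqM_eq_sum_prod, s5n_DsqM_eq_sum_prod]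
    have := Dsq_sum_le_of_diff (I := κ × κ) (J := κ × κ) (f := fun p ζ => R ζ p.1 p.2)
      (g := fun p ζ => T ζ p.1 p.2) (c := fun _ => 1) (fun p => hT p.1 p.2)
      (fun _ => zero_le_one) (fun ζ hζ ξ hξ => by
        have h1 := h ζ hζ ξ hξ
        rw [s5n_frobSq_eq_sum_prod, s5n_frobSq_eq_sum_prod] at h1
        simpa using h1)
    simpa using this

theorem s5n_cont_mat {A : ℂ → Matrix κ κ ℂ} (hA : ∀ i j, CircLip fun ζ => A ζ i j) :
    Continuous (B14.bd A) :=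
  continuous_matrix fun i j => (circLip_iff.1 (hA i j)).continuous

theorem s5n_cont_frobSq {W : ℝ → Matrix κ κ ℂ} (hW : Continuous W) :
    Continuous fun θ => frobSq (W θ) := by
  unfold frobSq
  exact continuous_finsetSum _ fun i _ => continuous_finsetSum _ fun j _ =>
    ((hW.matrix_elem i j).norm).pow 2

theorem s5n_qf_eq_sum_prod (B : Matrix κ κ ℂ) (v : κ → ℂ) :
    qf B v = (∑ p : κ × κ, ((starRingEnd ℂ) (v p.1) * v p.2) * B p.1 p.2).re := by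
  rw [qf_eq_sum, Fintype.sum_prod_type]
  congr 1
  refine Finset.sum_congr rfl fun j _ => Finset.sum_congr rfl fun k _ => ?_
  ring

/-- the entrywise Fejer mean of a matrix function. -/
noncomputable def fejerM (N : ℕ) (A : ℂ → Matrix κ κ ℂ) (ζ : ℂ) : Matrix κ κ ℂ :=
  Matrix.of fun i j => fejer N (fun ξ => A ξ i j) ζ

theorem s5n_qf_fejerM_le (N : ℕ) {A : ℂ → Matrix κ κ ℂ} (hA : ∀ i j, ContinuousOn (fun ζ => A ζ i j) uCirc)
    (v : κ → ℂ) {M : ℝ} (h : ∀ ζ ∈ uCirc, qf (A ζ) v ≤ M) : ∀ ζ ∈ uCirc, qf (fejerM N A ζ) v ≤ M := by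
  intro ζ hζ
  have := re_sum_fejer_le (J := κ × κ) N (f := fun p ξ => A ξ p.1 p.2) (fun p => hA p.1 p.2)
    (fun p => (starRingEnd ℂ) (v p.1) * v p.2) (C := M)
    (fun ξ hξ => by rw [← s5n_qf_eq_sum_prod]; exact h ξ hξ) ζ hζ
  rw [s5n_qf_eq_sum_prod]
  exact this

theorem s5n_le_qf_fejerM (N : ℕ) {A : ℂ → Matrix κ κ ℂ} (hA : ∀ i j, ContinuousOn (fun ζ => A ζ i j) uCirc)
    (v : κ → ℂ) {m : ℝ} (h : ∀ ζ ∈ uCirc, m ≤ qf (A ζ) v) : ∀ ζ ∈ uCirc, m ≤ qf (fejerM N A ζ) v := by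
  intro ζ hζ
  have := re_sum_fejer_le (J := κ × κ) N (f := fun p ξ => A ξ p.1 p.2) (fun p => hA p.1 p.2)
    (fun p => -((starRingEnd ℂ) (v p.1) * v p.2)) (C := -m)
    (fun ξ hξ => by
      have h1 := h ξ hξ
      rw [s5n_qf_eq_sum_prod] at h1
      simp only [neg_mul, Finset.sum_neg_distrib, Complex.neg_re]
      linarith) ζ hζ
  rw [s5n_qf_eq_sum_prod]
  simp only [neg_mul, Finset.sum_neg_distrib, Complex.neg_re] at this
  have e : ∀ p : κ × κ, fejerM N A ζ p.1 p.2 = fejer N (fun ξ => A ξ p.1 p.2) ζ := fun p => rfl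
  simp only [e]
  linarith

theorem s5n_fejerM_isHermitian (N : ℕ) {A : ℂ → Matrix κ κ ℂ} (hA : ∀ ξ, (A ξ).IsHermitian) {ζ : ℂ}
    (hζ : ζ ∈ uCirc) : (fejerM N A ζ).IsHermitian := by
  ext i j
  show star (fejer N (fun ξ => A ξ j i) ζ) = fejer N (fun ξ => A ξ i j) ζ
  have h1 := fejer_conj N (fun ξ => A ξ j i) hζ
  have h2 : (fun ξ => (starRingEnd ℂ) (A ξ j i)) = fun ξ => A ξ i j := by
    funext ξ
    exact (hA ξ).apply i j
  rw [h2] at h1
  rw [h1]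
  rfl

/-- **the positive boundary form** (abstract form of `exists_posForm`). -/
theorem s5n_exists_posForm {T : ℂ → Matrix κ κ ℂ} {C : ℝ} (hT : ∀ i j, CircLip fun ζ => T ζ i j)
    (hH : ∀ ζ ∈ uCirc, (T ζ).IsHermitian) (hC : ∀ ζ ∈ uCirc, frobSq (T ζ) ≤ C) {δ : ℝ}
    (hδ : 0 < δ) :
    ∃ (N : ℕ) (L : ℂ → Matrix κ κ ℂ), (∀ i j, IsTrigPoly N fun ζ => L ζ i j) ∧
      SpecBd L δ (Real.sqrt C + 2 * δ) ∧
      (∀ ζ ∈ uCirc, ∀ v : κ → ℂ, qf (T ζ) v + δ * ∑ i, ‖v i‖ ^ 2 ≤ qf (L ζ) v) ∧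
      cA (fun ζ => Real.sqrt (frobSq (L ζ - T ζ))) ≤
        cA (fun ζ => Real.sqrt (frobSq (negPartM (T ζ)))) + 2 * δ * Fintype.card κ ∧
      DsqM L ≤ DsqM T := by
  set n : ℝ := (Fintype.card κ : ℝ) with hn
  have hn0 : 0 ≤ n := Nat.cast_nonneg _
  set c : ℝ := 3 / 2 * δ with hc
  have hc0 : 0 ≤ c := by positivity
  set A : ℂ → Matrix κ κ ℂ := fun ζ => posPartM (T ζ) + ((c : ℝ) : ℂ) • (1 : Matrix κ κ ℂ) with hA
  obtain ⟨hPlip, hPD⟩ := s5n_clip (R := fun ζ => posPartM (T ζ)) hT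
    (fun ζ hζ ξ hξ => frobSq_posPartM_sub_le (hH ζ hζ) (hH ξ hξ))
  obtain ⟨hNlip, -⟩ := s5n_clip (R := fun ζ => negPartM (T ζ)) hT
    (fun ζ hζ ξ hξ => frobSq_negPartM_sub_le (hH ζ hζ) (hH ξ hξ))
  have hAlip : ∀ i j, CircLip fun ζ => A ζ i j := fun i j =>
    (hPlip i j).add (circLip_const ((((c : ℝ) : ℂ) • (1 : Matrix κ κ ℂ)) i j))
  have hAc : ∀ i j, ContinuousOn (fun ζ => A ζ i j) uCirc := fun i j => (hAlip i j).continuousOn
  have hc1 : (((c : ℝ) : ℂ) • (1 : Matrix κ κ ℂ)).IsHermitian :=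
    isHermitian_smul_real c Matrix.isHermitian_one
  have hAH : ∀ ξ, (A ξ).IsHermitian := fun ξ => (posPartM_posSemidef (T ξ)).1.add hc1
  have hqA : ∀ ζ v, qf (A ζ) v = qf (posPartM (T ζ)) v + c * ∑ i, ‖v i‖ ^ 2 := by
    intro ζ v
    rw [hA]
    simp only [qf_add, qf_smul, qf_one]
  set δ' : ℝ := δ / (2 * (n + 1)) with hδ'
  have hδ'0 : 0 < δ' := by positivity
  have hnδ1 : n * δ' ≤ δ / 2 := by
    rw [hδ', mul_div_assoc', div_le_div_iff₀ (by positivity) (by norm_num)]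
    nlinarith
  have hnδ2 : n * δ' ≤ n * (δ / 2) := by
    refine mul_le_mul_of_nonneg_left ?_ hn0
    rw [hδ', div_le_div_iff₀ (by positivity) (by norm_num)]
    nlinarith
  have hev : ∀ᶠ N : ℕ in atTop, ∀ i j, ∀ ζ ∈ uCirc,
      ‖fejer N (fun ξ => A ξ i j) ζ - A ζ i j‖ ≤ δ' :=
    eventually_all.2 fun i => eventually_all.2 fun j => tendsto_fejer (hAc i j) hδ'0
  obtain ⟨N, hN⟩ := hev.exists
  have hs : ∀ v : κ → ℂ, 0 ≤ ∑ i, ‖v i‖ ^ 2 := fun v => Finset.sum_nonneg fun _ _ => sq_nonneg _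
  have hE : ∀ ζ ∈ uCirc, Real.sqrt (frobSq (fejerM N A ζ - A ζ)) ≤ n * δ' := fun ζ hζ =>
    s5n_sqrt_frobSq_le_of_entries hδ'0.le fun i j => hN i j ζ hζ
  have hLt : ∀ i j, IsTrigPoly N fun ζ => fejerM N A ζ i j := fun i j =>
    isTrigPoly_fejer N fun ξ => A ξ i j
  have hLlip : ∀ i j, CircLip fun ζ => fejerM N A ζ i j := fun i j => (hLt i j).circSm.circLip
  refine ⟨N, fejerM N A, hLt, ⟨fun ζ hζ => s5n_fejerM_isHermitian N hAH hζ, ?_, ?_⟩, ?_, ?_, ?_⟩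
  · -- lower bound
    intro ζ hζ v
    refine s5n_le_qf_fejerM N hAc v (fun ξ _ => ?_) ζ hζ
    rw [hqA]
    have h1 := qf_nonneg (posPartM_posSemidef (T ξ)) v
    have h2 : δ * ∑ i, ‖v i‖ ^ 2 ≤ c * ∑ i, ‖v i‖ ^ 2 :=
      mul_le_mul_of_nonneg_right (by rw [hc]; linarith) (hs v)
    linarith
  · -- upper bound
    intro ζ hζ v
    refine s5n_qf_fejerM_le N hAc v (fun ξ hξ => ?_) ζ hζ
    rw [hqA]
    have h1 : qf (posPartM (T ξ)) v ≤ Real.sqrt C * ∑ i, ‖v i‖ ^ 2 := by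
      have h2 := (le_abs_self _).trans (s5n_abs_qf_le (posPartM (T ξ)) v)
      have h3 : Real.sqrt (frobSq (posPartM (T ξ))) ≤ Real.sqrt C :=
        Real.sqrt_le_sqrt ((frobSq_posPartM_le (hH ξ hξ)).trans (hC ξ hξ))
      exact h2.trans (mul_le_mul_of_nonneg_right h3 (hs v))
    have h4 : c * ∑ i, ‖v i‖ ^ 2 ≤ 2 * δ * ∑ i, ‖v i‖ ^ 2 :=
      mul_le_mul_of_nonneg_right (by rw [hc]; linarith) (hs v)
    rw [add_mul]
    linarith
  · -- `L ≥ T + δ`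
    intro ζ hζ v
    have h1 : qf (fejerM N A ζ) v = qf (A ζ) v + qf (fejerM N A ζ - A ζ) v := by
      rw [qf_sub]
      ring
    have h2 := (neg_abs_le _).trans' (neg_le_neg (s5n_abs_qf_le (fejerM N A ζ - A ζ) v))
    have h3 : Real.sqrt (frobSq (fejerM N A ζ - A ζ)) * ∑ i, ‖v i‖ ^ 2 ≤
        δ / 2 * ∑ i, ‖v i‖ ^ 2 :=
      mul_le_mul_of_nonneg_right ((hE ζ hζ).trans hnδ1) (hs v)
    have h4 := qf_mono (le_posPartM (hH ζ hζ)) v
    rw [h1, hqA, hc]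
    nlinarith
  · -- the mean distance
    have cL : Continuous (B14.bd (fejerM N A)) := s5n_cont_mat hLlip
    have cT : Continuous (B14.bd T) := s5n_cont_mat hT
    have cN : Continuous (B14.bd fun ζ => negPartM (T ζ)) := s5n_cont_mat hNlip
    have c1 : Continuous (B14.bd fun ζ => Real.sqrt (frobSq (fejerM N A ζ - T ζ))) :=
      Real.continuous_sqrt.comp (s5n_cont_frobSq (cL.sub cT))
    have c2 : Continuous (B14.bd fun ζ => Real.sqrt (frobSq (negPartM (T ζ)))) :=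
      Real.continuous_sqrt.comp (s5n_cont_frobSq cN)
    have hpt : ∀ θ, B14.bd (fun ζ => Real.sqrt (frobSq (fejerM N A ζ - T ζ))) θ ≤
        B14.bd (fun ζ => Real.sqrt (frobSq (negPartM (T ζ)))) θ + 2 * δ * n := by
      intro θ
      have hθ := circleMap_mem_uCirc θ
      simp only [B14.bd]
      set ζ := circleMap 0 1 θ
      have e1 : fejerM N A ζ - T ζ =
          (fejerM N A ζ - A ζ) + (negPartM (T ζ) + ((c : ℝ) : ℂ) • (1 : Matrix κ κ ℂ)) := by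
        have h5 := posPartM_sub_negPartM (hH ζ hθ)
        have h6 : A ζ = posPartM (T ζ) + ((c : ℝ) : ℂ) • (1 : Matrix κ κ ℂ) := rfl
        rw [h6]
        conv_lhs => rw [← h5]
        abel
      rw [e1]
      have t1 := B14.sqrt_frobSq_add_le (fejerM N A ζ - A ζ)
        (negPartM (T ζ) + ((c : ℝ) : ℂ) • (1 : Matrix κ κ ℂ))
      have t2 := B14.sqrt_frobSq_add_le (negPartM (T ζ)) (((c : ℝ) : ℂ) • (1 : Matrix κ κ ℂ))
      have t3 := s5n_sqrt_frobSq_smul_one_le (κ := κ) hc0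
      have t4 := (hE ζ hθ).trans hnδ2
      rw [← hn] at t3
      rw [hc] at t3
      nlinarith
    have c3 : Continuous fun θ =>
        B14.bd (fun ζ => Real.sqrt (frobSq (negPartM (T ζ)))) θ + 2 * δ * n :=
      c2.add continuous_const
    have h7 := B14.pavg_mono c1 c3 hpt
    rw [B14.pavg_add c2 continuous_const, B14.pavg_const] at h7
    exact h7
  · -- the seminorm
    refine le_trans ?_ hPD
    unfold DsqM
    refine Finset.sum_le_sum fun i _ => Finset.sum_le_sum fun j _ => ?_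
    have h8 : Dsq (fun ζ => fejerM N A ζ i j) ≤ Dsq fun ζ => A ζ i j :=
      Dsq_fejer_le N (hAlip i j)
    refine h8.trans (le_of_eq ?_)
    exact Dsq_add_const (fun ζ => posPartM (T ζ) i j) _ (hPlip i j)

end EndPos

end Claimed.Agent.R316
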