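import Claimed.Agent.R316.CW.MatAlg

/-!
# Row 316, Section 5, package `S5-A`: the symplectic Hessian polynomial `p(W, J)` (eq. 4.1, 4.2),
Lemma 5.3 (symplectic cost and the Schur complement), the final compactness step of Prop. 5.1

Pure matrix algebra (uses `CW/MatAlg.lean`).  For an antisymmetric component matrix `J` of the
bivector, formula (4.1) is `p(W, J) = ½ tr (Jᴴ W J Wᵀ)`; we take this as the definition.

Leaves: `S5-A1` (everything up to `abs_sympP_sub_le`), `S5-A2` (`symplectic_schur`),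
`S5-A3` (`schur_limit`).
-/

set_option autoImplicit false
open scoped ComplexOrder Matrix

namespace Claimed.Agent.R316

variable {κ ι : Type} [Fintype κ] [DecidableEq κ] [Fintype ι] [DecidableEq ι]

/-- the symplectic Hessian polynomial `p(W, J) = ½ Re tr (Jᴴ W J Wᵀ)`. -/
noncomputable def sympP (W J : Matrix κ κ ℂ) : ℝ := (1 / 2 : ℝ) * (Jᴴ * W * J * Wᵀ).trace.re

/-- component matrix of the canonical bivector `∑ ∂_{x_i} ∧ ∂_{ξ_i}` in cotangent coordinates. -/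
def Jstd (ι : Type) [DecidableEq ι] : Matrix (ι ⊕ ι) (ι ⊕ ι) ℂ := Matrix.fromBlocks 0 1 (-1) 0

theorem symp_Jstd_sq : Jstd ι * Jstd ι = -1 := by
  rw [Jstd, Matrix.fromBlocks_multiply, ← Matrix.fromBlocks_one, Matrix.fromBlocks_neg]
  simp

theorem Jstd_det_ne_zero : (Jstd ι).det ≠ 0 := by
  intro h
  have h1 := congrArg Matrix.det (symp_Jstd_sq (ι := ι))
  rw [Matrix.det_mul, h, zero_mul, Matrix.det_neg, Matrix.det_one, mul_one] at h1
  exact pow_ne_zero _ (neg_ne_zero.2 one_ne_zero) h1.symm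

theorem Jstd_mul_self : Jstd ι * Jstd ι = -1 := symp_Jstd_sq

theorem Jstd_transpose : (Jstd ι)ᵀ = - Jstd ι := by
  rw [Jstd, Matrix.fromBlocks_transpose, Matrix.fromBlocks_neg]
  simp

theorem symp_sum_lt [LinearOrder κ] (f : κ → κ → ℂ) :
    ∑ A, ∑ B, f A B = (∑ A, ∑ B, if A < B then f A B + f B A else 0) + ∑ A, f A A := by
  have h1 : ∀ A B : κ, f A B = (if A < B then f A B else 0) + (if B < A then f A B else 0)
      + (if A = B then f A B else 0) := by
    intro A B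
    rcases lt_trichotomy A B with h | h | h
    · simp [h, h.not_gt, h.ne]
    · subst h
      simp
    · simp [h, h.not_gt, h.ne']
  have h2 : ∑ A, ∑ B, (if B < A then f A B else 0) = ∑ A, ∑ B, (if A < B then f B A else 0) :=
    Finset.sum_comm
  have h3 : ∑ A, ∑ B, (if A = B then f A B else 0) = ∑ A, f A A := by
    refine Finset.sum_congr rfl fun A _ => ?_
    simp
  calc ∑ A, ∑ B, f A B
      = ∑ A, ∑ B, ((if A < B then f A B else 0) + (if B < A then f A B else 0)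
          + (if A = B then f A B else 0)) :=
        Finset.sum_congr rfl fun A _ => Finset.sum_congr rfl fun B _ => h1 A B
    _ = ∑ A, ∑ B, (if A < B then f A B else 0) + ∑ A, ∑ B, (if B < A then f A B else 0)
          + ∑ A, ∑ B, (if A = B then f A B else 0) := by
        simp only [Finset.sum_add_distrib]
    _ = _ := by
        rw [h2, h3, ← Finset.sum_add_distrib]
        congr 1
        refine Finset.sum_congr rfl fun A _ => ?_
        rw [← Finset.sum_add_distrib]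
        refine Finset.sum_congr rfl fun B _ => ?_
        split_ifs <;> simp

theorem symp_sum4 (t : κ → κ → κ → κ → ℂ) :
    ∑ B, ∑ D, ∑ C, ∑ A, t A B C D = ∑ A, ∑ B, ∑ C, ∑ D, t A B C D := by
  calc ∑ B, ∑ D, ∑ C, ∑ A, t A B C D = ∑ B, ∑ D, ∑ A, ∑ C, t A B C D :=
        Finset.sum_congr rfl fun B _ => Finset.sum_congr rfl fun D _ => Finset.sum_comm
    _ = ∑ B, ∑ A, ∑ D, ∑ C, t A B C D := Finset.sum_congr rfl fun B _ => Finset.sum_comm
    _ = ∑ A, ∑ B, ∑ D, ∑ C, t A B C D := Finset.sum_comm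
    _ = _ := Finset.sum_congr rfl fun A _ => Finset.sum_congr rfl fun B _ => Finset.sum_comm

theorem symp_trace_eq_sum (X Y J : Matrix κ κ ℂ) :
    (Jᴴ * X * J * Yᵀ).trace = ∑ A, ∑ B, ∑ C, ∑ D, star (J A B) * J C D * (X A C * Y B D) := by
  simp only [Matrix.trace, Matrix.diag_apply, Matrix.mul_apply, Matrix.conjTranspose_apply,
    Matrix.transpose_apply, Finset.sum_mul]
  rw [symp_sum4]
  refine Finset.sum_congr rfl fun A _ => Finset.sum_congr rfl fun B _ =>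
    Finset.sum_congr rfl fun C _ => Finset.sum_congr rfl fun D _ => ?_
  ring

/-- (4.1) for antisymmetric `J` (for the record; `κ` linearly ordered). -/
theorem sympP_eq_sum [LinearOrder κ] (W J : Matrix κ κ ℂ) (hJ : Jᵀ = -J) :
    sympP W J = (∑ A, ∑ B, ∑ C, ∑ D, if A < B ∧ C < D then
      star (J A B) * J C D * (W A C * W B D - W A D * W B C) else 0).re := by
  have hJ' : ∀ a b, J b a = - J a b := fun a b => by
    have := congrFun (congrFun hJ a) b
    simpa using this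
  have hJd : ∀ a, J a a = 0 := fun a => self_eq_neg.1 (hJ' a a)
  have key : (Jᴴ * W * J * Wᵀ).trace = 2 * ∑ A, ∑ B, ∑ C, ∑ D, if A < B ∧ C < D then
      star (J A B) * J C D * (W A C * W B D - W A D * W B C) else 0 := by
    rw [symp_trace_eq_sum, symp_sum_lt]
    have h0 : ∑ A, ∑ C, ∑ D, star (J A A) * J C D * (W A C * W A D) = 0 := by simp [hJd]
    rw [h0, add_zero, Finset.mul_sum]
    refine Finset.sum_congr rfl fun A _ => ?_
    rw [Finset.mul_sum]
    refine Finset.sum_congr rfl fun B _ => ?_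
    by_cases hAB : A < B
    · simp only [hAB, if_true, true_and]
      have h1 : (∑ C, ∑ D, star (J A B) * J C D * (W A C * W B D))
          + ∑ C, ∑ D, star (J B A) * J C D * (W B C * W A D)
          = ∑ C, ∑ D, star (J A B) * J C D * (W A C * W B D - W B C * W A D) := by
        rw [← Finset.sum_add_distrib]
        refine Finset.sum_congr rfl fun C _ => ?_
        rw [← Finset.sum_add_distrib]
        refine Finset.sum_congr rfl fun D _ => ?_
        rw [hJ' A B, star_neg]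
        ring
      rw [h1, symp_sum_lt]
      have h2 : ∑ C, star (J A B) * J C C * (W A C * W B C - W B C * W A C) = 0 := by simp [hJd]
      rw [h2, add_zero, Finset.mul_sum]
      refine Finset.sum_congr rfl fun C _ => ?_
      rw [Finset.mul_sum]
      refine Finset.sum_congr rfl fun D _ => ?_
      by_cases hCD : C < D
      · simp only [hCD, if_true]
        rw [hJ' C D]
        ring
      · simp [hCD]
    · simp [hAB]
  rw [sympP, key]
  simp

theorem symp_trace_fromBlocks (A B C D : Matrix ι ι ℂ) :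
    (Matrix.fromBlocks A B C D).trace = A.trace + D.trace := by
  simp [Matrix.trace, Fintype.sum_sum_type]

/-- (4.2), the block formula. -/
theorem sympP_block (A B C : Matrix ι ι ℂ) :
    sympP (Matrix.fromBlocks A B Bᴴ C) (Jstd ι) =
      ((A * Cᵀ).trace - ∑ i, ∑ j, B i j * star (B j i)).re := by
  have e1 : (C * Aᵀ).trace = (A * Cᵀ).trace := by
    rw [← Matrix.trace_transpose, Matrix.transpose_mul, Matrix.transpose_transpose]
  have e2 : (Bᴴ * Bᵀ).trace = ∑ i, ∑ j, B i j * star (B j i) := by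
    simp only [Matrix.trace, Matrix.diag_apply, Matrix.mul_apply, Matrix.conjTranspose_apply,
      Matrix.transpose_apply]
    refine Finset.sum_congr rfl fun i _ => Finset.sum_congr rfl fun j _ => ?_
    ring
  have e3 : (B * Bᴴᵀ).trace = ∑ i, ∑ j, B i j * star (B j i) := by
    simp only [Matrix.trace, Matrix.diag_apply, Matrix.mul_apply, Matrix.conjTranspose_apply,
      Matrix.transpose_apply]
  unfold sympP Jstd
  rw [Matrix.fromBlocks_conjTranspose, Matrix.fromBlocks_transpose, Matrix.fromBlocks_multiply,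
    Matrix.fromBlocks_multiply, Matrix.fromBlocks_multiply, symp_trace_fromBlocks]
  simp only [Matrix.conjTranspose_zero, Matrix.conjTranspose_one, Matrix.conjTranspose_neg,
    Matrix.zero_mul, Matrix.mul_zero, Matrix.one_mul, Matrix.mul_one, Matrix.neg_mul,
    Matrix.mul_neg, zero_add, add_zero, neg_neg, Matrix.trace_add, Matrix.trace_neg, e1, e2, e3]
  simp only [Complex.add_re, Complex.neg_re, Complex.sub_re]
  ring

/-- frame invariance. -/
theorem sympP_conj (W J S : Matrix κ κ ℂ) : sympP (Sᴴ * W * S) J = sympP W (S * J * Sᵀ) := by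
  unfold sympP
  congr 2
  have e : Sᴴᵀ = Sᵀᴴ := by
    ext i j
    simp
  rw [Matrix.transpose_mul, Matrix.transpose_mul, Matrix.conjTranspose_mul,
    Matrix.conjTranspose_mul, e]
  have h1 : Jᴴ * (Sᴴ * W * S) * J * (Sᵀ * (Wᵀ * Sᵀᴴ))
      = (Jᴴ * Sᴴ * W * (S * J * Sᵀ) * Wᵀ) * Sᵀᴴ := by simp only [Matrix.mul_assoc]
  have h2 : Sᵀᴴ * (Jᴴ * Sᴴ) * W * (S * J * Sᵀ) * Wᵀ
      = Sᵀᴴ * (Jᴴ * Sᴴ * W * (S * J * Sᵀ) * Wᵀ) := by simp only [Matrix.mul_assoc]
  rw [h1, h2, Matrix.trace_mul_comm]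

/-- `p(HᴴH, J) = ½ |H J Hᵀ|²_F`: this is `|Λ²H · J|²`. -/
theorem sympP_gram (H J : Matrix κ κ ℂ) : sympP (Hᴴ * H) J = (1 / 2 : ℝ) * frobSq (H * J * Hᵀ) := by
  have h := sympP_conj 1 J H
  rw [Matrix.mul_one] at h
  rw [h, frobSq_eq_trace]
  simp [sympP]

theorem sympP_smul (c : ℝ) (W J : Matrix κ κ ℂ) :
    sympP (((c : ℝ) : ℂ) • W) J = c ^ 2 * sympP W J := by
  unfold sympP
  simp only [Matrix.transpose_smul, Matrix.mul_smul, Matrix.smul_mul, Matrix.trace_smul,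
    smul_eq_mul, Complex.re_ofReal_mul]
  ring

theorem sympP_nonneg {W : Matrix κ κ ℂ} (hW : W.PosSemidef) (J : Matrix κ κ ℂ) : 0 ≤ sympP W J := by
  obtain ⟨R, hR, hRR⟩ := exists_sqrt_posSemidef hW
  have h := sympP_gram R J
  rw [hR.isHermitian.eq, hRR] at h
  rw [h]
  have := frobSq_nonneg (R * J * Rᵀ)
  positivity

/-- adding a horizontal block: `p` is affine in `A`. -/
theorem sympP_add_horizontal (A A' B C : Matrix ι ι ℂ) :
    sympP (Matrix.fromBlocks (A + A') B Bᴴ C) (Jstd ι) =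
      sympP (Matrix.fromBlocks A B Bᴴ C) (Jstd ι) + (A' * Cᵀ).trace.re := by
  rw [sympP_block, sympP_block, Matrix.add_mul, Matrix.trace_add]
  simp only [Complex.add_re, Complex.sub_re]
  ring

theorem symp_frobSq_mul_le (M N : Matrix κ κ ℂ) : frobSq (M * N) ≤ frobSq M * frobSq N := by
  unfold frobSq
  have h1 : ∀ i j, ‖(M * N) i j‖ ^ 2 ≤ (∑ k, ‖M i k‖ ^ 2) * ∑ k, ‖N k j‖ ^ 2 := by
    intro i j
    rw [Matrix.mul_apply]
    have h2 : ‖∑ k, M i k * N k j‖ ≤ ∑ k, ‖M i k‖ * ‖N k j‖ :=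
      (norm_sum_le _ _).trans (le_of_eq (Finset.sum_congr rfl fun k _ => norm_mul _ _))
    calc ‖∑ k, M i k * N k j‖ ^ 2 ≤ (∑ k, ‖M i k‖ * ‖N k j‖) ^ 2 := by
          gcongr
      _ ≤ _ := Finset.sum_mul_sq_le_sq_mul_sq _ _ _
  calc ∑ i, ∑ j, ‖(M * N) i j‖ ^ 2 ≤ ∑ i, ∑ j, (∑ k, ‖M i k‖ ^ 2) * ∑ k, ‖N k j‖ ^ 2 :=
        Finset.sum_le_sum fun i _ => Finset.sum_le_sum fun j _ => h1 i j
    _ = (∑ i, ∑ k, ‖M i k‖ ^ 2) * ∑ j, ∑ k, ‖N k j‖ ^ 2 := by
        rw [Finset.sum_mul_sum]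
    _ = _ := by
        congr 1
        exact Finset.sum_comm

theorem symp_frobSq_transpose (M : Matrix κ κ ℂ) : frobSq Mᵀ = frobSq M := by
  unfold frobSq
  simp only [Matrix.transpose_apply]
  exact Finset.sum_comm

theorem symp_frobSq_conjTranspose (M : Matrix κ κ ℂ) : frobSq Mᴴ = frobSq M := by
  unfold frobSq
  simp only [Matrix.conjTranspose_apply, norm_star]
  exact Finset.sum_comm

theorem symp_norm_trace_mul_le (M N : Matrix κ κ ℂ) :
    ‖(M * N).trace‖ ≤ Real.sqrt (frobSq M) * Real.sqrt (frobSq N) := by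
  have h1 : ‖(M * N).trace‖ ≤ ∑ p : κ × κ, ‖M p.1 p.2‖ * ‖N p.2 p.1‖ := by
    simp only [Matrix.trace, Matrix.diag_apply, Matrix.mul_apply]
    rw [← Finset.univ_product_univ, Finset.sum_product]
    refine (norm_sum_le _ _).trans (Finset.sum_le_sum fun i _ => ?_)
    exact (norm_sum_le _ _).trans (le_of_eq (Finset.sum_congr rfl fun k _ => norm_mul _ _))
  refine h1.trans ((Real.sum_mul_le_sqrt_mul_sqrt _ _ _).trans (le_of_eq ?_))
  congr 2
  · rw [← Finset.univ_product_univ, Finset.sum_product]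
    rfl
  · rw [← Finset.univ_product_univ, Finset.sum_product, Finset.sum_comm]
    rfl

theorem symp_norm_trace_le (X Y J : Matrix κ κ ℂ) :
    ‖(Jᴴ * X * J * Yᵀ).trace‖ ≤ frobSq J * Real.sqrt (frobSq X) * Real.sqrt (frobSq Y) := by
  have h1 : Jᴴ * X * J * Yᵀ = (Jᴴ * X) * (J * Yᵀ) := by simp only [Matrix.mul_assoc]
  rw [h1]
  refine (symp_norm_trace_mul_le _ _).trans ?_
  have h2 : Real.sqrt (frobSq (Jᴴ * X)) ≤ Real.sqrt (frobSq J) * Real.sqrt (frobSq X) := by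
    rw [← Real.sqrt_mul (frobSq_nonneg J)]
    refine Real.sqrt_le_sqrt ?_
    have := symp_frobSq_mul_le Jᴴ X
    rwa [symp_frobSq_conjTranspose] at this
  have h3 : Real.sqrt (frobSq (J * Yᵀ)) ≤ Real.sqrt (frobSq J) * Real.sqrt (frobSq Y) := by
    rw [← Real.sqrt_mul (frobSq_nonneg J)]
    refine Real.sqrt_le_sqrt ?_
    have := symp_frobSq_mul_le J Yᵀ
    rwa [symp_frobSq_transpose] at this
  calc Real.sqrt (frobSq (Jᴴ * X)) * Real.sqrt (frobSq (J * Yᵀ))
      ≤ (Real.sqrt (frobSq J) * Real.sqrt (frobSq X)) * (Real.sqrt (frobSq J) * Real.sqrt (frobSq Y)) :=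
        mul_le_mul h2 h3 (Real.sqrt_nonneg _) (by positivity)
    _ = (Real.sqrt (frobSq J) * Real.sqrt (frobSq J)) * Real.sqrt (frobSq X) * Real.sqrt (frobSq Y) := by
        ring
    _ = _ := by rw [Real.mul_self_sqrt (frobSq_nonneg J)]

/-- local Lipschitz bound. -/
theorem abs_sympP_sub_le (W W' J : Matrix κ κ ℂ) :
    |sympP W J - sympP W' J| ≤
      (1 / 2 : ℝ) * frobSq J * (Real.sqrt (frobSq W) + Real.sqrt (frobSq W')) *
        Real.sqrt (frobSq (W - W')) := by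
  have h1 : Jᴴ * W * J * Wᵀ - Jᴴ * W' * J * W'ᵀ
      = Jᴴ * (W - W') * J * Wᵀ + Jᴴ * W' * J * (W - W')ᵀ := by
    rw [Matrix.transpose_sub]
    noncomm_ring
  have h2 : sympP W J - sympP W' J
      = (1 / 2 : ℝ) * ((Jᴴ * (W - W') * J * Wᵀ).trace + (Jᴴ * W' * J * (W - W')ᵀ).trace).re := by
    rw [← Matrix.trace_add, ← h1, Matrix.trace_sub, Complex.sub_re]
    unfold sympP
    ring
  rw [h2, abs_mul, abs_of_nonneg (by norm_num : (0 : ℝ) ≤ 1 / 2)]
  have h3 := symp_norm_trace_le (W - W') W J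
  have h4 := symp_norm_trace_le W' (W - W') J
  have h5 : |((Jᴴ * (W - W') * J * Wᵀ).trace + (Jᴴ * W' * J * (W - W')ᵀ).trace).re|
      ≤ ‖(Jᴴ * (W - W') * J * Wᵀ).trace‖ + ‖(Jᴴ * W' * J * (W - W')ᵀ).trace‖ :=
    (Complex.abs_re_le_norm _).trans (norm_add_le _ _)
  nlinarith

/-- transposition is an isometry of the form `tr (Xᴴ D Y Dᵀ)`. -/
theorem symp_form_transpose (D X Y : Matrix κ κ ℂ) :
    (Xᵀᴴ * D * Yᵀ * Dᵀ).trace = (Xᴴ * D * Y * Dᵀ).trace := by
  have e : Xᵀᴴᵀ = Xᴴ := by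
    ext i j
    simp
  rw [← Matrix.trace_transpose, Matrix.transpose_mul, Matrix.transpose_mul, Matrix.transpose_mul,
    Matrix.transpose_transpose, Matrix.transpose_transpose, e]
  have h1 : D * (Y * (Dᵀ * Xᴴ)) = (D * Y * Dᵀ) * Xᴴ := by simp only [Matrix.mul_assoc]
  have h2 : Xᴴ * D * Y * Dᵀ = Xᴴ * (D * Y * Dᵀ) := by simp only [Matrix.mul_assoc]
  rw [h1, h2, Matrix.trace_mul_comm]

theorem symp_antisym (D R : Matrix κ κ ℂ) :
    sympP D (R - Rᵀ) = ((Rᴴ * D * R * Dᵀ).trace - (Rᴴ * D * Rᵀ * Dᵀ).trace).re := by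
  have h1 := symp_form_transpose D R R
  have h2 := symp_form_transpose D R Rᵀ
  rw [Matrix.transpose_transpose] at h2
  have h3 : (R - Rᵀ)ᴴ * D * (R - Rᵀ) * Dᵀ = Rᴴ * D * R * Dᵀ - Rᴴ * D * Rᵀ * Dᵀ
      - Rᵀᴴ * D * R * Dᵀ + Rᵀᴴ * D * Rᵀ * Dᵀ := by
    rw [Matrix.conjTranspose_sub]
    noncomm_ring
  unfold sympP
  rw [h3, Matrix.trace_add, Matrix.trace_sub, Matrix.trace_sub, h1, h2]
  simp only [Complex.add_re, Complex.sub_re]
  ring

theorem symp_schur_key (A B : Matrix ι ι ℂ) {D : Matrix ι ι ℂ} (hD : D.PosDef) :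
    sympP (Matrix.fromBlocks A B Bᴴ D) (Jstd ι) =
      ((A - B * D⁻¹ * Bᴴ) * Dᵀ).trace.re + sympP D (D⁻¹ * Bᴴ - (D⁻¹ * Bᴴ)ᵀ) := by
  have hu : IsUnit D.det := isUnit_iff_ne_zero.2 hD.det_pos.ne'
  set R := D⁻¹ * Bᴴ with hR
  have e1 : Bᴴ = D * R := by
    rw [hR, ← Matrix.mul_assoc, Matrix.mul_nonsing_inv D hu, Matrix.one_mul]
  have e2 : B = Rᴴ * D := by
    have := congrArg Matrix.conjTranspose e1
    rwa [Matrix.conjTranspose_conjTranspose, Matrix.conjTranspose_mul, hD.isHermitian.eq] at this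
  have e3 : (B * Bᴴᵀ).trace = ∑ i, ∑ j, B i j * star (B j i) := by
    simp only [Matrix.trace, Matrix.diag_apply, Matrix.mul_apply, Matrix.conjTranspose_apply,
      Matrix.transpose_apply]
  have e4 : B * D⁻¹ * Bᴴ = Rᴴ * D * R := by
    rw [Matrix.mul_assoc, ← hR, ← e2]
  have e5 : B * Bᴴᵀ = Rᴴ * D * Rᵀ * Dᵀ := by
    rw [e1, Matrix.transpose_mul, ← e2, Matrix.mul_assoc]
  rw [sympP_block, symp_antisym, ← e3, e5, e4, Matrix.sub_mul, Matrix.trace_sub]
  simp only [Complex.sub_re]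
  ring

/-- **Lemma 5.3.**  `S = Schur(ℋ)`. -/
theorem symplectic_schur {Hc W : Matrix (ι ⊕ ι) (ι ⊕ ι) ℂ} (hH : Hc.PosDef) (hW : W.IsHermitian)
    (hle : (Hc - W).PosSemidef) (hC : W.toBlocks₂₂.PosDef) :
    (Hc.toBlocks₁₁ - Hc.toBlocks₁₂ * (Hc.toBlocks₂₂)⁻¹ * Hc.toBlocks₂₁).PosSemidef ∧
    ((Hc.toBlocks₁₁ - Hc.toBlocks₁₂ * (Hc.toBlocks₂₂)⁻¹ * Hc.toBlocks₂₁) -
      (W.toBlocks₁₁ - W.toBlocks₁₂ * (W.toBlocks₂₂)⁻¹ * W.toBlocks₂₁)).PosSemidef ∧
    ((W.toBlocks₂₂)ᵀ *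
      (Hc.toBlocks₁₁ - Hc.toBlocks₁₂ * (Hc.toBlocks₂₂)⁻¹ * Hc.toBlocks₂₁)).trace.re ≤
        sympP Hc (Jstd ι) := by
  have hD : Hc.toBlocks₂₂.PosDef := posDef_toBlocks₂₂ hH
  have eH : Matrix.fromBlocks Hc.toBlocks₁₁ Hc.toBlocks₁₂ Hc.toBlocks₁₂ᴴ Hc.toBlocks₂₂ = Hc := by
    rw [← toBlocks₂₁_eq_conjTranspose hH.isHermitian, Matrix.fromBlocks_toBlocks]
  have eW : Matrix.fromBlocks W.toBlocks₁₁ W.toBlocks₁₂ W.toBlocks₁₂ᴴ W.toBlocks₂₂ = W := by
    rw [← toBlocks₂₁_eq_conjTranspose hW, Matrix.fromBlocks_toBlocks]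
  rw [toBlocks₂₁_eq_conjTranspose hH.isHermitian, toBlocks₂₁_eq_conjTranspose hW]
  have hS : (Hc.toBlocks₁₁ - Hc.toBlocks₁₂ * (Hc.toBlocks₂₂)⁻¹ * Hc.toBlocks₁₂ᴴ).PosSemidef :=
    ((schur_posDef_iff hD _ _).1 (eH.symm ▸ hH)).posSemidef
  refine ⟨hS, schur_mono hC hD (by rw [eH, eW]; exact hle), ?_⟩
  have hk := symp_schur_key Hc.toBlocks₁₁ Hc.toBlocks₁₂ hD
  rw [eH] at hk
  rw [hk, Matrix.trace_mul_comm]
  have hDC : (Hc.toBlocks₂₂ - W.toBlocks₂₂).PosSemidef := posSemidef_toBlocks₂₂ hle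
  have h1 := trace_mul_mono_right hS (loewner_transpose hDC)
  have h2 := sympP_nonneg hD.posSemidef
    ((Hc.toBlocks₂₂)⁻¹ * Hc.toBlocks₁₂ᴴ - ((Hc.toBlocks₂₂)⁻¹ * Hc.toBlocks₁₂ᴴ)ᵀ)
  linarith

/-- a Hermitian matrix with small entries is small in the Loewner order. -/
theorem symp_small_loewner {E : Matrix ι ι ℂ} (hE : E.IsHermitian) {τ : ℝ} (hτ0 : 0 ≤ τ)
    (hτ : ∀ i j, ‖E i j‖ ≤ τ) :
    (E + ((τ * (Fintype.card ι : ℝ) : ℝ) : ℂ) • (1 : Matrix ι ι ℂ)).PosSemidef := by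
  have hH : (E + ((τ * (Fintype.card ι : ℝ) : ℝ) : ℂ) • (1 : Matrix ι ι ℂ)).IsHermitian :=
    hE.add (isHermitian_smul_real _ Matrix.isHermitian_one)
  rw [posSemidef_iff_qf hH]
  intro v
  rw [qf_add, qf_smul, qf_one]
  have h1 : |qf E v| ≤ τ * (∑ j, ‖v j‖) ^ 2 := by
    rw [qf_eq_sum]
    calc |(∑ j, ∑ k, (starRingEnd ℂ) (v j) * E j k * v k).re|
        ≤ ‖∑ j, ∑ k, (starRingEnd ℂ) (v j) * E j k * v k‖ := Complex.abs_re_le_norm _
      _ ≤ ∑ j, ∑ k, ‖v j‖ * τ * ‖v k‖ := by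
          refine (norm_sum_le _ _).trans (Finset.sum_le_sum fun j _ =>
            (norm_sum_le _ _).trans (Finset.sum_le_sum fun k _ => ?_))
          rw [norm_mul, norm_mul, RCLike.norm_conj]
          gcongr
          exact hτ j k
      _ = τ * (∑ j, ‖v j‖) ^ 2 := by
          rw [sq, Finset.sum_mul_sum, Finset.mul_sum]
          refine Finset.sum_congr rfl fun j _ => ?_
          rw [Finset.mul_sum]
          exact Finset.sum_congr rfl fun k _ => by ring
  have h2 : (∑ j, ‖v j‖) ^ 2 ≤ (Fintype.card ι : ℝ) * ∑ j, ‖v j‖ ^ 2 := by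
    have := sq_sum_le_card_mul_sum_sq (s := Finset.univ) (f := fun j => ‖v j‖)
    simpa using this
  have h3 := mul_le_mul_of_nonneg_left h2 hτ0
  have h4 := (abs_le.1 h1).1
  nlinarith

/-- Completion of the proof of Prop. 5.1: from positive majorants with asymptotically optimal cost
to the form `K` (bounded Schur forms, Bolzano-Weierstrass, continuity of the Schur complement). -/
theorem schur_limit {W : Matrix (ι ⊕ ι) (ι ⊕ ι) ℂ} {σ : ℝ} (hW : W.IsHermitian)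
    (hC : W.toBlocks₂₂.PosDef)
    (h : ∀ τ : ℝ, 0 < τ → ∃ Hc Wc : Matrix (ι ⊕ ι) (ι ⊕ ι) ℂ, Hc.PosDef ∧ Wc.IsHermitian ∧
      (Hc - Wc).PosSemidef ∧ (∀ i j, ‖Wc i j - W i j‖ ≤ τ) ∧ sympP Hc (Jstd ι) ≤ σ + τ) :
    ∃ K : Matrix ι ι ℂ, K.PosSemidef ∧
      (K - (W.toBlocks₁₁ - W.toBlocks₁₂ * (W.toBlocks₂₂)⁻¹ * W.toBlocks₂₁)).PosSemidef ∧
      ((W.toBlocks₂₂)ᵀ * K).trace.re ≤ σ := by
  obtain ⟨c, hc, hcC⟩ := exists_pos_smul_one_le hC
  set N : ℝ := (Fintype.card ι : ℝ) with hN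
  have hN0 : 0 ≤ N := Nat.cast_nonneg _
  set τ₀ : ℝ := c / (2 * (N + 1)) with hτ₀
  have hτ₀pos : 0 < τ₀ := by positivity
  have hτ₀N : τ₀ * N ≤ c / 2 := by
    rw [hτ₀, div_mul_eq_mul_div, div_le_div_iff₀ (by positivity) (by norm_num)]
    nlinarith
  set τ : ℕ → ℝ := fun n => τ₀ * (1 / ((n : ℝ) + 1)) with hτdef
  have hτpos : ∀ n, 0 < τ n := fun n => by positivity
  have hτle : ∀ n, τ n ≤ τ₀ := fun n => by
    have h1 : 1 / ((n : ℝ) + 1) ≤ 1 := by
      rw [div_le_one (by positivity)]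
      linarith [(Nat.cast_nonneg n : (0 : ℝ) ≤ n)]
    calc τ n ≤ τ₀ * 1 := by
          simp only [hτdef]
          gcongr
      _ = τ₀ := mul_one _
  have hτlim : Filter.Tendsto τ Filter.atTop (nhds 0) := by
    have := (tendsto_one_div_add_atTop_nhds_zero_nat (𝕜 := ℝ)).const_mul τ₀
    rwa [mul_zero] at this
  choose Hc Wc hHc hWc hle hclose hcost using fun n => h (τ n) (hτpos n)
  have hlow : ∀ n, ((Wc n).toBlocks₂₂ - ((c / 2 : ℝ) : ℂ) • (1 : Matrix ι ι ℂ)).PosSemidef := by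
    intro n
    have hE : ((Wc n).toBlocks₂₂ - W.toBlocks₂₂).IsHermitian :=
      Matrix.IsHermitian.sub ((hWc n).submatrix Sum.inr) hC.isHermitian
    have h1 := symp_small_loewner hE (hτpos n).le
      (fun i j => hclose n (Sum.inr i) (Sum.inr j))
    have h2 : (((c / 2 - τ n * N : ℝ) : ℂ) • (1 : Matrix ι ι ℂ)).PosSemidef := by
      refine posSemidef_smul_real ?_ Matrix.PosSemidef.one
      have := mul_le_mul_of_nonneg_right (hτle n) hN0
      linarith
    have h3 := (h1.add hcC).add h2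
    convert h3 using 1
    push_cast
    module
  have hpd : ∀ n, (Wc n).toBlocks₂₂.PosDef := fun n =>
    posDef_of_loewner (posDef_smul_real (by positivity) Matrix.PosDef.one) (hlow n)
  set S : Matrix (ι ⊕ ι) (ι ⊕ ι) ℂ → Matrix ι ι ℂ := fun X =>
    X.toBlocks₁₁ - X.toBlocks₁₂ * (X.toBlocks₂₂)⁻¹ * X.toBlocks₂₁ with hS
  have hK : ∀ n, (S (Hc n)).PosSemidef ∧ (S (Hc n) - S (Wc n)).PosSemidef ∧
      (((Wc n).toBlocks₂₂)ᵀ * S (Hc n)).trace.re ≤ sympP (Hc n) (Jstd ι) := fun n =>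
    symplectic_schur (hHc n) (hWc n) (hle n) (hpd n)
  have htr : ∀ n, c / 2 * (S (Hc n)).trace.re ≤ σ + τ₀ := by
    intro n
    have h1 := trace_mul_mono_left (hK n).1 (loewner_transpose (hlow n))
    rw [Matrix.transpose_smul, Matrix.transpose_one, Matrix.smul_mul, Matrix.one_mul,
      Matrix.trace_smul, smul_eq_mul, Complex.re_ofReal_mul] at h1
    linarith [(hK n).2.2, hcost n, hτle n]
  have hbd : ∀ n i j, ‖S (Hc n) i j‖ ≤ 2 * (σ + τ₀) / c := by
    intro n i j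
    refine (norm_entry_le_trace (hK n).1 i j).trans ?_
    rw [le_div_iff₀ hc]
    linarith [htr n]
  have : FirstCountableTopology (Matrix ι ι ℂ) :=
    inferInstanceAs (FirstCountableTopology (ι → ι → ℂ))
  have hcomp : IsCompact (Set.matrix (Metric.closedBall (0 : ℂ) (2 * (σ + τ₀) / c)) :
      Set (Matrix ι ι ℂ)) := (isCompact_closedBall 0 _).matrix
  obtain ⟨K, -, φ, hφ, hlim⟩ := hcomp.tendsto_subseq (x := fun n => S (Hc n))
    (fun n i j => by simpa using hbd n i j)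
  have hWlim : Filter.Tendsto Wc Filter.atTop (nhds W) := by
    refine tendsto_pi_nhds.2 fun i => tendsto_pi_nhds.2 fun j => ?_
    exact tendsto_iff_norm_sub_tendsto_zero.2
      (squeeze_zero (fun n => norm_nonneg _) (fun n => hclose n i j) hτlim)
  have c11 : Continuous fun X : Matrix (ι ⊕ ι) (ι ⊕ ι) ℂ => X.toBlocks₁₁ :=
    continuous_id.matrix_submatrix Sum.inl Sum.inl
  have c12 : Continuous fun X : Matrix (ι ⊕ ι) (ι ⊕ ι) ℂ => X.toBlocks₁₂ :=
    continuous_id.matrix_submatrix Sum.inl Sum.inr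
  have c21 : Continuous fun X : Matrix (ι ⊕ ι) (ι ⊕ ι) ℂ => X.toBlocks₂₁ :=
    continuous_id.matrix_submatrix Sum.inr Sum.inl
  have c22 : Continuous fun X : Matrix (ι ⊕ ι) (ι ⊕ ι) ℂ => X.toBlocks₂₂ :=
    continuous_id.matrix_submatrix Sum.inr Sum.inr
  have t22 := (c22.tendsto W).comp hWlim
  have hinv : ContinuousAt Inv.inv W.toBlocks₂₂ := by
    refine continuousAt_matrix_inv _ ?_
    rw [Ring.inverse_eq_inv']
    exact continuousAt_inv₀ hC.det_pos.ne'
  have hSlim : Filter.Tendsto (fun n => S (Wc n)) Filter.atTop (nhds (S W)) :=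
    ((c11.tendsto W).comp hWlim).sub
      ((((c12.tendsto W).comp hWlim).mul (hinv.tendsto.comp t22)).mul ((c21.tendsto W).comp hWlim))
  have helem : ∀ {F : ℕ → Matrix ι ι ℂ} {A : Matrix ι ι ℂ},
      Filter.Tendsto F Filter.atTop (nhds A) →
      ∀ j k, Filter.Tendsto (fun n => F n j k) Filter.atTop (nhds (A j k)) := by
    intro F A hF j k
    exact ((continuous_id.matrix_elem j k).tendsto A).comp hF
  refine ⟨K, ?_, ?_, ?_⟩
  · exact posSemidef_of_tendsto (l := Filter.atTop) (F := fun n => S (Hc (φ n)))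
      (Filter.Eventually.of_forall fun n => (hK (φ n)).1) (helem hlim)
  · exact posSemidef_of_tendsto (l := Filter.atTop) (F := fun n => S (Hc (φ n)) - S (Wc (φ n)))
      (Filter.Eventually.of_forall fun n => (hK (φ n)).2.1)
      (helem (hlim.sub (hSlim.comp hφ.tendsto_atTop)))
  · have t1 : Filter.Tendsto (fun n => ((Wc (φ n)).toBlocks₂₂)ᵀ) Filter.atTop
        (nhds (W.toBlocks₂₂)ᵀ) :=
      ((continuous_id.matrix_transpose).tendsto _).comp (t22.comp hφ.tendsto_atTop)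
    have t2 := t1.mul hlim
    have t3 := (Complex.continuous_re.tendsto _).comp
      (((continuous_id.matrix_trace).tendsto _).comp t2)
    have t4 : Filter.Tendsto (fun n => σ + τ (φ n)) Filter.atTop (nhds (σ + 0)) :=
      tendsto_const_nhds.add (hτlim.comp hφ.tendsto_atTop)
    rw [add_zero] at t4
    exact le_of_tendsto_of_tendsto' t3 t4 fun n => ((hK (φ n)).2.2).trans (hcost (φ n))

end Claimed.Agent.R316
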