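import Claimed.Agent.R316.S5.Factor
import Claimed.Agent.R316.S5.SympAlg
import Claimed.Agent.R316.S5.EndPos
import Claimed.Agent.R316.S5.EndNeg

/-!
# Row 316, Section 5, package `S5-E`: the abstract endgame of Proposition 5.1
(`variation.tex`, subsections 5.3 "Removing the negative part", the end of 5.4 and 5.5)

NO GEOMETRY.  A `Packet` collects what remains of an almost minimising disc:

* `Tb`  the boundary symbol `T_b = m² E_f^* W_b E_f` (5.15), a Hermitian matrix function on the circle,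
* `JE`  the holomorphic component matrix of the canonical bivector in the frame `E_f`,
* `om`  the weight `(t/s) γ m⁻⁴` on the circle,
* `h0 = h(0) = exp ⟨log m⟩`, `lg = ⟨log γ⟩`,
* `S0`  the matrix of the frame at the centre, `Wc` the Levi matrix of the test function at the centre,
  `ds` its time derivative, `En` the energy `𝓔`.

Minimising sequences are replaced by the EXCESS `η`: `Adm ε η P` says that `P` comes from a disc whose
value of `𝓕_{j,ε}` is `≤ μ_{j,ε} + η`.  "`lim_{ε↓0} limsup_ν`" is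
`∀ᶠ ε in 𝓝[>] 0, ∀ᶠ η in 𝓝[>] 0, ∀ P, Adm ε η P → …`.

`FixedJ` is the list of facts at a fixed `j`: uniform bounds (5.16), vanishing penalty (5.10), the
deformation estimate (Lemma 5.2, uniform in the column `l`), the clock inequality
((5.24) + (5.26) + `p(W_b) = m⁻⁴ p(T_b, J_E)`).

Simplifications with respect to the paper: matrix clipping `negPartM`/`posPartM` of `CW/MatAlg.lean`
(1-Lipschitz in Frobenius norm) + the comparison principle; the positive form `L` is a FEJER MEAN of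
`(T_b)_+ + (3/2)δ` of an order depending on the disc (so `L` is a trigonometric polynomial, uniformly
`δ/2`-close, `D(L) ≤ D(T_b)`); (5.28) is `exp_cA_log_mul_le`.

Leaves: `S5-E1` `negPart_small`, `S5-E2` `exists_posForm`, `S5-E3` `center_majorant`,
`S5-E4` `cost_le`, `S5-E5` `fixedJ_majorant` (assembly), `S5-E6` `endgame` (assembly with `schur_limit`).
-/

set_option autoImplicit false
open scoped ContDiff ComplexOrder Topology Matrix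
open MeasureTheory Filter

namespace Claimed.Agent.R316

variable {κ : Type} [Fintype κ] [DecidableEq κ]

/-- what the endgame remembers of an almost minimising disc. -/
structure Packet (κ : Type) where
  Tb : ℂ → Matrix κ κ ℂ
  JE : ℂ → Matrix κ κ ℂ
  om : ℂ → ℝ
  h0 : ℝ
  lg : ℝ
  S0 : Matrix κ κ ℂ
  Wc : Matrix κ κ ℂ
  ds : ℝ
  En : ℝ

/-- the uniform bounds at fixed `j` (constant `C = C_j`). -/
structure Packet.Ok (P : Packet κ) (J0 : Matrix κ κ ℂ) (C : ℝ) : Prop where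
  En_nonneg : 0 ≤ P.En
  Tb_lip : ∀ i j, CircLip fun ζ => P.Tb ζ i j
  Tb_herm : ∀ ζ ∈ uCirc, (P.Tb ζ).IsHermitian
  Tb_le : ∀ ζ ∈ uCirc, frobSq (P.Tb ζ) ≤ C
  Tb_D : DsqM P.Tb ≤ C * (1 + P.En)
  JE_hol : ∀ i j, HolSm fun ζ => P.JE ζ i j
  JE_le : ∀ ζ ∈ uCirc, frobSq (P.JE ζ) ≤ C
  S0_unit : IsUnit P.S0.det
  JE_zero : P.S0 * P.JE 0 * (P.S0)ᵀ = J0
  om_sm : CircSm fun ζ => (P.om ζ : ℂ)
  om_pos : ∀ ζ ∈ uCirc, 0 < P.om ζ
  om_le : ∀ ζ ∈ uCirc, P.om ζ ≤ C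
  h0_pos : 0 < P.h0
  om_log : cA (fun ζ => Real.log (P.om ζ)) = P.lg - 4 * Real.log P.h0
  Wc_herm : P.Wc.IsHermitian
  ds_le : P.ds ≤ C
  lg_ge : -C ≤ P.lg
  lg_le : P.lg ≤ 0

/-- the facts at a fixed `j`. -/
structure FixedJ (J0 : Matrix κ κ ℂ) (Adm : ℝ → ℝ → Packet κ → Prop) (C err : ℝ) : Prop where
  err_le : err ≤ C
  ok : ∀ᶠ ε in 𝓝[>] (0 : ℝ), ∀ᶠ η in 𝓝[>] (0 : ℝ), ∀ P, Adm ε η P → P.Ok J0 C
  /-- (5.10) -/
  pen : ∀ τ : ℝ, 0 < τ → ∀ᶠ ε in 𝓝[>] (0 : ℝ), ∀ᶠ η in 𝓝[>] (0 : ℝ), ∀ P, Adm ε η P →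
    ε * (1 + P.En) ≤ τ
  /-- Lemma 5.2 -/
  defo : ∀ L : ℝ, ∃ CL : ℝ, ∀ᶠ ε in 𝓝[>] (0 : ℝ), ∀ D₀ τ : ℝ, 0 < τ →
    ∀ᶠ η in 𝓝[>] (0 : ℝ), ∀ P, Adm ε η P → ∀ l : ℂ → κ → ℂ, (∀ i, HolSm fun ζ => l ζ i) →
      (∀ ζ ∈ uCirc, ∑ i, ‖l ζ i‖ ^ 2 ≤ L) → DsqV l ≤ D₀ →
      P.h0 ^ 2 * qf ((P.S0)ᴴ * P.Wc * P.S0) (l 0) - cA (fun ζ => qf (P.Tb ζ) (l ζ))
        - CL * ε * (1 + P.En + DsqV l) ≤ τ
  /-- (5.24) + (5.26) -/
  clock : ∀ τ : ℝ, 0 < τ → ∀ᶠ ε in 𝓝[>] (0 : ℝ), ∀ᶠ η in 𝓝[>] (0 : ℝ), ∀ P, Adm ε η P →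
    cA (fun ζ => P.om ζ * sympP (P.Tb ζ) (P.JE ζ)) ≤ P.ds + err + τ

variable {J0 : Matrix κ κ ℂ} {Adm : ℝ → ℝ → Packet κ → Prop} {C err : ℝ}

theorem s5e_cont_lip {a : ℂ → ℂ} (ha : CircLip a) : Continuous (B14.bd a) :=
  (circLip_iff.1 ha).continuous

theorem s5e_cont_mat {A : ℂ → Matrix κ κ ℂ} (hA : ∀ i j, CircLip fun ζ => A ζ i j) :
    Continuous (B14.bd A) :=
  continuous_matrix fun i j => s5e_cont_lip (hA i j)

theorem s5e_cont_real {u : ℂ → ℝ} (hu : CircSm fun ζ => (u ζ : ℂ)) : Continuous (B14.bd u) := by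
  have h := Complex.continuous_re.comp (circSm_iff.1 hu).continuous
  exact h

theorem s5e_cont_sympP {W J : ℝ → Matrix κ κ ℂ} (hW : Continuous W) (hJ : Continuous J) :
    Continuous fun θ => sympP (W θ) (J θ) := by
  unfold sympP
  exact continuous_const.mul (Complex.continuous_re.comp
    (((hJ.matrix_conjTranspose.matrix_mul hW).matrix_mul hJ).matrix_mul
      hW.matrix_transpose).matrix_trace)

theorem s5e_cont_frobSq {W : ℝ → Matrix κ κ ℂ} (hW : Continuous W) :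
    Continuous fun θ => frobSq (W θ) := by
  unfold frobSq
  exact continuous_finsetSum _ fun i _ => continuous_finsetSum _ fun j _ =>
    ((hW.matrix_elem i j).norm).pow 2

/-- (5.19): the negative part of the boundary symbol disappears.  Fejer test: `S = negPartM T_b`,
`l_i = ζ^{P+1} σ_P(S) e_i` (`exists_holSm_shift_fejer`), `B = τ'/ε` bounds `1 + En` by `pen`,
`P = ⌈√(B/ε)⌉`, `D₀ = N (2P+1) C`; `tr(T S²) = - tr S³` (`trace_mul_negPartM_sq`),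
`|tr T(S_P² - S²)| ≤ C' |S_P - S|_F`, `cA_normSq_fejer_sub_le`, `D(S) ≤ D(T_b)`
(`frobSq_negPartM_sub_le` + `Dsq_sum_le_of_diff`); then `x² ≤ τ² + x³/τ` on eigenvalues gives `⟨|S|²_F⟩` small;
finally `⟨|S|_F⟩ ≤ ⟨|S|²_F⟩^{1/2}` (Cauchy-Schwarz, `B14.norm_pavg_mul_le`). -/
theorem negPart_small (h : FixedJ J0 Adm C err) (τ : ℝ) (hτ : 0 < τ) :
    ∀ᶠ ε in 𝓝[>] (0 : ℝ), ∀ᶠ η in 𝓝[>] (0 : ℝ), ∀ P, Adm ε η P →
      cA (fun ζ => Real.sqrt (frobSq (negPartM (P.Tb ζ)))) ≤ τ := by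
  set n : ℝ := (Fintype.card κ : ℝ) with hn
  have hn0 : 0 ≤ n := Nat.cast_nonneg _
  set t : ℝ := τ / (2 * (n + 1)) with ht
  have ht0 : 0 < t := by positivity
  set σ₀ : ℝ := t * τ ^ 2 / 2 with hσ₀
  have hσ0 : 0 < σ₀ := by positivity
  obtain ⟨CL, hCL⟩ := h.defo (n * C)
  obtain ⟨s, hs0, hs⟩ := s5n_exists_small n |CL| C (half_pos hσ0)
  set τ₁ : ℝ := σ₀ / (2 * (n + 1)) with hτ₁
  have hτ₁0 : 0 < τ₁ := by positivity
  have hεs : ∀ᶠ ε in 𝓝[>] (0 : ℝ), ε ≤ s := by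
    filter_upwards [Ioc_mem_nhdsGT hs0] with ε hε using hε.2
  filter_upwards [h.ok, h.pen (s ^ 2) (by positivity), hCL, hεs, self_mem_nhdsWithin]
    with ε a1 a2 a3 a4 a5
  have hε : 0 < ε := a5
  filter_upwards [a1, a2, a3 (n * ((2 * (⌈s / ε⌉₊ : ℕ) + 1) * C)) τ₁ hτ₁0] with η b1 b2 b3 P hP
  have hOk := b1 P hP
  have hcomb := s5n_neg_combine (CL := CL) (τ₁ := τ₁) hOk.Tb_lip hOk.Tb_herm hOk.Tb_le
    hOk.En_nonneg hOk.Tb_D hε a4 (b2 P hP)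
    (fun l l1 l2 l3 l4 => by
      have := b3 P hP l l1 l2 l3
      rw [l4, qf_zero_vec, mul_zero, zero_sub] at this
      exact this)
  refine (s5n_neg_final hOk.Tb_lip hOk.Tb_herm ht0).trans ?_
  rw [Real.sqrt_le_iff]
  refine ⟨hτ.le, ?_⟩
  set X : ℝ := cA (fun ζ => (negPartM (P.Tb ζ) * negPartM (P.Tb ζ) * negPartM (P.Tb ζ)).trace.re)
    with hX
  have h1 : n * τ₁ ≤ σ₀ / 2 := by
    rw [hτ₁, mul_div_assoc', div_le_div_iff₀ (by positivity) (by norm_num)]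
    nlinarith
  have h2 : X ≤ σ₀ := by
    rw [← hn] at hcomb
    linarith
  have h3 : X / t ≤ τ ^ 2 / 2 := by
    rw [div_le_iff₀ ht0]
    refine h2.trans (le_of_eq ?_)
    rw [hσ₀]
    ring
  have h4 : n * t ^ 2 ≤ τ ^ 2 / 4 := by
    rw [ht, div_pow, mul_div_assoc', div_le_div_iff₀ (by positivity) (by norm_num)]
    have q1 : 0 ≤ τ ^ 2 := by positivity
    have q2 : n ≤ (n + 1) ^ 2 := by nlinarith
    have q3 := mul_le_mul_of_nonneg_left q2 q1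
    nlinarith
  have h5 : 0 ≤ τ ^ 2 := by positivity
  linarith

/-- the positive boundary form: a trigonometric polynomial `L` with `L ≥ T_b + δ`, `δ ≤ L ≤ C'`,
`⟨|L - T_b|_F⟩ ≤ ⟨|(T_b)_-|_F⟩ + C'' δ` (pointwise inequality + monotonicity of the average of continuous functions), `D(L) ≤ D(T_b)`.  (Fejer mean of `posPartM T_b + (3/2) δ` of high
order: `tendsto_fejer`, `Dsq_fejer_le`, `fejer_conj`, `frobSq_posPartM_sub_le`.) -/
theorem exists_posForm {P : Packet κ} (hP : P.Ok J0 C) {δ : ℝ} (hδ : 0 < δ) :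
    ∃ (N : ℕ) (L : ℂ → Matrix κ κ ℂ), (∀ i j, IsTrigPoly N fun ζ => L ζ i j) ∧
      SpecBd L δ (Real.sqrt C + 2 * δ) ∧
      (∀ ζ ∈ uCirc, ∀ v : κ → ℂ, qf (P.Tb ζ) v + δ * ∑ i, ‖v i‖ ^ 2 ≤ qf (L ζ) v) ∧
      cA (fun ζ => Real.sqrt (frobSq (L ζ - P.Tb ζ))) ≤
        cA (fun ζ => Real.sqrt (frobSq (negPartM (P.Tb ζ)))) + 2 * δ * Fintype.card κ ∧
      DsqM L ≤ DsqM P.Tb :=
  s5n_exists_posForm hP.Tb_lip hP.Tb_herm hP.Tb_le hδ

theorem s5e_cont_qf {A : ℝ → Matrix κ κ ℂ} {v : ℝ → κ → ℂ} (hA : Continuous A)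
    (hv : ∀ i, Continuous fun θ => v θ i) : Continuous fun θ => qf (A θ) (v θ) := by
  simp only [qf_eq_sum]
  refine Complex.continuous_re.comp (continuous_finsetSum _ fun j _ =>
    continuous_finsetSum _ fun k _ => ?_)
  exact ((Complex.continuous_conj.comp (hv j)).mul (hA.matrix_elem j k)).mul (hv k)

/-- the test column `Hi e`. -/
theorem s5e_test_column {L H Hi : ℂ → Matrix κ κ ℂ} {δ M : ℝ} (hδ : 0 < δ) (hS : SpecBd L δ M)
    (hF : IsFactor L H Hi) (e : κ → ℂ) (he : ∑ i, ‖e i‖ ^ 2 = 1) :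
    (∀ i, HolSm fun ζ => (Hi ζ *ᵥ e) i) ∧
    (∀ ζ ∈ uCirc, ∑ i, ‖(Hi ζ *ᵥ e) i‖ ^ 2 ≤ 1 / δ) ∧
    (∀ ζ ∈ uCirc, qf (L ζ) (Hi ζ *ᵥ e) = 1) ∧
    DsqV (fun ζ => Hi ζ *ᵥ e) ≤ Fintype.card κ * (1 / (2 * δ ^ 3) * DsqM L) := by
  have hhol : ∀ i j, HolSm fun ζ => Hi ζ i j * e j := fun i j =>
    (hF.Hi_hol i j).mul (holSm_const (e j))
  have hej : ∀ j, ‖e j‖ ^ 2 ≤ 1 := fun j => by
    rw [← he]
    exact Finset.single_le_sum (f := fun i => ‖e i‖ ^ 2) (fun i _ => sq_nonneg _) (Finset.mem_univ j)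
  refine ⟨fun i => ?_, fun ζ hζ => ?_, fun ζ hζ => ?_, ?_⟩
  · simp only [Matrix.mulVec, dotProduct]
    exact HolSm.sum _ fun j _ => hhol i j
  · have h1 := (factor_sup_le hδ hS hF).2 ζ (Metric.sphere_subset_closedBall hζ) e
    rwa [he, mul_one, ← one_div] at h1
  · rw [hF.eq ζ hζ, B14.qf_conjTranspose_mul_self, Matrix.mulVec_mulVec,
      hF.inv ζ (Metric.sphere_subset_closedBall hζ), Matrix.one_mulVec]
    exact he
  · have h1 : ∀ i, Dsq (fun ζ => (Hi ζ *ᵥ e) i) ≤ Fintype.card κ * ∑ j, Dsq fun ζ => Hi ζ i j := by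
      intro i
      simp only [Matrix.mulVec, dotProduct]
      refine (Dsq_sum_le fun j => (hhol i j).circSm.circLip).trans ?_
      refine mul_le_mul_of_nonneg_left (Finset.sum_le_sum fun j _ => ?_) (Nat.cast_nonneg _)
      have h2 : (fun ζ => Hi ζ i j * e j) = fun ζ => e j * Hi ζ i j := by
        funext ζ
        ring
      rw [h2, Dsq_const_mul]
      have := Dsq_nonneg fun ζ => Hi ζ i j
      nlinarith [hej j]
    have h3 := (factor_Dsq_le hδ hS hF).2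
    calc DsqV (fun ζ => Hi ζ *ᵥ e) ≤ ∑ i, Fintype.card κ * ∑ j, Dsq fun ζ => Hi ζ i j :=
          Finset.sum_le_sum fun i _ => h1 i
      _ = Fintype.card κ * DsqM Hi := by
          rw [← Finset.mul_sum]
          rfl
      _ ≤ _ := mul_le_mul_of_nonneg_left h3 (Nat.cast_nonneg _)

/-- (5.19'): the centre majorant.  For every `δ` and `τ`, eventually: for EVERY factorisation
`L = HᴴH` of a form `L ≥ T_b + δ`, `δ ≤ L`, `D(L)² ≤ C (1 + En)`: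
`h(0)² S0ᴴ Wc S0 ≤ (1 + τ) H(0)ᴴ H(0)`.  (Test `defo` with `l = Hi e`, `|e| = 1`, `L = 1/δ`,
`D(l)² ≤ D(Hi)² ≤ C (1 + En)/(2 δ³)` by `factor_Dsq_le`, `B = τ'/ε`; uniformity in `e` is built
into `defo`.) -/
theorem center_majorant (h : FixedJ J0 Adm C err) {δ : ℝ} (hδ : 0 < δ) (M τ : ℝ) (hτ : 0 < τ) :
    ∀ᶠ ε in 𝓝[>] (0 : ℝ), ∀ᶠ η in 𝓝[>] (0 : ℝ), ∀ P, Adm ε η P →
      ∀ L H Hi : ℂ → Matrix κ κ ℂ, (∀ i j, CircLip fun ζ => L ζ i j) → SpecBd L δ M →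
        IsFactor L H Hi →
        (∀ ζ ∈ uCirc, ∀ v : κ → ℂ, qf (P.Tb ζ) v + δ * ∑ i, ‖v i‖ ^ 2 ≤ qf (L ζ) v) →
        DsqM L ≤ DsqM P.Tb →
        ((((1 + τ : ℝ) : ℂ) • ((H 0)ᴴ * H 0)) -
          ((P.h0 ^ 2 : ℝ) : ℂ) • ((P.S0)ᴴ * P.Wc * P.S0)).PosSemidef := by
  obtain ⟨CL, hCL⟩ := h.defo (1 / δ)
  set N : ℝ := (Fintype.card κ : ℝ) with hN
  have hN0 : 0 ≤ N := Nat.cast_nonneg _
  set a : ℝ := N * (1 / (2 * δ ^ 3) * |C|) with ha
  have ha0 : 0 ≤ a := by positivity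
  set τ₂ : ℝ := τ / (2 * (|CL| + 1) * (1 + a)) with hτ₂
  have hτ₂0 : 0 < τ₂ := by positivity
  filter_upwards [h.ok, h.pen τ₂ hτ₂0, hCL, self_mem_nhdsWithin] with ε h1 h2 h3 hε
  have hε0 : 0 < ε := hε
  filter_upwards [h1, h2, h3 (a * (τ₂ / ε)) (τ / 2) (by positivity)] with η k1 k2 k3 P hP L H Hi
    hLlip hS hF hge hD
  have hOk := k1 P hP
  have hpen := k2 P hP
  have hC0 : 0 ≤ C := (frobSq_nonneg _).trans (hOk.Tb_le 1 (by simp))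
  have hEn : 0 ≤ 1 + P.En := by linarith [hOk.En_nonneg]
  set B : Matrix κ κ ℂ := (P.S0)ᴴ * P.Wc * P.S0 with hB
  have hBh : B.IsHermitian := isHermitian_conj hOk.Wc_herm P.S0
  -- the estimate for unit vectors
  have hunit : ∀ e : κ → ℂ, ∑ i, ‖e i‖ ^ 2 = 1 → P.h0 ^ 2 * qf B (Hi 0 *ᵥ e) ≤ 1 + τ := by
    intro e he
    obtain ⟨l1, l2, l3, l4⟩ := s5e_test_column hδ hS hF e he
    have hDl : DsqV (fun ζ => Hi ζ *ᵥ e) ≤ a * (1 + P.En) := by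
      refine l4.trans ?_
      have b1 : DsqM L ≤ |C| * (1 + P.En) := by
        rw [abs_of_nonneg hC0]
        exact hD.trans hOk.Tb_D
      have b2 : (1 / (2 * δ ^ 3) * DsqM L) ≤ 1 / (2 * δ ^ 3) * (|C| * (1 + P.En)) := by
        gcongr
      calc N * (1 / (2 * δ ^ 3) * DsqM L) ≤ N * (1 / (2 * δ ^ 3) * (|C| * (1 + P.En))) := by
            gcongr
        _ = a * (1 + P.En) := by
            rw [ha]
            ring
    have hEn2 : 1 + P.En ≤ τ₂ / ε := by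
      rw [le_div_iff₀ hε0]
      linarith
    have hDl2 : DsqV (fun ζ => Hi ζ *ᵥ e) ≤ a * (τ₂ / ε) :=
      hDl.trans (mul_le_mul_of_nonneg_left hEn2 ha0)
    have hdef := k3 P hP (fun ζ => Hi ζ *ᵥ e) l1 l2 hDl2
    have hcA : cA (fun ζ => qf (P.Tb ζ) (Hi ζ *ᵥ e)) ≤ 1 := by
      refine B14.pavg_le_of_le (s5e_cont_qf (s5e_cont_mat hOk.Tb_lip)
        fun i => s5e_cont_lip (l1 i).circSm.circLip) fun θ => ?_
      have hθ := circleMap_mem_uCirc θ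
      have c1 := hge _ hθ (Hi (circleMap 0 1 θ) *ᵥ e)
      rw [l3 _ hθ] at c1
      have c2 : 0 ≤ δ * ∑ i, ‖(Hi (circleMap 0 1 θ) *ᵥ e) i‖ ^ 2 := by positivity
      show qf (P.Tb (circleMap 0 1 θ)) (Hi (circleMap 0 1 θ) *ᵥ e) ≤ 1
      linarith
    have herr : CL * ε * (1 + P.En + DsqV fun ζ => Hi ζ *ᵥ e) ≤ τ / 2 := by
      have d0 : 0 ≤ DsqV fun ζ => Hi ζ *ᵥ e := DsqV_nonneg _
      have d1 : ε * (1 + P.En + DsqV fun ζ => Hi ζ *ᵥ e) ≤ τ₂ * (1 + a) := by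
        calc ε * (1 + P.En + DsqV fun ζ => Hi ζ *ᵥ e) ≤ ε * ((1 + P.En) + a * (1 + P.En)) := by
              gcongr
          _ = (ε * (1 + P.En)) * (1 + a) := by ring
          _ ≤ τ₂ * (1 + a) := by gcongr
      have d2 : 0 ≤ ε * (1 + P.En + DsqV fun ζ => Hi ζ *ᵥ e) := by positivity
      calc CL * ε * (1 + P.En + DsqV fun ζ => Hi ζ *ᵥ e)
          = CL * (ε * (1 + P.En + DsqV fun ζ => Hi ζ *ᵥ e)) := by ring
        _ ≤ (|CL| + 1) * (ε * (1 + P.En + DsqV fun ζ => Hi ζ *ᵥ e)) := by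
            have := le_abs_self CL
            gcongr
            linarith
        _ ≤ (|CL| + 1) * (τ₂ * (1 + a)) := by gcongr
        _ = τ / 2 := by
            rw [hτ₂]
            field_simp
    linarith
  have hherm : ((((1 + τ : ℝ) : ℂ) • ((H 0)ᴴ * H 0)) - ((P.h0 ^ 2 : ℝ) : ℂ) • B).IsHermitian :=
    (isHermitian_smul_real _ (Matrix.isHermitian_conjTranspose_mul_self (H 0))).sub
      (isHermitian_smul_real _ hBh)
  rw [posSemidef_iff_qf hherm]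
  intro v
  rw [qf_sub, qf_smul, qf_smul, B14.qf_conjTranspose_mul_self]
  have h0mem : (0 : ℂ) ∈ uDiscC := by simp
  set e := H 0 *ᵥ v with he
  have hv : Hi 0 *ᵥ e = v := by
    rw [he, Matrix.mulVec_mulVec, hF.inv' 0 h0mem, Matrix.one_mulVec]
  set s : ℝ := ∑ i, ‖e i‖ ^ 2 with hs
  have hs0 : 0 ≤ s := Finset.sum_nonneg fun i _ => sq_nonneg _
  show 0 ≤ (1 + τ) * s - P.h0 ^ 2 * qf B v
  rcases hs0.eq_or_lt with h0 | hpos
  · have he0 : e = 0 := by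
      funext i
      have := (Finset.sum_eq_zero_iff_of_nonneg fun i _ => sq_nonneg ‖e i‖).1 h0.symm i
        (Finset.mem_univ i)
      simpa using this
    rw [← hv, he0, Matrix.mulVec_zero, qf_zero_vec, ← h0]
    simp
  · set c : ℂ := (((Real.sqrt s)⁻¹ : ℝ) : ℂ) with hc
    have hsq : 0 < Real.sqrt s := Real.sqrt_pos.2 hpos
    have hcn : ‖c‖ ^ 2 = s⁻¹ := by
      rw [hc, Complex.norm_real, Real.norm_eq_abs, sq_abs, inv_pow, Real.sq_sqrt hs0]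
    have h5 := hunit (c • e) (by
      simp only [Pi.smul_apply, smul_eq_mul, norm_mul, mul_pow]
      rw [← Finset.mul_sum, hcn, ← hs, inv_mul_cancel₀ hpos.ne'])
    rw [Matrix.mulVec_smul, hv, qf_smul_vec, hcn] at h5
    have h6 : P.h0 ^ 2 * (s⁻¹ * qf B v) = (P.h0 ^ 2 * qf B v) / s := by
      field_simp
    rw [h6, div_le_iff₀ hpos] at h5
    linarith

/-- (5.27) + (5.28): the symplectic cost of the factor at the centre.  No limits: a statement about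
one packet. -/
theorem cost_le {P : Packet κ} (hP : P.Ok J0 C) {L H Hi : ℂ → Matrix κ κ ℂ}
    (hL : ∀ i j, CircLip fun ζ => L ζ i j) (hF : IsFactor L H Hi) {M : ℝ}
    (hM : ∀ ζ ∈ uCirc, frobSq (L ζ) ≤ M) :
    Real.exp P.lg * (P.h0 ^ 4)⁻¹ * sympP ((H 0)ᴴ * H 0) (P.JE 0) ≤
      cA (fun ζ => P.om ζ * sympP (P.Tb ζ) (P.JE ζ)) +
        (1 / 2 : ℝ) * C ^ 2 * (Real.sqrt M + Real.sqrt C) *
          cA (fun ζ => Real.sqrt (frobSq (L ζ - P.Tb ζ))) := by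
  have hC0 : 0 ≤ C := (frobSq_nonneg _).trans (hP.Tb_le 1 (by simp))
  have cL : Continuous (B14.bd L) := s5e_cont_mat hL
  have cT : Continuous (B14.bd P.Tb) := s5e_cont_mat hP.Tb_lip
  have cJ : Continuous (B14.bd P.JE) := s5e_cont_mat fun i j => (hP.JE_hol i j).circSm.circLip
  have com : Continuous (B14.bd P.om) := s5e_cont_real hP.om_sm
  have hZ : ∀ p : κ × κ, HolSm fun ζ => (H ζ * P.JE ζ * (H ζ)ᵀ) p.1 p.2 := by
    intro p
    simp only [Matrix.mul_apply, Matrix.transpose_apply]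
    exact HolSm.sum _ fun b _ => (HolSm.sum _ fun a _ =>
      (hF.H_hol p.1 a).mul (hP.JE_hol a b)).mul (hF.H_hol p.2 b)
  have h1 := exp_cA_log_mul_le hP.om_sm hP.om_pos hZ
  have e1 : ∀ ζ, ∑ p : κ × κ, ‖(H ζ * P.JE ζ * (H ζ)ᵀ) p.1 p.2‖ ^ 2
      = 2 * sympP ((H ζ)ᴴ * H ζ) (P.JE ζ) := by
    intro ζ
    rw [sympP_gram, Fintype.sum_prod_type]
    unfold frobSq
    ring
  simp only [e1] at h1
  have e2 : Real.exp (cA fun ζ => Real.log (P.om ζ)) = Real.exp P.lg * (P.h0 ^ 4)⁻¹ := by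
    have h4 : Real.exp (4 * Real.log P.h0) = P.h0 ^ 4 := by
      have h5 : (4 : ℝ) * Real.log P.h0 = Real.log (P.h0 ^ 4) := by
        rw [Real.log_pow]
        norm_num
      rw [h5, Real.exp_log (pow_pos hP.h0_pos 4)]
    rw [hP.om_log, Real.exp_sub, h4, div_eq_mul_inv]
  rw [e2] at h1
  have e3 : cA (fun ζ => P.om ζ * (2 * sympP ((H ζ)ᴴ * H ζ) (P.JE ζ)))
      = 2 * cA (fun ζ => P.om ζ * sympP (L ζ) (P.JE ζ)) := by
    have h6 : cA (fun ζ => P.om ζ * (2 * sympP ((H ζ)ᴴ * H ζ) (P.JE ζ)))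
        = cA (fun ζ => 2 * (P.om ζ * sympP (L ζ) (P.JE ζ))) :=
      cA_congr fun ζ hζ => by
        show P.om ζ * (2 * sympP ((H ζ)ᴴ * H ζ) (P.JE ζ)) = 2 * (P.om ζ * sympP (L ζ) (P.JE ζ))
        rw [hF.eq ζ hζ]
        ring
    rw [h6]
    exact B14.pavg_const_mul_real 2 _
  rw [e3] at h1
  set K₀ : ℝ := (1 / 2 : ℝ) * C ^ 2 * (Real.sqrt M + Real.sqrt C) with hK₀
  have hpt : ∀ θ, B14.bd (fun ζ => P.om ζ * sympP (L ζ) (P.JE ζ)) θ ≤
      B14.bd (fun ζ => P.om ζ * sympP (P.Tb ζ) (P.JE ζ)) θ +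
        K₀ * B14.bd (fun ζ => Real.sqrt (frobSq (L ζ - P.Tb ζ))) θ := by
    intro θ
    have hθ := circleMap_mem_uCirc θ
    simp only [B14.bd]
    set ζ := circleMap 0 1 θ
    have a1 := (abs_le.1 (abs_sympP_sub_le (L ζ) (P.Tb ζ) (P.JE ζ))).2
    have a2 : (1 / 2 : ℝ) * frobSq (P.JE ζ) * (Real.sqrt (frobSq (L ζ)) + Real.sqrt (frobSq (P.Tb ζ))) *
        Real.sqrt (frobSq (L ζ - P.Tb ζ)) ≤
        (1 / 2 : ℝ) * C * (Real.sqrt M + Real.sqrt C) * Real.sqrt (frobSq (L ζ - P.Tb ζ)) := by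
      have b1 := hP.JE_le ζ hθ
      have b2 := Real.sqrt_le_sqrt (hM ζ hθ)
      have b3 := Real.sqrt_le_sqrt (hP.Tb_le ζ hθ)
      have b4 := frobSq_nonneg (P.JE ζ)
      gcongr
    have a3 : sympP (L ζ) (P.JE ζ) ≤ sympP (P.Tb ζ) (P.JE ζ) +
        (1 / 2 : ℝ) * C * (Real.sqrt M + Real.sqrt C) * Real.sqrt (frobSq (L ζ - P.Tb ζ)) := by
      linarith
    have a4 := mul_le_mul_of_nonneg_left a3 (hP.om_pos ζ hθ).le
    have a5 : P.om ζ * ((1 / 2 : ℝ) * C * (Real.sqrt M + Real.sqrt C) *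
        Real.sqrt (frobSq (L ζ - P.Tb ζ))) ≤ C * ((1 / 2 : ℝ) * C * (Real.sqrt M + Real.sqrt C) *
        Real.sqrt (frobSq (L ζ - P.Tb ζ))) := by
      have := hP.om_le ζ hθ
      gcongr
    rw [hK₀]
    nlinarith
  have c1 : Continuous (B14.bd fun ζ => P.om ζ * sympP (L ζ) (P.JE ζ)) :=
    com.mul (s5e_cont_sympP cL cJ)
  have c2 : Continuous (B14.bd fun ζ => P.om ζ * sympP (P.Tb ζ) (P.JE ζ)) :=
    com.mul (s5e_cont_sympP cT cJ)
  have c3 : Continuous (B14.bd fun ζ => Real.sqrt (frobSq (L ζ - P.Tb ζ))) :=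
    Real.continuous_sqrt.comp (s5e_cont_frobSq (cL.sub cT))
  have h2 : cA (fun ζ => P.om ζ * sympP (L ζ) (P.JE ζ)) ≤
      cA (fun ζ => P.om ζ * sympP (P.Tb ζ) (P.JE ζ)) +
        K₀ * cA (fun ζ => Real.sqrt (frobSq (L ζ - P.Tb ζ))) := by
    have c4 : Continuous fun θ => K₀ * B14.bd (fun ζ => Real.sqrt (frobSq (L ζ - P.Tb ζ))) θ :=
      continuous_const.mul c3
    have h3 := B14.pavg_mono c1 (c2.add c4) hpt
    have h4 := (B14.pavg_add c2 c4).trans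
      (congrArg (B14.pavg (B14.bd fun ζ => P.om ζ * sympP (P.Tb ζ) (P.JE ζ)) + ·)
        (B14.pavg_const_mul_real K₀ _))
    exact h3.trans (le_of_eq h4)
  linarith

/-- entrywise bound of a form with spectral bounds. -/
theorem SpecBd.frobSq_le {L : ℂ → Matrix κ κ ℂ} {m M : ℝ} (hS : SpecBd L m M) (hm : 0 ≤ m) {ζ : ℂ}
    (hζ : ζ ∈ uCirc) : frobSq (L ζ) ≤ (Fintype.card κ : ℝ) ^ 2 * M ^ 2 := by
  have hpsd : (L ζ).PosSemidef := by
    refine (posSemidef_iff_qf (hS.herm ζ hζ)).2 fun v => ?_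
    exact le_trans (mul_nonneg hm (Finset.sum_nonneg fun _ _ => sq_nonneg _)) (hS.lower ζ hζ v)
  have hdiag : ∀ j, 0 ≤ (L ζ j j).re ∧ (L ζ j j).re ≤ M := by
    intro j
    have h1 := hS.upper ζ hζ (Pi.single j 1)
    have h0 := qf_nonneg hpsd (Pi.single j 1)
    rw [qf_single] at h1 h0
    refine ⟨h0, h1.trans (le_of_eq ?_)⟩
    have : ∑ i, ‖(Pi.single j (1 : ℂ) : κ → ℂ) i‖ ^ 2 = 1 := by
      rw [Finset.sum_eq_single j]
      · simp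
      · intro b _ hb
        simp [Pi.single_eq_of_ne hb]
      · simp
    rw [this, mul_one]
  have hent : ∀ j k, ‖L ζ j k‖ ^ 2 ≤ M ^ 2 := by
    intro j k
    refine (norm_entry_sq_le hpsd j k).trans ?_
    rw [sq]
    exact mul_le_mul (hdiag j).2 (hdiag k).2 (hdiag k).1 ((hdiag j).1.trans (hdiag j).2)
  unfold frobSq
  calc ∑ j, ∑ k, ‖L ζ j k‖ ^ 2 ≤ ∑ _j : κ, ∑ _k : κ, M ^ 2 :=
        Finset.sum_le_sum fun j _ => Finset.sum_le_sum fun k _ => hent j k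
    _ = (Fintype.card κ : ℝ) ^ 2 * M ^ 2 := by
        simp only [Finset.sum_const, Finset.card_univ, nsmul_eq_mul]
        ring

/-- algebra of the centre majorant. -/
theorem majorant_algebra {A S Wc JE0 J0 : Matrix κ κ ℂ} {a b : ℝ} (ha : 0 < a) (hb : 0 < b)
    (hA : A.PosDef) (hS : IsUnit S.det) (hJ : S * JE0 * Sᵀ = J0)
    (hQ : (((a : ℝ) : ℂ) • A - ((b : ℝ) : ℂ) • (Sᴴ * Wc * S)).PosSemidef) :
    ∃ Hc : Matrix κ κ ℂ, Hc.PosDef ∧ (Hc - Wc).PosSemidef ∧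
      sympP Hc J0 = (a / b) ^ 2 * sympP A JE0 := by
  have h1 : S * S⁻¹ = 1 := Matrix.mul_nonsing_inv S hS
  have h2 : S⁻¹ * S = 1 := Matrix.nonsing_inv_mul S hS
  have h1' : (S⁻¹)ᴴ * Sᴴ = 1 := by rw [← Matrix.conjTranspose_mul, h1, Matrix.conjTranspose_one]
  have h2' : Sᴴ * (S⁻¹)ᴴ = 1 := by rw [← Matrix.conjTranspose_mul, h2, Matrix.conjTranspose_one]
  have hinj : Function.Injective (S⁻¹).mulVec := by
    intro x y hxy
    have := congrArg (fun v => S *ᵥ v) hxy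
    simpa [Matrix.mulVec_mulVec, h1] using this
  have hab : 0 < a / b := div_pos ha hb
  refine ⟨((a / b : ℝ) : ℂ) • ((S⁻¹)ᴴ * A * S⁻¹), ?_, ?_, ?_⟩
  · exact (hA.conjTranspose_mul_mul_same hinj).smul (by exact_mod_cast hab)
  · have h3 := (hQ.conjTranspose_mul_mul_same S⁻¹).smul
      (show (0 : ℂ) ≤ ((b⁻¹ : ℝ) : ℂ) by exact_mod_cast (inv_pos.2 hb).le)
    have h4 : (S⁻¹)ᴴ * (Sᴴ * Wc * S) * S⁻¹ = Wc := by
      calc (S⁻¹)ᴴ * (Sᴴ * Wc * S) * S⁻¹ = ((S⁻¹)ᴴ * Sᴴ) * Wc * (S * S⁻¹) := by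
            simp only [Matrix.mul_assoc]
        _ = Wc := by rw [h1', h1, Matrix.one_mul, Matrix.mul_one]
    have h5 : ((b⁻¹ : ℝ) : ℂ) • ((S⁻¹)ᴴ * (((a : ℝ) : ℂ) • A - ((b : ℝ) : ℂ) • (Sᴴ * Wc * S)) * S⁻¹) =
        ((a / b : ℝ) : ℂ) • ((S⁻¹)ᴴ * A * S⁻¹) - Wc := by
      rw [Matrix.mul_sub, Matrix.sub_mul, Matrix.mul_smul, Matrix.mul_smul, Matrix.smul_mul,
        Matrix.smul_mul, h4, smul_sub, smul_smul, smul_smul]
      have e1 : ((b⁻¹ : ℝ) : ℂ) * ((a : ℝ) : ℂ) = ((a / b : ℝ) : ℂ) := by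
        push_cast
        field_simp
      have e2 : ((b⁻¹ : ℝ) : ℂ) * ((b : ℝ) : ℂ) = 1 := by
        push_cast
        have : (b : ℂ) ≠ 0 := by exact_mod_cast hb.ne'
        field_simp
      rw [e1, e2, one_smul]
    rwa [h5] at h3
  · rw [← hJ, ← sympP_conj]
    have h6 : Sᴴ * (((a / b : ℝ) : ℂ) • ((S⁻¹)ᴴ * A * S⁻¹)) * S = ((a / b : ℝ) : ℂ) • A := by
      rw [Matrix.mul_smul, Matrix.smul_mul]
      congr 1
      calc Sᴴ * ((S⁻¹)ᴴ * A * S⁻¹) * S = (Sᴴ * (S⁻¹)ᴴ) * A * (S⁻¹ * S) := by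
            simp only [Matrix.mul_assoc]
        _ = A := by rw [h2', h2, Matrix.one_mul, Matrix.mul_one]
    rw [h6, sympP_smul]

/-- the elementary inequality at the end of `fixedJ_majorant`. -/
theorem majorant_arith {τ c t e x β s : ℝ} (hτ : 0 < τ) (hc : 0 ≤ c) (ht0 : 0 < t) (ht1 : t ≤ 1)
    (ht : t ≤ τ * Real.exp (-c) / (12 * (c + 1))) (he0 : 0 < e) (he : e ≤ Real.exp c)
    (hx : x ≤ 2 * c) (hβ0 : 0 ≤ β) (hβ : β ≤ τ * Real.exp (-c) / 8) (hs : s ≤ e * (x + β)) :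
    (1 + t) ^ 2 * s ≤ e * x + τ := by
  have hE : Real.exp c * Real.exp (-c) = 1 := by rw [← Real.exp_add]; simp
  have hEpos := Real.exp_pos c
  have h1 : (1 + t) ^ 2 * s ≤ (1 + t) ^ 2 * (e * (x + β)) := by gcongr
  have h2 : (1 + t) ^ 2 * (e * (x + β)) - e * x = e * ((2 * t + t ^ 2) * x + (1 + t) ^ 2 * β) := by
    ring
  have h3 : (2 * t + t ^ 2) * x ≤ 3 * t * (2 * c) := by
    have h31 : (2 * t + t ^ 2) * x ≤ (2 * t + t ^ 2) * (2 * c) := by gcongr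
    have h32 : 2 * t + t ^ 2 ≤ 3 * t := by nlinarith
    exact h31.trans (by gcongr)
  have h4 : (1 + t) ^ 2 * β ≤ 4 * β := by
    have : (1 + t) ^ 2 ≤ 4 := by nlinarith
    gcongr
  have h5 : 3 * t * (2 * c) ≤ τ * Real.exp (-c) / 2 := by
    have h51 : t * (12 * (c + 1)) ≤ τ * Real.exp (-c) := by
      rwa [le_div_iff₀ (by positivity)] at ht
    nlinarith [mul_nonneg ht0.le hc]
  have h6 : (2 * t + t ^ 2) * x + (1 + t) ^ 2 * β ≤ τ * Real.exp (-c) := by linarith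
  have h7 : e * ((2 * t + t ^ 2) * x + (1 + t) ^ 2 * β) ≤ Real.exp c * (τ * Real.exp (-c)) := by
    calc e * ((2 * t + t ^ 2) * x + (1 + t) ^ 2 * β) ≤ e * (τ * Real.exp (-c)) := by gcongr
      _ ≤ Real.exp c * (τ * Real.exp (-c)) := by
          have : 0 ≤ τ * Real.exp (-c) := by positivity
          gcongr
  have h8 : Real.exp c * (τ * Real.exp (-c)) = τ := by
    rw [mul_left_comm, hE, mul_one]
  linarith

/-- the result at fixed `j`: positive majorants of the test Hessian with controlled symplectic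
cost. -/
theorem fixedJ_majorant (h : FixedJ J0 Adm C err) (τ : ℝ) (hτ : 0 < τ) :
    ∀ᶠ ε in 𝓝[>] (0 : ℝ), ∀ᶠ η in 𝓝[>] (0 : ℝ), ∀ P, Adm ε η P →
      ∃ Hc : Matrix κ κ ℂ, Hc.PosDef ∧ (Hc - P.Wc).PosSemidef ∧
        sympP Hc J0 ≤ Real.exp (-P.lg) * (P.ds + err) + τ := by
  classical
  set N : ℝ := (Fintype.card κ : ℝ) with hN
  have hN0 : 0 ≤ N := Nat.cast_nonneg _
  set M₁ : ℝ := N ^ 2 * (Real.sqrt C + 2) ^ 2 with hM₁
  set K : ℝ := (1 / 2 : ℝ) * C ^ 2 * (Real.sqrt M₁ + Real.sqrt C) with hK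
  have hK0 : 0 ≤ K := by positivity
  set e0 : ℝ := τ * Real.exp (-|C|) / 8 with he0
  have he0pos : 0 < e0 := by positivity
  set t : ℝ := min 1 (τ * Real.exp (-|C|) / (12 * (|C| + 1))) with ht
  have ht0 : 0 < t := lt_min one_pos (by positivity)
  set τ₂ : ℝ := e0 / 3 with hτ₂
  set τ₃ : ℝ := e0 / (3 * (K + 1)) with hτ₃
  set δ : ℝ := min 1 (e0 / (6 * (K + 1) * (N + 1))) with hδdef
  have hδ : 0 < δ := lt_min one_pos (by positivity)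
  have hτ₂0 : 0 < τ₂ := by positivity
  have hτ₃0 : 0 < τ₃ := by positivity
  have hβ : τ₂ + K * (τ₃ + 2 * δ * N) ≤ e0 := by
    have a1 : K * τ₃ ≤ e0 / 3 := by
      rw [hτ₃, mul_div_assoc', div_le_div_iff₀ (by positivity) (by norm_num)]
      nlinarith
    have a2 : δ ≤ e0 / (6 * (K + 1) * (N + 1)) := min_le_right _ _
    have a3 : K * (2 * δ * N) ≤ e0 / 3 := by
      have a4 : δ * (6 * (K + 1) * (N + 1)) ≤ e0 := by
        rwa [le_div_iff₀ (by positivity)] at a2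
      have a5 : K * N ≤ (K + 1) * (N + 1) := by nlinarith
      have a6 : δ * (K * N) ≤ δ * ((K + 1) * (N + 1)) := by gcongr
      nlinarith
    rw [mul_add]
    linarith
  filter_upwards [h.ok, center_majorant h hδ (Real.sqrt C + 2 * δ) t ht0, h.clock τ₂ hτ₂0,
    negPart_small h τ₃ hτ₃0] with ε h1 h2 h3 h4
  filter_upwards [h1, h2, h3, h4] with η k1 k2 k3 k4 P hP
  have hOk := k1 P hP
  obtain ⟨Nn, L, hLt, hLS, hLge, hLd, hLD⟩ := exists_posForm hOk hδ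
  obtain ⟨H, Hi, hF⟩ := exists_factor hδ (fun i j => (hLt i j).circSm) hLS
  have hLlip : ∀ i j, CircLip fun ζ => L ζ i j := fun i j => (hLt i j).circSm.circLip
  have hmaj := k2 P hP L H Hi hLlip hLS hF hLge hLD
  have hM : ∀ ζ ∈ uCirc, frobSq (L ζ) ≤ M₁ := by
    intro ζ hζ
    refine (hLS.frobSq_le hδ.le hζ).trans ?_
    have : Real.sqrt C + 2 * δ ≤ Real.sqrt C + 2 := by
      have : δ ≤ 1 := min_le_left _ _
      linarith
    have h0 : 0 ≤ Real.sqrt C + 2 * δ := by positivity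
    rw [hM₁]
    gcongr
  have hcost := cost_le hOk hLlip hF hM
  have hclock := k3 P hP
  have hneg := k4 P hP
  have hA : ((H 0)ᴴ * H 0).PosDef := by
    refine Matrix.PosDef.conjTranspose_mul_self (H 0) ?_
    intro x y hxy
    have h0 : Hi 0 * H 0 = 1 := hF.inv' 0 (by simp)
    have := congrArg (fun v => Hi 0 *ᵥ v) hxy
    simpa [Matrix.mulVec_mulVec, h0] using this
  have hh0 : 0 < P.h0 ^ 2 := pow_pos hOk.h0_pos 2
  obtain ⟨Hc, hc1, hc2, hc3⟩ := majorant_algebra (a := 1 + t) (b := P.h0 ^ 2) (by positivity) hh0 hA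
    hOk.S0_unit hOk.JE_zero hmaj
  refine ⟨Hc, hc1, hc2, ?_⟩
  rw [hc3]
  set s : ℝ := sympP ((H 0)ᴴ * H 0) (P.JE 0) with hs
  have hE : Real.exp (-P.lg) * Real.exp P.lg = 1 := by rw [← Real.exp_add]; simp
  have hR : Real.exp P.lg * (P.h0 ^ 4)⁻¹ * s ≤ (P.ds + err) + (τ₂ + K * (τ₃ + 2 * δ * N)) := by
    have b1 : cA (fun ζ => Real.sqrt (frobSq (L ζ - P.Tb ζ))) ≤ τ₃ + 2 * δ * N := by linarith
    have b2 : K * cA (fun ζ => Real.sqrt (frobSq (L ζ - P.Tb ζ))) ≤ K * (τ₃ + 2 * δ * N) := by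
      gcongr
    have b3 : Real.exp P.lg * (P.h0 ^ 4)⁻¹ * s ≤
        cA (fun ζ => P.om ζ * sympP (P.Tb ζ) (P.JE ζ)) +
          K * cA (fun ζ => Real.sqrt (frobSq (L ζ - P.Tb ζ))) := hcost
    linarith
  have hs2 : (P.h0 ^ 4)⁻¹ * s ≤
      Real.exp (-P.lg) * ((P.ds + err) + (τ₂ + K * (τ₃ + 2 * δ * N))) := by
    have : (P.h0 ^ 4)⁻¹ * s = Real.exp (-P.lg) * (Real.exp P.lg * (P.h0 ^ 4)⁻¹ * s) := by
      rw [← mul_assoc, ← mul_assoc, hE, one_mul]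
    rw [this]
    have := Real.exp_pos (-P.lg)
    gcongr
  have hfin := majorant_arith (τ := τ) (c := |C|) (t := t) (e := Real.exp (-P.lg))
    (x := P.ds + err) (β := τ₂ + K * (τ₃ + 2 * δ * N)) (s := (P.h0 ^ 4)⁻¹ * s) hτ (abs_nonneg C) ht0
    (min_le_left _ _) (min_le_right _ _) (Real.exp_pos _)
    (Real.exp_le_exp.2 (by linarith [hOk.lg_ge, le_abs_self C]))
    (by linarith [hOk.ds_le, h.err_le, le_abs_self C]) (by positivity) hβ hs2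
  have hid : ((1 + t) / P.h0 ^ 2) ^ 2 * s = (1 + t) ^ 2 * ((P.h0 ^ 4)⁻¹ * s) := by
    have : P.h0 ≠ 0 := hOk.h0_pos.ne'
    field_simp
  rw [hid]
  exact hfin

/-- **The abstract form of Proposition 5.1.** -/
theorem endgame {ι : Type} [Fintype ι] [DecidableEq ι] {W : Matrix (ι ⊕ ι) (ι ⊕ ι) ℂ} {σ : ℝ}
    (hW : W.IsHermitian) (hC : W.toBlocks₂₂.PosDef)
    (h : ∀ τ : ℝ, 0 < τ → ∃ (Adm : ℝ → ℝ → Packet (ι ⊕ ι) → Prop) (C err : ℝ),
      FixedJ (Jstd ι) Adm C err ∧ err ≤ τ ∧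
      (∀ ε η : ℝ, 0 < ε → 0 < η → ∃ P, Adm ε η P) ∧
      ∀ᶠ ε in 𝓝[>] (0 : ℝ), ∀ᶠ η in 𝓝[>] (0 : ℝ), ∀ P, Adm ε η P →
        (∀ i j, ‖P.Wc i j - W i j‖ ≤ τ) ∧ |P.ds - σ| ≤ τ ∧ -τ ≤ P.lg) :
    ∃ K : Matrix ι ι ℂ, K.PosSemidef ∧
      (K - (W.toBlocks₁₁ - W.toBlocks₁₂ * (W.toBlocks₂₂)⁻¹ * W.toBlocks₂₁)).PosSemidef ∧
      ((W.toBlocks₂₂)ᵀ * K).trace.re ≤ σ := by
  refine schur_limit hW hC ?_
  intro τ' hτ'
  set τ : ℝ := min (1 / 2) (τ' / (2 * |σ| + 8)) with hτdef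
  have hτ : 0 < τ := lt_min (by norm_num) (by positivity)
  have hτ1 : τ ≤ 1 / 2 := min_le_left _ _
  have hτ2 : τ * (2 * |σ| + 8) ≤ τ' := by
    have := min_le_right (1 / 2 : ℝ) (τ' / (2 * |σ| + 8))
    rwa [le_div_iff₀ (by positivity)] at this
  obtain ⟨Adm, C, err, hFix, herr, hex, hclose⟩ := h τ hτ
  have hmaj := fixedJ_majorant hFix τ hτ
  have hcomb : ∀ᶠ ε in 𝓝[>] (0 : ℝ), ∀ᶠ η in 𝓝[>] (0 : ℝ), ∀ P, Adm ε η P →
      P.Ok (Jstd ι) C ∧ ((∀ i j, ‖P.Wc i j - W i j‖ ≤ τ) ∧ |P.ds - σ| ≤ τ ∧ -τ ≤ P.lg) ∧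
      ∃ Hc : Matrix (ι ⊕ ι) (ι ⊕ ι) ℂ, Hc.PosDef ∧ (Hc - P.Wc).PosSemidef ∧
        sympP Hc (Jstd ι) ≤ Real.exp (-P.lg) * (P.ds + err) + τ := by
    filter_upwards [hFix.ok, hclose, hmaj] with ε a1 a2 a3
    filter_upwards [a1, a2, a3] with η b1 b2 b3 P hP
    exact ⟨b1 P hP, b2 P hP, b3 P hP⟩
  obtain ⟨ε, hε, hε0⟩ := (hcomb.and self_mem_nhdsWithin).exists
  obtain ⟨η, hη, hη0⟩ := (hε.and self_mem_nhdsWithin).exists
  obtain ⟨P, hP⟩ := hex ε η hε0 hη0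
  obtain ⟨hOk, ⟨hWc, hds, hlg⟩, Hc, hc1, hc2, hc3⟩ := hη P hP
  have hττ' : τ ≤ τ' := by nlinarith [abs_nonneg σ]
  refine ⟨Hc, P.Wc, hc1, hOk.Wc_herm, hc2, fun i j => (hWc i j).trans hττ', hc3.trans ?_⟩
  set e : ℝ := Real.exp (-P.lg) with he
  set x : ℝ := P.ds + err with hx
  have he1 : 1 ≤ e := Real.one_le_exp (by linarith [hOk.lg_le])
  have he2 : e ≤ 1 + 2 * τ := by
    have h1 : e ≤ Real.exp τ := Real.exp_le_exp.2 (by linarith)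
    have h2 : Real.exp τ ≤ 1 / (1 - τ) :=
      Real.exp_bound_div_one_sub_of_interval hτ.le (by linarith)
    have h3 : 1 / (1 - τ) ≤ 1 + 2 * τ := by
      rw [div_le_iff₀ (by linarith)]
      nlinarith
    linarith
  have hx1 : x ≤ σ + 2 * τ := by
    have := (abs_le.1 hds).2
    linarith
  have hσ := le_abs_self σ
  have hσ0 := abs_nonneg σ
  have hfin : e * x ≤ σ + τ * (2 * |σ| + 4) := by
    rcases le_or_gt 0 x with h0 | h0
    · have h1 : e * x ≤ (1 + 2 * τ) * x := by gcongr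
      have h2 : (1 + 2 * τ) * x ≤ (1 + 2 * τ) * (σ + 2 * τ) := by gcongr
      nlinarith
    · have h1 : e * x ≤ x := by nlinarith
      nlinarith
  nlinarith

end Claimed.Agent.R316
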