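import Claimed.Agent.R316.Pack022
import Claimed.Agent.R316.S5.Endgame

/-!
# Row 316, Section 5: the geometric set-up (definitions only, no `sorry`)

Everything of `variation.tex` §5.1-5.2 that is a DEFINITION, in the form used by the chain
`Main.lean ⟸ Local.lean, Symbol.lean, Defo*.lean, Clock.lean, WallsEx.lean, FromS4.lean`.

DEVIATIONS FROM THE PAPER (all harmless for Proposition 5.1, all save work):
* tangent vectors and tensors of `Y` are represented in the ambient space `ℂ^q` of the immersion `G`: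
  a vector `v ∈ T_y Y` by `dG v`, a Hermitian form `W` by `ambM W y = Pᴴ W P`, `P = (JᴴJ)⁻¹Jᴴ` the
  Moore-Penrose inverse of `J = dG_y`; a frame of `f^*TY` by the matrix `U = dG E_f`;
* "smooth coefficients are smooth functions of `X = G ∘ f`" is replaced by: smooth functions on `Y` are
  bounded and `G`-LIPSCHITZ on compact sets (`GLipOn`), which is all the comparison principle needs;
* the walls carry no factor `(1 + s)`; the energy has no Gauss area term (it is bounded by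
  `C_K D(X)²`, because `log det (dG^* dG)` in cotangent coordinates is a global function on `Y`);
* frames are only required to be uniformly equivalent to unitary ones on the circle (`FrameBd`);
* minimising sequences are replaced by the excess `η` (see `Endgame.lean`).
-/

set_option autoImplicit false
set_option maxSynthPendingDepth 3
open scoped ContDiff ComplexOrder Topology Matrix
open MeasureTheory Filter

namespace Claimed.Agent.R316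

section General

variable {V' : Type} [NormedAddCommGroup V'] [NormedSpace ℝ V']
variable {κ : Type} [Fintype κ] [DecidableEq κ] {q : ℕ}

/-- holomorphic disc in `𝓧`, smooth on the closed unit disc. -/
def IsSmDisc (𝓧 : CMfd V' κ) (f : ℂ → V') : Prop :=
  IsHolDisc 𝓧 f 1 ∧ ContDiffOn ℝ ∞ f uDiscC ∧ ∀ ζ ∈ uDiscC, f ζ ∈ 𝓧.carrier

/-- `G : 𝓧 → ℂ^q` is an injective holomorphic immersion. -/
structure GImm (𝓧 : CMfd V' κ) (G : V' → CE (Fin q)) : Prop where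
  hol : ∀ (Ψ : CE κ → V') (W : Set (CE κ)), 𝓧.IsHol Ψ W → DifferentiableOn ℂ (G ∘ Ψ) W
  inj : Set.InjOn G 𝓧.carrier
  imm : ∀ (Ψ : CE κ → V') (W : Set (CE κ)), 𝓧.IsHol Ψ W → ∀ p ∈ W,
    Function.Injective (fderiv ℂ (G ∘ Ψ) p)

/-- Jacobian of `G` at `y` in the chosen parametrisation. -/
noncomputable def gJac (𝓧 : CMfd V' κ) (G : V' → CE (Fin q)) (y : V') : Matrix (Fin q) κ ℂ :=
  jac (G ∘ 𝓧.pΦ y) (𝓧.co y)

/-- its Moore-Penrose left inverse. -/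
noncomputable def gPinv (𝓧 : CMfd V' κ) (G : V' → CE (Fin q)) (y : V') : Matrix κ (Fin q) ℂ :=
  ((gJac 𝓧 G y)ᴴ * gJac 𝓧 G y)⁻¹ * (gJac 𝓧 G y)ᴴ

/-- ambient matrix of a Hermitian form on `𝓧`: `W(v, v) = qf (ambM W y) (dG v)`. -/
noncomputable def ambM (𝓧 : CMfd V' κ) (G : V' → CE (Fin q)) (W : HFam V' κ) (y : V') :
    Matrix (Fin q) (Fin q) ℂ :=
  (gPinv 𝓧 G y)ᴴ * W (𝓧.pΦ y) (𝓧.co y) * gPinv 𝓧 G y

/-- ambient row of the `(1,0)`-differential of a function: `∂β(v) = ∑_r gDz β y r * (dG v)_r`. -/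
noncomputable def gDz (𝓧 : CMfd V' κ) (G : V' → CE (Fin q)) (β : V' → ℂ) (y : V') : Fin q → ℂ :=
  fun r => ∑ k, dz k (β ∘ 𝓧.pΦ y) (𝓧.co y) * gPinv 𝓧 G y k r

/-- ambient row of the `(0,1)`-differential: `∂̄β(v) = ∑_r gDzb β y r * conj (dG v)_r`. -/
noncomputable def gDzb (𝓧 : CMfd V' κ) (G : V' → CE (Fin q)) (β : V' → ℂ) (y : V') : Fin q → ℂ :=
  fun r => ∑ k, dzb k (β ∘ 𝓧.pΦ y) (𝓧.co y) * star (gPinv 𝓧 G y k r)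

/-- `β(y, t)` is bounded by `C` and `(G, t)`-Lipschitz with constant `C` on `S × I`. -/
def GLipOn (G : V' → CE (Fin q)) (S : Set V') (I : Set ℝ) (C : ℝ) (β : V' → ℝ → ℂ) : Prop :=
  (∀ y ∈ S, ∀ t ∈ I, ‖β y t‖ ≤ C) ∧
  ∀ y ∈ S, ∀ y' ∈ S, ∀ t ∈ I, ∀ t' ∈ I, ‖β y t - β y' t'‖ ≤ C * (‖G y - G y'‖ + |t - t'|)

end General

section Cot

variable {V : Type} [NormedAddCommGroup V] [InnerProductSpace ℝ V] [FiniteDimensional ℝ V]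
variable {n q : ℕ}

/-- some components of `G` form an injective holomorphic immersion of the base. -/
def BaseImm (𝓜 : CMfd V (Fin n)) (G : CotAmb V → CE (Fin q)) : Prop :=
  ∃ (N : ℕ) (F₀ : V → CE (Fin N)) (e : Fin N → Fin q), GImm 𝓜 F₀ ∧ Function.Injective e ∧
    ∀ (y : CotAmb V) (k : Fin N), G y (e k) = F₀ y.1 k

/-- `g`-area `∫_Δ |∂_ζ (π ∘ f)|²_g dA` of the base disc. -/
noncomputable def areaG (𝓜 : CMfd V (Fin n)) (g : HFam V (Fin n)) (f : ℂ → CotAmb V) : ℝ :=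
  ∫ ζ in uDisc, ambQ 𝓜 g (f ζ).1 (fderiv ℝ (fun ξ => (f ξ).1) ζ 1)

/-- `(U, JE)` is a holomorphic frame of `f^*TY`, smooth on the closed disc: `U = dG E_f`, and `JE` is
the component matrix of the canonical bivector in `E_f`. -/
structure IsFrame (𝓜 : CMfd V (Fin n)) (G : CotAmb V → CE (Fin q)) (f : ℂ → CotAmb V)
    (U : ℂ → Matrix (Fin q) (Fin n ⊕ Fin n) ℂ) (JE : ℂ → Matrix (Fin n ⊕ Fin n) (Fin n ⊕ Fin n) ℂ) :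
    Prop where
  U_hol : ∀ i j, HolSm fun ζ => U ζ i j
  JE_hol : ∀ i j, HolSm fun ζ => JE ζ i j
  tangent : ∀ ζ ∈ uDiscC, ∀ (Φ : CE (Fin n) → V) (U₀ : Set (CE (Fin n))) (p : CE (Fin n ⊕ Fin n)),
    𝓜.IsHol Φ U₀ → p ∈ cotDom U₀ → f ζ = cotParam Φ p →
    ∃ S : Matrix (Fin n ⊕ Fin n) (Fin n ⊕ Fin n) ℂ, IsUnit S.det ∧
      U ζ = jac (G ∘ cotParam Φ) p * S ∧ S * JE ζ * Sᵀ = Jstd (Fin n)

/-- the bounds of Lemma 4.5 that depend only on the boundary compact. -/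
structure FrameBd (C : ℝ) (G : CotAmb V → CE (Fin q)) (f : ℂ → CotAmb V)
    (U : ℂ → Matrix (Fin q) (Fin n ⊕ Fin n) ℂ) (JE : ℂ → Matrix (Fin n ⊕ Fin n) (Fin n ⊕ Fin n) ℂ) :
    Prop where
  U_le : ∀ ζ ∈ uCirc, ∀ v : Fin n ⊕ Fin n → ℂ, ∑ i, ‖(U ζ *ᵥ v) i‖ ^ 2 ≤ ∑ i, ‖v i‖ ^ 2
  U_ge : ∀ ζ ∈ uCirc, ∀ v : Fin n ⊕ Fin n → ℂ, (1 / 4 : ℝ) * ∑ i, ‖v i‖ ^ 2 ≤ ∑ i, ‖(U ζ *ᵥ v) i‖ ^ 2
  U_D : DsqM U ≤ C * (1 + DsqV fun ζ => (G (f ζ) : Fin q → ℂ))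
  JE_le : ∀ ζ ∈ uDiscC, frobSq (JE ζ) ≤ C
  JE_inv : ∀ ζ ∈ uDiscC, frobSq (JE ζ)⁻¹ ≤ C

/-- the ambient Poisson matrix `dG ∧ dG (𝒥) = J Jstd Jᵀ` (entries: Poisson brackets of the components
of `G`, global holomorphic functions on `Y`). -/
noncomputable def poisM (𝓜 : CMfd V (Fin n)) (G : CotAmb V → CE (Fin q)) (y : CotAmb V) :
    Matrix (Fin q) (Fin q) ℂ :=
  jac (G ∘ cotParam (𝓜.pΦ y.1)) (WithLp.toLp 2 (Sum.elim (𝓜.co y.1) (covComp (𝓜.pΦ y.1) (𝓜.co y.1) y.2))) *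
    Jstd (Fin n) *
  (jac (G ∘ cotParam (𝓜.pΦ y.1))
    (WithLp.toLp 2 (Sum.elim (𝓜.co y.1) (covComp (𝓜.pΦ y.1) (𝓜.co y.1) y.2))))ᵀ

/-- a local dominating holomorphic spray on `Y` whose first order part is the Poisson matrix. -/
structure IsSpray (𝓜 : CMfd V (Fin n)) (𝒴 : CMfd (CotAmb V) (Fin n ⊕ Fin n))
    (G : CotAmb V → CE (Fin q)) (Sg : CotAmb V → CE (Fin q) → CotAmb V)
    (dom : Set (CotAmb V × CE (Fin q))) : Prop where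
  isOpen : ∃ O : Set (CotAmb V × CE (Fin q)), IsOpen O ∧ dom = (𝒴.carrier ×ˢ Set.univ) ∩ O
  zero_mem : ∀ y ∈ 𝒴.carrier, (y, (0 : CE (Fin q))) ∈ dom
  balanced : ∀ y τ, (y, τ) ∈ dom → ∀ c : ℂ, ‖c‖ ≤ 1 → (y, c • τ) ∈ dom
  maps : ∀ y τ, (y, τ) ∈ dom → Sg y τ ∈ 𝒴.carrier
  zero : ∀ y ∈ 𝒴.carrier, Sg y 0 = y
  cont : ContinuousOn (fun a : CotAmb V × CE (Fin q) => Sg a.1 a.2) dom
  /-- smooth (as an ambient map) in every parametrisation -/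
  smooth : ∀ (Ψ : CE (Fin n ⊕ Fin n) → CotAmb V) (W : Set (CE (Fin n ⊕ Fin n))), 𝒴.IsHol Ψ W →
    ContDiffOn ℝ ∞ (fun a : CE (Fin n ⊕ Fin n) × CE (Fin q) => Sg (Ψ a.1) a.2)
      {a | a.1 ∈ W ∧ (Ψ a.1, a.2) ∈ dom}
  /-- holomorphic in every pair of parametrisations -/
  hol : ∀ (Ψ Ψ' : CE (Fin n ⊕ Fin n) → CotAmb V) (W W' : Set (CE (Fin n ⊕ Fin n))),
    𝒴.IsHol Ψ W → 𝒴.IsHol Ψ' W' →
    DifferentiableOn ℂ (fun a : CE (Fin n ⊕ Fin n) × CE (Fin q) =>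
      Function.invFunOn Ψ' W' (Sg (Ψ a.1) a.2))
      {a | a.1 ∈ W ∧ (Ψ a.1, a.2) ∈ dom ∧ Sg (Ψ a.1) a.2 ∈ Ψ' '' W'}
  first : ∀ y ∈ 𝒴.carrier, ∀ τ : CE (Fin q), ∀ r : Fin q,
    deriv (fun z : ℂ => G (Sg y (z • τ)) r) 0 = (poisM 𝓜 G y *ᵥ (τ : Fin q → ℂ)) r

end Cot

section Flow

variable {V : Type} [NormedAddCommGroup V] [InnerProductSpace ℝ V] [FiniteDimensional ℝ V]
variable [MeasurableSpace V] [BorelSpace V]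
variable {n : ℕ} {𝓜 : CMfd V (Fin n)} {g : HFam V (Fin n)} {o : V}

/-- the immersion (4.4). -/
noncomputable def PrelimData.G (Pd : PrelimData 𝓜 g o) (y : CotAmb V) : CE (Fin (Pd.NF + Pd.mX)) :=
  WithLp.toLp 2 (Fin.addCases (fun i => Pd.F y.1 i) (fun i => y.2 (Pd.X i y.1)))

theorem baseImm_prelim (Pd : PrelimData 𝓜 g o) : BaseImm 𝓜 Pd.G :=
  ⟨Pd.NF, Pd.F, Fin.castAdd Pd.mX, ⟨Pd.F_hol, Pd.F_inj, Pd.F_imm⟩, Fin.castAdd_injective _ _,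
    fun y k => by simp [PrelimData.G]⟩

/-- the fixed data of the proof of Proposition 5.1: horizon, immersion, chart, (strict) test
function, compact coordinate cylinder `𝓒 = B̄(p₀, rc) × [s₀ - rc, s₀ + rc]`. -/
structure S5Ctx (V : Type) [NormedAddCommGroup V] [InnerProductSpace ℝ V] (n : ℕ) where
  T : ℝ
  q : ℕ
  G : CotAmb V → CE (Fin q)
  Φ : CE (Fin n) → V
  U : Set (CE (Fin n))
  φ : ℝ → CE (Fin n ⊕ Fin n) → ℝ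
  p₀ : CE (Fin n ⊕ Fin n)
  s₀ : ℝ
  rc : ℝ

/-- standing assumptions on the fixed data. -/
structure S5Ctx.Valid (X : S5Ctx V n) (D : FlowData 𝓜 g o) (𝒴 : CMfd (CotAmb V) (Fin n ⊕ Fin n)) :
    Prop where
  T_pos : 0 < X.T
  imm : GImm 𝒴 X.G
  base : BaseImm 𝓜 X.G
  isHol : 𝓜.IsHol X.Φ X.U
  smooth : ContDiff ℝ ∞ (fun a : ℝ × CE (Fin n ⊕ Fin n) => X.φ a.1 a.2)
  rc_pos : 0 < X.rc
  ball : Metric.closedBall X.p₀ X.rc ⊆ cotDom X.U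
  s_lo : 0 < X.s₀ - X.rc
  s_hi : X.s₀ + X.rc < X.T
  /-- strict contact from below with the raw envelope on the cylinder -/
  contact : ∀ s ∈ Set.Icc (X.s₀ - X.rc) (X.s₀ + X.rc), ∀ p ∈ Metric.closedBall X.p₀ X.rc,
    X.φ s p + (‖p - X.p₀‖ ^ 4 + (s - X.s₀) ^ 4) ≤ D.vraw 𝒴 X.T (cotParam X.Φ p) s
  /-- the infimum of `v^raw - φ` over the cylinder is `0` -/
  inf_zero : ∀ τ : ℝ, 0 < τ → ∃ s ∈ Set.Icc (X.s₀ - X.rc) (X.s₀ + X.rc),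
    ∃ p ∈ Metric.closedBall X.p₀ X.rc, D.vraw 𝒴 X.T (cotParam X.Φ p) s ≤ X.φ s p + τ

/-- the localisation data at a fixed `j`: base cost `d0 = d_{0,j}` (5.2) with time derivative `d0t`,
cutoffs `δ₁(x)`, `δ₂(y)`, clock cutoffs `χ₁(x)`, `χ₂(y)`, the exponent `a`, and the two constants
`c1 = c log(j+2)`, `c2 = log C'_j + c log(j+2) + c log(1+B_j)` of the clock weight (5.22). -/
structure Walls (V : Type) [NormedAddCommGroup V] [InnerProductSpace ℝ V] where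
  d0 : ℝ → V → ℝ
  d0t : ℝ → V → ℝ
  δ1 : V → ℝ
  δ2 : CotAmb V → ℝ
  χ1 : V → ℝ
  χ2 : CotAmb V → ℝ
  a : ℕ
  c1 : ℝ
  c2 : ℝ

namespace Walls

variable (𝔚 : Walls V)

/-- `p = δ₁ δ₂`. -/
def pw (y : CotAmb V) : ℝ := 𝔚.δ1 y.1 * 𝔚.δ2 y

/-- the open boundary region. -/
def reg (𝒴 : CMfd (CotAmb V) (Fin n ⊕ Fin n)) : Set (CotAmb V) := {y | y ∈ 𝒴.carrier ∧ 0 < 𝔚.pw y}

/-- the wall cost `k₁ + k₂`. -/
noncomputable def kw (y : CotAmb V) : ℝ := ((𝔚.δ1 y.1)⁻¹ - 1) + ((𝔚.δ2 y)⁻¹ - 1)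

/-- `d(y, t) = d_{0,j}(x, t) + k₁(x) + k₂(y)` (5.5). -/
noncomputable def dc (y : CotAmb V) (t : ℝ) : ℝ := 𝔚.d0 t y.1 + 𝔚.kw y

/-- the boundary integrand `N + d`. -/
noncomputable def cost (D : FlowData 𝓜 g o) (y : CotAmb V) (t : ℝ) : ℝ := D.N y t + 𝔚.dc y t

/-- the unnormalised clock weight `γ₀` (5.22). -/
noncomputable def gam0 (D : FlowData 𝓜 g o) (y : CotAmb V) (t : ℝ) : ℝ :=
  𝔚.pw y ^ (4 * 𝔚.a) * Real.exp (-(𝔚.χ1 y.1 * (D.rho t y.1 + 𝔚.c1))) * Real.exp (-(𝔚.χ2 y * 𝔚.c2))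

/-- the cleared boundary symbol in ambient form, `𝕎(y, t) = p^{2a} (dd_Y (N + d))^`. -/
noncomputable def symb (D : FlowData 𝓜 g o) (𝒴 : CMfd (CotAmb V) (Fin n ⊕ Fin n)) {q : ℕ}
    (G : CotAmb V → CE (Fin q)) (y : CotAmb V) (t : ℝ) : Matrix (Fin q) (Fin q) ℂ :=
  ((𝔚.pw y ^ (2 * 𝔚.a) : ℝ) : ℂ) • ambM 𝒴 G (ddc fun y' => 𝔚.cost D y' t) y

end Walls

/-- the properties of the localisation data.  `err` bounds the weighted error in (5.24), `A1`, `A2`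
are the constants in the clock loss (5.23). -/
structure IsWalls (𝔚 : Walls V) (D : FlowData 𝓜 g o) (𝒴 : CMfd (CotAmb V) (Fin n ⊕ Fin n)) (T : ℝ)
    (err A1 A2 : ℝ) : Prop where
  two_le_a : 2 ≤ 𝔚.a
  c1_nonneg : 0 ≤ 𝔚.c1
  c2_nonneg : 0 ≤ 𝔚.c2
  err_nonneg : 0 ≤ err
  A1_nonneg : 0 ≤ A1
  A2_nonneg : 0 ≤ A2
  d0_smooth : 𝓜.SmoothST (Set.Icc 0 T) 𝔚.d0
  d0t_smooth : 𝓜.SmoothST (Set.Icc 0 T) 𝔚.d0t
  d0_deriv : ∀ t ∈ Set.Icc (0 : ℝ) T, ∀ x ∈ 𝓜.carrier,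
    HasDerivWithinAt (fun s => 𝔚.d0 s x) (𝔚.d0t t x) (Set.Icc 0 T) t
  d0_nonneg : ∀ t ∈ Set.Icc (0 : ℝ) T, ∀ x ∈ 𝓜.carrier, 0 ≤ 𝔚.d0 t x
  δ1_smooth : 𝓜.Smooth 𝔚.δ1
  δ2_smooth : 𝒴.Smooth 𝔚.δ2
  χ1_smooth : 𝓜.Smooth 𝔚.χ1
  χ2_smooth : 𝒴.Smooth 𝔚.χ2
  δ1_mem : ∀ x ∈ 𝓜.carrier, 𝔚.δ1 x ∈ Set.Icc (0 : ℝ) 1
  δ2_mem : ∀ y ∈ 𝒴.carrier, 𝔚.δ2 y ∈ Set.Icc (0 : ℝ) 1
  χ1_mem : ∀ x ∈ 𝓜.carrier, 𝔚.χ1 x ∈ Set.Icc (0 : ℝ) 1
  χ2_mem : ∀ y ∈ 𝒴.carrier, 𝔚.χ2 y ∈ Set.Icc (0 : ℝ) 1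
  /-- the closed boundary region is compact -/
  compact : ∃ K : Set (CotAmb V), IsCompact K ∧ K ⊆ 𝒴.carrier ∧ 𝔚.reg 𝒴 ⊆ K
  /-- (5.24), pointwise: `γ₀ (p(W_b) - ∂_t N - ∂_t d_0) ≤ err` -/
  sympl : ∀ (Φ : CE (Fin n) → V) (U : Set (CE (Fin n))), 𝓜.IsHol Φ U → ∀ p ∈ cotDom U,
    cotParam Φ p ∈ 𝔚.reg 𝒴 → ∀ t ∈ Set.Ioo (0 : ℝ) T,
    𝔚.gam0 D (cotParam Φ p) t *
      (sympP (levi (fun p' => 𝔚.cost D (cotParam Φ p') t) p) (Jstd (Fin n))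
        - deriv (fun s => D.N (cotParam Φ p) s) t - 𝔚.d0t t (cotParam Φ p).1) ≤ err
  /-- (5.23), pointwise: `- log γ₀ ≤ A1 d + A2 N` -/
  loss : ∀ y ∈ 𝔚.reg 𝒴, ∀ t ∈ Set.Icc (0 : ℝ) T,
    - Real.log (𝔚.gam0 D y t) ≤ A1 * 𝔚.dc y t + A2 * D.N y t

/-- a disc with its centre data: `f(0) = cotParam Φ p`, physical time `s` at the centre. -/
structure Config (V : Type) [NormedAddCommGroup V] [InnerProductSpace ℝ V] (n : ℕ) where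
  p : CE (Fin n ⊕ Fin n)
  s : ℝ
  f : ℂ → CotAmb V
  w : ℂ → ℂ

/-- the time `t = s e^{w + \bar w}`. -/
noncomputable def Config.time (c : Config V n) (ζ : ℂ) : ℝ := c.s * Real.exp (2 * (c.w ζ).re)

/-- admissible configurations (discs smooth on the closed disc, boundary in the open region, centre
in the cylinder). -/
structure IsAdm (X : S5Ctx V n) (𝔚 : Walls V) (𝒴 : CMfd (CotAmb V) (Fin n ⊕ Fin n))
    (c : Config V n) : Prop where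
  p_mem : c.p ∈ Metric.closedBall X.p₀ X.rc
  s_mem : c.s ∈ Set.Icc (X.s₀ - X.rc) (X.s₀ + X.rc)
  disc : IsSmDisc 𝒴 c.f
  w_hol : HolSm c.w
  f_zero : c.f 0 = cotParam X.Φ c.p
  w_zero : c.w 0 = 0
  time_lt : ∀ ζ ∈ uDiscC, c.time ζ < X.T
  bdry : ∀ ζ ∈ uCirc, c.f ζ ∈ 𝔚.reg 𝒴

/-- admissible configurations which extend holomorphically past the circle. -/
def IsAdmX (X : S5Ctx V n) (𝔚 : Walls V) (𝒴 : CMfd (CotAmb V) (Fin n ⊕ Fin n))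
    (c : Config V n) : Prop :=
  IsAdm X 𝔚 𝒴 c ∧ ∃ r : ℝ, 1 < r ∧ IsHolDisc 𝒴 c.f r ∧ DifferentiableOn ℂ c.w (Metric.ball 0 r)

/-- the energy (5.6), without the Gauss area. -/
noncomputable def energy5 (X : S5Ctx V n) (𝔚 : Walls V) (𝓜 : CMfd V (Fin n)) (g : HFam V (Fin n))
    (c : Config V n) : ℝ :=
  areaG 𝓜 g c.f + DsqV (fun ζ => (X.G (c.f ζ) : Fin X.q → ℂ)) + Dsq c.w +
    DsqR (fun ζ => Real.log (𝔚.pw (c.f ζ)))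

/-- the boundary average `⟨N(f, t) + d(f, t)⟩`. -/
noncomputable def bdry5 (𝔚 : Walls V) (D : FlowData 𝓜 g o) (c : Config V n) : ℝ :=
  cA fun ζ => 𝔚.cost D (c.f ζ) (c.time ζ)

/-- the penalised functional (5.7). -/
noncomputable def fun5 (X : S5Ctx V n) (𝔚 : Walls V) (D : FlowData 𝓜 g o) (ε : ℝ)
    (c : Config V n) : ℝ :=
  bdry5 𝔚 D c + ε * energy5 X 𝔚 𝓜 g c - X.φ c.s c.p

/-- its infimum `μ_{j,ε}`. -/
noncomputable def mu5 (X : S5Ctx V n) (𝔚 : Walls V) (D : FlowData 𝓜 g o)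
    (𝒴 : CMfd (CotAmb V) (Fin n ⊕ Fin n)) (ε : ℝ) : ℝ :=
  sInf {a : ℝ | ∃ c : Config V n, IsAdm X 𝔚 𝒴 c ∧ a = fun5 X 𝔚 D ε c}

/-- the weight `m = p^a ∘ f` on the circle. -/
noncomputable def Config.mw (c : Config V n) (𝔚 : Walls V) (ζ : ℂ) : ℝ := 𝔚.pw (c.f ζ) ^ 𝔚.a

/-- `γ₀` along the boundary. -/
noncomputable def Config.g0 (c : Config V n) (𝔚 : Walls V) (D : FlowData 𝓜 g o) (ζ : ℂ) : ℝ :=
  𝔚.gam0 D (c.f ζ) (c.time ζ)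

/-- the normalised clock weight `γ = γ₀ / ⟨γ₀⟩`. -/
noncomputable def Config.gam (c : Config V n) (𝔚 : Walls V) (D : FlowData 𝓜 g o) (ζ : ℂ) : ℝ :=
  c.g0 𝔚 D ζ / cA (c.g0 𝔚 D)

/-- the boundary symbol `T_b = m² E_f^* W_b E_f` (5.15). -/
noncomputable def Config.Tb (c : Config V n) (X : S5Ctx V n) (𝔚 : Walls V) (D : FlowData 𝓜 g o)
    (𝒴 : CMfd (CotAmb V) (Fin n ⊕ Fin n)) (U : ℂ → Matrix (Fin X.q) (Fin n ⊕ Fin n) ℂ) (ζ : ℂ) :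
    Matrix (Fin n ⊕ Fin n) (Fin n ⊕ Fin n) ℂ :=
  (U ζ)ᴴ * 𝔚.symb D 𝒴 X.G (c.f ζ) (c.time ζ) * U ζ

/-- the packet of a configuration with a frame. -/
noncomputable def mkPacket (X : S5Ctx V n) (𝔚 : Walls V) (D : FlowData 𝓜 g o)
    (𝒴 : CMfd (CotAmb V) (Fin n ⊕ Fin n)) (c : Config V n)
    (U : ℂ → Matrix (Fin X.q) (Fin n ⊕ Fin n) ℂ)
    (JE : ℂ → Matrix (Fin n ⊕ Fin n) (Fin n ⊕ Fin n) ℂ)
    (S0 : Matrix (Fin n ⊕ Fin n) (Fin n ⊕ Fin n) ℂ) : Packet (Fin n ⊕ Fin n) where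
  Tb := c.Tb X 𝔚 D 𝒴 U
  JE := JE
  om := fun ζ => c.time ζ / c.s * c.gam 𝔚 D ζ * (c.mw 𝔚 ζ ^ 4)⁻¹
  h0 := Real.exp (cA fun ζ => Real.log (c.mw 𝔚 ζ))
  lg := cA fun ζ => Real.log (c.gam 𝔚 D ζ)
  S0 := S0
  Wc := levi (X.φ c.s) c.p
  ds := deriv (fun s => X.φ s c.p) c.s
  En := energy5 X 𝔚 𝓜 g c

/-- the packets of the configurations (extending past the circle) with excess `≤ η`, with a frame
obeying the boundary bounds with the constant `CF`. -/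
def Adm5 (X : S5Ctx V n) (𝔚 : Walls V) (D : FlowData 𝓜 g o)
    (𝒴 : CMfd (CotAmb V) (Fin n ⊕ Fin n)) (CF : ℝ) (ε η : ℝ) (P : Packet (Fin n ⊕ Fin n)) : Prop :=
  ∃ (c : Config V n) (U : ℂ → Matrix (Fin X.q) (Fin n ⊕ Fin n) ℂ)
    (JE : ℂ → Matrix (Fin n ⊕ Fin n) (Fin n ⊕ Fin n) ℂ)
    (S0 : Matrix (Fin n ⊕ Fin n) (Fin n ⊕ Fin n) ℂ),
    IsAdmX X 𝔚 𝒴 c ∧ fun5 X 𝔚 D ε c ≤ mu5 X 𝔚 D 𝒴 ε + η ∧
    IsFrame 𝓜 X.G c.f U JE ∧ FrameBd CF X.G c.f U JE ∧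
    U 0 = jac (X.G ∘ cotParam X.Φ) c.p * S0 ∧ P = mkPacket X 𝔚 D 𝒴 c U JE S0

end Flow

end Claimed.Agent.R316
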