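import Claimed.Agent.R316.S5.Setup

/-!
# Row 316, Section 5.2: ambient calculus on a complex manifold `𝓧` with an injective holomorphic immersion `G`

(moved out of `S5/Symbol.lean` so that the files of Section 4 upstream of `S5/FromS4.lean` can use it; imports only
`S5/Setup.lean`.)

STATUS: SORRY-FREE (helper110).  Reusable extras: `amb_d1_comp`, `amb_dbar1_comp`, `amb_lap1_comp` (chain rules along a holomorphic curve in `ℂ^κ`),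
`amb_dbar1_congr/_sum/_mul/_hol`, `amb_lap1_congr`, `amb_levi_trans`, `amb_dz_trans`, `amb_dzb_trans`, `amb_gPinv_eq`, `IsHolCurve.eventually_local`,
`IsHolCurve.deriv_G`, `amb_G_antilip`, `amb_glip_core` (abstract parameter space), `amb_continuousOn_G`.

Leaves:
* `S5-G1` : invariance of `ambM`, `gDz`, `gDzb` (formulas in an ARBITRARY parametrisation), chain rules along
  holomorphic curves.
* `S5-G2` `glip_of_smooth`, `glip_param` : smooth ⇒ bounded and `G`-Lipschitz on compacts.  Proof by contradiction: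
  sequences `(y_k, y'_k)` with quotient `→ ∞`; by compactness `y_k → y`, `y'_k → y'`; if `y ≠ y'` then `|G y_k - G y'_k|`
  stays away from `0` (injectivity, continuity) and `β` is bounded; if `y = y'` work in one parametrisation `Ψ` around
  `y` on a convex compact neighbourhood: `β ∘ Ψ` is Lipschitz and `|G Ψ p - G Ψ p'| ≥ c |p - p'|` (immersion, `C¹`).
* `S5-G4` (part) `circSm_comp`, `IsSmDisc.holSm_G`, `Dsq_comp_le`.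
-/

set_option autoImplicit false
set_option linter.unusedSectionVars false
set_option maxSynthPendingDepth 3
open scoped ContDiff ComplexOrder Topology Matrix
open MeasureTheory Filter

namespace Claimed.Agent.R316

section OneVar

variable {κ : Type} [Fintype κ] [DecidableEq κ]

theorem amb_fderiv_curve {c : ℂ → CE κ} {z : ℂ} (hc : DifferentiableAt ℂ c z) (v : ℂ) :
    fderiv ℝ c z v = v • deriv c z := by
  rw [hc.fderiv_restrictScalars ℝ]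
  show fderiv ℂ c z v = _
  have h := (fderiv ℂ c z).map_smul v 1
  rw [smul_eq_mul, mul_one] at h
  rw [h]
  rfl

theorem amb_fderiv_comp_curve {b : CE κ → ℂ} {c : ℂ → CE κ} {z : ℂ} (hc : DifferentiableAt ℂ c z)
    (hb : DifferentiableAt ℝ b (c z)) (v : ℂ) :
    fderiv ℝ (b ∘ c) z v = fderiv ℝ b (c z) (v • deriv c z) := by
  rw [fderiv_comp z hb (hc.restrictScalars ℝ)]
  simp [amb_fderiv_curve hc]

theorem amb_d1_comp {b : CE κ → ℂ} {c : ℂ → CE κ} {z : ℂ} (hc : DifferentiableAt ℂ c z)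
    (hb : DifferentiableAt ℝ b (c z)) :
    d1 (b ∘ c) z = ∑ k, dz k b (c z) * deriv c z k := by
  unfold d1
  rw [amb_fderiv_comp_curve hc hb, amb_fderiv_comp_curve hc hb, fderiv_eq_sum, fderiv_eq_sum,
    Finset.mul_sum, ← Finset.sum_sub_distrib, Finset.mul_sum]
  refine Finset.sum_congr rfl fun k _ => ?_
  simp only [one_smul, WithLp.ofLp_smul, Pi.smul_apply, smul_eq_mul, map_mul, Complex.conj_I]
  have hI : Complex.I * Complex.I = -1 := Complex.I_mul_I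
  linear_combination ((1 / 2 : ℂ) * (-(dz k b (c z) * deriv c z k)
    + dzb k b (c z) * (starRingEnd ℂ) (deriv c z k))) * hI

theorem amb_dbar1_comp {b : CE κ → ℂ} {c : ℂ → CE κ} {z : ℂ} (hc : DifferentiableAt ℂ c z)
    (hb : DifferentiableAt ℝ b (c z)) :
    dbar1 (b ∘ c) z = ∑ k, dzb k b (c z) * (starRingEnd ℂ) (deriv c z k) := by
  unfold dbar1
  rw [amb_fderiv_comp_curve hc hb, amb_fderiv_comp_curve hc hb, fderiv_eq_sum, fderiv_eq_sum,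
    Finset.mul_sum, ← Finset.sum_add_distrib, Finset.mul_sum]
  refine Finset.sum_congr rfl fun k _ => ?_
  simp only [one_smul, WithLp.ofLp_smul, Pi.smul_apply, smul_eq_mul, map_mul, Complex.conj_I]
  have hI : Complex.I * Complex.I = -1 := Complex.I_mul_I
  linear_combination ((1 / 2 : ℂ) * ((dz k b (c z) * deriv c z k)
    - dzb k b (c z) * (starRingEnd ℂ) (deriv c z k))) * hI

theorem amb_dbar1_congr {u v : ℂ → ℂ} {z : ℂ} (h : u =ᶠ[𝓝 z] v) : dbar1 u z = dbar1 v z := by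
  unfold dbar1
  rw [h.fderiv_eq]

theorem amb_d1_congr {u v : ℂ → ℂ} {z : ℂ} (h : u =ᶠ[𝓝 z] v) : d1 u z = d1 v z := by
  unfold d1
  rw [h.fderiv_eq]

theorem amb_dbar1_sum {ι : Type} (s : Finset ι) {u : ι → ℂ → ℂ} {z : ℂ}
    (h : ∀ i ∈ s, DifferentiableAt ℝ (u i) z) :
    dbar1 (fun y => ∑ i ∈ s, u i y) z = ∑ i ∈ s, dbar1 (u i) z := by
  unfold dbar1
  rw [fderiv_fun_sum h]
  simp only [_root_.sum_apply, Finset.mul_sum, ← Finset.sum_add_distrib]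

theorem amb_dbar1_mul {u v : ℂ → ℂ} {z : ℂ} (hu : DifferentiableAt ℝ u z)
    (hv : DifferentiableAt ℝ v z) :
    dbar1 (fun y => u y * v y) z = dbar1 u z * v z + u z * dbar1 v z := by
  unfold dbar1
  have h : fderiv ℝ (fun y => u y * v y) z = u z • fderiv ℝ v z + v z • fderiv ℝ u z :=
    (hu.hasFDerivAt.mul hv.hasFDerivAt).fderiv
  rw [h]
  simp only [_root_.add_apply, _root_.smul_apply, smul_eq_mul]
  ring

theorem amb_dbar1_hol {u : ℂ → ℂ} {z : ℂ} (hu : DifferentiableAt ℂ u z) : dbar1 u z = 0 := by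
  unfold dbar1
  rw [hu.fderiv_restrictScalars ℝ]
  show (1 / 2 : ℂ) * (fderiv ℂ u z 1 + Complex.I * fderiv ℂ u z Complex.I) = 0
  have h : fderiv ℂ u z Complex.I = Complex.I * fderiv ℂ u z 1 := by
    have := (fderiv ℂ u z).map_smul Complex.I 1
    rwa [smul_eq_mul, mul_one, smul_eq_mul] at this
  rw [h]
  have hI : Complex.I * Complex.I = -1 := Complex.I_mul_I
  linear_combination ((1 / 2 : ℂ) * fderiv ℂ u z 1) * hI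

theorem amb_differentiableAt_deriv {c : ℂ → CE κ} {z : ℂ}
    (hc : ∀ᶠ y in 𝓝 z, DifferentiableAt ℂ c y) : DifferentiableAt ℂ (deriv c) z := by
  obtain ⟨O, hO, hOo, hz⟩ := eventually_nhds_iff.1 hc
  have h1 : DifferentiableOn ℂ c O := fun y hy => (hO y hy).differentiableWithinAt
  exact ((h1.deriv hOo) z hz).differentiableAt (hOo.mem_nhds hz)

/-- `∂_z ∂_{\bar z}` of a function along a holomorphic curve in `ℂ^κ`. -/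
theorem amb_lap1_comp {b : CE κ → ℝ} {c : ℂ → CE κ} {z : ℂ}
    (hc : ∀ᶠ y in 𝓝 z, DifferentiableAt ℂ c y) (hb : ContDiffAt ℝ 2 b (c z)) :
    lap1 (b ∘ c) z = qf (levi b (c z)) (fun k => deriv c z k) := by
  have hcz := hc.self_of_nhds
  have hbev : ∀ᶠ y in 𝓝 z, DifferentiableAt ℝ b (c y) :=
    hcz.continuousAt.eventually (lv_eventually_differentiableAt_real hb)
  have h1 : (fun y => d1 (fun x => (((b ∘ c) x : ℝ) : ℂ)) y)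
      =ᶠ[𝓝 z] fun y => ∑ k, grad10 b (c y) k * deriv c y k := by
    filter_upwards [hc, hbev] with y h1 h2
    exact amb_d1_comp (b := fun w => ((b w : ℝ) : ℂ)) h1
      (Complex.ofRealCLM.differentiableAt.comp _ h2)
  have hA : ∀ k, DifferentiableAt ℝ (fun y => grad10 b (c y) k) z := fun k =>
    (lv_differentiableAt_grad10 (k := k) hb).comp z (hcz.restrictScalars ℝ)
  have hBc : ∀ k, DifferentiableAt ℂ (fun y => deriv c y k) z := fun k =>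
    ((EuclideanSpace.proj k : CE κ →L[ℂ] ℂ).differentiableAt).comp z (amb_differentiableAt_deriv hc)
  unfold lap1
  rw [amb_dbar1_congr h1, amb_dbar1_sum (u := fun k y => grad10 b (c y) k * deriv c y k) _
    fun k _ => (hA k).mul ((hBc k).restrictScalars ℝ)]
  have hterm : ∀ k, dbar1 (fun y => grad10 b (c y) k * deriv c y k) z
      = (∑ j, levi b (c z) j k * (starRingEnd ℂ) (deriv c z j)) * deriv c z k := by
    intro k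
    rw [amb_dbar1_mul (hA k) ((hBc k).restrictScalars ℝ), amb_dbar1_hol (hBc k), mul_zero, add_zero]
    congr 1
    exact amb_dbar1_comp (b := fun w => grad10 b w k) hcz (lv_differentiableAt_grad10 hb)
  rw [Finset.sum_congr rfl fun k _ => hterm k]
  unfold qf
  congr 1
  simp only [dotProduct, Matrix.mulVec, Finset.mul_sum, Finset.sum_mul, Pi.star_apply]
  rw [Finset.sum_comm]
  refine Finset.sum_congr rfl fun j _ => Finset.sum_congr rfl fun k _ => ?_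
  simp only [RCLike.star_def]
  ring

end OneVar

section Amb

variable {V' : Type} [NormedAddCommGroup V'] [NormedSpace ℝ V'] [FiniteDimensional ℝ V']
variable {κ : Type} [Fintype κ] [DecidableEq κ] {q : ℕ}
variable {𝓧 : CMfd V' κ} {G : V' → CE (Fin q)}

/-- Moore-Penrose inverse of the Jacobian of `G` in the parametrisation `Ψ`. -/
noncomputable def pinvJ (G : V' → CE (Fin q)) (Ψ : CE κ → V') (p : CE κ) : Matrix κ (Fin q) ℂ :=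
  ((jac (G ∘ Ψ) p)ᴴ * jac (G ∘ Ψ) p)⁻¹ * (jac (G ∘ Ψ) p)ᴴ

theorem amb_jac_injective (hG : GImm 𝓧 G) {Ψ : CE κ → V'} {W : Set (CE κ)} (hΨ : 𝓧.IsHol Ψ W)
    {p : CE κ} (hp : p ∈ W) : Function.Injective (jac (G ∘ Ψ) p).mulVec := by
  intro v w hvw
  have h := hG.imm _ _ hΨ p hp
  have h1 : fderiv ℂ (G ∘ Ψ) p (WithLp.toLp 2 v) = fderiv ℂ (G ∘ Ψ) p (WithLp.toLp 2 w) := by
    ext k
    rw [← jac_mulVec, ← jac_mulVec]
    exact congrFun hvw k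
  exact (WithLp.toLp_injective 2) (h h1)

theorem amb_isUnit_det_gram {J : Matrix (Fin q) κ ℂ} (hJ : Function.Injective J.mulVec) :
    IsUnit (Jᴴ * J).det :=
  (Matrix.isUnit_iff_isUnit_det _).1 (Matrix.PosDef.conjTranspose_mul_self J hJ).isUnit

theorem amb_pinv_mul_unit (J : Matrix (Fin q) κ ℂ) {T : Matrix κ κ ℂ} (hT : IsUnit T.det) :
    ((J * T)ᴴ * (J * T))⁻¹ * (J * T)ᴴ = T⁻¹ * ((Jᴴ * J)⁻¹ * Jᴴ) := by
  have hT' : IsUnit (Tᴴ).det := by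
    rw [Matrix.det_conjTranspose]
    exact hT.star
  rw [Matrix.conjTranspose_mul]
  have h1 : Tᴴ * Jᴴ * (J * T) = Tᴴ * (Jᴴ * J) * T := by simp only [Matrix.mul_assoc]
  rw [h1, Matrix.mul_inv_rev, Matrix.mul_inv_rev]
  calc T⁻¹ * ((Jᴴ * J)⁻¹ * (Tᴴ)⁻¹) * (Tᴴ * Jᴴ)
      = T⁻¹ * ((Jᴴ * J)⁻¹ * ((Tᴴ)⁻¹ * Tᴴ) * Jᴴ) := by simp only [Matrix.mul_assoc]
    _ = T⁻¹ * ((Jᴴ * J)⁻¹ * Jᴴ) := by rw [Matrix.nonsing_inv_mul _ hT', Matrix.mul_one]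

theorem pinvJ_mul_jac (hG : GImm 𝓧 G) {Ψ : CE κ → V'} {W : Set (CE κ)} (hΨ : 𝓧.IsHol Ψ W)
    {p : CE κ} (hp : p ∈ W) : pinvJ G Ψ p * jac (G ∘ Ψ) p = 1 := by
  unfold pinvJ
  rw [Matrix.mul_assoc]
  exact Matrix.nonsing_inv_mul _ (amb_isUnit_det_gram (amb_jac_injective hG hΨ hp))

/-- the point `p` lies in the overlap of `Ψ` with the chosen parametrisation at `Ψ p`. -/
theorem amb_mem_overlap {Ψ : CE κ → V'} {W : Set (CE κ)} (hΨ : 𝓧.IsHol Ψ W)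
    {p : CE κ} (hp : p ∈ W) :
    p ∈ W ∩ Ψ ⁻¹' (𝓧.pΦ (Ψ p) '' 𝓧.pU (Ψ p)) :=
  ⟨hp, 𝓧.mem_image_pΦ (CMfd.mem_carrier hΨ hp)⟩

/-- chain rule for `G` between two parametrisations. -/
theorem amb_jac_G_trans (hG : GImm 𝓧 G) {Ψ Φ : CE κ → V'} {W U : Set (CE κ)} (hΨ : 𝓧.IsHol Ψ W)
    (hΦ : 𝓧.IsHol Φ U) {p : CE κ} (hp : p ∈ W ∩ Ψ ⁻¹' (Φ '' U)) :
    jac (G ∘ Ψ) p = jac (G ∘ Φ) ((Function.invFunOn Φ U ∘ Ψ) p) *
      jac (Function.invFunOn Φ U ∘ Ψ) p := by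
  rw [jac_congr (CMfd.eventually_comp_eq G hΨ hΦ hp), jac_comp _ _ ?_
    (CMfd.trans_differentiableAt hΨ hΦ hp)]
  exact (hG.hol _ _ hΦ _ (CMfd.trans_mem hΨ hΦ hp)).differentiableAt
    ((CMfd.isOpen_dom hΦ).mem_nhds (CMfd.trans_mem hΨ hΦ hp))

/-- `gPinv = T pinvJ`, `T` the Jacobian of the transition to the chosen parametrisation. -/
theorem amb_gPinv_eq (hG : GImm 𝓧 G) {Ψ : CE κ → V'} {W : Set (CE κ)} (hΨ : 𝓧.IsHol Ψ W)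
    {p : CE κ} (hp : p ∈ W) :
    gPinv 𝓧 G (Ψ p) =
      jac (Function.invFunOn (𝓧.pΦ (Ψ p)) (𝓧.pU (Ψ p)) ∘ Ψ) p * pinvJ G Ψ p := by
  have hy := CMfd.mem_carrier hΨ hp
  have hΦ := 𝓧.isHol_pΦ hy
  have hov := amb_mem_overlap hΨ hp
  have hT : IsUnit (jac (Function.invFunOn (𝓧.pΦ (Ψ p)) (𝓧.pU (Ψ p)) ∘ Ψ) p).det :=
    (Matrix.isUnit_iff_isUnit_det _).1 (CMfd.isUnit_jac_trans hΨ hΦ hov)
  have hJ := amb_jac_G_trans hG hΨ hΦ hov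
  unfold pinvJ
  rw [hJ, amb_pinv_mul_unit _ hT, ← Matrix.mul_assoc, Matrix.mul_nonsing_inv _ hT, Matrix.one_mul]
  rfl

theorem ambM_eq (hG : GImm 𝓧 G) {A : HFam V' κ} (hA : IsHForm 𝓧 A) {Ψ : CE κ → V'}
    {W : Set (CE κ)} (hΨ : 𝓧.IsHol Ψ W) {p : CE κ} (hp : p ∈ W) :
    ambM 𝓧 G A (Ψ p) = (pinvJ G Ψ p)ᴴ * A Ψ p * pinvJ G Ψ p := by
  have hy := CMfd.mem_carrier hΨ hp
  have hΦ := 𝓧.isHol_pΦ hy
  have hov := amb_mem_overlap hΨ hp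
  unfold ambM
  rw [amb_gPinv_eq hG hΨ hp, hA.compat hΨ hΦ p hp hov.2, Matrix.conjTranspose_mul]
  simp only [Matrix.mul_assoc]
  rfl

theorem amb_contDiffAt_trans {E : Type} [NormedAddCommGroup E] [NormedSpace ℝ E] {β : V' → E}
    {Ψ Φ : CE κ → V'} {W U : Set (CE κ)} (hΨ : 𝓧.IsHol Ψ W)
    (hΦ : 𝓧.IsHol Φ U) {p : CE κ} (hp : p ∈ W ∩ Ψ ⁻¹' (Φ '' U)) {m : WithTop ℕ∞} (hm : m ≤ ∞)
    (hβ : ContDiffAt ℝ m (β ∘ Ψ) p) :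
    ContDiffAt ℝ m (β ∘ Φ) ((Function.invFunOn Φ U ∘ Ψ) p) := by
  have hov' := CMfd.trans_mapsTo hΨ hΦ hp
  have hback : (Function.invFunOn Ψ W ∘ Φ) ((Function.invFunOn Φ U ∘ Ψ) p) = p :=
    CMfd.trans_leftInv hΨ hΦ hp
  have h1 : ContDiffAt ℝ m (Function.invFunOn Ψ W ∘ Φ) ((Function.invFunOn Φ U ∘ Ψ) p) :=
    (CMfd.trans_contDiffAt hΦ hΨ hov').of_le hm
  have h2 : ContDiffAt ℝ m (β ∘ Ψ) ((Function.invFunOn Ψ W ∘ Φ) ((Function.invFunOn Φ U ∘ Ψ) p)) := by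
    rw [hback]; exact hβ
  exact (h2.comp _ h1).congr_of_eventuallyEq (CMfd.eventually_comp_eq β hΦ hΨ hov')

theorem amb_differentiableAt_trans {E : Type} [NormedAddCommGroup E] [NormedSpace ℝ E] {β : V' → E}
    {Ψ Φ : CE κ → V'} {W U : Set (CE κ)} (hΨ : 𝓧.IsHol Ψ W)
    (hΦ : 𝓧.IsHol Φ U) {p : CE κ} (hp : p ∈ W ∩ Ψ ⁻¹' (Φ '' U))
    (hβ : DifferentiableAt ℝ (β ∘ Ψ) p) :
    DifferentiableAt ℝ (β ∘ Φ) ((Function.invFunOn Φ U ∘ Ψ) p) := by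
  have hov' := CMfd.trans_mapsTo hΨ hΦ hp
  have hback : (Function.invFunOn Ψ W ∘ Φ) ((Function.invFunOn Φ U ∘ Ψ) p) = p :=
    CMfd.trans_leftInv hΨ hΦ hp
  have h1 := (CMfd.trans_differentiableAt hΦ hΨ hov').restrictScalars ℝ
  have h2 : DifferentiableAt ℝ (β ∘ Ψ)
      ((Function.invFunOn Ψ W ∘ Φ) ((Function.invFunOn Φ U ∘ Ψ) p)) := by
    rw [hback]; exact hβ
  exact (h2.comp _ h1).congr_of_eventuallyEq (CMfd.eventually_comp_eq β hΦ hΨ hov')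

theorem amb_levi_trans {β : V' → ℝ} {Ψ Φ : CE κ → V'} {W U : Set (CE κ)} (hΨ : 𝓧.IsHol Ψ W)
    (hΦ : 𝓧.IsHol Φ U) {p : CE κ} (hp : p ∈ W ∩ Ψ ⁻¹' (Φ '' U))
    (hβ : ContDiffAt ℝ 2 (β ∘ Ψ) p) :
    levi (β ∘ Ψ) p = (jac (Function.invFunOn Φ U ∘ Ψ) p)ᴴ *
      levi (β ∘ Φ) ((Function.invFunOn Φ U ∘ Ψ) p) * jac (Function.invFunOn Φ U ∘ Ψ) p := by
  have h1 : levi (β ∘ Ψ) p = levi ((β ∘ Φ) ∘ (Function.invFunOn Φ U ∘ Ψ)) p :=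
    levi_congr (CMfd.eventually_comp_eq β hΨ hΦ hp)
  have h2 := amb_contDiffAt_trans hΨ hΦ hp (m := 2) (by norm_cast) hβ
  have h3 := levi_comp_hol (Function.invFunOn Φ U ∘ Ψ) (β ∘ Φ)
    (CMfd.trans_eventually_differentiableAt hΨ hΦ hp) h2
  rw [h1]
  exact h3

theorem amb_dz_trans {β : V' → ℂ} {Ψ Φ : CE κ → V'} {W U : Set (CE κ)} (hΨ : 𝓧.IsHol Ψ W)
    (hΦ : 𝓧.IsHol Φ U) {p : CE κ} (hp : p ∈ W ∩ Ψ ⁻¹' (Φ '' U))
    (hβ : DifferentiableAt ℝ (β ∘ Ψ) p) (k : κ) :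
    dz k (β ∘ Ψ) p = ∑ l, dz l (β ∘ Φ) ((Function.invFunOn Φ U ∘ Ψ) p) *
      jac (Function.invFunOn Φ U ∘ Ψ) p l k := by
  have h1 : dz k (β ∘ Ψ) p = dz k ((β ∘ Φ) ∘ (Function.invFunOn Φ U ∘ Ψ)) p :=
    dz_congr (CMfd.eventually_comp_eq β hΨ hΦ hp)
  have h3 := dz_comp_hol (j := k) (Function.invFunOn Φ U ∘ Ψ) (β ∘ Φ)
    (CMfd.trans_differentiableAt hΨ hΦ hp) (amb_differentiableAt_trans hΨ hΦ hp hβ)
  rw [h1]
  exact h3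

theorem amb_dzb_trans {β : V' → ℂ} {Ψ Φ : CE κ → V'} {W U : Set (CE κ)} (hΨ : 𝓧.IsHol Ψ W)
    (hΦ : 𝓧.IsHol Φ U) {p : CE κ} (hp : p ∈ W ∩ Ψ ⁻¹' (Φ '' U))
    (hβ : DifferentiableAt ℝ (β ∘ Ψ) p) (k : κ) :
    dzb k (β ∘ Ψ) p = ∑ l, dzb l (β ∘ Φ) ((Function.invFunOn Φ U ∘ Ψ) p) *
      (starRingEnd ℂ) (jac (Function.invFunOn Φ U ∘ Ψ) p l k) := by
  have h1 : dzb k (β ∘ Ψ) p = dzb k ((β ∘ Φ) ∘ (Function.invFunOn Φ U ∘ Ψ)) p :=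
    dzb_congr (CMfd.eventually_comp_eq β hΨ hΦ hp)
  have h3 := dzb_comp_hol (j := k) (Function.invFunOn Φ U ∘ Ψ) (β ∘ Φ)
    (CMfd.trans_differentiableAt hΨ hΦ hp) (amb_differentiableAt_trans hΨ hΦ hp hβ)
  rw [h1]
  exact h3

/-- local version for `dd β`, `β` smooth near the point only. -/
theorem ambM_ddc_eq (hG : GImm 𝓧 G) {β : V' → ℝ} {Ψ : CE κ → V'} {W : Set (CE κ)}
    (hΨ : 𝓧.IsHol Ψ W) {p : CE κ} (hp : p ∈ W) (hβ : ContDiffAt ℝ 2 (β ∘ Ψ) p) :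
    ambM 𝓧 G (ddc β) (Ψ p) = (pinvJ G Ψ p)ᴴ * levi (β ∘ Ψ) p * pinvJ G Ψ p := by
  have hy := CMfd.mem_carrier hΨ hp
  have hΦ := 𝓧.isHol_pΦ hy
  have hov := amb_mem_overlap hΨ hp
  unfold ambM
  rw [amb_gPinv_eq hG hΨ hp, amb_levi_trans hΨ hΦ hov hβ, Matrix.conjTranspose_mul]
  simp only [Matrix.mul_assoc]
  rfl

/-- consequence: contraction with a frame matrix `U = J S`. -/
theorem conj_ambM_ddc (hG : GImm 𝓧 G) {β : V' → ℝ} {Ψ : CE κ → V'} {W : Set (CE κ)}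
    (hΨ : 𝓧.IsHol Ψ W) {p : CE κ} (hp : p ∈ W) (hβ : ContDiffAt ℝ 2 (β ∘ Ψ) p)
    (S : Matrix κ κ ℂ) :
    (jac (G ∘ Ψ) p * S)ᴴ * ambM 𝓧 G (ddc β) (Ψ p) * (jac (G ∘ Ψ) p * S) =
      Sᴴ * levi (β ∘ Ψ) p * S := by
  have h1 := pinvJ_mul_jac hG hΨ hp
  have h2 : (jac (G ∘ Ψ) p)ᴴ * (pinvJ G Ψ p)ᴴ = 1 := by
    rw [← Matrix.conjTranspose_mul, h1, Matrix.conjTranspose_one]
  rw [ambM_ddc_eq hG hΨ hp hβ, Matrix.conjTranspose_mul]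
  calc Sᴴ * (jac (G ∘ Ψ) p)ᴴ * ((pinvJ G Ψ p)ᴴ * levi (β ∘ Ψ) p * pinvJ G Ψ p) *
        (jac (G ∘ Ψ) p * S)
      = Sᴴ * ((jac (G ∘ Ψ) p)ᴴ * (pinvJ G Ψ p)ᴴ) * levi (β ∘ Ψ) p *
        ((pinvJ G Ψ p * jac (G ∘ Ψ) p) * S) := by simp only [Matrix.mul_assoc]
    _ = Sᴴ * levi (β ∘ Ψ) p * S := by rw [h1, h2, Matrix.mul_one, Matrix.one_mul]

theorem gDz_eq (hG : GImm 𝓧 G) {β : V' → ℂ} {Ψ : CE κ → V'} {W : Set (CE κ)}
    (hΨ : 𝓧.IsHol Ψ W) {p : CE κ} (hp : p ∈ W) (hβ : DifferentiableAt ℝ (β ∘ Ψ) p) (r : Fin q) :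
    gDz 𝓧 G β (Ψ p) r = ∑ k, dz k (β ∘ Ψ) p * pinvJ G Ψ p k r := by
  have hy := CMfd.mem_carrier hΨ hp
  have hΦ := 𝓧.isHol_pΦ hy
  have hov := amb_mem_overlap hΨ hp
  unfold gDz
  rw [amb_gPinv_eq hG hΨ hp]
  simp only [amb_dz_trans hΨ hΦ hov hβ, Matrix.mul_apply, Finset.mul_sum, Finset.sum_mul]
  rw [Finset.sum_comm]
  refine Finset.sum_congr rfl fun k _ => Finset.sum_congr rfl fun l _ => ?_
  rw [mul_assoc]
  rfl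

theorem gDzb_eq (hG : GImm 𝓧 G) {β : V' → ℂ} {Ψ : CE κ → V'} {W : Set (CE κ)}
    (hΨ : 𝓧.IsHol Ψ W) {p : CE κ} (hp : p ∈ W) (hβ : DifferentiableAt ℝ (β ∘ Ψ) p) (r : Fin q) :
    gDzb 𝓧 G β (Ψ p) r = ∑ k, dzb k (β ∘ Ψ) p * star (pinvJ G Ψ p k r) := by
  have hy := CMfd.mem_carrier hΨ hp
  have hΦ := 𝓧.isHol_pΦ hy
  have hov := amb_mem_overlap hΨ hp
  unfold gDzb
  rw [amb_gPinv_eq hG hΨ hp]
  simp only [amb_dzb_trans hΨ hΦ hov hβ, Matrix.mul_apply, Finset.mul_sum, Finset.sum_mul,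
    star_sum, star_mul']
  rw [Finset.sum_comm]
  refine Finset.sum_congr rfl fun k _ => Finset.sum_congr rfl fun l _ => ?_
  rw [mul_assoc]
  rfl

/-- `γ : Ω → 𝓧` is a holomorphic curve (`Ω ⊆ ℂ` open). -/
def IsHolCurve (𝓧 : CMfd V' κ) (γ : ℂ → V') (Ω : Set ℂ) : Prop :=
  IsOpen Ω ∧ (∀ z ∈ Ω, γ z ∈ 𝓧.carrier) ∧ ContinuousOn γ Ω ∧
  ∀ (Ψ : CE κ → V') (W : Set (CE κ)), 𝓧.IsHol Ψ W →
    DifferentiableOn ℂ (Function.invFunOn Ψ W ∘ γ) (Ω ∩ γ ⁻¹' (Ψ '' W))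

/-- `β` is smooth on the relatively open subset `𝓧 ∩ O`. -/
def SmoothOnC (𝓧 : CMfd V' κ) (O : Set V') (β : V' → ℂ) : Prop :=
  ∀ (Ψ : CE κ → V') (W : Set (CE κ)), 𝓧.IsHol Ψ W → ContDiffOn ℝ ∞ (β ∘ Ψ) (W ∩ Ψ ⁻¹' O)

theorem IsHolCurve.isOpen_inter {γ : ℂ → V'} {Ω : Set ℂ} (hγ : IsHolCurve 𝓧 γ Ω)
    {Ψ : CE κ → V'} {W : Set (CE κ)} (hΨ : 𝓧.IsHol Ψ W) : IsOpen (Ω ∩ γ ⁻¹' (Ψ '' W)) := by
  obtain ⟨O, hO, hOeq⟩ := (𝓧.isParam hΨ).image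
  have h : Ω ∩ γ ⁻¹' (Ψ '' W) = Ω ∩ γ ⁻¹' O := by
    ext z
    constructor
    · rintro ⟨hz, hz'⟩
      have : γ z ∈ 𝓧.carrier ∩ O := hOeq ▸ hz'
      exact ⟨hz, this.2⟩
    · rintro ⟨hz, hz'⟩
      refine ⟨hz, ?_⟩
      show γ z ∈ Ψ '' W
      rw [hOeq]
      exact ⟨hγ.2.1 z hz, hz'⟩
  rw [h]
  exact hγ.2.2.1.isOpen_inter_preimage hγ.1 hO

/-- the curve in local coordinates. -/
theorem IsHolCurve.eventually_local {γ : ℂ → V'} {Ω : Set ℂ} (hγ : IsHolCurve 𝓧 γ Ω)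
    {Ψ : CE κ → V'} {W : Set (CE κ)} (hΨ : 𝓧.IsHol Ψ W) {z : ℂ} (hz : z ∈ Ω)
    (hzΨ : γ z ∈ Ψ '' W) :
    ∀ᶠ y in 𝓝 z, DifferentiableAt ℂ (Function.invFunOn Ψ W ∘ γ) y ∧
      (Function.invFunOn Ψ W ∘ γ) y ∈ W ∧ Ψ ((Function.invFunOn Ψ W ∘ γ) y) = γ y := by
  have ho := hγ.isOpen_inter hΨ
  filter_upwards [ho.mem_nhds ⟨hz, hzΨ⟩] with y hy
  exact ⟨(hγ.2.2.2 Ψ W hΨ y hy).differentiableAt (ho.mem_nhds hy), Function.invFunOn_mem hy.2,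
    Function.invFunOn_eq hy.2⟩

theorem IsHolCurve.eventually_comp_eq {α : Type} (u : V' → α) {γ : ℂ → V'} {Ω : Set ℂ}
    (hγ : IsHolCurve 𝓧 γ Ω) {Ψ : CE κ → V'} {W : Set (CE κ)} (hΨ : 𝓧.IsHol Ψ W) {z : ℂ}
    (hz : z ∈ Ω) (hzΨ : γ z ∈ Ψ '' W) :
    u ∘ γ =ᶠ[𝓝 z] (u ∘ Ψ) ∘ (Function.invFunOn Ψ W ∘ γ) := by
  filter_upwards [hγ.eventually_local hΨ hz hzΨ] with y hy
  show u (γ y) = u (Ψ ((Function.invFunOn Ψ W ∘ γ) y))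
  rw [hy.2.2]

theorem amb_differentiableAt_G (hG : GImm 𝓧 G) {Ψ : CE κ → V'} {W : Set (CE κ)}
    (hΨ : 𝓧.IsHol Ψ W) {p : CE κ} (hp : p ∈ W) : DifferentiableAt ℂ (G ∘ Ψ) p :=
  (hG.hol _ _ hΨ p hp).differentiableAt ((CMfd.isOpen_dom hΨ).mem_nhds hp)

theorem IsHolCurve.differentiableOn_G (hG : GImm 𝓧 G) {γ : ℂ → V'} {Ω : Set ℂ}
    (hγ : IsHolCurve 𝓧 γ Ω) : DifferentiableOn ℂ (G ∘ γ) Ω := by
  intro z hz
  obtain ⟨Ψ, W, hΨ, hzΨ⟩ := 𝓧.cover (γ z) (hγ.2.1 z hz)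
  have h0 := (hγ.eventually_local hΨ hz hzΨ).self_of_nhds
  have h1 := (amb_differentiableAt_G hG hΨ h0.2.1).comp z h0.1
  exact (h1.congr_of_eventuallyEq (hγ.eventually_comp_eq G hΨ hz hzΨ)).differentiableWithinAt

/-- the velocity of `G ∘ γ` in coordinates. -/
theorem IsHolCurve.deriv_G (hG : GImm 𝓧 G) {γ : ℂ → V'} {Ω : Set ℂ} (hγ : IsHolCurve 𝓧 γ Ω)
    {Ψ : CE κ → V'} {W : Set (CE κ)} (hΨ : 𝓧.IsHol Ψ W) {z : ℂ} (hz : z ∈ Ω)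
    (hzΨ : γ z ∈ Ψ '' W) (r : Fin q) :
    deriv (fun y => G (γ y) r) z =
      (jac (G ∘ Ψ) ((Function.invFunOn Ψ W ∘ γ) z) *ᵥ
        fun k => deriv (Function.invFunOn Ψ W ∘ γ) z k) r := by
  have h0 := (hγ.eventually_local hΨ hz hzΨ).self_of_nhds
  have h1 : HasDerivAt ((G ∘ Ψ) ∘ (Function.invFunOn Ψ W ∘ γ))
      (fderiv ℂ (G ∘ Ψ) ((Function.invFunOn Ψ W ∘ γ) z) (deriv (Function.invFunOn Ψ W ∘ γ) z)) z :=
    (amb_differentiableAt_G hG hΨ h0.2.1).hasFDerivAt.comp_hasDerivAt z h0.1.hasDerivAt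
  have h2 := (EuclideanSpace.proj r : CE (Fin q) →L[ℂ] ℂ).hasFDerivAt.comp_hasDerivAt z h1
  have h3 : (fun y => G (γ y) r) =ᶠ[𝓝 z]
      (EuclideanSpace.proj r : CE (Fin q) →L[ℂ] ℂ) ∘ ((G ∘ Ψ) ∘ (Function.invFunOn Ψ W ∘ γ)) := by
    filter_upwards [hγ.eventually_comp_eq G hΨ hz hzΨ] with y hy
    show (G ∘ γ) y r = _
    rw [hy]
    rfl
  rw [h3.deriv_eq, h2.deriv, jac_mulVec]
  rfl

theorem amb_sum_pinv {P : Matrix κ (Fin q) ℂ} {J : Matrix (Fin q) κ ℂ} (h : P * J = 1)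
    (a v : κ → ℂ) : ∑ r, (∑ k, a k * P k r) * (J *ᵥ v) r = ∑ k, a k * v k := by
  have h1 : P *ᵥ (J *ᵥ v) = v := by rw [Matrix.mulVec_mulVec, h, Matrix.one_mulVec]
  calc ∑ r, (∑ k, a k * P k r) * (J *ᵥ v) r
      = ∑ k, a k * (P *ᵥ (J *ᵥ v)) k := by
        simp only [Finset.sum_mul]
        rw [Finset.sum_comm]
        refine Finset.sum_congr rfl fun k _ => ?_
        conv_rhs => rw [Matrix.mulVec, dotProduct, Finset.mul_sum]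
        exact Finset.sum_congr rfl fun r _ => by ring
    _ = ∑ k, a k * v k := by rw [h1]

theorem amb_sum_pinv_star {P : Matrix κ (Fin q) ℂ} {J : Matrix (Fin q) κ ℂ} (h : P * J = 1)
    (a v : κ → ℂ) :
    ∑ r, (∑ k, a k * star (P k r)) * star ((J *ᵥ v) r) = ∑ k, a k * star (v k) := by
  have h1 : P *ᵥ (J *ᵥ v) = v := by rw [Matrix.mulVec_mulVec, h, Matrix.one_mulVec]
  calc ∑ r, (∑ k, a k * star (P k r)) * star ((J *ᵥ v) r)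
      = ∑ k, a k * star ((P *ᵥ (J *ᵥ v)) k) := by
        simp only [Finset.sum_mul]
        rw [Finset.sum_comm]
        refine Finset.sum_congr rfl fun k _ => ?_
        conv_rhs => rw [Matrix.mulVec, dotProduct, star_sum, Finset.mul_sum]
        exact Finset.sum_congr rfl fun r _ => by rw [star_mul']; ring
    _ = ∑ k, a k * star (v k) := by rw [h1]

theorem SmoothOnC.contDiffAt {O : Set V'} (hO : IsOpen O) {β : V' → ℂ} (hβ : SmoothOnC 𝓧 O β)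
    {Ψ : CE κ → V'} {W : Set (CE κ)} (hΨ : 𝓧.IsHol Ψ W) {p : CE κ} (hp : p ∈ W) (hpO : Ψ p ∈ O) :
    ContDiffAt ℝ ∞ (β ∘ Ψ) p :=
  (hβ Ψ W hΨ p ⟨hp, hpO⟩).contDiffAt
    (((𝓧.isParam hΨ).isOpen_inter_preimage hO).mem_nhds ⟨hp, hpO⟩)

/-- first order chain rule along a holomorphic curve. -/
theorem d1_comp_curve (hG : GImm 𝓧 G) {γ : ℂ → V'} {Ω : Set ℂ} (hγ : IsHolCurve 𝓧 γ Ω)
    {O : Set V'} (hO : IsOpen O) {β : V' → ℂ} (hβ : SmoothOnC 𝓧 O β) {z : ℂ} (hz : z ∈ Ω)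
    (hzO : γ z ∈ O) :
    d1 (β ∘ γ) z = ∑ r, gDz 𝓧 G β (γ z) r * deriv (fun y => G (γ y) r) z ∧
    dbar1 (β ∘ γ) z = ∑ r, gDzb 𝓧 G β (γ z) r * star (deriv (fun y => G (γ y) r) z) := by
  obtain ⟨Ψ, W, hΨ, hzΨ⟩ := 𝓧.cover (γ z) (hγ.2.1 z hz)
  have h0 := (hγ.eventually_local hΨ hz hzΨ).self_of_nhds
  have hpO : Ψ ((Function.invFunOn Ψ W ∘ γ) z) ∈ O := by rw [h0.2.2]; exact hzO
  have hb : DifferentiableAt ℝ (β ∘ Ψ) ((Function.invFunOn Ψ W ∘ γ) z) :=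
    (hβ.contDiffAt hO hΨ h0.2.1 hpO).differentiableAt (by simp)
  have hPJ := pinvJ_mul_jac hG hΨ h0.2.1
  have hev := hγ.eventually_comp_eq β hΨ hz hzΨ
  constructor
  · rw [amb_d1_congr hev, amb_d1_comp h0.1 hb]
    simp only [hγ.deriv_G hG hΨ hz hzΨ]
    rw [← h0.2.2]
    simp only [gDz_eq hG hΨ h0.2.1 hb]
    exact (amb_sum_pinv hPJ _ _).symm
  · rw [amb_dbar1_congr hev, amb_dbar1_comp h0.1 hb]
    simp only [hγ.deriv_G hG hΨ hz hzΨ]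
    rw [← h0.2.2]
    simp only [gDzb_eq hG hΨ h0.2.1 hb]
    exact (amb_sum_pinv_star hPJ _ _).symm

theorem amb_lap1_congr {u v : ℂ → ℝ} {z : ℂ} (h : u =ᶠ[𝓝 z] v) : lap1 u z = lap1 v z := by
  unfold lap1
  congr 1
  refine amb_dbar1_congr ?_
  filter_upwards [h.eventually_nhds] with y hy
  refine amb_d1_congr ?_
  filter_upwards [hy] with x hx
  rw [hx]

/-- second order chain rule along a holomorphic curve:
`∂_z ∂_{\bar z} (β ∘ γ) = (dd β)^(γ)(dG γ', dG γ')`. -/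
theorem lap1_comp_curve (hG : GImm 𝓧 G) {γ : ℂ → V'} {Ω : Set ℂ} (hγ : IsHolCurve 𝓧 γ Ω)
    {O : Set V'} (hO : IsOpen O) {β : V' → ℝ} (hβ : SmoothOnC 𝓧 O fun y => (β y : ℂ)) {z : ℂ}
    (hz : z ∈ Ω) (hzO : γ z ∈ O) :
    lap1 (β ∘ γ) z = qf (ambM 𝓧 G (ddc β) (γ z)) (fun r => deriv (fun y => G (γ y) r) z) := by
  obtain ⟨Ψ, W, hΨ, hzΨ⟩ := 𝓧.cover (γ z) (hγ.2.1 z hz)
  have hloc := hγ.eventually_local hΨ hz hzΨ
  have h0 := hloc.self_of_nhds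
  have hpO : Ψ ((Function.invFunOn Ψ W ∘ γ) z) ∈ O := by rw [h0.2.2]; exact hzO
  have hb : ContDiffAt ℝ 2 (β ∘ Ψ) ((Function.invFunOn Ψ W ∘ γ) z) := by
    have h1 := (hβ.contDiffAt hO hΨ h0.2.1 hpO).of_le (m := 2) (by norm_cast)
    exact Complex.reCLM.contDiff.contDiffAt.comp _ h1
  have hPJ := pinvJ_mul_jac hG hΨ h0.2.1
  rw [amb_lap1_congr (hγ.eventually_comp_eq β hΨ hz hzΨ),
    amb_lap1_comp (hloc.mono fun y hy => hy.1) hb]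
  simp only [hγ.deriv_G hG hΨ hz hzΨ]
  rw [← h0.2.2, ambM_ddc_eq hG hΨ h0.2.1 hb, lv_qf_conjTranspose_mul_mul, Matrix.mulVec_mulVec, hPJ,
    Matrix.one_mulVec]

theorem contDiffOn_comp_curve {γ : ℂ → V'} {Ω : Set ℂ} (hγ : IsHolCurve 𝓧 γ Ω)
    {O : Set V'} (hO : IsOpen O) {β : V' → ℂ} (hβ : SmoothOnC 𝓧 O β) (hΩ : ∀ z ∈ Ω, γ z ∈ O) :
    ContDiffOn ℝ ∞ (β ∘ γ) Ω := by
  intro z hz
  obtain ⟨Ψ, W, hΨ, hzΨ⟩ := 𝓧.cover (γ z) (hγ.2.1 z hz)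
  have h0 := (hγ.eventually_local hΨ hz hzΨ).self_of_nhds
  have hpO : Ψ ((Function.invFunOn Ψ W ∘ γ) z) ∈ O := by rw [h0.2.2]; exact hΩ z hz
  have ho := hγ.isOpen_inter hΨ
  have hc : ContDiffAt ℝ ∞ (Function.invFunOn Ψ W ∘ γ) z :=
    (((hγ.2.2.2 Ψ W hΨ).contDiffOn (n := ∞) ho z ⟨hz, hzΨ⟩).contDiffAt
      (ho.mem_nhds ⟨hz, hzΨ⟩)).restrict_scalars ℝ
  exact (((hβ.contDiffAt hO hΨ h0.2.1 hpO).comp z hc).congr_of_eventuallyEq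
    (hγ.eventually_comp_eq β hΨ hz hzΨ)).contDiffWithinAt

theorem amb_continuousOn_G (hG : GImm 𝓧 G) : ContinuousOn G 𝓧.carrier :=
  CMfd.continuousOn_iff.2 fun Ψ W hΨ => (hG.hol Ψ W hΨ).continuousOn

/-- an immersion is locally bi-Lipschitz. -/
theorem amb_G_antilip (hG : GImm 𝓧 G) {Ψ : CE κ → V'} {W : Set (CE κ)} (hΨ : 𝓧.IsHol Ψ W)
    {p₀ : CE κ} (hp : p₀ ∈ W) :
    ∃ c : ℝ, 0 < c ∧ ∃ N ∈ 𝓝 p₀, ∀ p ∈ N, ∀ p' ∈ N, ‖p - p'‖ ≤ c * ‖G (Ψ p) - G (Ψ p')‖ := by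
  have hsm : ContDiffAt ℝ ∞ (G ∘ Ψ) p₀ :=
    (hol_contDiffOn_real (CMfd.isOpen_dom hΨ) (hG.hol Ψ W hΨ) _ hp).contDiffAt
      ((CMfd.isOpen_dom hΨ).mem_nhds hp)
  have hstrict : HasStrictFDerivAt (G ∘ Ψ) (fderiv ℝ (G ∘ Ψ) p₀) p₀ :=
    hsm.hasStrictFDerivAt (by simp)
  have hinj : Function.Injective (fderiv ℝ (G ∘ Ψ) p₀) := by
    rw [(amb_differentiableAt_G hG hΨ hp).fderiv_restrictScalars ℝ]
    exact hG.imm Ψ W hΨ p₀ hp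
  obtain ⟨K, hK, hanti⟩ := LinearMap.exists_antilipschitzWith
    (fderiv ℝ (G ∘ Ψ) p₀ : CE κ →ₗ[ℝ] CE (Fin q)) (LinearMap.ker_eq_bot.2 hinj)
  have hc' : (0 : NNReal) < (2 * K)⁻¹ := by positivity
  obtain ⟨N, hN, happ⟩ := hstrict.approximates_deriv_on_nhds (Or.inr hc')
  refine ⟨2 * K, by positivity, N, hN, fun p hp p' hp' => ?_⟩
  have h1 := happ p hp p' hp'
  have h2 : ‖p - p'‖ ≤ K * ‖fderiv ℝ (G ∘ Ψ) p₀ (p - p')‖ := by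
    have := hanti.le_mul_dist (p - p') 0
    simpa [dist_eq_norm] using this
  have h3 : ‖fderiv ℝ (G ∘ Ψ) p₀ (p - p')‖ ≤
      ‖(G ∘ Ψ) p - (G ∘ Ψ) p'‖ + ‖(G ∘ Ψ) p - (G ∘ Ψ) p' - fderiv ℝ (G ∘ Ψ) p₀ (p - p')‖ := by
    have := norm_sub_le ((G ∘ Ψ) p - (G ∘ Ψ) p')
      ((G ∘ Ψ) p - (G ∘ Ψ) p' - fderiv ℝ (G ∘ Ψ) p₀ (p - p'))
    simpa using this
  have hKpos : (0 : ℝ) < K := hK
  have h4 : (K : ℝ) * (((2 * K)⁻¹ : NNReal) * ‖p - p'‖) = ‖p - p'‖ / 2 := by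
    push_cast
    field_simp
  have h5 : (K : ℝ) * ‖fderiv ℝ (G ∘ Ψ) p₀ (p - p')‖ ≤
      K * ‖(G ∘ Ψ) p - (G ∘ Ψ) p'‖ + ‖p - p'‖ / 2 := by
    rw [← h4, ← mul_add]
    exact mul_le_mul_of_nonneg_left (h3.trans (by gcongr)) hKpos.le
  have h6 : (G ∘ Ψ) p - (G ∘ Ψ) p' = G (Ψ p) - G (Ψ p') := rfl
  rw [h6] at h5
  linarith

section GLip

variable {P : Type} [NormedAddCommGroup P] [NormedSpace ℝ P]

/-- points of `A` near `(Ψ p₀, τ₀)` in coordinates. -/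
theorem amb_eventually_chart {A : Set (V' × P)} (hAX : ∀ a ∈ A, a.1 ∈ 𝓧.carrier)
    {Ψ : CE κ → V'} {W : Set (CE κ)} (hΨ : 𝓧.IsHol Ψ W) {p₀ : CE κ} (hp : p₀ ∈ W) (τ₀ : P)
    {N : Set (CE κ × P)} (hN : N ∈ 𝓝 (p₀, τ₀)) :
    ∀ᶠ a in 𝓝[A] (Ψ p₀, τ₀), ∃ x ∈ N, x.1 ∈ W ∧ (Ψ x.1, x.2) = a := by
  obtain ⟨N₁, hN₁, N₂, hN₂, hsub⟩ := mem_nhds_prod_iff.1 hN
  have h1 : ∀ᶠ a in 𝓝[A] (Ψ p₀, τ₀), a.1 ∈ Ψ '' (N₁ ∩ W) := by
    have ht : Tendsto (Prod.fst : V' × P → V') (𝓝[A] (Ψ p₀, τ₀)) (𝓝[𝓧.carrier] (Ψ p₀)) :=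
      tendsto_nhdsWithin_of_tendsto_nhds_of_eventually_within _
        (continuous_fst.continuousAt.tendsto.mono_left nhdsWithin_le_nhds)
        (eventually_nhdsWithin_of_forall hAX)
    exact ht.eventually ((𝓧.isParam hΨ).eventually_mem_image hp hN₁)
  have h2 : ∀ᶠ a in 𝓝[A] (Ψ p₀, τ₀), a.2 ∈ N₂ :=
    (continuous_snd.continuousAt.tendsto.mono_left nhdsWithin_le_nhds) hN₂
  filter_upwards [h1, h2] with a h1 h2
  obtain ⟨p, hp, hpa⟩ := h1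
  exact ⟨(p, a.2), hsub ⟨hp.1, h2⟩, hp.2, Prod.ext hpa rfl⟩

/-- compactness core of `glip_of_smooth`, `glip_param`. -/
theorem amb_glip_core (hG : GImm 𝓧 G) {A : Set (V' × P)} (hA : IsCompact A)
    (hAX : ∀ a ∈ A, a.1 ∈ 𝓧.carrier) {β : V' → P → ℂ}
    (hloc : ∀ (Ψ : CE κ → V') (W : Set (CE κ)), 𝓧.IsHol Ψ W → ∀ p₀ ∈ W, ∀ τ₀ : P,
      (Ψ p₀, τ₀) ∈ A → ∃ L : ℝ, ∃ N ∈ 𝓝 (p₀, τ₀), ∀ x ∈ N, ∀ x' ∈ N, x.1 ∈ W → x'.1 ∈ W →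
        (Ψ x.1, x.2) ∈ A → (Ψ x'.1, x'.2) ∈ A →
        ‖β (Ψ x.1) x.2 - β (Ψ x'.1) x'.2‖ ≤ L * (‖x.1 - x'.1‖ + ‖x.2 - x'.2‖)) :
    ∃ C : ℝ, (∀ a ∈ A, ‖β a.1 a.2‖ ≤ C) ∧
      ∀ a ∈ A, ∀ b ∈ A, ‖β a.1 a.2 - β b.1 b.2‖ ≤ C * (‖G a.1 - G b.1‖ + ‖a.2 - b.2‖) := by
  set d : V' × P → V' × P → ℝ := fun a b => ‖G a.1 - G b.1‖ + ‖a.2 - b.2‖ with hd
  have hd0 : ∀ a b, 0 ≤ d a b := fun a b => by positivity
  have hGc := amb_continuousOn_G hG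
  -- continuity of `d`
  have hdc : ContinuousOn (fun ab : (V' × P) × (V' × P) => d ab.1 ab.2) (A ×ˢ A) := by
    have hG1 : ContinuousOn (fun ab : (V' × P) × (V' × P) => G ab.1.1) (A ×ˢ A) :=
      hGc.comp (continuous_fst.fst.continuousOn) fun ab h => hAX _ h.1
    have hG2 : ContinuousOn (fun ab : (V' × P) × (V' × P) => G ab.2.1) (A ×ˢ A) :=
      hGc.comp (continuous_snd.fst.continuousOn) fun ab h => hAX _ h.2
    exact ((hG1.sub hG2).norm).add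
      ((continuous_fst.snd.sub continuous_snd.snd).norm.continuousOn)
  -- Step A: local `G`-Lipschitz bound
  have hA1 : ∀ a₀ ∈ A, ∃ C : ℝ, ∃ S ∈ 𝓝[A] a₀, ∀ a ∈ S, ∀ b ∈ S,
      ‖β a.1 a.2 - β b.1 b.2‖ ≤ C * d a b := by
    rintro ⟨y₀, τ₀⟩ ha₀
    obtain ⟨Ψ, W, hΨ, p₀, hp₀, rfl⟩ := 𝓧.cover y₀ (hAX _ ha₀)
    obtain ⟨L, N, hN, hL⟩ := hloc Ψ W hΨ p₀ hp₀ τ₀ ha₀
    obtain ⟨c, hc, N', hN', hc'⟩ := amb_G_antilip hG hΨ hp₀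
    have hN'' : N ∩ (N' ×ˢ Set.univ) ∈ 𝓝 (p₀, τ₀) :=
      Filter.inter_mem hN (prod_mem_nhds hN' Filter.univ_mem)
    refine ⟨|L| * (c + 1), {a | a ∈ A ∧ ∃ x ∈ N ∩ (N' ×ˢ Set.univ), x.1 ∈ W ∧ (Ψ x.1, x.2) = a},
      ?_, ?_⟩
    · filter_upwards [self_mem_nhdsWithin, amb_eventually_chart hAX hΨ hp₀ τ₀ hN''] with a h1 h2
      exact ⟨h1, h2⟩
    · rintro a ⟨haA, x, hx, hxW, rfl⟩ b ⟨hbA, x', hx', hx'W, rfl⟩
      have h1 := hL x hx.1 x' hx'.1 hxW hx'W haA hbA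
      have h2 := hc' x.1 hx.2.1 x'.1 hx'.2.1
      have h3 : L * (‖x.1 - x'.1‖ + ‖x.2 - x'.2‖) ≤ |L| * (‖x.1 - x'.1‖ + ‖x.2 - x'.2‖) :=
        mul_le_mul_of_nonneg_right (le_abs_self L) (by positivity)
      have h4 : ‖x.1 - x'.1‖ + ‖x.2 - x'.2‖ ≤
          (c + 1) * (‖G (Ψ x.1) - G (Ψ x'.1)‖ + ‖x.2 - x'.2‖) := by
        nlinarith [norm_nonneg (G (Ψ x.1) - G (Ψ x'.1)), norm_nonneg (x.2 - x'.2)]
      calc ‖β (Ψ x.1) x.2 - β (Ψ x'.1) x'.2‖ ≤ |L| * (‖x.1 - x'.1‖ + ‖x.2 - x'.2‖) := h1.trans h3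
        _ ≤ |L| * ((c + 1) * (‖G (Ψ x.1) - G (Ψ x'.1)‖ + ‖x.2 - x'.2‖)) :=
          mul_le_mul_of_nonneg_left h4 (abs_nonneg L)
        _ = |L| * (c + 1) * d (Ψ x.1, x.2) (Ψ x'.1, x'.2) := by rw [mul_assoc]
  -- Step B: continuity and boundedness
  have hcont : ContinuousOn (fun a : V' × P => β a.1 a.2) A := by
    intro a₀ ha₀
    obtain ⟨C, S, hS, hC⟩ := hA1 a₀ ha₀
    have ha₀S : a₀ ∈ S := mem_of_mem_nhdsWithin ha₀ hS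
    have hd1 : Tendsto (fun a => d a a₀) (𝓝[A] a₀) (𝓝 0) := by
      have h1 : ContinuousWithinAt (fun a : V' × P => d a a₀) A a₀ := by
        have := (hdc (a₀, a₀) ⟨ha₀, ha₀⟩).comp (f := fun a : V' × P => (a, a₀)) (s := A) (x := a₀)
          (continuous_id.prodMk continuous_const).continuousWithinAt fun a ha => ⟨ha, ha₀⟩
        exact this
      have h2 : d a₀ a₀ = 0 := by simp [hd]
      have h3 := h1.tendsto
      rwa [h2] at h3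
    show Tendsto _ _ _
    rw [tendsto_iff_norm_sub_tendsto_zero]
    have h4 : Tendsto (fun a => |C| * d a a₀) (𝓝[A] a₀) (𝓝 0) := by
      simpa using hd1.const_mul |C|
    refine squeeze_zero' (Filter.Eventually.of_forall fun a => norm_nonneg _) ?_ h4
    filter_upwards [hS] with a ha
    exact (hC a ha a₀ ha₀S).trans (mul_le_mul_of_nonneg_right (le_abs_self C) (hd0 _ _))
  obtain ⟨M, hM⟩ := hA.exists_bound_of_continuousOn hcont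
  -- Step C: global bound
  have hglob : ∃ C : ℝ, ∀ ab ∈ A ×ˢ A, ‖β ab.1.1 ab.1.2 - β ab.2.1 ab.2.2‖ ≤ C * d ab.1 ab.2 := by
    refine (hA.prod hA).induction_on
      (p := fun S => ∃ C : ℝ, ∀ ab ∈ S, ‖β ab.1.1 ab.1.2 - β ab.2.1 ab.2.2‖ ≤ C * d ab.1 ab.2)
      ⟨0, by simp⟩ (fun s t hst ⟨C, hC⟩ => ⟨C, fun ab h => hC ab (hst h)⟩) ?_ ?_
    · rintro s t ⟨C₁, h₁⟩ ⟨C₂, h₂⟩
      refine ⟨max C₁ C₂, ?_⟩
      rintro ab (h | h)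
      · exact (h₁ ab h).trans (mul_le_mul_of_nonneg_right (le_max_left _ _) (hd0 _ _))
      · exact (h₂ ab h).trans (mul_le_mul_of_nonneg_right (le_max_right _ _) (hd0 _ _))
    · rintro ⟨a₀, b₀⟩ ⟨ha₀, hb₀⟩
      by_cases hab : a₀ = b₀
      · subst hab
        obtain ⟨C, S, hS, hC⟩ := hA1 a₀ ha₀
        refine ⟨S ×ˢ S, ?_, C, fun ab h => hC _ h.1 _ h.2⟩
        rw [nhdsWithin_prod_eq]
        exact Filter.prod_mem_prod hS hS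
      · have hpos : 0 < d a₀ b₀ := by
          by_cases h1 : a₀.1 = b₀.1
          · have h2 : a₀.2 ≠ b₀.2 := fun h2 => hab (Prod.ext h1 h2)
            have : 0 < ‖a₀.2 - b₀.2‖ := norm_pos_iff.2 (sub_ne_zero.2 h2)
            have h3 : 0 ≤ ‖G a₀.1 - G b₀.1‖ := norm_nonneg _
            simp only [hd]
            linarith
          · have h2 : G a₀.1 ≠ G b₀.1 := fun h2 => h1 (hG.inj (hAX _ ha₀) (hAX _ hb₀) h2)
            have : 0 < ‖G a₀.1 - G b₀.1‖ := norm_pos_iff.2 (sub_ne_zero.2 h2)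
            have h3 : 0 ≤ ‖a₀.2 - b₀.2‖ := norm_nonneg _
            simp only [hd]
            linarith
        have hev : ∀ᶠ ab in 𝓝[A ×ˢ A] (a₀, b₀), d a₀ b₀ / 2 < d ab.1 ab.2 :=
          (hdc (a₀, b₀) ⟨ha₀, hb₀⟩).eventually (lt_mem_nhds (by linarith))
        refine ⟨{ab | ab ∈ A ×ˢ A ∧ d a₀ b₀ / 2 < d ab.1 ab.2}, ?_, 2 * |M| / (d a₀ b₀ / 2), ?_⟩
        · filter_upwards [self_mem_nhdsWithin, hev] with ab h1 h2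
          exact ⟨h1, h2⟩
        · rintro ab ⟨hmem, hlt⟩
          have h1 : ‖β ab.1.1 ab.1.2 - β ab.2.1 ab.2.2‖ ≤ 2 * |M| := by
            have e1 := hM ab.1 hmem.1
            have e2 := hM ab.2 hmem.2
            have e3 := norm_sub_le (β ab.1.1 ab.1.2) (β ab.2.1 ab.2.2)
            have e4 := le_abs_self M
            linarith
          have h2 : 2 * |M| = 2 * |M| / (d a₀ b₀ / 2) * (d a₀ b₀ / 2) := by
            field_simp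
          rw [h2] at h1
          exact h1.trans (mul_le_mul_of_nonneg_left hlt.le (by positivity))
  obtain ⟨C, hC⟩ := hglob
  refine ⟨max M C, fun a ha => (hM a ha).trans (le_max_left _ _), fun a ha b hb => ?_⟩
  exact (hC (a, b) ⟨ha, hb⟩).trans (mul_le_mul_of_nonneg_right (le_max_right _ _) (hd0 _ _))

end GLip

theorem amb_prod_norm_le {E F : Type} [NormedAddCommGroup E] [NormedAddCommGroup F] (x : E × F) :
    ‖x‖ ≤ ‖x.1‖ + ‖x.2‖ := by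
  rw [Prod.norm_def]
  exact max_le (le_add_of_nonneg_right (norm_nonneg _)) (le_add_of_nonneg_left (norm_nonneg _))

/-- **smooth ⇒ bounded and `(G, t)`-Lipschitz on compacts.** -/
theorem glip_of_smooth (hG : GImm 𝓧 G) {K : Set V'} (hK : IsCompact K) (hKX : K ⊆ 𝓧.carrier)
    {T : ℝ} {β : V' → ℝ → ℂ}
    (hβ : ∀ (Ψ : CE κ → V') (W : Set (CE κ)), 𝓧.IsHol Ψ W →
      ContDiffOn ℝ ∞ (fun a : ℝ × CE κ => β (Ψ a.2) a.1) (Set.Icc 0 T ×ˢ W)) :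
    ∃ C : ℝ, GLipOn G K (Set.Icc 0 T) C β := by
  have hloc : ∀ (Ψ : CE κ → V') (W : Set (CE κ)), 𝓧.IsHol Ψ W → ∀ p₀ ∈ W, ∀ τ₀ : ℝ,
      (Ψ p₀, τ₀) ∈ K ×ˢ Set.Icc (0 : ℝ) T → ∃ L : ℝ, ∃ N ∈ 𝓝 (p₀, τ₀), ∀ x ∈ N, ∀ x' ∈ N,
        x.1 ∈ W → x'.1 ∈ W → (Ψ x.1, x.2) ∈ K ×ˢ Set.Icc (0 : ℝ) T →
        (Ψ x'.1, x'.2) ∈ K ×ˢ Set.Icc (0 : ℝ) T →
        ‖β (Ψ x.1) x.2 - β (Ψ x'.1) x'.2‖ ≤ L * (‖x.1 - x'.1‖ + ‖x.2 - x'.2‖) := by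
    intro Ψ W hΨ p₀ hp₀ τ₀ hmem
    obtain ⟨r, hr, hball⟩ := Metric.isOpen_iff.1 (CMfd.isOpen_dom hΨ) p₀ hp₀
    have hconv : Convex ℝ (Set.Icc (0 : ℝ) T ×ˢ Metric.ball p₀ r) :=
      (convex_Icc 0 T).prod (convex_ball p₀ r)
    have hsub : Set.Icc (0 : ℝ) T ×ˢ Metric.ball p₀ r ⊆ Set.Icc (0 : ℝ) T ×ˢ W :=
      Set.prod_mono le_rfl hball
    have hcd : ContDiffWithinAt ℝ 1 (fun a : ℝ × CE κ => β (Ψ a.2) a.1)
        (Set.Icc (0 : ℝ) T ×ˢ Metric.ball p₀ r) (τ₀, p₀) :=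
      ((hβ Ψ W hΨ (τ₀, p₀) ⟨hmem.2, hp₀⟩).mono hsub).of_le (by norm_cast)
    obtain ⟨L, t, ht, hL⟩ := hcd.exists_lipschitzOnWith hconv
    obtain ⟨u, hu, hut⟩ := mem_nhdsWithin_iff_exists_mem_nhds_inter.1 ht
    have hswap : (Prod.swap : CE κ × ℝ → ℝ × CE κ) ⁻¹' u ∈ 𝓝 (p₀, τ₀) :=
      continuous_swap.continuousAt.preimage_mem_nhds hu
    refine ⟨L, (Prod.swap ⁻¹' u) ∩ (Metric.ball p₀ r ×ˢ Set.univ),
      Filter.inter_mem hswap (prod_mem_nhds (Metric.ball_mem_nhds p₀ hr) Filter.univ_mem), ?_⟩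
    intro x hx x' hx' _ _ hxA hx'A
    have h1 : (x.2, x.1) ∈ t := hut ⟨hx.1, hxA.2, hx.2.1⟩
    have h2 : (x'.2, x'.1) ∈ t := hut ⟨hx'.1, hx'A.2, hx'.2.1⟩
    have h3 := hL.dist_le_mul _ h1 _ h2
    rw [dist_eq_norm, dist_eq_norm] at h3
    refine h3.trans (mul_le_mul_of_nonneg_left ?_ L.2)
    refine (amb_prod_norm_le _).trans (le_of_eq ?_)
    show ‖x.2 - x'.2‖ + ‖x.1 - x'.1‖ = _
    ring
  obtain ⟨C, hC1, hC2⟩ := amb_glip_core hG (hK.prod isCompact_Icc) (fun a ha => hKX ha.1) hloc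
  refine ⟨C, fun y hy t ht => hC1 (y, t) ⟨hy, ht⟩, fun y hy y' hy' t ht t' ht' => ?_⟩
  have := hC2 (y, t) ⟨hy, ht⟩ (y', t') ⟨hy', ht'⟩
  simpa [Real.norm_eq_abs] using this

/-- the same with a parameter `τ ∈ ℂ^m` instead of the time. -/
theorem glip_param (hG : GImm 𝓧 G) {m : ℕ} {A : Set (V' × CE (Fin m))} (hA : IsCompact A)
    (hAX : ∀ a ∈ A, a.1 ∈ 𝓧.carrier) {O : Set (V' × CE (Fin m))} (hO : IsOpen O) (hAO : A ⊆ O)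
    {β : V' → CE (Fin m) → ℂ}
    (hβ : ∀ (Ψ : CE κ → V') (W : Set (CE κ)), 𝓧.IsHol Ψ W →
      ContDiffOn ℝ ∞ (fun a : CE κ × CE (Fin m) => β (Ψ a.1) a.2) {a | a.1 ∈ W ∧ (Ψ a.1, a.2) ∈ O}) :
    ∃ C : ℝ, (∀ a ∈ A, ‖β a.1 a.2‖ ≤ C) ∧
      ∀ a ∈ A, ∀ b ∈ A, ‖β a.1 a.2 - β b.1 b.2‖ ≤ C * (‖G a.1 - G b.1‖ + ‖a.2 - b.2‖) := by
  refine amb_glip_core hG hA hAX ?_
  intro Ψ W hΨ p₀ hp₀ τ₀ hmem
  have hopen : IsOpen {a : CE κ × CE (Fin m) | a.1 ∈ W ∧ (Ψ a.1, a.2) ∈ O} := by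
    have hc : ContinuousOn (fun a : CE κ × CE (Fin m) => (Ψ a.1, a.2)) (W ×ˢ Set.univ) :=
      (((𝓧.isParam hΨ).continuousOn).comp continuous_fst.continuousOn fun a ha => ha.1).prodMk
        continuous_snd.continuousOn
    have h := hc.isOpen_inter_preimage ((CMfd.isOpen_dom hΨ).prod isOpen_univ) hO
    convert h using 1
    ext a
    simp
  have hpt : (p₀, τ₀) ∈ {a : CE κ × CE (Fin m) | a.1 ∈ W ∧ (Ψ a.1, a.2) ∈ O} := ⟨hp₀, hAO hmem⟩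
  have hcd : ContDiffAt ℝ 1 (fun a : CE κ × CE (Fin m) => β (Ψ a.1) a.2) (p₀, τ₀) :=
    ((hβ Ψ W hΨ _ hpt).contDiffAt (hopen.mem_nhds hpt)).of_le (by norm_cast)
  obtain ⟨L, t, ht, hL⟩ := hcd.exists_lipschitzOnWith
  refine ⟨L, t, ht, ?_⟩
  intro x hx x' hx' _ _ _ _
  have h3 := hL.dist_le_mul _ hx _ hx'
  rw [dist_eq_norm, dist_eq_norm] at h3
  exact h3.trans (mul_le_mul_of_nonneg_left (amb_prod_norm_le _) L.2)

theorem amb_eventually_mem_image {E : Type} [TopologicalSpace E] {f : E → V'} {s : Set E} {x : E}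
    (hf : ContinuousWithinAt f s x) (hs : ∀ y ∈ s, f y ∈ 𝓧.carrier) {Ψ : CE κ → V'}
    {W : Set (CE κ)} (hΨ : 𝓧.IsHol Ψ W) (hx : f x ∈ Ψ '' W) :
    ∀ᶠ y in 𝓝[s] x, f y ∈ Ψ '' W := by
  obtain ⟨O, hO, hOeq⟩ := (𝓧.isParam hΨ).image
  have hxO : f x ∈ O := (hOeq ▸ hx : f x ∈ 𝓧.carrier ∩ O).2
  filter_upwards [hf (hO.mem_nhds hxO), self_mem_nhdsWithin] with y hy hys
  rw [hOeq]
  exact ⟨hs y hys, hy⟩

/-- a smooth function of a smooth disc and a smooth time is smooth on the circle. -/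
theorem circSm_comp {f : ℂ → V'} (hf : IsSmDisc 𝓧 f) {t : ℂ → ℝ}
    (ht : CircSm fun ζ => (t ζ : ℂ)) {O : Set V'} (hO : IsOpen O) {I : Set ℝ} (hI : IsOpen I)
    {β : V' → ℝ → ℂ}
    (hβ : ∀ (Ψ : CE κ → V') (W : Set (CE κ)), 𝓧.IsHol Ψ W →
      ContDiffOn ℝ ∞ (fun a : ℝ × CE κ => β (Ψ a.2) a.1) (I ×ˢ (W ∩ Ψ ⁻¹' O)))
    (hfO : ∀ ζ ∈ uCirc, f ζ ∈ O) (htI : ∀ ζ ∈ uCirc, t ζ ∈ I) :
    CircSm fun ζ => β (f ζ) (t ζ) := by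
  unfold CircSm
  rw [contDiff_iff_contDiffAt]
  intro θ₀
  have hcm : ∀ θ : ℝ, circleMap 0 1 θ ∈ uDiscC := fun θ =>
    Metric.sphere_subset_closedBall (circleMap_mem_uCirc θ)
  have hfc : ContDiff ℝ ∞ (fun θ : ℝ => f (circleMap 0 1 θ)) := by
    rw [← contDiffOn_univ]
    exact hf.2.1.comp (contDiff_circleMap 0 1).contDiffOn fun θ _ => hcm θ
  have hcar : ∀ θ : ℝ, f (circleMap 0 1 θ) ∈ 𝓧.carrier := fun θ => hf.2.2 _ (hcm θ)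
  obtain ⟨Ψ, W, hΨ, hmem⟩ := 𝓧.cover _ (hcar θ₀)
  have hc : ContDiffAt ℝ ∞ (Function.invFunOn Ψ W ∘ fun θ : ℝ => f (circleMap 0 1 θ)) θ₀ :=
    (𝓧.isParam hΨ).contDiffAt_invFunOn_comp le_rfl hfc.contDiffAt
      (Filter.Eventually.of_forall hcar) hmem
  have htr : ContDiff ℝ ∞ (fun θ : ℝ => t (circleMap 0 1 θ)) :=
    Complex.reCLM.contDiff.comp ht
  have hev : ∀ᶠ θ in 𝓝 θ₀, f (circleMap 0 1 θ) ∈ Ψ '' W := by
    have := amb_eventually_mem_image (s := Set.univ) (x := θ₀)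
      hfc.continuous.continuousWithinAt (fun θ _ => hcar θ) hΨ hmem
    rwa [nhdsWithin_univ] at this
  have hopen : IsOpen (I ×ˢ (W ∩ Ψ ⁻¹' O)) :=
    hI.prod ((𝓧.isParam hΨ).isOpen_inter_preimage hO)
  have hpt : (t (circleMap 0 1 θ₀),
      (Function.invFunOn Ψ W ∘ fun θ : ℝ => f (circleMap 0 1 θ)) θ₀) ∈ I ×ˢ (W ∩ Ψ ⁻¹' O) := by
    refine ⟨htI _ (circleMap_mem_uCirc θ₀), Function.invFunOn_mem hmem, ?_⟩
    show Ψ (Function.invFunOn Ψ W (f (circleMap 0 1 θ₀))) ∈ O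
    rw [Function.invFunOn_eq hmem]
    exact hfO _ (circleMap_mem_uCirc θ₀)
  have hB := (hβ Ψ W hΨ _ hpt).contDiffAt (hopen.mem_nhds hpt)
  have hcomp := hB.comp θ₀ (htr.contDiffAt.prodMk hc)
  refine hcomp.congr_of_eventuallyEq ?_
  filter_upwards [hev] with θ hθ
  show β (f (circleMap 0 1 θ)) (t (circleMap 0 1 θ)) =
    β (Ψ (Function.invFunOn Ψ W (f (circleMap 0 1 θ)))) (t (circleMap 0 1 θ))
  rw [Function.invFunOn_eq hθ]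

/-- `G ∘ f` is `HolSm`. -/
theorem IsSmDisc.holSm_G (hG : GImm 𝓧 G) {f : ℂ → V'} (hf : IsSmDisc 𝓧 f) (r : Fin q) :
    HolSm fun ζ => G (f ζ) r := by
  have hcurve : IsHolCurve 𝓧 f uDisc := ⟨Metric.isOpen_ball, hf.1.1, hf.1.2.1, hf.1.2.2⟩
  constructor
  · intro ζ hζ
    exact ((EuclideanSpace.proj r : CE (Fin q) →L[ℂ] ℂ).differentiableAt).comp_differentiableWithinAt
      ζ (hcurve.differentiableOn_G hG ζ hζ)
  · intro ζ hζ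
    obtain ⟨Ψ, W, hΨ, hmem⟩ := 𝓧.cover _ (hf.2.2 ζ hζ)
    have hc : ContDiffWithinAt ℝ ∞ (Function.invFunOn Ψ W ∘ f) uDiscC ζ :=
      (𝓧.isParam hΨ).contDiffWithinAt_invFunOn_comp le_rfl (hf.2.1 ζ hζ) hf.2.2 hζ hmem
    have hGΨ : ContDiffAt ℝ ∞ (G ∘ Ψ) ((Function.invFunOn Ψ W ∘ f) ζ) :=
      (hol_contDiffOn_real (CMfd.isOpen_dom hΨ) (hG.hol Ψ W hΨ) _
        (Function.invFunOn_mem hmem)).contDiffAt
        ((CMfd.isOpen_dom hΨ).mem_nhds (Function.invFunOn_mem hmem))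
    have h1 := hGΨ.comp_contDiffWithinAt ζ hc
    have h2 : ContDiffWithinAt ℝ ∞
        ((EuclideanSpace.proj r : CE (Fin q) →L[ℂ] ℂ) ∘ ((G ∘ Ψ) ∘ (Function.invFunOn Ψ W ∘ f)))
        uDiscC ζ :=
      (((EuclideanSpace.proj r : CE (Fin q) →L[ℂ] ℂ).restrictScalars ℝ).contDiff.contDiffAt).comp_contDiffWithinAt
        ζ h1
    refine h2.congr_of_eventuallyEq ?_ ?_
    · filter_upwards [amb_eventually_mem_image (hf.2.1 ζ hζ).continuousWithinAt hf.2.2 hΨ hmem]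
        with y hy
      show G (f y) r = G (Ψ (Function.invFunOn Ψ W (f y))) r
      rw [Function.invFunOn_eq hy]
    · show G (f ζ) r = G (Ψ (Function.invFunOn Ψ W (f ζ))) r
      rw [Function.invFunOn_eq hmem]

/-- transfer of `G`-Lipschitz bounds to the seminorm `D`. -/
theorem Dsq_comp_le {S : Set V'} {I : Set ℝ} {C : ℝ} {β : V' → ℝ → ℂ} (hβ : GLipOn G S I C β)
    {f : ℂ → V'} {t : ℂ → ℝ} (hX : ∀ r, CircLip fun ζ => G (f ζ) r)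
    (ht : CircLip fun ζ => (t ζ : ℂ)) (hf : ∀ ζ ∈ uCirc, f ζ ∈ S) (htI : ∀ ζ ∈ uCirc, t ζ ∈ I) :
    CircLip (fun ζ => β (f ζ) (t ζ)) ∧
    Dsq (fun ζ => β (f ζ) (t ζ)) ≤ 2 * C ^ 2 * (DsqV (fun ζ => (G (f ζ) : Fin q → ℂ)) + DsqR t) := by
  let g : Fin q ⊕ Unit → ℂ → ℂ := Sum.elim (fun r ζ => G (f ζ) r) (fun _ ζ => (t ζ : ℂ))
  have hg : ∀ j, CircLip (g j) := by
    rintro (r | _)
    · exact hX r
    · exact ht
  have hc : ∀ _j : Fin q ⊕ Unit, 0 ≤ 2 * C ^ 2 := fun _ => by positivity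
  have hdiff : ∀ ζ ∈ uCirc, ∀ ξ ∈ uCirc, ‖β (f ζ) (t ζ) - β (f ξ) (t ξ)‖ ^ 2 ≤
      ∑ j, (2 * C ^ 2) * ‖g j ζ - g j ξ‖ ^ 2 := by
    intro ζ hζ ξ hξ
    have h1 := hβ.2 (f ζ) (hf ζ hζ) (f ξ) (hf ξ hξ) (t ζ) (htI ζ hζ) (t ξ) (htI ξ hξ)
    have h2 : ‖G (f ζ) - G (f ξ)‖ ^ 2 = ∑ r, ‖G (f ζ) r - G (f ξ) r‖ ^ 2 := by
      rw [EuclideanSpace.norm_sq_eq]
      rfl
    have h3 : ‖((t ζ : ℝ) : ℂ) - ((t ξ : ℝ) : ℂ)‖ = |t ζ - t ξ| := by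
      rw [← Complex.ofReal_sub, Complex.norm_real, Real.norm_eq_abs]
    rw [Fintype.sum_sum_type, ← Finset.mul_sum]
    simp only [g, Sum.elim_inl, Sum.elim_inr, Finset.univ_unique, Finset.sum_const,
      Finset.card_singleton, one_smul]
    rw [← h2, h3]
    have h4 : ‖β (f ζ) (t ζ) - β (f ξ) (t ξ)‖ ^ 2 ≤
        (C * (‖G (f ζ) - G (f ξ)‖ + |t ζ - t ξ|)) ^ 2 :=
      pow_le_pow_left₀ (norm_nonneg _) h1 2
    nlinarith [sq_nonneg (‖G (f ζ) - G (f ξ)‖ - |t ζ - t ξ|), sq_nonneg C,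
      mul_nonneg (sq_nonneg C) (sq_nonneg (‖G (f ζ) - G (f ξ)‖ - |t ζ - t ξ|))]
  refine ⟨circLip_of_diff hg hdiff, ?_⟩
  have h := Dsq_le_of_diff hg hc hdiff
  refine h.trans (le_of_eq ?_)
  rw [Fintype.sum_sum_type, ← Finset.mul_sum]
  simp only [g, Sum.elim_inl, Sum.elim_inr, Finset.univ_unique, Finset.sum_const,
    Finset.card_singleton, one_smul]
  unfold DsqV DsqR
  ring

end Amb

end Claimed.Agent.R316
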