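import Claimed.Agent.R316.S5.AreaAsm

/-!
# Row 316, `S5-AR6`: application of the second variation of the area to the `g`-area (`S5-D3`)

Plan: header of `S5/AreaDef.lean`.  (`S5-AR5` `area_second_variation` is in `S5/AreaAsm.lean`.)
-/

set_option autoImplicit false
set_option maxSynthPendingDepth 3
set_option linter.unusedSectionVars false
open scoped ContDiff ComplexOrder Topology Matrix
open MeasureTheory Filter

namespace Claimed.Agent.R316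

section Base

variable {V : Type} [NormedAddCommGroup V] [InnerProductSpace ℝ V] [FiniteDimensional ℝ V]
variable [MeasurableSpace V] [BorelSpace V]
variable {n : ℕ} {𝓜 : CMfd V (Fin n)} {g : HFam V (Fin n)} {o : V}
variable {D : FlowData 𝓜 g o} {𝒴 : CMfd (CotAmb V) (Fin n ⊕ Fin n)}
variable {X : S5Ctx V n} {𝔚 : Walls V} {err A1 A2 : ℝ}

/-! ### `S5-AR6` -/

/-- partial sums along an injection. -/
theorem da_sum_comp_le {N q : ℕ} {e : Fin N → Fin q} (he : Function.Injective e) {f : Fin q → ℝ}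
    (hf : ∀ j, 0 ≤ f j) : ∑ k, f (e k) ≤ ∑ j, f j := by
  rw [← Finset.sum_image (s := Finset.univ) (g := e) (f := f) fun a _ b _ h => he h]
  exact Finset.sum_le_sum_of_subset_of_nonneg (Finset.subset_univ _) fun j _ _ => hf j

/-- the `g`-area in ambient form (pointwise at interior points: `x = Φ ∘ y`, `ambQ_param`,
`(F₀ ∘ x)' = J y'`, `Jᴴ ambM J = g Φ y`). -/
theorem areaG_eq_areaW {N : ℕ} {F₀ : V → CE (Fin N)} (hg : IsHForm 𝓜 g) (hF₀ : GImm 𝓜 F₀)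
    {f : ℂ → CotAmb V} (hf : IsSmDisc 𝓜 fun ζ => (f ζ).1) :
    areaG 𝓜 g f = areaW 𝓜 F₀ g fun ζ => (f ζ).1 := by
  unfold areaG areaW
  refine setIntegral_congr_fun measurableSet_ball fun ζ hζ => ?_
  set γ : ℂ → V := fun ξ => (f ξ).1 with hγdef
  have hγ : IsHolCurve 𝓜 γ uDisc := ⟨Metric.isOpen_ball, hf.1.1, hf.1.2.1, hf.1.2.2⟩
  obtain ⟨Φ, U, hΦ, hzΦ⟩ := 𝓜.cover (γ ζ) (hγ.2.1 ζ hζ)
  have hloc := hγ.eventually_local hΦ hζ hzΦ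
  have h0 := hloc.self_of_nhds
  set c := Function.invFunOn Φ U ∘ γ with hc
  have hPJ := pinvJ_mul_jac hF₀ hΦ h0.2.1
  have hev : γ =ᶠ[𝓝 ζ] Φ ∘ c := by
    filter_upwards [hloc] with y hy
    exact hy.2.2.symm
  have hΦd : DifferentiableAt ℝ Φ (c ζ) := (𝓜.isParam hΦ).differentiableAt h0.2.1
  have h1 : fderiv ℝ γ ζ 1 = fderiv ℝ Φ (c ζ) (deriv c ζ) := by
    rw [hev.fderiv_eq, fderiv_comp ζ hΦd (h0.1.restrictScalars ℝ)]
    show fderiv ℝ Φ (c ζ) (fderiv ℝ c ζ 1) = _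
    rw [amb_fderiv_curve h0.1, one_smul]
  show ambQ 𝓜 g (γ ζ) (fderiv ℝ γ ζ 1) =
    qf (ambM 𝓜 F₀ g (γ ζ)) fun k => deriv (fun ξ => F₀ (γ ξ) k) ζ
  simp only [hγ.deriv_G hF₀ hΦ hζ hzΦ]
  rw [h1, ← h0.2.2, ambQ_param hg hΦ h0.2.1, ambM_eq hF₀ hg hΦ h0.2.1,
    lv_qf_conjTranspose_mul_mul, Matrix.mulVec_mulVec, hPJ, Matrix.one_mulVec]

theorem areaG_congr {f f' : ℂ → CotAmb V} (h : ∀ ζ ∈ uDiscC, f ζ = f' ζ) :
    areaG 𝓜 g f = areaG 𝓜 g f' := by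
  unfold areaG
  refine setIntegral_congr_fun measurableSet_ball fun ζ hζ => ?_
  have hev : (fun ξ => (f ξ).1) =ᶠ[𝓝 ζ] fun ξ => (f' ξ).1 := by
    filter_upwards [Metric.isOpen_ball.mem_nhds hζ] with ξ hξ
    rw [h ξ (Metric.ball_subset_closedBall hξ)]
  show ambQ 𝓜 g (f ζ).1 (fderiv ℝ (fun ξ => (f ξ).1) ζ 1) = _
  rw [hev.fderiv_eq, h ζ (Metric.ball_subset_closedBall hζ)]

/-- `S5-D3`.  The `g`-area (application of `area_second_variation` to `(𝓜, F₀, g)` with `F₀`, `e` from `S5Ctx.Valid.base`, `x = π ∘ F` (`IsFam.base`), `K = π(K_walls)`;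
`famV F₀ x z ζ k = famV X.G F z ζ (e k)`, sums over `k` are partial sums (`e` injective), `|hh| = m ≤ 1` (`pw_mem`), `areaG_eq_areaW`).
The constant `Cb` depends only on the walls and on the sup bound `L` of the field. -/
theorem defo_area (h : Std5 X 𝔚 D 𝒴 err A1 A2) (L : ℝ) :
    ∃ Cb : ℝ, ∀ (r₀ : ℝ), 0 < r₀ → ∀ M : ℝ, ∃ C' r₁ : ℝ, 0 < r₁ ∧ r₁ ≤ r₀ / 2 ∧
      ∀ (c : Config V n) (hh : ℂ → ℂ) (Vh : ℂ → Fin X.q → ℂ)
      (F : ℂ → ℂ → CotAmb V) (pz : ℂ → CE (Fin n ⊕ Fin n)), IsAdm X 𝔚 𝒴 c →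
      (∀ ζ ∈ uCirc, ‖hh ζ‖ = c.mw 𝔚 ζ) → IsDeform X 𝔚 𝒴 c hh Vh F pz r₀ M →
      (∀ ζ ∈ uCirc, ∑ k, ‖Vh ζ k‖ ^ 2 ≤ L) →
      ∀ r : ℝ, 0 < r → r ≤ r₁ →
        CircleIntegrable (fun z => areaG 𝓜 g (F z)) 0 r ∧
        Real.circleAverage (fun z => areaG 𝓜 g (F z)) 0 r ≤
          areaG 𝓜 g c.f + r ^ 2 * (Cb * (DsqV (fun ζ => (X.G (c.f ζ) : Fin X.q → ℂ)) + DsqV Vh))
            + C' * r ^ 3 := by
  obtain ⟨N, F₀, e, hF₀, he, hGe⟩ := h.valid.base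
  obtain ⟨K, hKc, hKY, hreg⟩ := h.walls.compact
  have hg : IsHForm 𝓜 g := h.init.kahler.toIsMetric.toIsHForm
  have hK₀ : IsCompact (Prod.fst '' K) := hKc.image continuous_fst
  have hK₀M : Prod.fst '' K ⊆ 𝓜.carrier := by
    rintro _ ⟨y, hy, rfl⟩
    exact h.base_mem (hKY hy)
  obtain ⟨Cb, hCb⟩ := area_second_variation hF₀ hg h.init.kahler.closed hK₀ hK₀M L
  refine ⟨|Cb|, fun r₀ hr₀ M => ?_⟩
  obtain ⟨C', r₁, hr₁, hr₁', H⟩ := hCb r₀ hr₀ |M|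
  refine ⟨C', r₁, hr₁, hr₁', fun c hh Vh F pz hc hmod hD hL r hr0 hr1 => ?_⟩
  set x : ℂ → ℂ → V := fun z ζ => (F z ζ).1 with hx
  have hfam : IsFam 𝓜 x r₀ := IsFam.base h.cot hD.isFam
  have h0 : (0 : ℂ) ∈ Metric.ball (0 : ℂ) r₀ := Metric.mem_ball_self hr₀
  have hFe : ∀ z ζ k, F₀ (x z ζ) k = X.G (F z ζ) (e k) := fun z ζ k => (hGe (F z ζ) k).symm
  have hVe : ∀ z ζ k, famV F₀ x z ζ k = famV X.G F z ζ (e k) := by
    intro z ζ k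
    unfold famV
    simp only [hFe]
  have hbd : ∀ z ∈ Metric.ball (0 : ℂ) r₀, ∀ ζ ∈ uCirc, x z ζ ∈ Prod.fst '' K := fun z hz ζ hζ =>
    ⟨F z ζ, hreg ((hD.adm z hz).bdry ζ hζ), rfl⟩
  have hnorm : ∀ y y' : CotAmb V, ‖F₀ y.1 - F₀ y'.1‖ ≤ ‖X.G y - X.G y'‖ := by
    intro y y'
    rw [EuclideanSpace.norm_eq, EuclideanSpace.norm_eq]
    refine Real.sqrt_le_sqrt ?_
    have h1 : ∀ k, ‖(F₀ y.1 - F₀ y'.1) k‖ ^ 2 = ‖(X.G y - X.G y') (e k)‖ ^ 2 := by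
      intro k
      show ‖F₀ y.1 k - F₀ y'.1 k‖ ^ 2 = ‖X.G y (e k) - X.G y' (e k)‖ ^ 2
      rw [hGe, hGe]
    simp only [h1]
    exact da_sum_comp_le he (f := fun j => ‖(X.G y - X.G y') j‖ ^ 2) fun j => by positivity
  have hdisp : ∀ z ∈ Metric.ball (0 : ℂ) r₀, ∀ ζ ∈ uCirc,
      ‖F₀ (x z ζ) - F₀ (x 0 ζ)‖ ≤ |M| * ‖z‖ := by
    intro z hz ζ hζ
    have h1 := hnorm (F z ζ) (F 0 ζ)
    have h2 := hD.disp z hz ζ hζ
    rw [← hD.F_zero ζ (Metric.sphere_subset_closedBall hζ)] at h2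
    have h3 : ‖hh ζ‖ ≤ 1 := by
      rw [hmod ζ hζ]
      have := pw_mem h (hc.bdry ζ hζ)
      exact pow_le_one₀ this.1.le this.2
    have h4 : M * ‖z‖ * ‖hh ζ‖ ≤ |M| * ‖z‖ := by
      have a1 : M * ‖z‖ ≤ |M| * ‖z‖ := mul_le_mul_of_nonneg_right (le_abs_self M) (norm_nonneg z)
      have a2 : 0 ≤ |M| * ‖z‖ := by positivity
      calc M * ‖z‖ * ‖hh ζ‖ ≤ |M| * ‖z‖ * ‖hh ζ‖ := mul_le_mul_of_nonneg_right a1 (norm_nonneg _)
        _ ≤ |M| * ‖z‖ * 1 := mul_le_mul_of_nonneg_left h3 a2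
        _ = |M| * ‖z‖ := mul_one _
    exact h1.trans (h2.trans h4)
  have hDle : ∀ z, DsqV (fun ζ => (F₀ (x z ζ) : Fin N → ℂ)) ≤
      DsqV (fun ζ => (X.G (F z ζ) : Fin X.q → ℂ)) := by
    intro z
    unfold DsqV
    simp only [hFe]
    exact da_sum_comp_le he (f := fun j => Dsq fun ζ => X.G (F z ζ) j) fun j => Dsq_nonneg _
  have hDX : ∀ z ∈ Metric.ball (0 : ℂ) r₀, DsqV (fun ζ => (F₀ (x z ζ) : Fin N → ℂ)) ≤ |M| :=
    fun z hz => (hDle z).trans ((hD.D_X z hz).trans (le_abs_self M))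
  have hV0 : ∀ ζ ∈ uDiscC, ∀ k, famV F₀ x 0 ζ k = Vh ζ (e k) := fun ζ hζ k => by
    rw [hVe, hD.famV_zero hζ]
  have hL' : ∀ ζ ∈ uCirc, ∑ k, ‖famV F₀ x 0 ζ k‖ ^ 2 ≤ L := by
    intro ζ hζ
    simp only [hV0 ζ (Metric.sphere_subset_closedBall hζ)]
    exact (da_sum_comp_le he (f := fun j => ‖Vh ζ j‖ ^ 2) fun j => by positivity).trans (hL ζ hζ)
  obtain ⟨i1, i2⟩ := H x hfam hbd hdisp hDX hL' r hr0 hr1
  have harea : ∀ z ∈ Metric.ball (0 : ℂ) r₀, areaW 𝓜 F₀ g (x z) = areaG 𝓜 g (F z) := fun z hz =>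
    (areaG_eq_areaW hg hF₀ (f := F z) (hfam.isSmDisc hz)).symm
  have hsph : ∀ z ∈ Metric.sphere (0 : ℂ) |r|, z ∈ Metric.ball (0 : ℂ) r₀ := by
    intro z hz
    rw [mem_sphere_zero_iff_norm, abs_of_pos hr0] at hz
    rw [mem_ball_zero_iff]
    linarith
  have hEq : Set.EqOn (fun z => areaW 𝓜 F₀ g (x z)) (fun z => areaG 𝓜 g (F z))
      (Metric.sphere (0 : ℂ) |r|) := fun z hz => harea z (hsph z hz)
  constructor
  · have : (fun θ : ℝ => areaG 𝓜 g (F (circleMap 0 r θ))) =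
        fun θ : ℝ => areaW 𝓜 F₀ g (x (circleMap 0 r θ)) := by
      funext θ
      exact (hEq (circleMap_mem_sphere' 0 r θ)).symm
    unfold CircleIntegrable at i1 ⊢
    rw [this]
    exact i1
  · rw [← Real.circleAverage_congr_sphere hEq]
    refine i2.trans ?_
    have e1 : areaW 𝓜 F₀ g (x 0) = areaG 𝓜 g c.f := by
      rw [harea 0 h0]
      exact areaG_congr hD.F_zero
    have e2 : DsqV (fun ζ => (F₀ (x 0 ζ) : Fin N → ℂ)) ≤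
        DsqV (fun ζ => (X.G (c.f ζ) : Fin X.q → ℂ)) := by
      refine (hDle 0).trans (le_of_eq ?_)
      unfold DsqV
      refine Finset.sum_congr rfl fun j _ => Dsq_congr fun ζ hζ => ?_
      show X.G (F 0 ζ) j = X.G (c.f ζ) j
      rw [hD.F_zero ζ (Metric.sphere_subset_closedBall hζ)]
    have e3 : DsqV (famV F₀ x 0) ≤ DsqV Vh := by
      unfold DsqV
      have : ∀ k, Dsq (fun ζ => famV F₀ x 0 ζ k) = Dsq fun ζ => Vh ζ (e k) := fun k =>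
        Dsq_congr fun ζ hζ => hV0 ζ (Metric.sphere_subset_closedBall hζ) k
      simp only [this]
      exact da_sum_comp_le he (f := fun j => Dsq fun ζ => Vh ζ j) fun j => Dsq_nonneg _
    have e4 : Cb * (DsqV (fun ζ => (F₀ (x 0 ζ) : Fin N → ℂ)) + DsqV (famV F₀ x 0)) ≤
        |Cb| * (DsqV (fun ζ => (X.G (c.f ζ) : Fin X.q → ℂ)) + DsqV Vh) := by
      have a1 : 0 ≤ DsqV (fun ζ => (F₀ (x 0 ζ) : Fin N → ℂ)) + DsqV (famV F₀ x 0) :=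
        add_nonneg (DsqV_nonneg _) (DsqV_nonneg _)
      calc Cb * (DsqV (fun ζ => (F₀ (x 0 ζ) : Fin N → ℂ)) + DsqV (famV F₀ x 0))
          ≤ |Cb| * (DsqV (fun ζ => (F₀ (x 0 ζ) : Fin N → ℂ)) + DsqV (famV F₀ x 0)) :=
            mul_le_mul_of_nonneg_right (le_abs_self Cb) a1
        _ ≤ _ := mul_le_mul_of_nonneg_left (add_le_add e2 e3) (abs_nonneg Cb)
    have e5 := mul_le_mul_of_nonneg_left e4 (sq_nonneg r)
    rw [e1]
    linarith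

end Base

end Claimed.Agent.R316
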