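import Claimed.Agent.R316.S5.AreaTens

/-!
# Row 316, `S5-AR3`: the boundary family of the first variation (see the header of `S5/AreaDef.lean`)
-/

set_option autoImplicit false
set_option maxSynthPendingDepth 3
set_option linter.unusedSectionVars false
open scoped ContDiff ComplexOrder Topology Matrix
open MeasureTheory Filter

namespace Claimed.Agent.R316

variable {V' : Type} [NormedAddCommGroup V'] [NormedSpace ℝ V'] [FiniteDimensional ℝ V']
variable {κ : Type} [Fintype κ] [DecidableEq κ] {q : ℕ}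
variable {𝓧 : CMfd V' κ} {G : V' → CE (Fin q)} {W : HFam V' κ}
variable {x : ℂ → ℂ → V'} {r₀ : ℝ}

/-- the angular derivative only depends on the values on the circle. -/
theorem dth_congr {a b : ℂ → ℂ} (h : Set.EqOn a b uCirc) {ζ : ℂ} (hζ : ζ ∈ uCirc) :
    dth a ζ = dth b ζ := by
  unfold dth
  congr 1
  funext θ
  refine h ?_
  rw [mem_sphere_zero_iff_norm] at hζ ⊢
  rw [norm_mul, hζ, one_mul, Complex.norm_exp_ofReal_mul_I]

/-! ### `S5-AR3`: the boundary family -/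

theorem da_famSm_a (hG : GImm 𝓧 G) (hx : IsFam 𝓧 x r₀) (j : Fin q) :
    FamSm (Metric.ball 0 r₀) fun z ζ =>
      (starRingEnd ℂ) (-Complex.I * dth (fun ξ => G (x z ξ) j) ζ) :=
  ((famSm_const (-Complex.I)).mul ((hx.famSm_G hG j).dth Metric.isOpen_ball)).conj

theorem da_famSm_W (hG : GImm 𝓧 G) (hW : IsHForm 𝓧 W) (hx : IsFam 𝓧 x r₀) (j k : Fin q) :
    FamSm (Metric.ball 0 r₀) fun z ζ => ambM 𝓧 G W (x z ζ) j k :=
  hx.famSm_comp isOpen_univ (smoothOnC_ambM hG hW j k) fun _ _ _ _ => Set.mem_univ _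

theorem famSm_areaB (hG : GImm 𝓧 G) (hW : IsHForm 𝓧 W) (hx : IsFam 𝓧 x r₀) :
    FamSm (Metric.ball 0 r₀) (areaB 𝓧 G W x) := by
  unfold areaB
  exact FamSm.sum _ fun j _ => FamSm.sum _ fun k _ =>
    ((da_famSm_a hG hx j).mul (da_famSm_W hG hW hx j k)).mul (hx.famSm_V hG k)

theorem FamSm.differentiableAt_z {Ω : Set ℂ} {u : ℂ → ℂ → ℂ} (hΩ : IsOpen Ω) (hu : FamSm Ω u)
    {z ζ : ℂ} (hz : z ∈ Ω) (hζ : ζ ∈ uCirc) : DifferentiableAt ℝ (fun y => u y ζ) z :=
  (((hu.contDiffOn_z hζ).differentiableOn (by simp)) z hz).differentiableAt (hΩ.mem_nhds hz)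

theorem dbar1_areaB (hG : GImm 𝓧 G) (hW : IsHForm 𝓧 W) (hx : IsFam 𝓧 x r₀) {z ζ : ℂ}
    (hz : z ∈ Metric.ball (0 : ℂ) r₀) (hζ : ζ ∈ uCirc) :
    dbar1 (fun y => areaB 𝓧 G W x y ζ) z = areaC 𝓧 G W x z ζ := by
  have hΩ : IsOpen (Metric.ball (0 : ℂ) r₀) := Metric.isOpen_ball
  have hζ' : ζ ∈ uDiscC := Metric.sphere_subset_closedBall hζ
  have ha : ∀ j, DifferentiableAt ℝ
      (fun y => (starRingEnd ℂ) (-Complex.I * dth (fun ξ => G (x y ξ) j) ζ)) z := fun j =>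
    (da_famSm_a hG hx j).differentiableAt_z hΩ hz hζ
  have hw : ∀ j k, DifferentiableAt ℝ (fun y => ambM 𝓧 G W (x y ζ) j k) z := fun j k =>
    (da_famSm_W hG hW hx j k).differentiableAt_z hΩ hz hζ
  have hvc : ∀ k, DifferentiableAt ℂ (fun y => famV G x y ζ k) z := fun k =>
    (hx.V_holz hG hζ' k z hz).differentiableAt (hΩ.mem_nhds hz)
  have haw : ∀ j k, DifferentiableAt ℝ (fun y =>
      (starRingEnd ℂ) (-Complex.I * dth (fun ξ => G (x y ξ) j) ζ) * ambM 𝓧 G W (x y ζ) j k) z :=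
    fun j k => (ha j).mul (hw j k)
  have ht : ∀ j k, DifferentiableAt ℝ (fun y =>
      (starRingEnd ℂ) (-Complex.I * dth (fun ξ => G (x y ξ) j) ζ) * ambM 𝓧 G W (x y ζ) j k *
        famV G x y ζ k) z :=
    fun j k => (haw j k).mul ((hvc k).restrictScalars ℝ)
  have hdth : ∀ j, DifferentiableAt ℝ (fun y => dth (fun ξ => G (x y ξ) j) ζ) z := fun j =>
    ((hx.famSm_G hG j).dth hΩ).differentiableAt_z hΩ hz hζ
  unfold areaB areaC
  rw [dbar1_sum _ fun j _ => DifferentiableAt.fun_sum fun k _ => ht j k]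
  refine Finset.sum_congr rfl fun j _ => ?_
  rw [dbar1_sum _ fun k _ => ht j k]
  refine Finset.sum_congr rfl fun k _ => ?_
  rw [dbar1_mul (haw j k) ((hvc k).restrictScalars ℝ), dbar1_of_differentiableAt (hvc k),
    dbar1_mul (ha j) (hw j k), dbar1_conj, d1_mul (differentiableAt_const _) (hdth j), d1_const,
    d1_dth_comm hΩ (hx.famSm_G hG j) hz hζ,
    (hx.d1_comp hG isOpen_univ (smoothOnC_ambM hG hW j k) hz hζ' (Set.mem_univ _)).2]
  have e1 : dth (fun ξ => d1 (fun y => G (x y ξ) j) z) ζ = dth (fun ξ => famV G x z ξ j) ζ :=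
    dth_congr (fun ξ hξ => d1_of_differentiableAt
      ((hx.G_holz hG (Metric.sphere_subset_closedBall hξ) j z hz).differentiableAt
        (hΩ.mem_nhds hz))) hζ
  rw [e1]
  simp only [Complex.star_def]
  ring_nf

end Claimed.Agent.R316
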