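import Claimed.Agent.R316.S5.AreaTens

/-!
# Row 316, `S5-AR4`: the estimate of the second variation with boundary constants (see the header of `S5/AreaDef.lean`)
-/

set_option autoImplicit false
set_option maxSynthPendingDepth 3
set_option linter.unusedSectionVars false
open scoped ContDiff ComplexOrder Topology Matrix
open MeasureTheory Filter

namespace Claimed.Agent.R316

section Circle

theorem cA_conj (F : ℂ → ℂ) : cA (fun ζ => (starRingEnd ℂ) (F ζ)) = (starRingEnd ℂ) (cA F) := by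
  rw [cA_eq_pavg, cA_eq_pavg, ← B14.pavg_conj]
  rfl

theorem cA_sum_of_continuousOn {J : Type} (s : Finset J) {f : J → ℂ → ℂ}
    (h : ∀ j ∈ s, ContinuousOn (f j) uCirc) :
    cA (fun ζ => ∑ j ∈ s, f j ζ) = ∑ j ∈ s, cA (f j) :=
  Real.circleAverage_fun_sum fun j hj => ContinuousOn.circleIntegrable zero_le_one (h j hj)

theorem cA_add_of_continuousOn {f g : ℂ → ℂ} (hf : ContinuousOn f uCirc)
    (hg : ContinuousOn g uCirc) : cA (fun ζ => f ζ + g ζ) = cA f + cA g :=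
  Real.circleAverage_fun_add (ContinuousOn.circleIntegrable zero_le_one hf)
    (ContinuousOn.circleIntegrable zero_le_one hg)

/-- the pairing in the form used for the area. -/
theorem da_pair {a b : ℂ → ℂ} (ha : CircLip a) (hb : CircSm b) :
    ‖cA fun ζ => (starRingEnd ℂ) (-Complex.I * dth b ζ) * a ζ‖ ≤
      Real.sqrt (Dsq a) * Real.sqrt (Dsq b) := by
  have e : (fun ζ => (starRingEnd ℂ) (-Complex.I * dth b ζ) * a ζ) =
      fun ζ => (starRingEnd ℂ) ((-Complex.I * (starRingEnd ℂ) (a ζ)) * dth b ζ) := by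
    funext ζ
    simp only [map_mul, Complex.conj_conj]
    ring
  rw [e, cA_conj, RCLike.norm_conj]
  have h := norm_cA_mul_dth_le (a := fun ζ => -Complex.I * (starRingEnd ℂ) (a ζ))
    ((circLip_const _).mul ha.conj) hb
  rw [Dsq_const_mul, Dsq_conj] at h
  simpa using h

theorem da_sqrt_mul_le {u v U V : ℝ} (hu : u ≤ U) (hv : v ≤ V) (hU : 0 ≤ U) (hV : 0 ≤ V) :
    Real.sqrt u * Real.sqrt v ≤ (U + V) / 2 := by
  have h1 := Real.sqrt_le_sqrt hu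
  have h2 := Real.sqrt_le_sqrt hv
  have h3 := Real.sq_sqrt hU
  have h4 := Real.sq_sqrt hV
  have h5 : Real.sqrt u * Real.sqrt v ≤ Real.sqrt U * Real.sqrt V :=
    mul_le_mul h1 h2 (Real.sqrt_nonneg _) (Real.sqrt_nonneg _)
  nlinarith [sq_nonneg (Real.sqrt U - Real.sqrt V)]

/-- constants of `da_est`. -/
def da_c1 (C B : ℝ) : ℝ := 2 * C ^ 2 + 4 * B ^ 2 * C ^ 2

def da_c2 (q : ℕ) (C B : ℝ) : ℝ := 2 * (q * (C * B)) ^ 2 + 2 * B ^ 2 * (q * (q * da_c1 C B))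

theorem da_c1_nonneg (C B : ℝ) : 0 ≤ da_c1 C B := by unfold da_c1; positivity

theorem da_c2_nonneg (q : ℕ) (C B : ℝ) : 0 ≤ da_c2 q C B := by
  have := da_c1_nonneg C B
  unfold da_c2; positivity

/-- **the abstract estimate** (circle analysis only). -/
theorem da_est {q : ℕ} {Xc Vc : Fin q → ℂ → ℂ} {Wc : Fin q → Fin q → ℂ → ℂ}
    {Γc : Fin q → Fin q → Fin q → ℂ → ℂ} {C B : ℝ} (hX : ∀ j, CircSm (Xc j))
    (hV : ∀ j, CircSm (Vc j)) (hW : ∀ j k, CircLip (Wc j k)) (hΓ : ∀ j k l, CircLip (Γc j k l))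
    (bW : ∀ j k, ∀ ζ ∈ uCirc, ‖Wc j k ζ‖ ≤ C) (bΓ : ∀ j k l, ∀ ζ ∈ uCirc, ‖Γc j k l ζ‖ ≤ C)
    (bV : ∀ k, ∀ ζ ∈ uCirc, ‖Vc k ζ‖ ≤ B)
    (dW : ∀ j k, Dsq (Wc j k) ≤ 2 * C ^ 2 * ∑ i, Dsq (Xc i))
    (dΓ : ∀ j k l, Dsq (Γc j k l) ≤ 2 * C ^ 2 * ∑ i, Dsq (Xc i)) :
    ‖cA fun ζ => ∑ j, ∑ k, ((starRingEnd ℂ) (-Complex.I * dth (Vc j) ζ) * Wc j k ζ * Vc k ζ +
      (starRingEnd ℂ) (-Complex.I * dth (Xc j) ζ) *
        (∑ l, Γc j k l ζ * (starRingEnd ℂ) (Vc l ζ)) * Vc k ζ)‖ ≤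
      (q * (q * ((da_c1 C B + 1) / 2 + (da_c2 q C B + 1) / 2))) *
        (∑ i, Dsq (Xc i) + ∑ i, Dsq (Vc i)) := by
  set SX := ∑ i, Dsq (Xc i) with hSX
  set SV := ∑ i, Dsq (Vc i) with hSV
  have hSX0 : 0 ≤ SX := Finset.sum_nonneg fun i _ => Dsq_nonneg _
  have hSV0 : 0 ≤ SV := Finset.sum_nonneg fun i _ => Dsq_nonneg _
  set S := SX + SV with hS
  have hS0 : 0 ≤ S := add_nonneg hSX0 hSV0
  have hXi : ∀ i, Dsq (Xc i) ≤ S := fun i =>
    (Finset.single_le_sum (f := fun i => Dsq (Xc i)) (fun i _ => Dsq_nonneg _)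
      (Finset.mem_univ i)).trans (by linarith)
  have hVi : ∀ i, Dsq (Vc i) ≤ S := fun i =>
    (Finset.single_le_sum (f := fun i => Dsq (Vc i)) (fun i _ => Dsq_nonneg _)
      (Finset.mem_univ i)).trans (by linarith)
  have hVSV : ∀ i, Dsq (Vc i) ≤ SV := fun i =>
    Finset.single_le_sum (f := fun i => Dsq (Vc i)) (fun i _ => Dsq_nonneg _) (Finset.mem_univ i)
  have hVl : ∀ j, CircLip (Vc j) := fun j => (hV j).circLip
  have hc1 := da_c1_nonneg C B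
  have hc2 := da_c2_nonneg q C B
  -- (i)
  have i1 : ∀ j k, Dsq (fun ζ => Wc j k ζ * Vc k ζ) ≤ da_c1 C B * S := by
    intro j k
    have h := Dsq_mul_le (hW j k) (hVl k) (bW j k) (bV k)
    have h1 := mul_le_mul_of_nonneg_left (hVSV k) (by positivity : (0 : ℝ) ≤ 2 * C ^ 2)
    have h2 := mul_le_mul_of_nonneg_left (dW j k) (by positivity : (0 : ℝ) ≤ 2 * B ^ 2)
    unfold da_c1
    nlinarith [mul_nonneg (by positivity : (0 : ℝ) ≤ 2 * C ^ 2) hSX0,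
      mul_nonneg (by positivity : (0 : ℝ) ≤ 4 * B ^ 2 * C ^ 2) hSV0]
  -- (ii)
  have lf : ∀ j k l, CircLip fun ζ => Γc j k l ζ * (starRingEnd ℂ) (Vc l ζ) := fun j k l =>
    (hΓ j k l).mul (hVl l).conj
  have i2 : ∀ j k l, Dsq (fun ζ => Γc j k l ζ * (starRingEnd ℂ) (Vc l ζ)) ≤ da_c1 C B * S := by
    intro j k l
    have h := Dsq_mul_le (hΓ j k l) (hVl l).conj (bΓ j k l)
      (B := B) (fun ζ hζ => by rw [RCLike.norm_conj]; exact bV l ζ hζ)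
    rw [Dsq_conj] at h
    have h1 := mul_le_mul_of_nonneg_left (hVSV l) (by positivity : (0 : ℝ) ≤ 2 * C ^ 2)
    have h2 := mul_le_mul_of_nonneg_left (dΓ j k l) (by positivity : (0 : ℝ) ≤ 2 * B ^ 2)
    unfold da_c1
    nlinarith [mul_nonneg (by positivity : (0 : ℝ) ≤ 2 * C ^ 2) hSX0,
      mul_nonneg (by positivity : (0 : ℝ) ≤ 4 * B ^ 2 * C ^ 2) hSV0]
  have b2 : ∀ j k l, ∀ ζ ∈ uCirc, ‖Γc j k l ζ * (starRingEnd ℂ) (Vc l ζ)‖ ≤ C * B := by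
    intro j k l ζ hζ
    rw [norm_mul, RCLike.norm_conj]
    exact mul_le_mul (bΓ j k l ζ hζ) (bV l ζ hζ) (norm_nonneg _)
      ((norm_nonneg _).trans (bΓ j k l ζ hζ))
  -- (iii)
  have lF : ∀ j k, CircLip fun ζ => ∑ l, Γc j k l ζ * (starRingEnd ℂ) (Vc l ζ) := fun j k =>
    CircLip.sum _ fun l _ => lf j k l
  have i3 : ∀ j k, Dsq (fun ζ => ∑ l, Γc j k l ζ * (starRingEnd ℂ) (Vc l ζ)) ≤
      q * (q * (da_c1 C B * S)) := by
    intro j k
    have h := Dsq_sum_le (f := fun l ζ => Γc j k l ζ * (starRingEnd ℂ) (Vc l ζ)) (lf j k)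
    rw [Fintype.card_fin] at h
    refine h.trans (mul_le_mul_of_nonneg_left ?_ (Nat.cast_nonneg q))
    calc ∑ l, Dsq (fun ζ => Γc j k l ζ * (starRingEnd ℂ) (Vc l ζ))
        ≤ ∑ _l : Fin q, da_c1 C B * S := Finset.sum_le_sum fun l _ => i2 j k l
      _ = q * (da_c1 C B * S) := by simp
  have b3 : ∀ j k, ∀ ζ ∈ uCirc, ‖∑ l, Γc j k l ζ * (starRingEnd ℂ) (Vc l ζ)‖ ≤ q * (C * B) := by
    intro j k ζ hζ
    calc ‖∑ l, Γc j k l ζ * (starRingEnd ℂ) (Vc l ζ)‖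
        ≤ ∑ l, ‖Γc j k l ζ * (starRingEnd ℂ) (Vc l ζ)‖ := norm_sum_le _ _
      _ ≤ ∑ _l : Fin q, C * B := Finset.sum_le_sum fun l _ => b2 j k l ζ hζ
      _ = q * (C * B) := by simp
  -- (iv)
  have i4 : ∀ j k, Dsq (fun ζ => (∑ l, Γc j k l ζ * (starRingEnd ℂ) (Vc l ζ)) * Vc k ζ) ≤
      da_c2 q C B * S := by
    intro j k
    have h := Dsq_mul_le (lF j k) (hVl k) (b3 j k) (bV k)
    have h1 := mul_le_mul_of_nonneg_left (hVi k) (by positivity : (0 : ℝ) ≤ 2 * (q * (C * B)) ^ 2)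
    have h2 := mul_le_mul_of_nonneg_left (i3 j k) (by positivity : (0 : ℝ) ≤ 2 * B ^ 2)
    unfold da_c2
    nlinarith
  -- (v)
  have p1 : ∀ j k, ‖cA fun ζ => (starRingEnd ℂ) (-Complex.I * dth (Vc j) ζ) *
      (Wc j k ζ * Vc k ζ)‖ ≤ (da_c1 C B + 1) / 2 * S := by
    intro j k
    have h := da_pair ((hW j k).mul (hVl k)) (hV j)
    refine h.trans ((da_sqrt_mul_le (i1 j k) (hVi j) (mul_nonneg hc1 hS0) hS0).trans
      (le_of_eq ?_))
    ring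
  have p2 : ∀ j k, ‖cA fun ζ => (starRingEnd ℂ) (-Complex.I * dth (Xc j) ζ) *
      ((∑ l, Γc j k l ζ * (starRingEnd ℂ) (Vc l ζ)) * Vc k ζ)‖ ≤ (da_c2 q C B + 1) / 2 * S := by
    intro j k
    have h := da_pair ((lF j k).mul (hVl k)) (hX j)
    refine h.trans ((da_sqrt_mul_le (i4 j k) (hXi j) (mul_nonneg hc2 hS0) hS0).trans
      (le_of_eq ?_))
    ring
  -- continuity
  have cd : ∀ {b : ℂ → ℂ}, CircSm b →
      ContinuousOn (fun ζ => (starRingEnd ℂ) (-Complex.I * dth b ζ)) uCirc := fun {b} hb =>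
    (((circLip_const (-Complex.I)).mul hb.dth.circLip).conj).continuousOn
  have c1 : ∀ j k, ContinuousOn (fun ζ => (starRingEnd ℂ) (-Complex.I * dth (Vc j) ζ) *
      (Wc j k ζ * Vc k ζ)) uCirc := fun j k =>
    (cd (hV j)).mul ((hW j k).mul (hVl k)).continuousOn
  have c2 : ∀ j k, ContinuousOn (fun ζ => (starRingEnd ℂ) (-Complex.I * dth (Xc j) ζ) *
      ((∑ l, Γc j k l ζ * (starRingEnd ℂ) (Vc l ζ)) * Vc k ζ)) uCirc := fun j k =>
    (cd (hX j)).mul ((lF j k).mul (hVl k)).continuousOn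
  have c12 : ∀ j k, ContinuousOn (fun ζ => (starRingEnd ℂ) (-Complex.I * dth (Vc j) ζ) *
      (Wc j k ζ * Vc k ζ) + (starRingEnd ℂ) (-Complex.I * dth (Xc j) ζ) *
      ((∑ l, Γc j k l ζ * (starRingEnd ℂ) (Vc l ζ)) * Vc k ζ)) uCirc := fun j k =>
    (c1 j k).add (c2 j k)
  have cs : ∀ j : Fin q, ContinuousOn (fun ζ => ∑ k, ((starRingEnd ℂ) (-Complex.I * dth (Vc j) ζ) *
      (Wc j k ζ * Vc k ζ) + (starRingEnd ℂ) (-Complex.I * dth (Xc j) ζ) *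
      ((∑ l, Γc j k l ζ * (starRingEnd ℂ) (Vc l ζ)) * Vc k ζ))) uCirc := fun j =>
    continuousOn_finsetSum _ fun k _ => c12 j k
  simp only [mul_assoc]
  rw [cA_sum_of_continuousOn _ fun j _ => cs j]
  refine (norm_sum_le _ _).trans ?_
  have hj : ∀ j : Fin q, ‖cA fun ζ => ∑ k, ((starRingEnd ℂ) (-Complex.I * dth (Vc j) ζ) *
      (Wc j k ζ * Vc k ζ) + (starRingEnd ℂ) (-Complex.I * dth (Xc j) ζ) *
      ((∑ l, Γc j k l ζ * (starRingEnd ℂ) (Vc l ζ)) * Vc k ζ))‖ ≤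
      q * (((da_c1 C B + 1) / 2 + (da_c2 q C B + 1) / 2) * S) := by
    intro j
    rw [cA_sum_of_continuousOn _ fun k _ => c12 j k]
    refine (norm_sum_le _ _).trans ?_
    calc ∑ k, ‖cA fun ζ => (starRingEnd ℂ) (-Complex.I * dth (Vc j) ζ) * (Wc j k ζ * Vc k ζ) +
          (starRingEnd ℂ) (-Complex.I * dth (Xc j) ζ) *
          ((∑ l, Γc j k l ζ * (starRingEnd ℂ) (Vc l ζ)) * Vc k ζ)‖
        ≤ ∑ _k : Fin q, ((da_c1 C B + 1) / 2 + (da_c2 q C B + 1) / 2) * S := by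
          refine Finset.sum_le_sum fun k _ => ?_
          rw [cA_add_of_continuousOn (c1 j k) (c2 j k)]
          refine (norm_add_le _ _).trans ?_
          have := p1 j k
          have := p2 j k
          linarith
      _ = q * (((da_c1 C B + 1) / 2 + (da_c2 q C B + 1) / 2) * S) := by simp
  calc ∑ j, ‖cA fun ζ => ∑ k, ((starRingEnd ℂ) (-Complex.I * dth (Vc j) ζ) *
      (Wc j k ζ * Vc k ζ) + (starRingEnd ℂ) (-Complex.I * dth (Xc j) ζ) *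
      ((∑ l, Γc j k l ζ * (starRingEnd ℂ) (Vc l ζ)) * Vc k ζ))‖
      ≤ ∑ _j : Fin q, q * (((da_c1 C B + 1) / 2 + (da_c2 q C B + 1) / 2) * S) :=
        Finset.sum_le_sum fun j _ => hj j
    _ = _ := by simp

end Circle

variable {V' : Type} [NormedAddCommGroup V'] [NormedSpace ℝ V'] [FiniteDimensional ℝ V']
variable {κ : Type} [Fintype κ] [DecidableEq κ] {q : ℕ}
variable {𝓧 : CMfd V' κ} {G : V' → CE (Fin q)} {W : HFam V' κ}

theorem GLipOn.mono_const {S : Set V'} {I : Set ℝ} {C C' : ℝ} {β : V' → ℝ → ℂ}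
    (h : GLipOn G S I C β) (hC : C ≤ C') : GLipOn G S I C' β :=
  ⟨fun y hy t ht => (h.1 y hy t ht).trans hC, fun y hy y' hy' t ht t' ht' =>
    (h.2 y hy y' hy' t ht t' ht').trans (mul_le_mul_of_nonneg_right hC (by positivity))⟩

/-- transfer of a time independent `G`-Lipschitz bound to the circle. -/
theorem da_comp_bounds {K : Set V'} {C : ℝ} {β : V' → ℂ}
    (hβ : GLipOn G K Set.univ C fun y _ => β y) {f : ℂ → V'}
    (hX : ∀ r, CircLip fun ζ => G (f ζ) r) (hf : ∀ ζ ∈ uCirc, f ζ ∈ K) :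
    CircLip (fun ζ => β (f ζ)) ∧ (∀ ζ ∈ uCirc, ‖β (f ζ)‖ ≤ C) ∧
    Dsq (fun ζ => β (f ζ)) ≤ 2 * C ^ 2 * ∑ i, Dsq fun ζ => G (f ζ) i := by
  obtain ⟨h1, h2⟩ := Dsq_comp_le hβ (f := f) (t := fun _ => 0) hX (circLip_const _) hf
    fun _ _ => Set.mem_univ _
  refine ⟨h1, fun ζ hζ => hβ.1 (f ζ) (hf ζ hζ) 0 (Set.mem_univ _), ?_⟩
  have h3 : DsqR (fun _ : ℂ => (0 : ℝ)) = 0 := Dsq_const _
  rw [h3, add_zero] at h2
  exact h2

/-! ### `S5-AR4`: the estimate with boundary constants -/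

theorem areaC_le (hG : GImm 𝓧 G) (hW : IsHForm 𝓧 W) {K : Set V'} (hK : IsCompact K)
    (hKX : K ⊆ 𝓧.carrier) (L : ℝ) :
    ∃ Cb : ℝ, 0 ≤ Cb ∧ ∀ (x : ℂ → ℂ → V') (r₀ : ℝ), IsFam 𝓧 x r₀ →
      ∀ z ∈ Metric.ball (0 : ℂ) r₀, (∀ ζ ∈ uCirc, x z ζ ∈ K) →
      (∀ ζ ∈ uCirc, ∑ k, ‖famV G x z ζ k‖ ^ 2 ≤ L) →
      ‖cA (areaC 𝓧 G W x z)‖ ≤
        Cb * (DsqV (fun ζ => (G (x z ζ) : Fin q → ℂ)) + DsqV (famV G x z)) := by
  choose C1 hC1 using fun j k => glip_of_smoothOnC hG hK hKX (smoothOnC_ambM hG hW j k)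
  choose C2 hC2 using fun j k l => glip_of_smoothOnC hG hK hKX
    (smoothOnC_gDzb hG isOpen_univ (smoothOnC_ambM hG hW j k) l)
  set C : ℝ := (∑ j, ∑ k, |C1 j k|) + ∑ j, ∑ k, ∑ l, |C2 j k l| with hC
  have hs1 : 0 ≤ ∑ j, ∑ k, |C1 j k| :=
    Finset.sum_nonneg fun j _ => Finset.sum_nonneg fun k _ => abs_nonneg _
  have hs2 : 0 ≤ ∑ j, ∑ k, ∑ l, |C2 j k l| :=
    Finset.sum_nonneg fun j _ => Finset.sum_nonneg fun k _ => Finset.sum_nonneg fun l _ =>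
      abs_nonneg _
  have hC1le : ∀ j k, C1 j k ≤ C := by
    intro j k
    have h1 : |C1 j k| ≤ ∑ k, |C1 j k| :=
      Finset.single_le_sum (f := fun k => |C1 j k|) (fun _ _ => abs_nonneg _) (Finset.mem_univ k)
    have h2 : ∑ k, |C1 j k| ≤ ∑ j, ∑ k, |C1 j k| :=
      Finset.single_le_sum (f := fun j => ∑ k, |C1 j k|)
        (fun _ _ => Finset.sum_nonneg fun _ _ => abs_nonneg _) (Finset.mem_univ j)
    linarith [le_abs_self (C1 j k)]
  have hC2le : ∀ j k l, C2 j k l ≤ C := by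
    intro j k l
    have h0 : |C2 j k l| ≤ ∑ l, |C2 j k l| :=
      Finset.single_le_sum (f := fun l => |C2 j k l|) (fun _ _ => abs_nonneg _) (Finset.mem_univ l)
    have h1 : ∑ l, |C2 j k l| ≤ ∑ k, ∑ l, |C2 j k l| :=
      Finset.single_le_sum (f := fun k => ∑ l, |C2 j k l|)
        (fun _ _ => Finset.sum_nonneg fun _ _ => abs_nonneg _) (Finset.mem_univ k)
    have h2 : ∑ k, ∑ l, |C2 j k l| ≤ ∑ j, ∑ k, ∑ l, |C2 j k l| :=
      Finset.single_le_sum (f := fun j => ∑ k, ∑ l, |C2 j k l|)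
        (fun _ _ => Finset.sum_nonneg fun _ _ => Finset.sum_nonneg fun _ _ => abs_nonneg _)
        (Finset.mem_univ j)
    linarith [le_abs_self (C2 j k l)]
  set B : ℝ := |L| + 1 with hB
  refine ⟨q * (q * ((da_c1 C B + 1) / 2 + (da_c2 q C B + 1) / 2)), ?_,
    fun x r₀ hx z hz hxK hV => ?_⟩
  · have := da_c1_nonneg C B
    have := da_c2_nonneg q C B
    positivity
  have hXs : ∀ j, CircSm fun ζ => G (x z ζ) j := fun j => (hx.famSm_G hG j).circSm hz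
  have hVs : ∀ j, CircSm fun ζ => famV G x z ζ j := fun j => (hx.famSm_V hG j).circSm hz
  have hXl : ∀ j, CircLip fun ζ => G (x z ζ) j := fun j => (hXs j).circLip
  have w := fun j k => da_comp_bounds ((hC1 j k).mono_const (hC1le j k)) (f := x z) hXl hxK
  have γ := fun j k l => da_comp_bounds ((hC2 j k l).mono_const (hC2le j k l)) (f := x z) hXl hxK
  have bV : ∀ k, ∀ ζ ∈ uCirc, ‖famV G x z ζ k‖ ≤ B := by
    intro k ζ hζ
    have h1 : ‖famV G x z ζ k‖ ^ 2 ≤ ∑ k, ‖famV G x z ζ k‖ ^ 2 :=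
      Finset.single_le_sum (f := fun k => ‖famV G x z ζ k‖ ^ 2) (fun _ _ => by positivity)
        (Finset.mem_univ k)
    have h2 := hV ζ hζ
    have h3 := le_abs_self L
    have h4 := abs_nonneg L
    by_contra hcon
    rw [not_le] at hcon
    nlinarith
  exact da_est (Xc := fun j ζ => G (x z ζ) j) (Vc := fun j ζ => famV G x z ζ j)
    (Wc := fun j k ζ => ambM 𝓧 G W (x z ζ) j k)
    (Γc := fun j k l ζ => gDzb 𝓧 G (fun y => ambM 𝓧 G W y j k) (x z ζ) l)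
    hXs hVs (fun j k => (w j k).1) (fun j k l => (γ j k l).1) (fun j k => (w j k).2.1)
    (fun j k l => (γ j k l).2.1) bV (fun j k => (w j k).2.2) (fun j k l => (γ j k l).2.2)

end Claimed.Agent.R316
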