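import Claimed.Agent.R316.S5.AreaFirst
import Claimed.Agent.R316.S5.AreaBd
import Claimed.Agent.R316.S5.AreaEst

/-!
# Row 316, `S5-AR5`: second variation of the area, assembly (see the header of `S5/AreaDef.lean`)
-/

set_option autoImplicit false
set_option maxSynthPendingDepth 3
set_option linter.unusedSectionVars false
open scoped ContDiff ComplexOrder Topology Matrix
open MeasureTheory Filter

namespace Claimed.Agent.R316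

variable {V' : Type} [NormedAddCommGroup V'] [NormedSpace ℝ V'] [FiniteDimensional ℝ V']
variable {κ : Type} [Fintype κ] [DecidableEq κ] {q : ℕ}
variable {𝓧 : CMfd V' κ} {G : V' → CE (Fin q)} {W : HFam V' κ}
variable {x : ℂ → ℂ → V'} {r₀ : ℝ}

/-- sup norm Cauchy estimate for the field. -/
theorem da_V_sub_le (hG : GImm 𝓧 G) (hx : IsFam 𝓧 x r₀) (hr₀ : 0 < r₀) {M : ℝ} (hM : 0 ≤ M)
    (hdisp : ∀ z ∈ Metric.ball (0 : ℂ) r₀, ∀ ζ ∈ uCirc, ‖G (x z ζ) - G (x 0 ζ)‖ ≤ M * ‖z‖)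
    {z : ℂ} (hz : ‖z‖ ≤ r₀ / 2) {ζ : ℂ} (hζ : ζ ∈ uCirc) (k : Fin q) :
    ‖famV G x z ζ k - famV G x 0 ζ k‖ ≤ 8 * M * ‖z‖ / r₀ := by
  have hζ' : ζ ∈ uDiscC := Metric.sphere_subset_closedBall hζ
  set F : ℂ → ℂ := fun y => G (x y ζ) k - G (x 0 ζ) k with hF
  have hhol : DifferentiableOn ℂ F (Metric.ball 0 r₀) :=
    (hx.G_holz hG hζ' k).sub (differentiableOn_const _)
  have hb : ∀ y ∈ Metric.ball (0 : ℂ) r₀, ‖F y‖ ≤ M * r₀ := by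
    intro y hy
    have h1 : ‖F y‖ ≤ ‖G (x y ζ) - G (x 0 ζ)‖ := PiLp.norm_apply_le (G (x y ζ) - G (x 0 ζ)) k
    have h2 := hdisp y hy ζ hζ
    have h3 : ‖y‖ < r₀ := by simpa using hy
    nlinarith [norm_nonneg y]
  have hd : ∀ y : ℂ, deriv F y = famV G x y ζ k := fun y => deriv_sub_const _
  have h := (norm_deriv_sub_le hr₀ hhol hb).2 z hz
  rw [hd, hd] at h
  refine h.trans (le_of_eq ?_)
  field_simp

theorem da_sup_V (hG : GImm 𝓧 G) (hx : IsFam 𝓧 x r₀) (hr₀ : 0 < r₀) {M L : ℝ} (hM : 0 ≤ M)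
    (hdisp : ∀ z ∈ Metric.ball (0 : ℂ) r₀, ∀ ζ ∈ uCirc, ‖G (x z ζ) - G (x 0 ζ)‖ ≤ M * ‖z‖)
    (hL : ∀ ζ ∈ uCirc, ∑ k, ‖famV G x 0 ζ k‖ ^ 2 ≤ L) {z : ℂ} (hz : ‖z‖ ≤ r₀ / 2) {δ : ℝ}
    (hδ : 8 * M * ‖z‖ / r₀ ≤ δ) (hδ1 : δ ≤ 1) {ζ : ℂ} (hζ : ζ ∈ uCirc) :
    ∑ k, ‖famV G x z ζ k‖ ^ 2 ≤ L + δ * (2 * q + L) := by
  have hδ0 : 0 ≤ δ := le_trans (by positivity) hδ
  have h1 : ∀ k, ‖famV G x z ζ k‖ ^ 2 ≤ (1 + δ) * ‖famV G x 0 ζ k‖ ^ 2 + 2 * δ := by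
    intro k
    have a1 := (da_V_sub_le hG hx hr₀ hM hdisp hz hζ k).trans hδ
    have a2 : ‖famV G x z ζ k‖ ≤ ‖famV G x 0 ζ k‖ + δ := by
      have := norm_le_insert' (famV G x z ζ k) (famV G x 0 ζ k)
      linarith
    have a3 := norm_nonneg (famV G x z ζ k)
    have a4 := norm_nonneg (famV G x 0 ζ k)
    have a5 : ‖famV G x z ζ k‖ ^ 2 ≤ (‖famV G x 0 ζ k‖ + δ) ^ 2 := pow_le_pow_left₀ a3 a2 2
    nlinarith [sq_nonneg (‖famV G x 0 ζ k‖ - 1), mul_nonneg hδ0 (sq_nonneg (‖famV G x 0 ζ k‖ - 1))]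
  calc ∑ k, ‖famV G x z ζ k‖ ^ 2 ≤ ∑ k : Fin q, ((1 + δ) * ‖famV G x 0 ζ k‖ ^ 2 + 2 * δ) :=
        Finset.sum_le_sum fun k _ => h1 k
    _ = (1 + δ) * ∑ k, ‖famV G x 0 ζ k‖ ^ 2 + q * (2 * δ) := by
        rw [Finset.sum_add_distrib, ← Finset.mul_sum]
        simp
    _ ≤ (1 + δ) * L + q * (2 * δ) := by
        have := mul_le_mul_of_nonneg_left (hL ζ hζ) (by linarith : (0 : ℝ) ≤ 1 + δ)
        linarith
    _ = L + δ * (2 * q + L) := by ring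

/-- one component: `D(a)² ≤ D(b)² + (2 α c + c² r₀) |z|` if `D(b)² ≤ α²`, `D(a - b)² ≤ (c |z|)²`. -/
theorem da_Dsq_step {a b : ℂ → ℂ} (ha : CircLip a) (hb : CircLip b) {α c t r₀ : ℝ} (hα : 0 ≤ α)
    (hc : 0 ≤ c) (ht : 0 ≤ t) (htr : t ≤ r₀) (hA : Dsq b ≤ α ^ 2)
    (hE : Dsq (fun ζ => a ζ - b ζ) ≤ (c * t) ^ 2) :
    Dsq a ≤ Dsq b + (2 * α * c + c ^ 2 * r₀) * t := by
  have h := Dsq_le_add_of_sub ha hb hA hE
  rw [Real.sqrt_sq hα, Real.sqrt_sq (mul_nonneg hc ht)] at h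
  have h2 : c ^ 2 * t * t ≤ c ^ 2 * t * r₀ :=
    mul_le_mul_of_nonneg_left htr (by positivity)
  nlinarith

theorem da_num {q M : ℝ} (hq : 1 ≤ q) (hM : 0 ≤ M) : q * M ≤ q * q * (M + 1) ^ 2 := by
  have h5 : M ≤ (M + 1) ^ 2 := by nlinarith
  have h6 : q * M ≤ q * (M + 1) ^ 2 := mul_le_mul_of_nonneg_left h5 (by linarith)
  have h7 : 1 * (q * (M + 1) ^ 2) ≤ q * (q * (M + 1) ^ 2) :=
    mul_le_mul_of_nonneg_right hq (by positivity)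
  linarith

/-- the constant of `da_D_bounds`. -/
noncomputable def da_C1 (q : ℕ) (M r₀ : ℝ) : ℝ :=
  q * ((2 * (M + 1) * (2 * q * (M + 1) / r₀) + (2 * q * (M + 1) / r₀) ^ 2 * r₀) +
    (2 * ((M + 1) / r₀) * (8 * q * (M + 1) / r₀ ^ 2) + (8 * q * (M + 1) / r₀ ^ 2) ^ 2 * r₀))

theorem da_C1_nonneg (q : ℕ) {M r₀ : ℝ} (hM : 0 ≤ M) (hr₀ : 0 < r₀) : 0 ≤ da_C1 q M r₀ := by
  unfold da_C1
  positivity

theorem da_D_bounds (hG : GImm 𝓧 G) (hx : IsFam 𝓧 x r₀) (hr₀ : 0 < r₀) {M : ℝ}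
    (hD : ∀ z ∈ Metric.ball (0 : ℂ) r₀, DsqV (fun ζ => (G (x z ζ) : Fin q → ℂ)) ≤ M) {z : ℂ}
    (hz : ‖z‖ ≤ r₀ / 2) :
    DsqV (fun ζ => (G (x z ζ) : Fin q → ℂ)) + DsqV (famV G x z) ≤
      DsqV (fun ζ => (G (x 0 ζ) : Fin q → ℂ)) + DsqV (famV G x 0) + da_C1 q M r₀ * ‖z‖ := by
  have h0 : (0 : ℂ) ∈ Metric.ball (0 : ℂ) r₀ := Metric.mem_ball_self hr₀
  have hzb : z ∈ Metric.ball (0 : ℂ) r₀ := by
    rw [mem_ball_zero_iff]; linarith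
  have hM : 0 ≤ M := (DsqV_nonneg _).trans (hD 0 h0)
  have hcomp : ∀ (y : ℂ), y ∈ Metric.ball (0 : ℂ) r₀ → ∀ k, Dsq (fun ζ => G (x y ζ) k) ≤ M := by
    intro y hy k
    refine le_trans ?_ (hD y hy)
    exact Finset.single_le_sum (f := fun k => Dsq fun ζ => G (x y ζ) k)
      (fun i _ => Dsq_nonneg _) (Finset.mem_univ k)
  obtain ⟨cX, cV⟩ := hx.cauchy_X hG hr₀ hD
  have hq : ∀ k : Fin q, (1 : ℝ) ≤ q := fun k => by
    have : 0 < q := Fin.pos k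
    exact_mod_cast this
  have hXk : ∀ k, Dsq (fun ζ => G (x z ζ) k) ≤ Dsq (fun ζ => G (x 0 ζ) k) +
      (2 * (M + 1) * (2 * q * (M + 1) / r₀) + (2 * q * (M + 1) / r₀) ^ 2 * r₀) * ‖z‖ := by
    intro k
    refine da_Dsq_step ((hx.famSm_G hG k).circSm hzb).circLip ((hx.famSm_G hG k).circSm h0).circLip
      (by linarith) (by positivity) (norm_nonneg z) (by linarith) ?_ ?_
    · exact (hcomp 0 h0 k).trans (by nlinarith)
    · have e1 : Dsq (fun ζ => G (x z ζ) k - G (x 0 ζ) k) ≤ 4 * q * M * ‖z‖ ^ 2 / r₀ ^ 2 :=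
        le_trans (Finset.single_le_sum (f := fun k => Dsq fun ζ => G (x z ζ) k - G (x 0 ζ) k)
          (fun i _ => Dsq_nonneg _) (Finset.mem_univ k)) (cX z hz)
      refine e1.trans ?_
      have e2 : (2 * q * (M + 1) / r₀ * ‖z‖) ^ 2 = 4 * (q * q * (M + 1) ^ 2) * ‖z‖ ^ 2 / r₀ ^ 2 := by
        field_simp
        ring
      rw [e2]
      have e3 := da_num (hq k) hM
      rw [show 4 * (q : ℝ) * M = 4 * (q * M) by ring]
      gcongr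
  have hVk : ∀ k, Dsq (fun ζ => famV G x z ζ k) ≤ Dsq (fun ζ => famV G x 0 ζ k) +
      (2 * ((M + 1) / r₀) * (8 * q * (M + 1) / r₀ ^ 2) + (8 * q * (M + 1) / r₀ ^ 2) ^ 2 * r₀) * ‖z‖ := by
    intro k
    refine da_Dsq_step ((hx.famSm_V hG k).circSm hzb).circLip ((hx.famSm_V hG k).circSm h0).circLip
      (by positivity) (by positivity) (norm_nonneg z) (by linarith) ?_ ?_
    · have e0 := (FamSm.Dsq_deriv_le hr₀
        (fun ζ hζ => hx.G_holz hG (Metric.sphere_subset_closedBall hζ) k) (hx.famSm_G hG k)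
        (fun y hy => hcomp y hy k)).1
      refine le_trans e0 ?_
      rw [div_pow]
      gcongr
      nlinarith
    · have e1 : Dsq (fun ζ => famV G x z ζ k - famV G x 0 ζ k) ≤ 64 * q * M * ‖z‖ ^ 2 / r₀ ^ 4 :=
        le_trans (Finset.single_le_sum (f := fun k => Dsq fun ζ => famV G x z ζ k - famV G x 0 ζ k)
          (fun i _ => Dsq_nonneg _) (Finset.mem_univ k)) (cV z hz)
      refine e1.trans ?_
      have e2 : (8 * q * (M + 1) / r₀ ^ 2 * ‖z‖) ^ 2 =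
          64 * (q * q * (M + 1) ^ 2) * ‖z‖ ^ 2 / r₀ ^ 4 := by
        field_simp
        ring
      rw [e2]
      have e3 := da_num (hq k) hM
      rw [show 64 * (q : ℝ) * M = 64 * (q * M) by ring]
      gcongr
  have s1 := Finset.sum_le_sum fun k (_ : k ∈ Finset.univ) => hXk k
  have s2 := Finset.sum_le_sum fun k (_ : k ∈ Finset.univ) => hVk k
  rw [Finset.sum_add_distrib] at s1 s2
  simp only [Finset.sum_const, Finset.card_univ, Fintype.card_fin, nsmul_eq_mul] at s1 s2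
  unfold DsqV da_C1
  nlinarith [s1, s2]

/-- the Laplacian of the area. -/
theorem da_lap1_area (hG : GImm 𝓧 G) (hW : IsHForm 𝓧 W) (hcl : IsClosedForm 𝓧 W)
    (hx : IsFam 𝓧 x r₀) :
    ContDiffOn ℝ 2 (fun z => areaW 𝓧 G W (x z)) (Metric.ball 0 r₀) ∧
    ∀ z ∈ Metric.ball (0 : ℂ) r₀, lap1 (fun z => areaW 𝓧 G W (x z)) z =
      ((Real.pi : ℂ) * cA (areaC 𝓧 G W x z)).re := by
  obtain ⟨hd, h1⟩ := area_first hG hW hcl hx
  have hcs : ContDiffOn ℝ ∞ (fun z => cA (areaB 𝓧 G W x z)) (Metric.ball 0 r₀) :=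
    (famSm_areaB hG hW hx).contDiffOn_cA Metric.isOpen_ball
  have hBs : ContDiffOn ℝ ∞ (fun z => (Real.pi : ℂ) * cA (areaB 𝓧 G W x z)) (Metric.ball 0 r₀) :=
    contDiffOn_const.mul hcs
  obtain ⟨hC2, hlap⟩ := lap1_of_d1 Metric.isOpen_ball hd h1 hBs
  refine ⟨hC2, fun z hz => ?_⟩
  rw [hlap z hz]
  have hdz : DifferentiableAt ℝ (fun z => cA (areaB 𝓧 G W x z)) z :=
    ((hcs.differentiableOn (by simp)) z hz).differentiableAt (Metric.isOpen_ball.mem_nhds hz)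
  rw [dbar1_mul (differentiableAt_const _) hdz, dbar1_const, zero_mul, zero_add,
    dbar1_cA Metric.isOpen_ball (famSm_areaB hG hW hx) hz,
    cA_congr fun ζ hζ => dbar1_areaB hG hW hx hz hζ]

/-! ### `S5-AR5`: assembly -/

theorem area_second_variation (hG : GImm 𝓧 G) (hW : IsHForm 𝓧 W) (hcl : IsClosedForm 𝓧 W)
    {K : Set V'} (hK : IsCompact K) (hKX : K ⊆ 𝓧.carrier) (L : ℝ) :
    ∃ Cb : ℝ, ∀ (r₀ : ℝ), 0 < r₀ → ∀ M : ℝ, ∃ C' r₁ : ℝ, 0 < r₁ ∧ r₁ ≤ r₀ / 2 ∧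
      ∀ x : ℂ → ℂ → V', IsFam 𝓧 x r₀ →
      (∀ z ∈ Metric.ball (0 : ℂ) r₀, ∀ ζ ∈ uCirc, x z ζ ∈ K) →
      (∀ z ∈ Metric.ball (0 : ℂ) r₀, ∀ ζ ∈ uCirc, ‖G (x z ζ) - G (x 0 ζ)‖ ≤ M * ‖z‖) →
      (∀ z ∈ Metric.ball (0 : ℂ) r₀, DsqV (fun ζ => (G (x z ζ) : Fin q → ℂ)) ≤ M) →
      (∀ ζ ∈ uCirc, ∑ k, ‖famV G x 0 ζ k‖ ^ 2 ≤ L) →
      ∀ r : ℝ, 0 < r → r ≤ r₁ →
        CircleIntegrable (fun z => areaW 𝓧 G W (x z)) 0 r ∧
        Real.circleAverage (fun z => areaW 𝓧 G W (x z)) 0 r ≤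
          areaW 𝓧 G W (x 0) +
            r ^ 2 * (Cb * (DsqV (fun ζ => (G (x 0 ζ) : Fin q → ℂ)) + DsqV (famV G x 0))) +
            C' * r ^ 3 := by
  obtain ⟨Cb₀, hCb0, hC⟩ := areaC_le (G := G) hG hW hK hKX (L + 1)
  refine ⟨Real.pi * Cb₀, fun r₀ hr₀ M => ?_⟩
  set N : ℝ := 2 * q + |L| + 1 with hN
  have hN1 : 1 ≤ N := by
    have := abs_nonneg L
    have : (0 : ℝ) ≤ q := Nat.cast_nonneg q
    rw [hN]; linarith
  have hMp : 0 < |M| + 1 := by positivity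
  set r₂ : ℝ := min (r₀ / 2) (r₀ / (8 * (|M| + 1) * N)) with hr₂
  have hr₂pos : 0 < r₂ := lt_min (by positivity) (by positivity)
  refine ⟨2 * (Real.pi * Cb₀ * da_C1 q |M| r₀), r₂ / 2, by positivity, ?_,
    fun x hx hbd hdisp hD hL r hr0 hr1 => ?_⟩
  · have := min_le_left (r₀ / 2) (r₀ / (8 * (|M| + 1) * N))
    linarith
  have h0 : (0 : ℂ) ∈ Metric.ball (0 : ℂ) r₀ := Metric.mem_ball_self hr₀
  have hM : 0 ≤ M := (DsqV_nonneg _).trans (hD 0 h0)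
  rw [abs_of_nonneg hM] at hr₂ hMp ⊢
  obtain ⟨hC2, hlap⟩ := da_lap1_area hG hW hcl hx
  have hsub : Metric.ball (0 : ℂ) r₂ ⊆ Metric.ball 0 r₀ :=
    Metric.ball_subset_ball ((min_le_left _ _).trans (by linarith))
  have hpi := Real.pi_pos
  have hbound : ∀ z ∈ Metric.ball (0 : ℂ) r₂, lap1 (fun z => areaW 𝓧 G W (x z)) z ≤
      Real.pi * Cb₀ * (DsqV (fun ζ => (G (x 0 ζ) : Fin q → ℂ)) + DsqV (famV G x 0)) +
        Real.pi * Cb₀ * da_C1 q M r₀ * ‖z‖ := by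
    intro z hz
    have hzn : ‖z‖ < r₂ := by simpa using hz
    have hz2 : ‖z‖ ≤ r₀ / 2 := (hzn.le).trans (min_le_left _ _)
    have hz3 : ‖z‖ ≤ r₀ / (8 * (M + 1) * N) := (hzn.le).trans (by rw [hr₂]; exact min_le_right _ _)
    have hδ : 8 * M * ‖z‖ / r₀ ≤ 1 / N := by
      rw [le_div_iff₀ (by positivity)] at hz3
      rw [div_le_div_iff₀ hr₀ (by positivity)]
      nlinarith [norm_nonneg z, mul_nonneg (norm_nonneg z) (by positivity : (0 : ℝ) ≤ N)]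
    have hδ1 : 1 / N ≤ 1 := by
      rw [div_le_one (by positivity)]; exact hN1
    have hsup : ∀ ζ ∈ uCirc, ∑ k, ‖famV G x z ζ k‖ ^ 2 ≤ L + 1 := by
      intro ζ hζ
      have h1 := da_sup_V hG hx hr₀ hM hdisp hL hz2 hδ hδ1 hζ
      have h2 : 1 / N * (2 * q + L) ≤ 1 := by
        rw [div_mul_eq_mul_div, one_mul, div_le_one (by positivity), hN]
        linarith [le_abs_self L]
      linarith
    have h1 := hC x r₀ hx z (hsub hz) (hbd z (hsub hz)) hsup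
    have h2 := da_D_bounds hG hx hr₀ hD hz2
    rw [hlap z (hsub hz)]
    calc ((Real.pi : ℂ) * cA (areaC 𝓧 G W x z)).re ≤ ‖(Real.pi : ℂ) * cA (areaC 𝓧 G W x z)‖ :=
          Complex.re_le_norm _
      _ = Real.pi * ‖cA (areaC 𝓧 G W x z)‖ := by
          rw [norm_mul, Complex.norm_real, Real.norm_eq_abs, abs_of_pos hpi]
      _ ≤ Real.pi * (Cb₀ * (DsqV (fun ζ => (G (x z ζ) : Fin q → ℂ)) + DsqV (famV G x z))) :=
          mul_le_mul_of_nonneg_left h1 hpi.le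
      _ ≤ Real.pi * (Cb₀ * (DsqV (fun ζ => (G (x 0 ζ) : Fin q → ℂ)) + DsqV (famV G x 0) +
            da_C1 q M r₀ * ‖z‖)) :=
          mul_le_mul_of_nonneg_left (mul_le_mul_of_nonneg_left h2 hCb0) hpi.le
      _ = _ := by ring
  have hfin := avg_le_of_lap1_le' (hC2.mono hsub)
    (by have := da_C1_nonneg q hM hr₀; positivity) hbound hr0 (by linarith)
  refine ⟨hfin.1, hfin.2.trans (le_of_eq ?_)⟩
  ring

end Claimed.Agent.R316
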