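import Claimed.Agent.R316.S5.AreaTens

/-!
# Row 316, `S5-AR2` (a): the first order identity `∂_z e = ∂_ζ b` at interior points

`e = ∑ conj(Y'_j) Ŵ_{jk} Y'_k`, `b = ∑ conj(Y'_j) Ŵ_{jk} V_k` (notation of `S5/AreaDef.lean`).  Computation in one parametrisation.
-/

set_option autoImplicit false
set_option maxSynthPendingDepth 3
set_option linter.unusedSectionVars false
open scoped ContDiff ComplexOrder Topology Matrix
open MeasureTheory Filter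

namespace Claimed.Agent.R316

section Alg

variable {ι κ : Type} [Fintype ι] [Fintype κ]

/-- the sesquilinear value `vᴴ A w`. -/
def da_sq (A : Matrix ι ι ℂ) (v w : ι → ℂ) : ℂ :=
  ∑ l, ∑ m, (starRingEnd ℂ) (v l) * A l m * w m

theorem da_sq_eq (A : Matrix ι ι ℂ) (v w : ι → ℂ) : da_sq A v w = star v ⬝ᵥ (A *ᵥ w) := by
  simp only [da_sq, dotProduct, Matrix.mulVec, Pi.star_apply, Complex.star_def, Finset.mul_sum,
    mul_assoc]

theorem da_sq_conj [DecidableEq κ] {J : Matrix ι κ ℂ} {P : Matrix κ ι ℂ} (h : P * J = 1)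
    (A : Matrix κ κ ℂ) (v w : κ → ℂ) :
    da_sq (Pᴴ * A * P) (J *ᵥ v) (J *ᵥ w) = da_sq A v w := by
  rw [da_sq_eq, da_sq_eq, ← Matrix.mulVec_mulVec, ← Matrix.mulVec_mulVec, Matrix.mulVec_mulVec w,
    h, Matrix.one_mulVec, Matrix.dotProduct_mulVec, Matrix.star_mulVec,
    Matrix.vecMul_conjTranspose, Matrix.star_mulVec, star_star, Matrix.vecMul_vecMul,
    ← Matrix.conjTranspose_mul, h, Matrix.conjTranspose_one, Matrix.vecMul_one]

theorem qf_eq_da_sq [DecidableEq ι] (A : Matrix ι ι ℂ) (v : ι → ℂ) : qf A v = (da_sq A v v).re := by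
  rw [da_sq_eq]; rfl

end Alg

section OneVar

variable {κ : Type} [Fintype κ] [DecidableEq κ]

theorem da_differentiableAt_apply {E : Type} [NormedAddCommGroup E] [NormedSpace ℂ E]
    {u : E → CE κ} {t : E} (hu : DifferentiableAt ℂ u t) (l : κ) :
    DifferentiableAt ℂ (fun s => u s l) t :=
  ((EuclideanSpace.proj l : CE κ →L[ℂ] ℂ).differentiableAt).comp t hu

theorem da_deriv_apply {u : ℂ → CE κ} {t : ℂ} (hu : DifferentiableAt ℂ u t) (l : κ) :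
    deriv (fun s => u s l) t = deriv u t l :=
  ((EuclideanSpace.proj l : CE κ →L[ℂ] ℂ).hasFDerivAt.comp_hasDerivAt t hu.hasDerivAt).deriv

/-- `∂_t` of `uᴴ A(c) v` for holomorphic `c`, `u`, `v`. -/
theorem da_d1_sesq {c u v : ℂ → CE κ} {A : CE κ → Matrix κ κ ℂ} {t : ℂ}
    (hc : DifferentiableAt ℂ c t) (hu : DifferentiableAt ℂ u t) (hv : DifferentiableAt ℂ v t)
    (hA : ∀ l m, DifferentiableAt ℝ (fun w => A w l m) (c t)) :
    d1 (fun s => da_sq (A (c s)) (u s) (v s)) t =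
      ∑ l, ∑ m, (starRingEnd ℂ) (u t l) *
        ((∑ p, dz p (fun w => A w l m) (c t) * deriv c t p) * v t m +
          A (c t) l m * deriv v t m) := by
  have hul : ∀ l, DifferentiableAt ℂ (fun s => u s l) t := da_differentiableAt_apply hu
  have hvl : ∀ l, DifferentiableAt ℂ (fun s => v s l) t := da_differentiableAt_apply hv
  have hcu : ∀ l, DifferentiableAt ℝ (fun s => (starRingEnd ℂ) (u s l)) t := fun l =>
    Complex.conjCLE.differentiableAt.comp t ((hul l).restrictScalars ℝ)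
  have hAc : ∀ l m, DifferentiableAt ℝ (fun s => A (c s) l m) t := fun l m =>
    (hA l m).comp t (hc.restrictScalars ℝ)
  have h2 : ∀ l m, DifferentiableAt ℝ (fun s => (starRingEnd ℂ) (u s l) * A (c s) l m) t :=
    fun l m => (hcu l).mul (hAc l m)
  have h3 : ∀ l m, DifferentiableAt ℝ
      (fun s => (starRingEnd ℂ) (u s l) * A (c s) l m * v s m) t :=
    fun l m => (h2 l m).mul ((hvl m).restrictScalars ℝ)
  unfold da_sq
  rw [d1_sum _ fun l _ => DifferentiableAt.fun_sum fun m _ => h3 l m]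
  refine Finset.sum_congr rfl fun l _ => ?_
  rw [d1_sum _ fun m _ => h3 l m]
  refine Finset.sum_congr rfl fun m _ => ?_
  rw [d1_mul (h2 l m) ((hvl m).restrictScalars ℝ), d1_mul (hcu l) (hAc l m),
    d1_conj, dbar1_of_differentiableAt (hul l), d1_of_differentiableAt (hvl m),
    da_deriv_apply hv m]
  have h1 : d1 (fun s => A (c s) l m) t = ∑ p, dz p (fun w => A w l m) (c t) * deriv c t p :=
    amb_d1_comp (b := fun w => A w l m) hc (hA l m)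
  rw [h1, map_zero]
  ring

end OneVar

section Chart

variable {V' : Type} [NormedAddCommGroup V'] [NormedSpace ℝ V'] [FiniteDimensional ℝ V']
variable {κ : Type} [Fintype κ] [DecidableEq κ] {q : ℕ}
variable {𝓧 : CMfd V' κ} {G : V' → CE (Fin q)} {W : HFam V' κ}
variable {x : ℂ → ℂ → V'} {r₀ : ℝ} {Ψ : CE κ → V'} {W₀ : Set (CE κ)}

/-- `Y' = ∂_ζ (G ∘ x)` (meaningful at interior points). -/
noncomputable def famD (G : V' → CE (Fin q)) (x : ℂ → ℂ → V') (z ζ : ℂ) : Fin q → ℂ :=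
  fun k => deriv (fun ξ => G (x z ξ) k) ζ

/-- the family in the parametrisation `Ψ`. -/
noncomputable def da_y (x : ℂ → ℂ → V') (Ψ : CE κ → V') (W₀ : Set (CE κ)) (a : ℂ × ℂ) : CE κ :=
  Function.invFunOn Ψ W₀ (x a.1 a.2)

/-- the part of the open bidisc which is mapped into the parametrised piece. -/
def da_O (x : ℂ → ℂ → V') (r₀ : ℝ) (Ψ : CE κ → V') (W₀ : Set (CE κ)) : Set (ℂ × ℂ) :=
  (Metric.ball 0 r₀ ×ˢ uDisc) ∩ {a | x a.1 a.2 ∈ Ψ '' W₀}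

theorem da_isOpen_O (hx : IsFam 𝓧 x r₀) (hΨ : 𝓧.IsHol Ψ W₀) : IsOpen (da_O x r₀ Ψ W₀) := by
  obtain ⟨O, hO, hOeq⟩ := (𝓧.isParam hΨ).image
  have h : da_O x r₀ Ψ W₀ =
      (Metric.ball 0 r₀ ×ˢ uDisc) ∩ (fun a : ℂ × ℂ => x a.1 a.2) ⁻¹' O := by
    ext a
    constructor
    · rintro ⟨ha, ha'⟩
      have : x a.1 a.2 ∈ 𝓧.carrier ∩ O := hOeq ▸ ha'
      exact ⟨ha, this.2⟩
    · rintro ⟨ha, ha'⟩
      refine ⟨ha, ?_⟩
      show x a.1 a.2 ∈ Ψ '' W₀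
      rw [hOeq]
      exact ⟨hx.mem a.1 ha.1 a.2 (Metric.ball_subset_closedBall ha.2), ha'⟩
  rw [h]
  exact (hx.smooth.continuousOn.mono (Set.prod_mono le_rfl Metric.ball_subset_closedBall)
    ).isOpen_inter_preimage (Metric.isOpen_ball.prod Metric.isOpen_ball) hO

theorem da_y_differentiableOn (hx : IsFam 𝓧 x r₀) (hΨ : 𝓧.IsHol Ψ W₀) :
    DifferentiableOn ℂ (da_y x Ψ W₀) (da_O x r₀ Ψ W₀) := hx.hol2 Ψ W₀ hΨ

theorem da_y_mem {a : ℂ × ℂ} (ha : a ∈ da_O x r₀ Ψ W₀) : da_y x Ψ W₀ a ∈ W₀ :=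
  Function.invFunOn_mem ha.2

theorem da_y_eq {a : ℂ × ℂ} (ha : a ∈ da_O x r₀ Ψ W₀) : Ψ (da_y x Ψ W₀ a) = x a.1 a.2 :=
  Function.invFunOn_eq ha.2

/-- the discs of the family as holomorphic curves. -/
theorem IsFam.holζ (hx : IsFam 𝓧 x r₀) {z : ℂ} (hz : z ∈ Metric.ball (0 : ℂ) r₀) :
    IsHolCurve 𝓧 (x z) uDisc := by
  refine ⟨Metric.isOpen_ball, fun ζ hζ => hx.mem z hz ζ (Metric.ball_subset_closedBall hζ), ?_,
    fun Ψ W₀ hΨ => ?_⟩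
  · exact hx.smooth.continuousOn.comp (f := fun ζ : ℂ => (z, ζ)) (by fun_prop)
      fun ζ hζ => ⟨hz, Metric.ball_subset_closedBall hζ⟩
  · have h1 : DifferentiableOn ℂ (fun ζ : ℂ => (z, ζ)) (uDisc ∩ x z ⁻¹' (Ψ '' W₀)) :=
      ((differentiable_const z).prodMk differentiable_id).differentiableOn
    exact (hx.hol2 Ψ W₀ hΨ).comp h1 fun ζ hζ => ⟨⟨hz, hζ.1⟩, hζ.2⟩

theorem da_hasDerivAt_left {E : Type} [NormedAddCommGroup E] [NormedSpace ℂ E] {f : ℂ × ℂ → E}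
    {a : ℂ × ℂ} (hf : DifferentiableAt ℂ f a) :
    HasDerivAt (fun z => f (z, a.2)) (fderiv ℂ f a (1, 0)) a.1 :=
  HasFDerivAt.comp_hasDerivAt (f := fun z : ℂ => (z, a.2)) a.1 hf.hasFDerivAt
    ((hasDerivAt_id a.1).prodMk (hasDerivAt_const a.1 a.2))

theorem da_hasDerivAt_right {E : Type} [NormedAddCommGroup E] [NormedSpace ℂ E] {f : ℂ × ℂ → E}
    {a : ℂ × ℂ} (hf : DifferentiableAt ℂ f a) :
    HasDerivAt (fun ζ => f (a.1, ζ)) (fderiv ℂ f a (0, 1)) a.2 :=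
  HasFDerivAt.comp_hasDerivAt (f := fun ζ : ℂ => (a.1, ζ)) a.2 hf.hasFDerivAt
    ((hasDerivAt_const a.2 a.1).prodMk (hasDerivAt_id a.2))

theorem da_famV_eq (hG : GImm 𝓧 G) (hx : IsFam 𝓧 x r₀) (hΨ : 𝓧.IsHol Ψ W₀) {a : ℂ × ℂ}
    (ha : a ∈ da_O x r₀ Ψ W₀) :
    famV G x a.1 a.2 = jac (G ∘ Ψ) (da_y x Ψ W₀ a) *ᵥ (fderiv ℂ (da_y x Ψ W₀) a (1, 0)) := by
  have hd : DifferentiableAt ℂ (da_y x Ψ W₀) a :=
    (da_y_differentiableOn hx hΨ a ha).differentiableAt ((da_isOpen_O hx hΨ).mem_nhds ha)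
  funext k
  have h1 := (hx.holz a.2 (Metric.ball_subset_closedBall ha.1.2)).deriv_G hG hΨ ha.1.1 ha.2 k
  have h2 : deriv (Function.invFunOn Ψ W₀ ∘ fun z => x z a.2) a.1 =
      fderiv ℂ (da_y x Ψ W₀) a (1, 0) := (da_hasDerivAt_left hd).deriv
  rw [h2] at h1
  exact h1

theorem da_famD_eq (hG : GImm 𝓧 G) (hx : IsFam 𝓧 x r₀) (hΨ : 𝓧.IsHol Ψ W₀) {a : ℂ × ℂ}
    (ha : a ∈ da_O x r₀ Ψ W₀) :
    famD G x a.1 a.2 = jac (G ∘ Ψ) (da_y x Ψ W₀ a) *ᵥ (fderiv ℂ (da_y x Ψ W₀) a (0, 1)) := by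
  have hd : DifferentiableAt ℂ (da_y x Ψ W₀) a :=
    (da_y_differentiableOn hx hΨ a ha).differentiableAt ((da_isOpen_O hx hΨ).mem_nhds ha)
  funext k
  have h1 := (hx.holζ ha.1.1).deriv_G hG hΨ ha.1.2 ha.2 k
  have h2 : deriv (Function.invFunOn Ψ W₀ ∘ x a.1) a.2 =
      fderiv ℂ (da_y x Ψ W₀) a (0, 1) := (da_hasDerivAt_right hd).deriv
  rw [h2] at h1
  exact h1

/-- the densities in the parametrisation. -/
theorem da_local (hG : GImm 𝓧 G) (hW : IsHForm 𝓧 W) (hx : IsFam 𝓧 x r₀) (hΨ : 𝓧.IsHol Ψ W₀)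
    {a : ℂ × ℂ} (ha : a ∈ da_O x r₀ Ψ W₀) :
    da_sq (ambM 𝓧 G W (x a.1 a.2)) (famD G x a.1 a.2) (famD G x a.1 a.2) =
      da_sq (W Ψ (da_y x Ψ W₀ a)) (fderiv ℂ (da_y x Ψ W₀) a (0, 1))
        (fderiv ℂ (da_y x Ψ W₀) a (0, 1)) ∧
    da_sq (ambM 𝓧 G W (x a.1 a.2)) (famD G x a.1 a.2) (famV G x a.1 a.2) =
      da_sq (W Ψ (da_y x Ψ W₀ a)) (fderiv ℂ (da_y x Ψ W₀) a (0, 1))
        (fderiv ℂ (da_y x Ψ W₀) a (1, 0)) := by
  have hPJ := pinvJ_mul_jac hG hΨ (da_y_mem ha)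
  rw [da_famD_eq hG hx hΨ ha, da_famV_eq hG hx hΨ ha, ← da_y_eq ha,
    ambM_eq hG hW hΨ (da_y_mem ha)]
  exact ⟨da_sq_conj hPJ _ _ _, da_sq_conj hPJ _ _ _⟩

/-- **the first order identity** `∂_z e = ∂_ζ b`. -/
theorem da_interior (hG : GImm 𝓧 G) (hW : IsHForm 𝓧 W) (hcl : IsClosedForm 𝓧 W)
    (hx : IsFam 𝓧 x r₀) {z ζ : ℂ} (hz : z ∈ Metric.ball (0 : ℂ) r₀) (hζ : ζ ∈ uDisc) :
    d1 (fun z' => da_sq (ambM 𝓧 G W (x z' ζ)) (famD G x z' ζ) (famD G x z' ζ)) z =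
    d1 (fun ζ' => da_sq (ambM 𝓧 G W (x z ζ')) (famD G x z ζ') (famV G x z ζ')) ζ := by
  obtain ⟨Ψ, W₀, hΨ, hmem⟩ := 𝓧.cover (x z ζ) (hx.mem z hz ζ (Metric.ball_subset_closedBall hζ))
  have hO := da_isOpen_O hx hΨ
  have ha : (z, ζ) ∈ da_O x r₀ Ψ W₀ := ⟨⟨hz, hζ⟩, hmem⟩
  set y := da_y x Ψ W₀ with hy
  have hyO : DifferentiableOn ℂ y (da_O x r₀ Ψ W₀) := da_y_differentiableOn hx hΨ
  have hyd : DifferentiableAt ℂ y (z, ζ) := (hyO _ ha).differentiableAt (hO.mem_nhds ha)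
  have hDd : DifferentiableAt ℂ (fderiv ℂ y) (z, ζ) :=
    (hol_differentiableOn_fderiv hO hyO _ ha).differentiableAt (hO.mem_nhds ha)
  have hev1 : ∀ᶠ z' in 𝓝 z, (z', ζ) ∈ da_O x r₀ Ψ W₀ :=
    (Continuous.continuousAt (by fun_prop : Continuous fun z' : ℂ => (z', ζ))).eventually
      (hO.mem_nhds ha)
  have hev2 : ∀ᶠ ζ' in 𝓝 ζ, (z, ζ') ∈ da_O x r₀ Ψ W₀ :=
    (Continuous.continuousAt (by fun_prop : Continuous fun ζ' : ℂ => (z, ζ'))).eventually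
      (hO.mem_nhds ha)
  have he : (fun z' => da_sq (ambM 𝓧 G W (x z' ζ)) (famD G x z' ζ) (famD G x z' ζ)) =ᶠ[𝓝 z]
      fun z' => da_sq (W Ψ (y (z', ζ))) (fderiv ℂ y (z', ζ) (0, 1)) (fderiv ℂ y (z', ζ) (0, 1)) := by
    filter_upwards [hev1] with z' hz'
    exact (da_local hG hW hx hΨ hz').1
  have hb : (fun ζ' => da_sq (ambM 𝓧 G W (x z ζ')) (famD G x z ζ') (famV G x z ζ')) =ᶠ[𝓝 ζ]
      fun ζ' => da_sq (W Ψ (y (z, ζ'))) (fderiv ℂ y (z, ζ') (0, 1)) (fderiv ℂ y (z, ζ') (1, 0)) := by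
    filter_upwards [hev2] with ζ' hζ'
    exact (da_local hG hW hx hΨ hζ').2
  have hA : ∀ l m, DifferentiableAt ℝ (fun w => W Ψ w l m) (y (z, ζ)) := fun l m =>
    ((hW.smooth hΨ l m).differentiableOn (by simp) _ (da_y_mem ha)).differentiableAt
      ((CMfd.isOpen_dom hΨ).mem_nhds (da_y_mem ha))
  -- slices
  have c1 : HasDerivAt (fun z' => y (z', ζ)) (fderiv ℂ y (z, ζ) (1, 0)) z :=
    da_hasDerivAt_left (a := (z, ζ)) hyd
  have c2 : HasDerivAt (fun ζ' => y (z, ζ')) (fderiv ℂ y (z, ζ) (0, 1)) ζ :=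
    da_hasDerivAt_right (a := (z, ζ)) hyd
  have hDv : ∀ v : ℂ × ℂ, DifferentiableAt ℂ (fun a => fderiv ℂ y a v) (z, ζ) := fun v =>
    hDd.clm_apply (differentiableAt_const v)
  have hDf : ∀ v w : ℂ × ℂ, fderiv ℂ (fun a => fderiv ℂ y a v) (z, ζ) w =
      fderiv ℂ (fderiv ℂ y) (z, ζ) w v := by
    intro v w
    have := (hDd.hasFDerivAt.clm_apply (hasFDerivAt_const v (z, ζ))).fderiv
    rw [this]
    simp
  have u1 : HasDerivAt (fun z' => fderiv ℂ y (z', ζ) (0, 1))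
      (fderiv ℂ (fderiv ℂ y) (z, ζ) (1, 0) (0, 1)) z := by
    have := da_hasDerivAt_left (a := (z, ζ)) (hDv (0, 1))
    rwa [hDf] at this
  have u2 : HasDerivAt (fun ζ' => fderiv ℂ y (z, ζ') (0, 1))
      (fderiv ℂ (fderiv ℂ y) (z, ζ) (0, 1) (0, 1)) ζ := by
    have := da_hasDerivAt_right (a := (z, ζ)) (hDv (0, 1))
    rwa [hDf] at this
  have v2 : HasDerivAt (fun ζ' => fderiv ℂ y (z, ζ') (1, 0))
      (fderiv ℂ (fderiv ℂ y) (z, ζ) (0, 1) (1, 0)) ζ := by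
    have := da_hasDerivAt_right (a := (z, ζ)) (hDv (1, 0))
    rwa [hDf] at this
  have hsymm : fderiv ℂ (fderiv ℂ y) (z, ζ) (1, 0) (0, 1) =
      fderiv ℂ (fderiv ℂ y) (z, ζ) (0, 1) (1, 0) := by
    have h1 : ContDiffAt ℂ ∞ y (z, ζ) := (hol_contDiffOn hO hyO).contDiffAt (hO.mem_nhds ha)
    exact (h1.isSymmSndFDerivAt (by simp; norm_cast)) _ _
  rw [amb_d1_congr he, amb_d1_congr hb,
    da_d1_sesq (c := fun z' => y (z', ζ)) (u := fun z' => fderiv ℂ y (z', ζ) (0, 1))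
      (v := fun z' => fderiv ℂ y (z', ζ) (0, 1)) (A := W Ψ) c1.differentiableAt
      u1.differentiableAt u1.differentiableAt hA,
    da_d1_sesq (c := fun ζ' => y (z, ζ')) (u := fun ζ' => fderiv ℂ y (z, ζ') (0, 1))
      (v := fun ζ' => fderiv ℂ y (z, ζ') (1, 0)) (A := W Ψ) c2.differentiableAt
      u2.differentiableAt v2.differentiableAt hA,
    c1.deriv, c2.deriv, u1.deriv, v2.deriv, hsymm]
  refine Finset.sum_congr rfl fun l _ => ?_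
  simp only [mul_add, Finset.sum_add_distrib]
  congr 1
  simp only [← Finset.mul_sum]
  congr 1
  simp only [Finset.sum_mul]
  rw [Finset.sum_comm]
  refine Finset.sum_congr rfl fun p _ => Finset.sum_congr rfl fun m _ => ?_
  rw [hcl Ψ W₀ hΨ _ (da_y_mem ha) l m p]
  ring

end Chart

end Claimed.Agent.R316
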