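import Claimed.Agent.R316.S5.Fam

/-!
# Row 316, Section 5.2: second variation of the area of a closed `(1,1)`-form along a holomorphic family of discs (`S5-D3`)

GENERAL SETTING: a complex manifold `𝓧` with an injective holomorphic immersion `G : 𝓧 → ℂ^q`, a smooth CLOSED Hermitian form `W`, a family `x z ζ` (`IsFam`).
Notation: `Y = G ∘ x`, `V = ∂_z Y = famV`, `Y' = ∂_ζ Y`, `Ŵ = ambM 𝓧 G W ∘ x`,
`e = ∑ conj(Y'_j) Ŵ_{jk} Y'_k` (the area density), `b = ∑ conj(Y'_j) Ŵ_{jk} V_k`, `A(z) = ∫_Δ e dA = areaW (x z)`.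

1. (`S5-AR2`, `area_first`) FIRST VARIATION `∂_z A = π ⟨\bar ζ b⟩`.
   (a) `∂_z e = ∂_ζ b` at interior points.  In a parametrisation `Ψ` near `x z ζ`: `y = Ψ⁻¹ ∘ x` is holomorphic in `(z, ζ)` (`IsFam.hol2`), `Y' = J(y) y_ζ`, `V = J(y) y_z`,
       `Jᴴ Ŵ J = W Ψ y` (`ambM_eq`, `pinvJ_mul_jac`), so `e = ∑ conj(y_ζ^j) W_{jk}(y) y_ζ^k`, `b = ∑ conj(y_ζ^j) W_{jk}(y) y_z^k`;
       `∂_z (W_{jk} ∘ y) = ∑_l dz l W_{jk} y_z^l`, `∂_z conj(y_ζ) = 0`, `∂_z y_ζ = ∂_ζ y_z`; the difference is `∑ conj(y_ζ^j) (dz l W_{jk} - dz k W_{jl}) y_z^l y_ζ^k = 0` (`IsClosedForm`).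
   (b) differentiation under `∫_Δ` (`hasFDerivAt_integral_of_dominated_of_fderiv_le`; all functions are `ContDiffOn` on `B(0, r₀) × \bar Δ`, so the `z`-derivatives are bounded on compacts:
       use `fderivWithin` on the product, which is `fderiv` at interior points).
   (c) `integral_d1` for `b(z, ·)`, smooth on the closed disc (`Y'` extends smoothly: `HolSm.exists_deriv` or `fderivWithin`); on the circle `ζ Y' = - i ∂_θ Y`.
2. (`S5-AR3`) `B(z) = ⟨areaB z⟩` is a smooth family on the circle; `∂_{\bar z} areaB = areaC` (product rule, `dbar1_conj`, `d1_dth_comm`, `IsFam.d1_comp`, `V`, `Y` holomorphic in `z`).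
3. (`S5-AR4`, `areaC_le`) pairing `norm_cA_mul_dth_le`, `Dsq_mul_le`, `Dsq_comp_le`, with the `G`-Lipschitz bounds (`glip_of_smooth`) of `Ŵ_{jk}`, `gDzb Ŵ_{jk}` on the boundary compact `K` (`S5-AR1`).
4. (`S5-AR5`, `area_second_variation`) `lap1_of_d1`, `dbar1_cA`, `IsFam.cauchy`, `IsFam.cauchy_X`, `Dsq_le_add_of_sub`, `avg_le_of_lap1_le'`.
5. (`S5-AR6`) the `g`-area: `areaG_eq_areaW`; `defo_area` (application to `(𝓜, F₀, g)`, `x = π ∘ F`, `BaseImm`).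

FILES (one owner per file): `AreaDef.lean` (definitions), `AreaTens.lean` (`S5-AR1`), `AreaFirst.lean` (`S5-AR2`), `AreaBd.lean` (`S5-AR3`), `AreaEst.lean` (`S5-AR4`),
`Area.lean` (`S5-AR5`, `S5-AR6`).
-/


set_option autoImplicit false
set_option maxSynthPendingDepth 3
open scoped ContDiff ComplexOrder Topology Matrix
open MeasureTheory Filter

namespace Claimed.Agent.R316

variable {V' : Type} [NormedAddCommGroup V'] [NormedSpace ℝ V'] [FiniteDimensional ℝ V']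
variable {κ : Type} [Fintype κ] [DecidableEq κ] {q : ℕ}
variable {𝓧 : CMfd V' κ} {G : V' → CE (Fin q)} {W : HFam V' κ}

/-- the `W`-area of a disc, in ambient form. -/
noncomputable def areaW (𝓧 : CMfd V' κ) (G : V' → CE (Fin q)) (W : HFam V' κ) (f : ℂ → V') : ℝ :=
  ∫ ζ in uDisc, qf (ambM 𝓧 G W (f ζ)) (fun k => deriv (fun ξ => G (f ξ) k) ζ)

/-- boundary integrand of the first variation: `\bar ζ b`. -/
noncomputable def areaB (𝓧 : CMfd V' κ) (G : V' → CE (Fin q)) (W : HFam V' κ) (x : ℂ → ℂ → V')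
    (z ζ : ℂ) : ℂ :=
  ∑ j, ∑ k, (starRingEnd ℂ) (-Complex.I * dth (fun ξ => G (x z ξ) j) ζ) *
    ambM 𝓧 G W (x z ζ) j k * famV G x z ζ k

/-- boundary integrand of the second variation. -/
noncomputable def areaC (𝓧 : CMfd V' κ) (G : V' → CE (Fin q)) (W : HFam V' κ) (x : ℂ → ℂ → V')
    (z ζ : ℂ) : ℂ :=
  ∑ j, ∑ k, ((starRingEnd ℂ) (-Complex.I * dth (fun ξ => famV G x z ξ j) ζ) *
      ambM 𝓧 G W (x z ζ) j k * famV G x z ζ k +
    (starRingEnd ℂ) (-Complex.I * dth (fun ξ => G (x z ξ) j) ζ) *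
      (∑ l, gDzb 𝓧 G (fun y => ambM 𝓧 G W y j k) (x z ζ) l * (starRingEnd ℂ) (famV G x z ζ l)) *
      famV G x z ζ k)

end Claimed.Agent.R316
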