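import Claimed.Agent.R316.S5.ParamInt

/-!
# Row 316, `S5-AR2` (b): differentiation under the integral over the unit disc

Pure analysis (Mathlib + `S5/Circle.lean`).  `f (z, ζ)` is `C¹` on `N × \bar Δ`, `N ⊆ ℂ` open.
-/

set_option autoImplicit false
set_option maxSynthPendingDepth 3
open scoped ContDiff ComplexOrder Topology
open MeasureTheory Filter

namespace Claimed.Agent.R316

section PI

variable {E : Type} [NormedAddCommGroup E] [NormedSpace ℝ E]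

theorem da_uniqueDiffOn {N : Set ℂ} (hN : IsOpen N) : UniqueDiffOn ℝ (N ×ˢ uDiscC) :=
  hN.uniqueDiffOn.prod s5c_uniqueDiffOn

/-- derivative in the first variable of a function differentiable on `N × K`. -/
theorem da_hasFDerivAt_slice {f : ℂ × ℂ → E} {N K : Set ℂ} (hN : IsOpen N)
    (hf : DifferentiableOn ℝ f (N ×ˢ K)) {z ζ : ℂ} (hz : z ∈ N) (hζ : ζ ∈ K) :
    HasFDerivAt (fun y => f (y, ζ))
      ((fderivWithin ℝ f (N ×ˢ K) (z, ζ)).comp (ContinuousLinearMap.inl ℝ ℂ ℂ)) z := by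
  have h1 : HasFDerivWithinAt f (fderivWithin ℝ f (N ×ˢ K) (z, ζ)) (N ×ˢ K) (z, ζ) :=
    (hf (z, ζ) ⟨hz, hζ⟩).hasFDerivWithinAt
  have h2 : HasFDerivWithinAt (fun y : ℂ => (y, ζ)) (ContinuousLinearMap.inl ℝ ℂ ℂ) N z :=
    (hasFDerivAt_prodMk_left z ζ).hasFDerivWithinAt
  have h3 := h1.comp z h2 (fun y hy => (⟨hy, hζ⟩ : (y, ζ) ∈ N ×ˢ K))
  exact h3.hasFDerivAt (hN.mem_nhds hz)

/-- derivative in the second variable at interior points. -/
theorem da_hasFDerivAt_slice2 {f : ℂ × ℂ → E} {N K : Set ℂ}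
    (hf : DifferentiableOn ℝ f (N ×ˢ K)) {z ζ : ℂ} (hz : z ∈ N) (hζ : K ∈ 𝓝 ζ) :
    HasFDerivAt (fun ξ => f (z, ξ))
      ((fderivWithin ℝ f (N ×ˢ K) (z, ζ)).comp (ContinuousLinearMap.inr ℝ ℂ ℂ)) ζ := by
  have h1 : HasFDerivWithinAt f (fderivWithin ℝ f (N ×ˢ K) (z, ζ)) (N ×ˢ K) (z, ζ) :=
    (hf (z, ζ) ⟨hz, mem_of_mem_nhds hζ⟩).hasFDerivWithinAt
  have h2 : HasFDerivWithinAt (fun ξ : ℂ => (z, ξ)) (ContinuousLinearMap.inr ℝ ℂ ℂ) K ζ :=
    (hasFDerivAt_prodMk_right z ζ).hasFDerivWithinAt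
  have h3 := h1.comp ζ h2 (fun ξ hξ => (⟨hz, hξ⟩ : (z, ξ) ∈ N ×ˢ K))
  exact h3.hasFDerivAt hζ

theorem da_hasFDerivAt_integral {f : ℂ × ℂ → E} {N : Set ℂ} (hN : IsOpen N)
    (hf : ContDiffOn ℝ 1 f (N ×ˢ uDiscC)) {z : ℂ} (hz : z ∈ N) :
    HasFDerivAt (fun y => ∫ ζ in uDisc, f (y, ζ))
      (∫ ζ in uDisc, (fderivWithin ℝ f (N ×ˢ uDiscC) (z, ζ)).comp
        (ContinuousLinearMap.inl ℝ ℂ ℂ)) z := by
  have hd : DifferentiableOn ℝ f (N ×ˢ uDiscC) := hf.differentiableOn (by simp)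
  have hc' : ContinuousOn (fderivWithin ℝ f (N ×ˢ uDiscC)) (N ×ˢ uDiscC) :=
    hf.continuousOn_fderivWithin (da_uniqueDiffOn hN) (by simp)
  set F' : ℂ → ℂ → ℂ →L[ℝ] E := fun y ζ =>
    (fderivWithin ℝ f (N ×ˢ uDiscC) (y, ζ)).comp (ContinuousLinearMap.inl ℝ ℂ ℂ) with hF'
  have hF'c : ContinuousOn (fun a : ℂ × ℂ => F' a.1 a.2) (N ×ˢ uDiscC) := by
    have h1 : Continuous fun L : ℂ × ℂ →L[ℝ] E => L.comp (ContinuousLinearMap.inl ℝ ℂ ℂ) :=
      (ContinuousLinearMap.compL ℝ ℂ (ℂ × ℂ) E).flip (ContinuousLinearMap.inl ℝ ℂ ℂ) |>.continuous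
    exact h1.comp_continuousOn hc'
  obtain ⟨ε, hε, hεN⟩ := Metric.isOpen_iff.1 hN z hz
  have hsub : Metric.closedBall z (ε / 2) ⊆ N :=
    (Metric.closedBall_subset_ball (by linarith)).trans hεN
  have hcomp : IsCompact (Metric.closedBall z (ε / 2) ×ˢ uDiscC) :=
    (isCompact_closedBall z _).prod (isCompact_closedBall 0 1)
  obtain ⟨C, hC⟩ := hcomp.exists_bound_of_continuousOn
    (hF'c.mono (Set.prod_mono hsub le_rfl))
  have hslice : ∀ y ∈ N, ContinuousOn (fun ζ => f (y, ζ)) uDiscC := fun y hy =>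
    hf.continuousOn.comp (by fun_prop) fun ζ hζ => ⟨hy, hζ⟩
  have hmeasS : MeasurableSet (uDisc) := measurableSet_ball
  have hsubD : uDisc ⊆ uDiscC := Metric.ball_subset_closedBall
  refine hasFDerivAt_integral_of_dominated_of_fderiv_le (F := fun y ζ => f (y, ζ)) (F' := F')
    (bound := fun _ => C) (s := Metric.closedBall z (ε / 2))
    (Metric.closedBall_mem_nhds z (by linarith)) ?_ ?_ ?_ ?_ ?_ ?_
  · filter_upwards [hN.mem_nhds hz] with y hy
    exact ((hslice y hy).mono hsubD).aestronglyMeasurable hmeasS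
  · exact ((hslice z hz).integrableOn_compact (isCompact_closedBall 0 1)).mono_set hsubD
  · have h1 : ContinuousOn (fun ζ => F' z ζ) uDiscC :=
      hF'c.comp (f := fun ζ : ℂ => (z, ζ)) (by fun_prop) fun ζ hζ => ⟨hz, hζ⟩
    exact (h1.mono hsubD).aestronglyMeasurable hmeasS
  · refine (ae_restrict_iff' hmeasS).2 (Eventually.of_forall fun ζ hζ y hy => ?_)
    exact hC (y, ζ) ⟨hy, hsubD hζ⟩
  · exact integrable_const_iff.2 (Or.inr (by
      rw [isFiniteMeasure_restrict]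
      exact (measure_ball_lt_top).ne))
  · refine (ae_restrict_iff' hmeasS).2 (Eventually.of_forall fun ζ hζ y hy => ?_)
    exact da_hasFDerivAt_slice hN hd (hsub hy) (hsubD hζ)

end PI

/-- **differentiation under `∫_Δ`** in Wirtinger form. -/
theorem da_d1_integral {f : ℂ × ℂ → ℂ} {N : Set ℂ} (hN : IsOpen N)
    (hf : ContDiffOn ℝ 1 f (N ×ˢ uDiscC)) :
    DifferentiableOn ℝ (fun y => ∫ ζ in uDisc, f (y, ζ)) N ∧
    ∀ z ∈ N, d1 (fun y => ∫ ζ in uDisc, f (y, ζ)) z = ∫ ζ in uDisc, d1 (fun y => f (y, ζ)) z := by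
  have hd : DifferentiableOn ℝ f (N ×ˢ uDiscC) := hf.differentiableOn (by simp)
  have hc' : ContinuousOn (fderivWithin ℝ f (N ×ˢ uDiscC)) (N ×ˢ uDiscC) :=
    hf.continuousOn_fderivWithin (da_uniqueDiffOn hN) (by simp)
  have hsubD : uDisc ⊆ uDiscC := Metric.ball_subset_closedBall
  refine ⟨fun z hz => (da_hasFDerivAt_integral hN hf hz).differentiableAt.differentiableWithinAt,
    fun z hz => ?_⟩
  have hI : IntegrableOn (fun ζ => (fderivWithin ℝ f (N ×ˢ uDiscC) (z, ζ)).comp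
      (ContinuousLinearMap.inl ℝ ℂ ℂ)) uDisc := by
    have h1 : Continuous fun L : ℂ × ℂ →L[ℝ] ℂ => L.comp (ContinuousLinearMap.inl ℝ ℂ ℂ) :=
      (ContinuousLinearMap.compL ℝ ℂ (ℂ × ℂ) ℂ).flip (ContinuousLinearMap.inl ℝ ℂ ℂ) |>.continuous
    have h2 : ContinuousOn (fun ζ => (fderivWithin ℝ f (N ×ˢ uDiscC) (z, ζ)).comp
        (ContinuousLinearMap.inl ℝ ℂ ℂ)) uDiscC :=
      h1.comp_continuousOn (hc'.comp (f := fun ζ : ℂ => (z, ζ)) (by fun_prop)
        fun ζ hζ => ⟨hz, hζ⟩)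
    exact (h2.integrableOn_compact (isCompact_closedBall 0 1)).mono_set hsubD
  have happ : ∀ w : ℂ, fderiv ℝ (fun y => ∫ ζ in uDisc, f (y, ζ)) z w =
      ∫ ζ in uDisc, fderiv ℝ (fun y => f (y, ζ)) z w := by
    intro w
    rw [(da_hasFDerivAt_integral hN hf hz).fderiv, ContinuousLinearMap.integral_apply hI]
    refine setIntegral_congr_fun measurableSet_ball fun ζ hζ => ?_
    show _ = fderiv ℝ (fun y => f (y, ζ)) z w
    rw [(da_hasFDerivAt_slice hN hd hz (hsubD hζ)).fderiv]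
  have hIw : ∀ w : ℂ, IntegrableOn (fun ζ => fderiv ℝ (fun y => f (y, ζ)) z w) uDisc := by
    intro w
    have h1 := hI.apply_continuousLinearMap w
    refine h1.congr ?_
    refine (ae_restrict_iff' measurableSet_ball).2 (Eventually.of_forall fun ζ hζ => ?_)
    show _ = fderiv ℝ (fun y => f (y, ζ)) z w
    rw [(da_hasFDerivAt_slice hN hd hz (hsubD hζ)).fderiv]
  unfold d1
  rw [happ, happ, integral_const_mul, integral_sub (hIw 1) ((hIw Complex.I).const_mul _),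
    integral_const_mul]

end Claimed.Agent.R316
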