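import Claimed.Agent.R316.S5.AreaChart
import Claimed.Agent.R316.S5.AreaPI

/-!
# Row 316, `S5-AR2`: first variation of the area (see the header of `S5/AreaDef.lean`)

`AreaChart.lean`: the identity `∂_z e = ∂_ζ b` at interior points; `AreaPI.lean`: differentiation under `∫_Δ`.
Here: the smooth extension `da_Yp` of `Y' = ∂_ζ (G ∘ x)` to `B(0, r₀) × \bar Δ` (`fderivWithin`), Stokes (`integral_d1`), assembly.
-/

set_option autoImplicit false
set_option maxSynthPendingDepth 3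
set_option linter.unusedSectionVars false
open scoped ContDiff ComplexOrder Topology Matrix
open MeasureTheory Filter

namespace Claimed.Agent.R316

variable {V' : Type} [NormedAddCommGroup V'] [NormedSpace ℝ V'] [FiniteDimensional ℝ V']
variable {κ : Type} [Fintype κ] [DecidableEq κ] {q : ℕ}
variable {𝓧 : CMfd V' κ} {G : V' → CE (Fin q)} {W : HFam V' κ}
variable {x : ℂ → ℂ → V'} {r₀ : ℝ}

/-- the extension of `∂_ζ (G ∘ x)` which is smooth up to `|ζ| = 1`. -/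
noncomputable def da_Yp (G : V' → CE (Fin q)) (x : ℂ → ℂ → V') (r₀ : ℝ) (a : ℂ × ℂ) : Fin q → ℂ :=
  fun k => fderivWithin ℝ (fun b : ℂ × ℂ => G (x b.1 b.2) k) (Metric.ball 0 r₀ ×ˢ uDiscC) a (0, 1)

theorem da_Yp_smooth (hG : GImm 𝓧 G) (hx : IsFam 𝓧 x r₀) (k : Fin q) :
    ContDiffOn ℝ ∞ (fun a => da_Yp G x r₀ a k) (Metric.ball 0 r₀ ×ˢ uDiscC) :=
  ((hx.G_smooth hG k).fderivWithin (da_uniqueDiffOn Metric.isOpen_ball) (m := ∞) (by simp)).clm_apply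
    contDiffOn_const

theorem da_Yp_interior (hG : GImm 𝓧 G) (hx : IsFam 𝓧 x r₀) {z ζ : ℂ}
    (hz : z ∈ Metric.ball (0 : ℂ) r₀) (hζ : ζ ∈ uDisc) : da_Yp G x r₀ (z, ζ) = famD G x z ζ := by
  funext k
  have hd : DifferentiableOn ℝ (fun b : ℂ × ℂ => G (x b.1 b.2) k) (Metric.ball 0 r₀ ×ˢ uDiscC) :=
    (hx.G_smooth hG k).differentiableOn (by simp)
  have h1 := da_hasFDerivAt_slice2 hd hz (s5c_mem_nhds hζ)
  have h2 : DifferentiableAt ℂ (fun ξ => G (x z ξ) k) ζ :=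
    da_differentiableAt_apply
      (((hx.holζ hz).differentiableOn_G hG ζ hζ).differentiableAt (Metric.isOpen_ball.mem_nhds hζ)) k
  have h3 : fderiv ℝ (fun ξ => G (x z ξ) k) ζ 1 = deriv (fun ξ => G (x z ξ) k) ζ := by
    rw [h2.fderiv_restrictScalars ℝ]
    exact fderiv_apply_one_eq_deriv
  show _ = deriv (fun ξ => G (x z ξ) k) ζ
  rw [← h3, h1.fderiv]
  rfl

theorem da_Yp_circle (hG : GImm 𝓧 G) (hx : IsFam 𝓧 x r₀) {z ζ : ℂ}
    (hz : z ∈ Metric.ball (0 : ℂ) r₀) (hζ : ζ ∈ uCirc) (k : Fin q) :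
    dth (fun ξ => G (x z ξ) k) ζ = Complex.I * ζ * da_Yp G x r₀ (z, ζ) k := by
  obtain ⟨a₁, h1, h2, h3⟩ := ((hx.isSmDisc hz).holSm_G hG k).exists_deriv
  have hc : ContinuousOn (fun ξ => da_Yp G x r₀ (z, ξ) k) uDiscC :=
    (da_Yp_smooth hG hx k).continuousOn.comp (f := fun ξ : ℂ => (z, ξ)) (by fun_prop)
      fun ξ hξ => ⟨hz, hξ⟩
  have he : Set.EqOn a₁ (fun ξ => da_Yp G x r₀ (z, ξ) k) uDiscC := by
    refine Set.EqOn.of_subset_closure (s := uDisc) (fun ξ hξ => ?_) h1.2.continuousOn hc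
      Metric.ball_subset_closedBall (by rw [closure_ball (0 : ℂ) one_ne_zero])
    show a₁ ξ = da_Yp G x r₀ (z, ξ) k
    rw [← h2 ξ hξ, da_Yp_interior hG hx hz hξ]
    rfl
  rw [h3 ζ hζ, he (Metric.sphere_subset_closedBall hζ)]

theorem da_contDiffOn_sq {E : Type} [NormedAddCommGroup E] [NormedSpace ℝ E] {s : Set E}
    {A : E → Matrix (Fin q) (Fin q) ℂ} {v w : E → Fin q → ℂ}
    (hA : ∀ j k, ContDiffOn ℝ ∞ (fun a => A a j k) s) (hv : ∀ j, ContDiffOn ℝ ∞ (fun a => v a j) s)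
    (hw : ∀ j, ContDiffOn ℝ ∞ (fun a => w a j) s) :
    ContDiffOn ℝ ∞ (fun a => da_sq (A a) (v a) (w a)) s := by
  unfold da_sq
  refine ContDiffOn.sum fun j _ => ContDiffOn.sum fun k _ => ?_
  exact ((Complex.conjCLE.contDiff.comp_contDiffOn (hv j)).mul (hA j k)).mul (hw k)

theorem ambM_isHermitian (hW : IsHForm 𝓧 W) {y : V'} (hy : y ∈ 𝓧.carrier) :
    (ambM 𝓧 G W y).IsHermitian :=
  Matrix.isHermitian_conjTranspose_mul_mul _ (hW.herm (𝓧.isHol_pΦ hy) _ (𝓧.co_mem hy))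

/-! ### `S5-AR2`: first variation -/

theorem area_first (hG : GImm 𝓧 G) (hW : IsHForm 𝓧 W) (hcl : IsClosedForm 𝓧 W)
    (hx : IsFam 𝓧 x r₀) :
    DifferentiableOn ℝ (fun z => areaW 𝓧 G W (x z)) (Metric.ball 0 r₀) ∧
    ∀ z ∈ Metric.ball (0 : ℂ) r₀,
      d1 (fun y => ((areaW 𝓧 G W (x y) : ℝ) : ℂ)) z = (Real.pi : ℂ) * cA (areaB 𝓧 G W x z) := by
  have hWs : ∀ j k, ContDiffOn ℝ ∞ (fun a : ℂ × ℂ => ambM 𝓧 G W (x a.1 a.2) j k)
      (Metric.ball 0 r₀ ×ˢ uDiscC) := fun j k =>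
    hx.comp_smooth isOpen_univ (smoothOnC_ambM hG hW j k) fun _ _ _ _ => Set.mem_univ _
  set e : ℂ × ℂ → ℂ := fun a =>
    da_sq (ambM 𝓧 G W (x a.1 a.2)) (da_Yp G x r₀ a) (da_Yp G x r₀ a) with he
  set b : ℂ × ℂ → ℂ := fun a =>
    da_sq (ambM 𝓧 G W (x a.1 a.2)) (da_Yp G x r₀ a) (famV G x a.1 a.2) with hb
  have hes : ContDiffOn ℝ ∞ e (Metric.ball 0 r₀ ×ˢ uDiscC) :=
    da_contDiffOn_sq hWs (da_Yp_smooth hG hx) (da_Yp_smooth hG hx)
  have hbs : ContDiffOn ℝ ∞ b (Metric.ball 0 r₀ ×ˢ uDiscC) :=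
    da_contDiffOn_sq hWs (da_Yp_smooth hG hx) (hx.V_smooth hG)
  obtain ⟨hPd, hP1⟩ := da_d1_integral Metric.isOpen_ball (hes.of_le (by simp))
  -- the area as a complex integral
  have hA : ∀ z ∈ Metric.ball (0 : ℂ) r₀,
      ((areaW 𝓧 G W (x z) : ℝ) : ℂ) = ∫ ζ in uDisc, e (z, ζ) := by
    intro z hz
    unfold areaW
    rw [← integral_complex_ofReal]
    refine setIntegral_congr_fun measurableSet_ball fun ζ hζ => ?_
    show ((qf (ambM 𝓧 G W (x z ζ)) (famD G x z ζ) : ℝ) : ℂ) = e (z, ζ)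
    rw [qf_ofReal _ (ambM_isHermitian hW (hx.mem z hz ζ (Metric.ball_subset_closedBall hζ))),
      he, ← da_sq_eq]
    show _ = da_sq (ambM 𝓧 G W (x z ζ)) (da_Yp G x r₀ (z, ζ)) (da_Yp G x r₀ (z, ζ))
    rw [da_Yp_interior hG hx hz hζ]
  constructor
  · have h1 : DifferentiableOn ℝ (fun z => (∫ ζ in uDisc, e (z, ζ)).re) (Metric.ball 0 r₀) :=
      Complex.reCLM.differentiable.comp_differentiableOn hPd
    refine h1.congr fun z hz => ?_
    show areaW 𝓧 G W (x z) = (∫ ζ in uDisc, e (z, ζ)).re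
    rw [← hA z hz, Complex.ofReal_re]
  · intro z hz
    have hev : (fun y => ((areaW 𝓧 G W (x y) : ℝ) : ℂ)) =ᶠ[𝓝 z] fun y => ∫ ζ in uDisc, e (y, ζ) := by
      filter_upwards [Metric.isOpen_ball.mem_nhds hz] with y hy
      exact hA y hy
    have hbz : ContDiffOn ℝ ∞ (fun ξ => b (z, ξ)) uDiscC :=
      hbs.comp (f := fun ξ : ℂ => (z, ξ)) (contDiff_const.prodMk contDiff_id).contDiffOn
        fun ξ hξ => ⟨hz, hξ⟩
    have hint : ∀ ζ ∈ uDisc, d1 (fun y => e (y, ζ)) z = d1 (fun ξ => b (z, ξ)) ζ := by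
      intro ζ hζ
      have e1 : (fun y => e (y, ζ)) =ᶠ[𝓝 z]
          fun z' => da_sq (ambM 𝓧 G W (x z' ζ)) (famD G x z' ζ) (famD G x z' ζ) := by
        filter_upwards [Metric.isOpen_ball.mem_nhds hz] with y hy
        show da_sq (ambM 𝓧 G W (x y ζ)) (da_Yp G x r₀ (y, ζ)) (da_Yp G x r₀ (y, ζ)) = _
        rw [da_Yp_interior hG hx hy hζ]
      have e2 : (fun ξ => b (z, ξ)) =ᶠ[𝓝 ζ]
          fun ζ' => da_sq (ambM 𝓧 G W (x z ζ')) (famD G x z ζ') (famV G x z ζ') := by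
        filter_upwards [Metric.isOpen_ball.mem_nhds hζ] with ξ hξ
        show da_sq (ambM 𝓧 G W (x z ξ)) (da_Yp G x r₀ (z, ξ)) (famV G x z ξ) = _
        rw [da_Yp_interior hG hx hz hξ]
      rw [amb_d1_congr e1, amb_d1_congr e2]
      exact da_interior hG hW hcl hx hz hζ
    rw [amb_d1_congr hev, hP1 z hz, setIntegral_congr_fun measurableSet_ball hint,
      integral_d1 hbz]
    congr 1
    refine cA_congr fun ζ hζ => ?_
    show (starRingEnd ℂ) ζ * da_sq (ambM 𝓧 G W (x z ζ)) (da_Yp G x r₀ (z, ζ)) (famV G x z ζ) =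
      areaB 𝓧 G W x z ζ
    unfold areaB da_sq
    rw [Finset.mul_sum]
    refine Finset.sum_congr rfl fun j _ => ?_
    rw [Finset.mul_sum]
    refine Finset.sum_congr rfl fun k _ => ?_
    rw [da_Yp_circle hG hx hz hζ j]
    have hI : -Complex.I * (Complex.I * ζ * da_Yp G x r₀ (z, ζ) j) = ζ * da_Yp G x r₀ (z, ζ) j := by
      linear_combination (-(ζ * da_Yp G x r₀ (z, ζ) j)) * Complex.I_mul_I
    rw [hI, map_mul]
    ring

end Claimed.Agent.R316
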