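import Claimed.Agent.R316.S5.AreaDef

/-!
# Row 316, `S5-AR1`: smoothness of the ambient tensors (see the header of `S5/AreaDef.lean`)
-/

set_option autoImplicit false
set_option maxSynthPendingDepth 3
set_option linter.unusedSectionVars false
open scoped ContDiff ComplexOrder Topology Matrix
open MeasureTheory Filter

namespace Claimed.Agent.R316

variable {V' : Type} [NormedAddCommGroup V'] [NormedSpace ℝ V'] [FiniteDimensional ℝ V']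
variable {κ : Type} [Fintype κ] [DecidableEq κ] {q : ℕ}
variable {𝓧 : CMfd V' κ} {G : V' → CE (Fin q)} {W : HFam V' κ}

/-! ### `S5-AR1`: smoothness of the ambient tensors -/

theorem da_contDiffOn_pinvJ (hG : GImm 𝓧 G) {Ψ : CE κ → V'} {W₀ : Set (CE κ)}
    (hΨ : 𝓧.IsHol Ψ W₀) (k : κ) (r : Fin q) :
    ContDiffOn ℝ ∞ (fun p => pinvJ G Ψ p k r) W₀ := by
  have hJ : ∀ i j, ContDiffOn ℝ ∞ (fun p => jac (G ∘ Ψ) p i j) W₀ :=
    contDiffOn_jac (CMfd.isOpen_dom hΨ) (hG.hol _ _ hΨ)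
  have hJH := contDiffOn_conjTranspose hJ
  unfold pinvJ
  exact contDiffOn_matMul (contDiffOn_matInv (contDiffOn_matMul hJH hJ)
    fun p hp => (amb_isUnit_det_gram (amb_jac_injective hG hΨ hp)).ne_zero) hJH k r

theorem smoothOnC_ambM (hG : GImm 𝓧 G) (hW : IsHForm 𝓧 W) (i j : Fin q) :
    SmoothOnC 𝓧 Set.univ fun y => ambM 𝓧 G W y i j := by
  intro Ψ W₀ hΨ
  have hP := da_contDiffOn_pinvJ hG hΨ
  have h1 : ContDiffOn ℝ ∞ (fun p => ((pinvJ G Ψ p)ᴴ * W Ψ p * pinvJ G Ψ p) i j) W₀ :=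
    contDiffOn_matMul (A := fun p => (pinvJ G Ψ p)ᴴ * W Ψ p) (B := fun p => pinvJ G Ψ p)
      (contDiffOn_matMul (A := fun p => (pinvJ G Ψ p)ᴴ) (B := fun p => W Ψ p)
        (contDiffOn_conjTranspose hP) (hW.smooth hΨ)) hP i j
  refine (h1.congr fun p hp => ?_).mono Set.inter_subset_left
  show ambM 𝓧 G W (Ψ p) i j = _
  rw [ambM_eq hG hW hΨ hp]

theorem smoothOnC_gDz (hG : GImm 𝓧 G) {O : Set V'} (hO : IsOpen O) {β : V' → ℂ}
    (hβ : SmoothOnC 𝓧 O β) (r : Fin q) : SmoothOnC 𝓧 O fun y => gDz 𝓧 G β y r := by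
  intro Ψ W₀ hΨ
  have hop : IsOpen (W₀ ∩ Ψ ⁻¹' O) := (𝓧.isParam hΨ).isOpen_inter_preimage hO
  have h1 : ContDiffOn ℝ ∞ (fun p => ∑ k, dz k (β ∘ Ψ) p * pinvJ G Ψ p k r) (W₀ ∩ Ψ ⁻¹' O) :=
    ContDiffOn.sum fun k _ => (contDiffOn_dz hop (hβ Ψ W₀ hΨ)).mul
      ((da_contDiffOn_pinvJ hG hΨ k r).mono Set.inter_subset_left)
  refine h1.congr fun p hp => ?_
  show gDz 𝓧 G β (Ψ p) r = _
  exact gDz_eq hG hΨ hp.1 ((hβ.contDiffAt hO hΨ hp.1 hp.2).differentiableAt (by simp)) r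

theorem smoothOnC_gDzb (hG : GImm 𝓧 G) {O : Set V'} (hO : IsOpen O) {β : V' → ℂ}
    (hβ : SmoothOnC 𝓧 O β) (r : Fin q) : SmoothOnC 𝓧 O fun y => gDzb 𝓧 G β y r := by
  intro Ψ W₀ hΨ
  have hop : IsOpen (W₀ ∩ Ψ ⁻¹' O) := (𝓧.isParam hΨ).isOpen_inter_preimage hO
  have h1 : ContDiffOn ℝ ∞ (fun p => ∑ k, dzb k (β ∘ Ψ) p * star (pinvJ G Ψ p k r))
      (W₀ ∩ Ψ ⁻¹' O) :=
    ContDiffOn.sum fun k _ => (contDiffOn_dzb hop (hβ Ψ W₀ hΨ)).mul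
      (Complex.conjCLE.contDiff.comp_contDiffOn
        ((da_contDiffOn_pinvJ hG hΨ k r).mono Set.inter_subset_left))
  refine h1.congr fun p hp => ?_
  show gDzb 𝓧 G β (Ψ p) r = _
  exact gDzb_eq hG hΨ hp.1 ((hβ.contDiffAt hO hΨ hp.1 hp.2).differentiableAt (by simp)) r

/-- time independent form of `glip_of_smooth`. -/
theorem glip_of_smoothOnC (hG : GImm 𝓧 G) {K : Set V'} (hK : IsCompact K) (hKX : K ⊆ 𝓧.carrier)
    {β : V' → ℂ} (hβ : SmoothOnC 𝓧 Set.univ β) :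
    ∃ C : ℝ, GLipOn G K Set.univ C fun y _ => β y := by
  obtain ⟨C, h1, h2⟩ := glip_of_smooth hG hK hKX (T := 1) (β := fun y _ => β y) (by
    intro Ψ W₀ hΨ
    have h := hβ Ψ W₀ hΨ
    exact h.comp contDiff_snd.contDiffOn fun a ha => ⟨ha.2, Set.mem_univ _⟩)
  have h0 : (0 : ℝ) ∈ Set.Icc (0 : ℝ) 1 := ⟨le_rfl, zero_le_one⟩
  refine ⟨C, fun y hy t _ => h1 y hy 0 h0, fun y hy y' hy' t _ t' _ => ?_⟩
  have hC : 0 ≤ C := (norm_nonneg _).trans (h1 y hy 0 h0)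
  have h3 := h2 y hy y' hy' 0 h0 0 h0
  refine h3.trans (mul_le_mul_of_nonneg_left ?_ hC)
  simp

end Claimed.Agent.R316
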