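import Claimed.Agent.R316.S5.Fam

/-!
# Row 316, Section 5.2: the boundary cost along a deformation (`S5-D1`)

`Φ(z) = bdry5 (c_z) = ⟨cost (F z ζ) (t ζ)⟩` is the circle average of a smooth family (`FamSm`), so `lap1 Φ = ⟨lap1_z cost (F z ζ) (t ζ)⟩` (`lap1_cA`, inside `avg_cA_le`).
Pointwise in `ζ`: `lap1 (z ↦ cost (F z ζ) t) = p(F z ζ)^{-2a} qf (𝕎(F z ζ, t)) (V_z) = (m₀/m_z)² qf (𝕎(F z ζ, t)) (V_z/m₀)`;
`|V_z/m₀ - V_0/m₀| ≤ C'|z|` (`IsDeform.Z_bounds`), `|𝕎(F z ζ) - 𝕎(f ζ)| ≤ C'|z|` (`symb_glip`, `disp`), `|m₀/m_z - 1| ≤ C'|z|` (`wall_ratio`).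

Leaves: `S5-B1` `cost_smooth`, `time_mem`, `IsDeform.famSm_cost`, `IsDeform.lap1_cost`; `S5-B2` `bdry_pointwise`; `S5-B3` `continuousOn_bdry_main`.
`defo_bdry` is PROVED from them.
-/

set_option autoImplicit false
set_option maxSynthPendingDepth 3
open scoped ContDiff ComplexOrder Topology Matrix
open MeasureTheory Filter

namespace Claimed.Agent.R316

variable {V : Type} [NormedAddCommGroup V] [InnerProductSpace ℝ V] [FiniteDimensional ℝ V]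
variable [MeasurableSpace V] [BorelSpace V]
variable {n : ℕ} {𝓜 : CMfd V (Fin n)} {g : HFam V (Fin n)} {o : V}
variable {D : FlowData 𝓜 g o} {𝒴 : CMfd (CotAmb V) (Fin n ⊕ Fin n)}
variable {X : S5Ctx V n} {𝔚 : Walls V} {err A1 A2 : ℝ}

/-- the cost is smooth on `[0, T] ×` region (`N_smooth`, `smooth_base`, `IsWalls.d0_smooth`, `δ1_smooth`, `δ2_smooth`; `δ_i > 0` on the region). -/
theorem cost_smooth (h : Std5 X 𝔚 D 𝒴 err A1 A2) {O : Set (CotAmb V)}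
    (hOreg : 𝒴.carrier ∩ O = 𝔚.reg 𝒴) (Ψ : CE (Fin n ⊕ Fin n) → CotAmb V)
    (W : Set (CE (Fin n ⊕ Fin n))) (hΨ : 𝒴.IsHol Ψ W) :
    ContDiffOn ℝ ∞ (fun a : ℝ × CE (Fin n ⊕ Fin n) => ((𝔚.cost D (Ψ a.2) a.1 : ℝ) : ℂ))
      (Set.Icc 0 X.T ×ˢ (W ∩ Ψ ⁻¹' O)) := by
  have hsub : Set.Icc 0 X.T ×ˢ (W ∩ Ψ ⁻¹' O) ⊆ Set.Icc 0 X.T ×ˢ W :=
    Set.prod_mono subset_rfl Set.inter_subset_left
  have hreg : ∀ a ∈ Set.Icc 0 X.T ×ˢ (W ∩ Ψ ⁻¹' O), Ψ a.2 ∈ 𝔚.reg 𝒴 := fun a ha => by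
    rw [← hOreg]
    exact ⟨CMfd.mem_carrier hΨ ha.2.1, ha.2.2⟩
  have hN := (h.sN Ψ W hΨ).mono hsub
  have h0 := (h.sd0 Ψ W hΨ).mono hsub
  have h1 := ((h.sδ1 (Set.Icc 0 X.T) Ψ W hΨ).mono hsub).inv
    fun a ha => (h.δ_pos (hreg a ha)).1.ne'
  have h2 := ((h.sδ2 (Set.Icc 0 X.T) Ψ W hΨ).mono hsub).inv
    fun a ha => (h.δ_pos (hreg a ha)).2.ne'
  exact Complex.ofRealCLM.contDiff.comp_contDiffOn
    (hN.add (h0.add ((h1.sub contDiffOn_const).add (h2.sub contDiffOn_const))))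

theorem time_mem (h : Std5 X 𝔚 D 𝒴 err A1 A2) {c : Config V n} (hc : IsAdm X 𝔚 𝒴 c) {ζ : ℂ}
    (hζ : ζ ∈ uDiscC) : c.time ζ ∈ Set.Ioo 0 X.T := by
  refine ⟨?_, hc.time_lt ζ hζ⟩
  have h1 : 0 < c.s := lt_of_lt_of_le h.valid.s_lo hc.s_mem.1
  exact mul_pos h1 (Real.exp_pos _)

variable {c : Config V n} {hh : ℂ → ℂ} {Vh : ℂ → Fin X.q → ℂ} {F : ℂ → ℂ → CotAmb V}
variable {pz : ℂ → CE (Fin n ⊕ Fin n)} {r₀ M : ℝ}

/-- (`IsFam.famSm_compT`, `cost_smooth`, `exists_open_reg`, `Dsq_time_le` for the smoothness of the time.) -/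
theorem IsDeform.famSm_cost (h : Std5 X 𝔚 D 𝒴 err A1 A2) (hc : IsAdm X 𝔚 𝒴 c)
    (hD : IsDeform X 𝔚 𝒴 c hh Vh F pz r₀ M) :
    FamSm (Metric.ball 0 r₀) fun z ζ => ((𝔚.cost D (F z ζ) (c.time ζ) : ℝ) : ℂ) := by
  obtain ⟨O, hO, hOreg⟩ := exists_open_reg h
  exact hD.isFam.famSm_compT (β := fun y t => ((𝔚.cost D y t : ℝ) : ℂ)) hO
    (cost_smooth h hOreg)
    (fun z hz ζ hζ => (hOreg ▸ (hD.adm z hz).bdry ζ hζ : F z ζ ∈ 𝒴.carrier ∩ O).2)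
    (Dsq_time_le hc (h.s_pos hc)).1
    fun ζ hζ => Set.Ioo_subset_Icc_self (h.time_mem hc ζ hζ)

/-- (`IsFam.lap1_comp` for `β = cost (·) t`, definition of `Walls.symb`, `qf_smul`.) -/
theorem IsDeform.lap1_cost (h : Std5 X 𝔚 D 𝒴 err A1 A2) (hc : IsAdm X 𝔚 𝒴 c)
    (hD : IsDeform X 𝔚 𝒴 c hh Vh F pz r₀ M) {z ζ : ℂ} (hz : z ∈ Metric.ball (0 : ℂ) r₀)
    (hζ : ζ ∈ uCirc) :
    lap1 (fun y => 𝔚.cost D (F y ζ) (c.time ζ)) z =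
      (𝔚.pw (F z ζ) ^ (2 * 𝔚.a))⁻¹ *
        qf (𝔚.symb D 𝒴 X.G (F z ζ) (c.time ζ)) (famV X.G F z ζ) := by
  obtain ⟨O, hO, hOreg⟩ := exists_open_reg h
  have hreg : F z ζ ∈ 𝔚.reg 𝒴 := (hD.adm z hz).bdry ζ hζ
  have ht : c.time ζ ∈ Set.Icc 0 X.T := Set.Ioo_subset_Icc_self (h.time_mem hc ζ hζ)
  have hβ : SmoothOnC 𝒴 O fun y => ((𝔚.cost D y (c.time ζ) : ℝ) : ℂ) := fun Ψ W hΨ =>
    contDiffOn_slice_space
      (F := fun a : ℝ × CE (Fin n ⊕ Fin n) => ((𝔚.cost D (Ψ a.2) a.1 : ℝ) : ℂ))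
      (cost_smooth h hOreg Ψ W hΨ) ht
  have h1 := hD.isFam.lap1_comp h.valid.imm hO (β := fun y => 𝔚.cost D y (c.time ζ)) hβ hz
    (Metric.sphere_subset_closedBall hζ) (hOreg ▸ hreg : F z ζ ∈ 𝒴.carrier ∩ O).2
  rw [h1]
  unfold Walls.symb
  rw [qf_smul, ← mul_assoc, inv_mul_cancel₀ (pow_ne_zero _ hreg.2.ne'), one_mul]

/-- `|r - 1| ≤ δ ≤ 1` gives `|r^k - 1| ≤ 2^k δ`. -/
theorem bdry_pow_sub_one_le {r δ : ℝ} (hr : |r - 1| ≤ δ) (hδ : δ ≤ 1) (k : ℕ) :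
    |r ^ k - 1| ≤ 2 ^ k * δ := by
  have hδ0 : 0 ≤ δ := (abs_nonneg _).trans hr
  have hr2 : |r| ≤ 2 := by
    have : |r| ≤ |r - 1| + |1| := by
      have := abs_add_le (r - 1) 1
      simpa using this
    rw [abs_one] at this
    linarith
  induction k with
  | zero => simpa using hδ0
  | succ k ih =>
    have e : r ^ (k + 1) - 1 = r ^ k * (r - 1) + (r ^ k - 1) := by ring
    rw [e]
    refine (abs_add_le _ _).trans ?_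
    rw [abs_mul, abs_pow]
    have h1 : |r| ^ k * |r - 1| ≤ 2 ^ k * δ :=
      mul_le_mul (pow_le_pow_left₀ (abs_nonneg _) hr2 k) hr (abs_nonneg _) (by positivity)
    rw [pow_succ]
    linarith

/-- perturbation of `ρ qf W u`. -/
theorem bdry_qf_perturb {q : ℕ} {W W' : Matrix (Fin q) (Fin q) ℂ} {u u' : Fin q → ℂ}
    {ρ B K e : ℝ} (hW : ∀ r s, ‖W r s‖ ≤ B) (hW' : ∀ r s, ‖W' r s‖ ≤ B)
    (hu : ∀ k, ‖u k‖ ≤ K) (hu' : ∀ k, ‖u' k‖ ≤ K) (hdW : ∀ r s, ‖W' r s - W r s‖ ≤ e)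
    (hdu : ∀ k, ‖u' k - u k‖ ≤ e) (hρ : |ρ - 1| ≤ e) :
    ρ * qf W' u' ≤ qf W u + (q : ℝ) * ((q : ℝ) * ((B * K ^ 2 + K ^ 2 + 2 * B * K) * e)) := by
  have he : 0 ≤ e := (abs_nonneg _).trans hρ
  have key : ∀ j k, ‖(ρ : ℂ) * ((starRingEnd ℂ) (u' j) * W' j k * u' k) -
      (starRingEnd ℂ) (u j) * W j k * u k‖ ≤ (B * K ^ 2 + K ^ 2 + 2 * B * K) * e := by
    intro j k
    have hK : 0 ≤ K := (norm_nonneg _).trans (hu j)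
    have hB : 0 ≤ B := (norm_nonneg _).trans (hW j k)
    have e1 : (ρ : ℂ) * ((starRingEnd ℂ) (u' j) * W' j k * u' k) -
        (starRingEnd ℂ) (u j) * W j k * u k =
        ((ρ - 1 : ℝ) : ℂ) * ((starRingEnd ℂ) (u' j) * W' j k * u' k) +
        (starRingEnd ℂ) (u' j) * (W' j k - W j k) * u' k +
        (starRingEnd ℂ) (u' j - u j) * W j k * u' k +
        (starRingEnd ℂ) (u j) * W j k * (u' k - u k) := by
      rw [map_sub]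
      push_cast
      ring
    rw [e1]
    have n1 : ‖((ρ - 1 : ℝ) : ℂ) * ((starRingEnd ℂ) (u' j) * W' j k * u' k)‖ ≤ e * (K * B * K) := by
      rw [norm_mul, norm_mul, norm_mul, RCLike.norm_conj, Complex.norm_real, Real.norm_eq_abs]
      exact mul_le_mul hρ (mul_le_mul (mul_le_mul (hu' j) (hW' j k) (norm_nonneg _) hK) (hu' k)
        (norm_nonneg _) (by positivity)) (by positivity) he
    have n2 : ‖(starRingEnd ℂ) (u' j) * (W' j k - W j k) * u' k‖ ≤ K * e * K := by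
      rw [norm_mul, norm_mul, RCLike.norm_conj]
      exact mul_le_mul (mul_le_mul (hu' j) (hdW j k) (norm_nonneg _) hK) (hu' k)
        (norm_nonneg _) (by positivity)
    have n3 : ‖(starRingEnd ℂ) (u' j - u j) * W j k * u' k‖ ≤ e * B * K := by
      rw [norm_mul, norm_mul, RCLike.norm_conj]
      exact mul_le_mul (mul_le_mul (hdu j) (hW j k) (norm_nonneg _) he) (hu' k)
        (norm_nonneg _) (by positivity)
    have n4 : ‖(starRingEnd ℂ) (u j) * W j k * (u' k - u k)‖ ≤ K * B * e := by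
      rw [norm_mul, norm_mul, RCLike.norm_conj]
      exact mul_le_mul (mul_le_mul (hu j) (hW j k) (norm_nonneg _) hK) (hdu k)
        (norm_nonneg _) (by positivity)
    refine (norm_add_le _ _).trans ?_
    refine (add_le_add ((norm_add_le _ _).trans (add_le_add ((norm_add_le _ _).trans
      (add_le_add n1 n2)) n3)) n4).trans (le_of_eq ?_)
    ring
  have h1 : ρ * qf W' u' - qf W u = (∑ j, ∑ k, ((ρ : ℂ) * ((starRingEnd ℂ) (u' j) * W' j k * u' k) -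
      (starRingEnd ℂ) (u j) * W j k * u k)).re := by
    rw [qf_eq_sum, qf_eq_sum]
    simp only [Finset.sum_sub_distrib, ← Finset.mul_sum, Complex.sub_re, Complex.re_ofReal_mul]
  have h2 : ρ * qf W' u' - qf W u ≤
      (q : ℝ) * ((q : ℝ) * ((B * K ^ 2 + K ^ 2 + 2 * B * K) * e)) := by
    rw [h1]
    refine (Complex.re_le_norm _).trans ((norm_sum_le _ _).trans ?_)
    refine (Finset.sum_le_sum fun j _ => (norm_sum_le _ _).trans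
      (Finset.sum_le_sum fun k _ => key j k)).trans (le_of_eq ?_)
    simp only [Finset.sum_const, Finset.card_univ, Fintype.card_fin, nsmul_eq_mul]
  linarith

/-- the pointwise estimate (pure estimates from `symb_glip`, `wall_ratio`, `IsDeform.Z_bounds`, `IsDeform.disp`; `|Vh/|hh|| ≤ M` by `disp` and Cauchy). -/
theorem bdry_pointwise (h : Std5 X 𝔚 D 𝒴 err A1 A2) {r₀ : ℝ} (hr₀ : 0 < r₀) (M : ℝ) :
    ∃ C' r₁ : ℝ, 0 ≤ C' ∧ 0 < r₁ ∧ r₁ ≤ r₀ / 2 ∧ ∀ (c : Config V n) (hh : ℂ → ℂ)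
      (Vh : ℂ → Fin X.q → ℂ) (F : ℂ → ℂ → CotAmb V) (pz : ℂ → CE (Fin n ⊕ Fin n)),
      IsAdm X 𝔚 𝒴 c → (∀ ζ ∈ uCirc, ‖hh ζ‖ = c.mw 𝔚 ζ) → IsDeform X 𝔚 𝒴 c hh Vh F pz r₀ M →
      ∀ z ∈ Metric.ball (0 : ℂ) r₁, ∀ ζ ∈ uCirc,
        (𝔚.pw (F z ζ) ^ (2 * 𝔚.a))⁻¹ *
          qf (𝔚.symb D 𝒴 X.G (F z ζ) (c.time ζ)) (famV X.G F z ζ) ≤
        qf (𝔚.symb D 𝒴 X.G (c.f ζ) (c.time ζ)) (fun k => Vh ζ k / (‖hh ζ‖ : ℂ)) + C' * ‖z‖ := by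
  obtain ⟨C0, hC0⟩ := symb_glip h
  obtain ⟨Cw, r₁, hCw, hr₁, hr₁', hCr, hwall⟩ := wall_ratio h hr₀ M
  set B : ℝ := |C0| with hB
  set K : ℝ := 5 * |M| with hK
  set E : ℝ := 2 ^ (2 * 𝔚.a) * Cw + |C0| * |M| + 8 * |M| / r₀ with hE
  have hE0 : 0 ≤ E := by positivity
  refine ⟨(X.q : ℝ) * ((X.q : ℝ) * ((B * K ^ 2 + K ^ 2 + 2 * B * K) * E)), r₁, by positivity,
    hr₁, hr₁', ?_⟩
  intro c hh Vh F pz hc hmod hD z hz ζ hζ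
  have hzn : ‖z‖ < r₁ := mem_ball_zero_iff.1 hz
  have hzr : ‖z‖ ≤ r₀ / 2 := hzn.le.trans hr₁'
  have hzB : z ∈ Metric.ball (0 : ℂ) r₀ := by
    rw [mem_ball_zero_iff]
    linarith
  have h0B : (0 : ℂ) ∈ Metric.ball (0 : ℂ) r₀ := Metric.mem_ball_self hr₀
  have hM0 : 0 ≤ M := (DsqV_nonneg _).trans (hD.D_X 0 h0B)
  have hMa : |M| = M := abs_of_nonneg hM0
  have hζC : ζ ∈ uDiscC := Metric.sphere_subset_closedBall hζ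
  have hy : c.f ζ ∈ 𝔚.reg 𝒴 := hc.bdry ζ hζ
  have hy' : F z ζ ∈ 𝔚.reg 𝒴 := (hD.adm z hzB).bdry ζ hζ
  have ht : c.time ζ ∈ Set.Icc 0 X.T := Set.Ioo_subset_Icc_self (h.time_mem hc ζ hζ)
  obtain ⟨hp0, hp1⟩ := pw_mem h hy
  have hp0' := hy'.2
  have hm0 : 0 < ‖hh ζ‖ := by
    rw [hmod ζ hζ]
    exact pow_pos hp0 _
  have hm1 : ‖hh ζ‖ ≤ 1 := by
    rw [hmod ζ hζ]
    exact pow_le_one₀ hp0.le hp1
  have hmC : ((‖hh ζ‖ : ℝ) : ℂ) ≠ 0 := Complex.ofReal_ne_zero.2 hm0.ne'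
  obtain ⟨-, hw2, -⟩ := hwall c hh Vh F pz hc hmod hD z hzn.le ζ hζ
  obtain ⟨hZ, -, -, -⟩ := hD.Z_bounds h hr₀ hc hmod
  -- the bound of the first field
  have hV0 : ∀ k, ‖Vh ζ k‖ ≤ M * ‖hh ζ‖ := by
    intro k
    rw [← hD.first ζ hζC k]
    refine norm_deriv_le_of_lip' (by positivity) ?_
    filter_upwards [Metric.isOpen_ball.mem_nhds h0B] with y hy
    rw [sub_zero, hD.F_zero ζ hζC]
    calc ‖X.G (F y ζ) k - X.G (c.f ζ) k‖ = ‖(X.G (F y ζ) - X.G (c.f ζ)) k‖ := rfl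
      _ ≤ ‖X.G (F y ζ) - X.G (c.f ζ)‖ := PiLp.norm_apply_le _ _
      _ ≤ M * ‖y‖ * ‖hh ζ‖ := hD.disp y hy ζ hζ
      _ = M * ‖hh ζ‖ * ‖y‖ := by ring
  have hdiv : ∀ w : ℂ, ‖w / ((‖hh ζ‖ : ℝ) : ℂ)‖ = ‖w‖ / ‖hh ζ‖ := fun w => by
    rw [norm_div, Complex.norm_real, Real.norm_eq_abs, abs_of_pos hm0]
  have hu : ∀ k, ‖Vh ζ k / ((‖hh ζ‖ : ℝ) : ℂ)‖ ≤ K := fun k => by
    rw [hdiv, div_le_iff₀ hm0, hK, hMa]
    have := hV0 k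
    nlinarith
  have hdu : ∀ k, ‖famV X.G F z ζ k / ((‖hh ζ‖ : ℝ) : ℂ) - Vh ζ k / ((‖hh ζ‖ : ℝ) : ℂ)‖ ≤
      8 * M / r₀ * ‖z‖ := fun k => by
    rw [← sub_div, hdiv, div_le_iff₀ hm0]
    refine (hZ z hzr ζ hζ k).trans (le_of_eq ?_)
    ring
  have hz4 : 8 * M / r₀ * ‖z‖ ≤ 4 * M := by
    rw [div_mul_eq_mul_div, div_le_iff₀ hr₀]
    nlinarith
  have hu' : ∀ k, ‖famV X.G F z ζ k / ((‖hh ζ‖ : ℝ) : ℂ)‖ ≤ K := fun k => by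
    have h1 : ‖Vh ζ k / ((‖hh ζ‖ : ℝ) : ℂ)‖ ≤ M := by
      rw [hdiv, div_le_iff₀ hm0]
      exact hV0 k
    have h2 := norm_add_le (famV X.G F z ζ k / ((‖hh ζ‖ : ℝ) : ℂ) - Vh ζ k / ((‖hh ζ‖ : ℝ) : ℂ))
      (Vh ζ k / ((‖hh ζ‖ : ℝ) : ℂ))
    rw [sub_add_cancel] at h2
    have h3 := hdu k
    rw [hK, hMa]
    linarith
  have hzE : ∀ {a : ℝ}, a ≤ E → a * ‖z‖ ≤ E * ‖z‖ := fun ha =>
    mul_le_mul_of_nonneg_right ha (norm_nonneg z)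
  have t1 : 0 ≤ 2 ^ (2 * 𝔚.a) * Cw := by positivity
  have t2 : 0 ≤ |C0| * |M| := by positivity
  have t3 : 0 ≤ 8 * |M| / r₀ := by positivity
  have hdW : ∀ r s, ‖𝔚.symb D 𝒴 X.G (F z ζ) (c.time ζ) r s -
      𝔚.symb D 𝒴 X.G (c.f ζ) (c.time ζ) r s‖ ≤ E * ‖z‖ := by
    intro r s
    have h1 := (hC0 r s).2 _ hy' _ hy _ ht _ ht
    rw [sub_self, abs_zero, add_zero] at h1
    have h2 : ‖X.G (F z ζ) - X.G (c.f ζ)‖ ≤ M * ‖z‖ := by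
      refine (hD.disp z hzB ζ hζ).trans ?_
      exact mul_le_of_le_one_right (by positivity) hm1
    calc _ ≤ C0 * ‖X.G (F z ζ) - X.G (c.f ζ)‖ := h1
      _ ≤ |C0| * ‖X.G (F z ζ) - X.G (c.f ζ)‖ :=
        mul_le_mul_of_nonneg_right (le_abs_self _) (norm_nonneg _)
      _ ≤ |C0| * (M * ‖z‖) := mul_le_mul_of_nonneg_left h2 (abs_nonneg _)
      _ = |C0| * |M| * ‖z‖ := by rw [hMa]; ring
      _ ≤ E * ‖z‖ := hzE (by rw [hE]; linarith)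
  have hρ : |(𝔚.pw (c.f ζ) / 𝔚.pw (F z ζ)) ^ (2 * 𝔚.a) - 1| ≤ E * ‖z‖ := by
    have h1 : Cw * ‖z‖ ≤ 1 := by
      have := mul_le_mul_of_nonneg_left hzn.le hCw
      linarith
    refine (bdry_pow_sub_one_le hw2 h1 _).trans ?_
    rw [← mul_assoc]
    exact hzE (by rw [hE]; linarith)
  have hdu' : ∀ k, ‖famV X.G F z ζ k / ((‖hh ζ‖ : ℝ) : ℂ) - Vh ζ k / ((‖hh ζ‖ : ℝ) : ℂ)‖ ≤
      E * ‖z‖ := fun k => (hdu k).trans (hzE (by rw [hE]; rw [hMa] at t2 ⊢; linarith))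
  have key := bdry_qf_perturb (W := 𝔚.symb D 𝒴 X.G (c.f ζ) (c.time ζ))
    (W' := 𝔚.symb D 𝒴 X.G (F z ζ) (c.time ζ)) (u := fun k => Vh ζ k / ((‖hh ζ‖ : ℝ) : ℂ))
    (u' := fun k => famV X.G F z ζ k / ((‖hh ζ‖ : ℝ) : ℂ)) (B := B) (K := K)
    (fun r s => ((hC0 r s).1 _ hy _ ht).trans (le_abs_self _))
    (fun r s => ((hC0 r s).1 _ hy' _ ht).trans (le_abs_self _)) hu hu' hdW hdu' hρ
  have e1 : famV X.G F z ζ = ((‖hh ζ‖ : ℝ) : ℂ) •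
      (fun k => famV X.G F z ζ k / ((‖hh ζ‖ : ℝ) : ℂ)) := by
    funext k
    simp only [Pi.smul_apply, smul_eq_mul]
    field_simp
  have e2 : (𝔚.pw (F z ζ) ^ (2 * 𝔚.a))⁻¹ *
      qf (𝔚.symb D 𝒴 X.G (F z ζ) (c.time ζ)) (famV X.G F z ζ) =
      (𝔚.pw (c.f ζ) / 𝔚.pw (F z ζ)) ^ (2 * 𝔚.a) *
        qf (𝔚.symb D 𝒴 X.G (F z ζ) (c.time ζ))
          (fun k => famV X.G F z ζ k / ((‖hh ζ‖ : ℝ) : ℂ)) := by
    conv_lhs => rw [e1, qf_smul_vec]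
    rw [Complex.norm_real, Real.norm_eq_abs, abs_of_pos hm0, hmod ζ hζ]
    unfold Config.mw
    rw [div_pow, ← pow_mul, mul_comm 𝔚.a 2, div_eq_mul_inv]
    ring
  rw [e2]
  refine key.trans (le_of_eq ?_)
  ring

/-- (by `IsDeform.lap1_cost` at `z = 0` the function is `p^{2a} lap1 …`, smooth on the circle by `FamSm.lap1`; or directly.) -/
theorem continuousOn_bdry_main (h : Std5 X 𝔚 D 𝒴 err A1 A2) (hr₀ : 0 < r₀) (hc : IsAdm X 𝔚 𝒴 c)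
    (hmod : ∀ ζ ∈ uCirc, ‖hh ζ‖ = c.mw 𝔚 ζ) (hD : IsDeform X 𝔚 𝒴 c hh Vh F pz r₀ M) :
    ContinuousOn (fun ζ => qf (𝔚.symb D 𝒴 X.G (c.f ζ) (c.time ζ))
      (fun k => Vh ζ k / (‖hh ζ‖ : ℂ))) uCirc := by
  obtain ⟨C0, hC0⟩ := symb_glip h
  have hC : ∀ ζ ∈ uCirc, ζ ∈ uDiscC := fun ζ hζ => Metric.sphere_subset_closedBall hζ
  have hX : ∀ r, CircLip fun ζ => X.G (c.f ζ) r :=
    fun r => (hc.disc.holSm_G h.valid.imm r).circSm.circLip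
  have htI : ∀ ζ ∈ uCirc, c.time ζ ∈ Set.Icc 0 X.T := fun ζ hζ =>
    Set.Ioo_subset_Icc_self (h.time_mem hc ζ hζ)
  have hW : ∀ r s, ContinuousOn (fun ζ => 𝔚.symb D 𝒴 X.G (c.f ζ) (c.time ζ) r s) uCirc :=
    fun r s => (Dsq_comp_le (hC0 r s) hX (Dsq_time_le hc (h.s_pos hc)).1.circLip hc.bdry
      htI).1.continuousOn
  have hV : ∀ k, ContinuousOn (fun ζ => Vh ζ k) uCirc := fun k =>
    ((hD.isFam.holSm_V h.valid.imm (Metric.mem_ball_self hr₀) k).circSm.circLip.continuousOn).congr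
      fun ζ hζ => (congrFun (hD.famV_zero (hC ζ hζ)) k).symm
  have hm : ContinuousOn (fun ζ => ((‖hh ζ‖ : ℝ) : ℂ)) uCirc :=
    ((circSm_mw h hc).circLip.continuousOn).congr fun ζ hζ => by rw [hmod ζ hζ]
  have hu : ∀ k, ContinuousOn (fun ζ => Vh ζ k / (‖hh ζ‖ : ℂ)) uCirc := fun k =>
    (hV k).div hm fun ζ hζ => by
      rw [hmod ζ hζ]
      exact Complex.ofReal_ne_zero.2 (pow_pos (pw_mem h (hc.bdry ζ hζ)).1 _).ne'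
  simp only [qf_eq_sum]
  exact Complex.continuous_re.comp_continuousOn (continuousOn_finsetSum _ fun j _ =>
    continuousOn_finsetSum _ fun k _ =>
      ((Complex.continuous_conj.comp_continuousOn (hu j)).mul (hW j k)).mul (hu k))

/-- `S5-D1`.  Boundary cost. -/
theorem defo_bdry (h : Std5 X 𝔚 D 𝒴 err A1 A2) {r₀ : ℝ} (hr₀ : 0 < r₀) (M : ℝ) :
    ∃ C' r₁ : ℝ, 0 < r₁ ∧ r₁ ≤ r₀ / 2 ∧ ∀ (c : Config V n) (hh : ℂ → ℂ) (Vh : ℂ → Fin X.q → ℂ)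
      (F : ℂ → ℂ → CotAmb V) (pz : ℂ → CE (Fin n ⊕ Fin n)), IsAdm X 𝔚 𝒴 c →
      (∀ ζ ∈ uCirc, ‖hh ζ‖ = c.mw 𝔚 ζ) → IsDeform X 𝔚 𝒴 c hh Vh F pz r₀ M →
      ∀ r : ℝ, 0 < r → r ≤ r₁ →
        CircleIntegrable (fun z => bdry5 𝔚 D (c.deform F pz z)) 0 r ∧
        Real.circleAverage (fun z => bdry5 𝔚 D (c.deform F pz z)) 0 r ≤
          bdry5 𝔚 D c + r ^ 2 * cA (fun ζ => qf (𝔚.symb D 𝒴 X.G (c.f ζ) (c.time ζ))
            (fun k => Vh ζ k / (‖hh ζ‖ : ℂ))) + C' * r ^ 3 := by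
  obtain ⟨C', r₁, hC', hr₁, hr₁', hpt⟩ := bdry_pointwise h hr₀ M
  refine ⟨2 * C', r₁ / 2, by positivity, by linarith, ?_⟩
  intro c hh Vh F pz hc hmod hD r hr hrr
  have hsub : Metric.ball (0 : ℂ) r₁ ⊆ Metric.ball 0 r₀ :=
    Metric.ball_subset_ball (by linarith)
  have hfam := (hD.famSm_cost h hc).mono hsub
  have hΛ := continuousOn_bdry_main h hr₀ hc hmod hD
  have key := avg_cA_le (w := fun z ζ => 𝔚.cost D (F z ζ) (c.time ζ)) hfam hΛ hC'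
    (fun z hz ζ hζ => by
      rw [hD.lap1_cost h hc (hsub hz) hζ]
      exact hpt c hh Vh F pz hc hmod hD z hz ζ hζ) hr (by linarith)
  have h0 : cA (fun ζ => 𝔚.cost D (F 0 ζ) (c.time ζ)) = bdry5 𝔚 D c :=
    cA_congr fun ζ hζ => by
      show 𝔚.cost D (F 0 ζ) (c.time ζ) = 𝔚.cost D (c.f ζ) (c.time ζ)
      rw [hD.F_zero ζ (Metric.sphere_subset_closedBall hζ)]
  rw [h0] at key
  exact key

end Claimed.Agent.R316
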