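import Claimed.Agent.R316.Pack022
import Claimed.Agent.R316.B14.Outer
import Claimed.Agent.R316.B14.Fejer
import Claimed.Agent.R316.B14.Disc
import Claimed.Agent.R316.B14.CauchyZ
import Claimed.Agent.R316.B14.HolSm
import Claimed.Agent.R316.B14.HalfSob

/-!
# Row 316, Section 5 (`variation.tex`), package `S5-C`: analysis on the unit circle in the form used by Section 5.
THIS FILE IS A THIN LAYER OVER `R316/B14` (helper140).

Functions on the circle are functions `ℂ → ℂ` of which only the values on the unit circle matter (in `B14`: functions of the angle; `B14.bd F θ = F (circleMap 0 1 θ)`).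
`cA` is the normalised circle average `⟨·⟩`, `fco a k = ⟨ζ^{-k} a⟩` the Fourier coefficient, `Dsq a = D(a)² = ∑ |k| |a_k|²` (eq. 4.5).
Classes: `CircLip`, `CircSm`, `HolSm` (holomorphic in the disc, `C^∞` on the closed disc).  Vectors and matrices ENTRYWISE (`DsqV`, `DsqM`).

## DICTIONARY (section `Dict`): `cA F = B14.pavg (B14.bd F)` (`rfl`), `fco_eq_fc`, `Dsq_eq_hsq`, `DsqV_eq_hsqV`, `DsqM_eq_hsqM`, `circSm_iff`, `circLip_iff`, `holSm_iff`, `dth_circleMap`, `bd_fejer`,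
`BD_eq_hB`, `forall_uCirc_iff`, `bd_ofAngle` (a periodic function of the angle is `bd (ofAngle a)`).

## HOW TO PROVE A LEAF: rewrite with the dictionary and cite the `B14` statement (ALL `B14` statements are black boxes, also the sorried ones).  Correspondence:
* `S5-C1` (sections `Basic`, `Fourier`): `B14/Four2A` (`CLip.*`, `CSm.*`), `B14/HolSmA`, `HolSmB`, `HolSm` (`HolSm.*`, `dsm`, `norm_le`, `nsq_le_of_bd`, `eqOn_of_bd_eq`, `hasSum`, `center`, `fc_neg`), `B14/Four1B` (`fc_*`), `B14/Four1` (Parseval, uniqueness), `B14/Four2` (`CSm.rapid`, `CSm.hasSum`, `RapidZ.cSm_synth`).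
* `S5-C2` (section `Double`): `B14/HalfSobA/B/C`, `HalfSob` (`hsq_eq_dqsq`, `dqsq_mono`, `dqsq_sqrt_sum_sq`, `hD_mul_le`, `norm_hB_le`, `hsq_add`, `norm_pavg_mul_deriv_le`, `hsq_eq_pavg_deriv_of_nonneg`, `pavg_sub_pavg_sq_le_hsq`).  No `B14` analogue: `Dsq_le_of_diff_integral`, `exists_BD_kernel` (`La = synth (|k| a_k)`), `HolSm.Dsq_dilate_le` (`hsq_eq_tsum_nat`, coefficients `r^k a_k`).
* `S5-C3` (section `Ext`): `B14/OuterA`, `OuterB` (`schw`, `outer`, `hD_phase_le`, `hD_bd_outer_le`, `exp_pavg_le`), `bd_szego_of_fc_neg`.  `exp_cA_log_mul_le`: outer function `k = outer (½ log om)`, `HolSm.normSq_zero_le` for `k Z_j`.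
* `S5-C4` (section `Fejer`): `B14/FejerA` (`fejer_eq_pavg`, `fejK_nonneg`, `pavg_fejK`, `norm_fejer_le`, `fc_fejer`, `hsq_fejer_le`, `pavg_fejer_sub_sq_le`, `fejerPoly`).  No analogue: `tendsto_fejer`.
* `S5-C5` (section `Stokes`): `B14/DiscA`, `DiscB`, `Disc` (`stokes_disc` needs smoothness PAST the circle: apply it to the dilations `u (ρ ·)`, `ρ ↑ 1`), `bessel_disc`, `HolSm.hsq_eq_area`.  No analogue: `moments_decay`.
* `S5-C6` (section `CauchyZ`): no analogue in `B14`; plans at the statements.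
-/

set_option autoImplicit false
open scoped ContDiff ComplexOrder Topology
open MeasureTheory Filter

namespace Claimed.Agent.R316

/-- normalised average over the unit circle. -/
noncomputable def cA {E : Type} [NormedAddCommGroup E] [NormedSpace ℝ E] (F : ℂ → E) : E :=
  Real.circleAverage F 0 1

/-- the unit circle. -/
abbrev uCirc : Set ℂ := Metric.sphere (0 : ℂ) 1

/-- the open unit disc. -/
abbrev uDisc : Set ℂ := Metric.ball (0 : ℂ) 1

/-- the closed unit disc. -/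
abbrev uDiscC : Set ℂ := Metric.closedBall (0 : ℂ) 1

/-- Fourier coefficient `a_k = ⟨ζ^{-k} a⟩`. -/
noncomputable def fco (a : ℂ → ℂ) (k : ℤ) : ℂ := cA fun ζ => ζ ^ (-k) * a ζ

/-- the squared boundary seminorm `D(a)² = ∑_k |k| |a_k|²`. -/
noncomputable def Dsq (a : ℂ → ℂ) : ℝ := ∑' k : ℤ, |(k : ℝ)| * ‖fco a k‖ ^ 2

/-- `D(a)²` of a column. -/
noncomputable def DsqV {ι : Type} [Fintype ι] (a : ℂ → ι → ℂ) : ℝ := ∑ i, Dsq fun ζ => a ζ i

/-- `D(a)²` of a matrix (Frobenius). -/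
noncomputable def DsqM {ι κ : Type} [Fintype ι] [Fintype κ] (a : ℂ → Matrix ι κ ℂ) : ℝ :=
  ∑ i, ∑ j, Dsq fun ζ => a ζ i j

/-- `D(u)²` of a real function. -/
noncomputable def DsqR (u : ℂ → ℝ) : ℝ := Dsq fun ζ => (u ζ : ℂ)

/-- Lipschitz on the unit circle. -/
def CircLip (a : ℂ → ℂ) : Prop :=
  ∃ C : ℝ, ∀ ζ ∈ uCirc, ∀ ξ ∈ uCirc, ‖a ζ - a ξ‖ ≤ C * ‖ζ - ξ‖

/-- smooth on the unit circle. -/
def CircSm (a : ℂ → ℂ) : Prop := ContDiff ℝ ∞ fun θ : ℝ => a (circleMap 0 1 θ)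

/-- holomorphic in the open unit disc and smooth on the closed unit disc. -/
def HolSm (a : ℂ → ℂ) : Prop := DifferentiableOn ℂ a uDisc ∧ ContDiffOn ℝ ∞ a uDiscC

/-- angular derivative `∂_θ a`. -/
noncomputable def dth (a : ℂ → ℂ) (ζ : ℂ) : ℂ :=
  deriv (fun θ : ℝ => a (ζ * Complex.exp (θ * Complex.I))) 0

/-- trigonometric polynomial of degree `≤ P` (on the circle). -/
def IsTrigPoly (P : ℕ) (a : ℂ → ℂ) : Prop :=
  ∃ c : ℤ → ℂ, ∀ ζ ∈ uCirc, a ζ = ∑ k ∈ Finset.Icc (-(P : ℤ)) P, c k * ζ ^ k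

/-- Fejer mean of order `P`. -/
noncomputable def fejer (P : ℕ) (a : ℂ → ℂ) (ζ : ℂ) : ℂ :=
  ∑ k ∈ Finset.Icc (-(P : ℤ)) P, ((1 - |(k : ℝ)| / (P + 1) : ℝ) : ℂ) * fco a k * ζ ^ k

/-! ## the dictionary `S5/Circle` ↔ `B14` -/

section Dict

variable {a b : ℂ → ℂ}

theorem cA_eq_pavg {E : Type} [NormedAddCommGroup E] [NormedSpace ℝ E] (F : ℂ → E) :
    cA F = B14.pavg (B14.bd F) := rfl

theorem circleMap_mem_uCirc (θ : ℝ) : circleMap 0 1 θ ∈ uCirc :=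
  circleMap_mem_sphere 0 zero_le_one θ

theorem mem_uCirc_iff {ζ : ℂ} : ζ ∈ uCirc ↔ ∃ θ : ℝ, circleMap 0 1 θ = ζ := by
  constructor
  · intro h
    exact B14.exists_circleMap_of_norm_eq_one (by simpa using h)
  · rintro ⟨θ, rfl⟩
    exact circleMap_mem_uCirc θ

theorem forall_uCirc_iff {P : ℂ → Prop} : (∀ ζ ∈ uCirc, P ζ) ↔ ∀ θ : ℝ, P (circleMap 0 1 θ) := by
  constructor
  · intro h θ
    exact h _ (circleMap_mem_uCirc θ)
  · intro h ζ hζ
    obtain ⟨θ, rfl⟩ := mem_uCirc_iff.1 hζ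
    exact h θ

theorem fco_eq_fc (a : ℂ → ℂ) (k : ℤ) : fco a k = B14.fc (B14.bd a) k := by
  unfold fco B14.fc
  rw [cA_eq_pavg]
  congr 1
  funext θ
  simp only [B14.bd, B14.ech_eq_zpow]

theorem Dsq_eq_hsq (a : ℂ → ℂ) : Dsq a = B14.hsq (B14.bd a) := by
  unfold Dsq B14.hsq
  simp only [fco_eq_fc]

theorem DsqV_eq_hsqV {ι : Type} [Fintype ι] (a : ℂ → ι → ℂ) : DsqV a = B14.hsqV (B14.bd a) := by
  unfold DsqV B14.hsqV
  simp only [Dsq_eq_hsq]
  rfl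

theorem DsqM_eq_hsqM {ι κ : Type} [Fintype ι] [Fintype κ] (a : ℂ → Matrix ι κ ℂ) :
    DsqM a = B14.hsqM (B14.bd a) := by
  unfold DsqM B14.hsqM
  simp only [Dsq_eq_hsq]
  rfl

theorem DsqR_eq_hsq (u : ℂ → ℝ) : DsqR u = B14.hsq fun θ => ((B14.bd u θ : ℝ) : ℂ) :=
  Dsq_eq_hsq _

theorem circSm_iff : CircSm a ↔ B14.CSm (B14.bd a) :=
  ⟨fun h => ⟨B14.bd_periodic a, h⟩, fun h => h.smooth⟩

/-- chord-arc comparison (`|e^{is} - e^{it}| ≤ |s - t|`; conversely choose angles with `|s - t| ≤ π`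
and use Jordan's inequality `|e^{iu} - 1| = 2 |sin (u/2)| ≥ (2/π) |u|`). -/
theorem circLip_iff : CircLip a ↔ B14.CLip (B14.bd a) := by
  constructor
  · rintro ⟨C, hC⟩
    refine B14.CLip.mk' (B14.bd_periodic a) (K := |C|) fun s t => ?_
    have h1 := hC _ (circleMap_mem_uCirc s) _ (circleMap_mem_uCirc t)
    have h2 : ‖circleMap 0 1 s - circleMap 0 1 t‖ ≤ |s - t| := by
      have h3 : circleMap 0 1 s - circleMap 0 1 t =
          circleMap 0 1 t * (Complex.exp (Complex.I * ((s - t : ℝ) : ℂ)) - 1) := by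
        simp only [circleMap, zero_add, Complex.ofReal_one, one_mul, mul_sub, mul_one,
          ← Complex.exp_add]
        congr 2
        push_cast
        ring
      rw [h3, norm_mul]
      have h4 : ‖circleMap 0 1 t‖ = 1 := by simp
      rw [h4, one_mul]
      simpa using Real.norm_exp_I_mul_ofReal_sub_one_le (x := s - t)
    calc ‖B14.bd a s - B14.bd a t‖ ≤ C * ‖circleMap 0 1 s - circleMap 0 1 t‖ := h1
      _ ≤ |C| * ‖circleMap 0 1 s - circleMap 0 1 t‖ := by gcongr; exact le_abs_self C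
      _ ≤ |C| * |s - t| := by gcongr
  · intro h
    obtain ⟨K, hK0, hK⟩ := h.exists_lip
    refine ⟨K * (Real.pi / 2), fun ζ hζ ξ hξ => ?_⟩
    have hζ1 : ‖ζ‖ = 1 := by simpa using hζ
    have hξ1 : ‖ξ‖ = 1 := by simpa using hξ
    have hξ0 : ξ ≠ 0 := by
      intro h0
      rw [h0] at hξ1
      simp at hξ1
    set u : ℝ := Complex.arg (ζ / ξ) with hu
    set t : ℝ := Complex.arg ξ with ht
    have hq : ‖ζ / ξ‖ = 1 := by rw [norm_div, hζ1, hξ1, div_one]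
    have e1 : Complex.exp (Complex.I * (u : ℂ)) = ζ / ξ := by
      have := Complex.norm_mul_exp_arg_mul_I (ζ / ξ)
      rw [hq] at this
      rw [mul_comm]
      simpa using this
    have e2 : circleMap 0 1 t = ξ := by
      have := Complex.norm_mul_exp_arg_mul_I ξ
      rw [hξ1] at this
      simpa [circleMap] using this
    have e3 : circleMap 0 1 (t + u) = ζ := by
      have h5 : circleMap 0 1 (t + u) = circleMap 0 1 t * Complex.exp (Complex.I * (u : ℂ)) := by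
        simp only [circleMap, zero_add, Complex.ofReal_one, one_mul, ← Complex.exp_add]
        congr 1
        push_cast
        ring
      rw [h5, e2, e1]
      field_simp
    have h6 := hK (t + u) t
    simp only [B14.bd, e2, e3, add_sub_cancel_left] at h6
    have h7 : |u| ≤ Real.pi / 2 * ‖ζ - ξ‖ := by
      have h8 : ‖ζ - ξ‖ = ‖Complex.exp (Complex.I * (u : ℂ)) - 1‖ := by
        rw [e1, div_sub_one hξ0, norm_div, hξ1, div_one]
      rw [h8, Complex.norm_exp_I_mul_ofReal_sub_one, Real.norm_eq_abs, abs_mul, abs_two]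
      have hu1 : |u| ≤ Real.pi := Complex.abs_arg_le_pi _
      have h9 : 2 / Real.pi * (|u| / 2) ≤ Real.sin (|u| / 2) :=
        Real.mul_le_sin (by positivity) (by linarith)
      have h10 : |Real.sin (u / 2)| = Real.sin (|u| / 2) := by
        rcases abs_cases u with ⟨hh, _⟩ | ⟨hh, _⟩
        · rw [hh]
          exact abs_of_nonneg (Real.sin_nonneg_of_nonneg_of_le_pi (by linarith [abs_nonneg u])
            (by linarith [Real.pi_pos]))
        · rw [hh, neg_div, Real.sin_neg]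
          rw [abs_of_nonpos]
          have : 0 ≤ Real.sin (-u / 2) := Real.sin_nonneg_of_nonneg_of_le_pi (by linarith)
            (by linarith [Real.pi_pos])
          rw [neg_div, Real.sin_neg] at this
          linarith
      rw [h10]
      have hpi := Real.pi_pos
      have h11 : |u| = Real.pi / 2 * (2 * (2 / Real.pi * (|u| / 2))) := by
        field_simp
      calc |u| = Real.pi / 2 * (2 * (2 / Real.pi * (|u| / 2))) := h11
        _ ≤ Real.pi / 2 * (2 * Real.sin (|u| / 2)) := by gcongr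
    calc ‖a ζ - a ξ‖ ≤ K * |u| := h6
      _ ≤ K * (Real.pi / 2 * ‖ζ - ξ‖) := by gcongr
      _ = K * (Real.pi / 2) * ‖ζ - ξ‖ := by ring

theorem HolSm.toB14 (ha : HolSm a) : B14.HolSm a where
  diffCont := ⟨ha.1, by rw [closure_ball (0 : ℂ) one_ne_zero]; exact ha.2.continuousOn⟩
  smooth := by
    have h1 : ContDiff ℝ ∞ (fun θ : ℝ => circleMap 0 1 θ) := contDiff_circleMap 0 1
    exact ha.2.comp_contDiff h1
      (fun θ => Metric.sphere_subset_closedBall (circleMap_mem_uCirc θ))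

/-- `B14.HolSm` functions are `C^∞` on the closed disc (`B14.HolSm.contDiffOn`). -/
theorem holSm_of_b14 (ha : B14.HolSm a) : HolSm a :=
  ⟨ha.differentiableOn, ha.contDiffOn⟩

theorem holSm_iff : HolSm a ↔ B14.HolSm a := ⟨HolSm.toB14, holSm_of_b14⟩

theorem dth_circleMap (a : ℂ → ℂ) (θ : ℝ) : dth a (circleMap 0 1 θ) = deriv (B14.bd a) θ := by
  unfold dth
  have h : (fun t : ℝ => a (circleMap 0 1 θ * Complex.exp (t * Complex.I))) =
      fun t : ℝ => B14.bd a (θ + t) := by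
    funext t
    simp [B14.bd, circleMap, Complex.exp_add, add_mul]
  rw [h, deriv_comp_const_add]
  simp

theorem bd_fejer (P : ℕ) (a : ℂ → ℂ) : B14.bd (fejer P a) = B14.fejer P (B14.bd a) := by
  funext θ
  simp only [B14.bd, fejer, B14.fejer, fco_eq_fc, B14.ech_eq_zpow]

/-- a function of the angle as a function on `ℂ`. -/
noncomputable def ofAngle {E : Type} (a : ℝ → E) (ζ : ℂ) : E := a (Complex.arg ζ)

theorem bd_ofAngle {E : Type} {a : ℝ → E} (ha : Function.Periodic a (2 * Real.pi)) :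
    B14.bd (ofAngle a) = a := by
  funext θ
  have h1 : Complex.arg (circleMap 0 1 θ) = toIocMod Real.two_pi_pos (-Real.pi) θ := by
    have := Complex.arg_exp_mul_I θ
    simpa [circleMap] using this
  show a (Complex.arg (circleMap 0 1 θ)) = a θ
  rw [h1, ← self_sub_toIocDiv_zsmul]
  exact ha.sub_zsmul_eq _

/-- holomorphic past the circle. -/
theorem holSm_of_differentiableOn {r : ℝ} (hr : 1 < r)
    (ha : DifferentiableOn ℂ a (Metric.ball 0 r)) : HolSm a := by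
  refine ⟨ha.mono (Metric.ball_subset_ball hr.le), ?_⟩
  have h1 : ContDiffOn ℂ ∞ a (Metric.ball 0 r) := ha.contDiffOn Metric.isOpen_ball
  exact (h1.restrict_scalars ℝ).mono (Metric.closedBall_subset_ball hr)

end Dict

/-! ## `S5-C1`: closure properties and Fourier basics -/

section Basic

variable {a b : ℂ → ℂ}

theorem CircSm.circLip (ha : CircSm a) : CircLip a := by
  exact circLip_iff.2 (circSm_iff.1 ha).cLip

theorem HolSm.circSm (ha : HolSm a) : CircSm a := by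
  exact ha.toB14.smooth

theorem CircLip.continuousOn (ha : CircLip a) : ContinuousOn a uCirc := by
  obtain ⟨C, hC⟩ := ha
  refine (LipschitzOnWith.of_dist_le_mul (K := ⟨|C|, abs_nonneg C⟩) fun x hx y hy => ?_).continuousOn
  rw [dist_eq_norm, dist_eq_norm]
  exact (hC x hx y hy).trans (mul_le_mul_of_nonneg_right (le_abs_self C) (norm_nonneg _))

theorem CircLip.congr (ha : CircLip a) (h : Set.EqOn a b uCirc) : CircLip b := by
  obtain ⟨C, hC⟩ := ha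
  exact ⟨C, fun ζ hζ ξ hξ => by rw [← h hζ, ← h hξ]; exact hC ζ hζ ξ hξ⟩

theorem CircSm.congr (ha : CircSm a) (h : Set.EqOn a b uCirc) : CircSm b := by
  have e : (fun θ : ℝ => b (circleMap 0 1 θ)) = fun θ : ℝ => a (circleMap 0 1 θ) :=
    funext fun θ => (h (circleMap_mem_uCirc θ)).symm
  unfold CircSm
  rw [e]
  exact ha

theorem cA_congr {E : Type} [NormedAddCommGroup E] [NormedSpace ℝ E] {F G : ℂ → E}
    (h : Set.EqOn F G uCirc) : cA F = cA G := by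
  rw [cA_eq_pavg, cA_eq_pavg]
  congr 1
  funext θ
  exact h (circleMap_mem_uCirc θ)

theorem fco_congr (h : Set.EqOn a b uCirc) (k : ℤ) : fco a k = fco b k := by
  unfold fco
  refine cA_congr fun ζ hζ => ?_
  simp only [h hζ]

theorem Dsq_congr (h : Set.EqOn a b uCirc) : Dsq a = Dsq b := by
  unfold Dsq
  simp only [fco_congr h]

theorem circLip_const (c : ℂ) : CircLip fun _ => c := by
  exact ⟨0, fun ζ _ ξ _ => by simp⟩

theorem CircLip.add (ha : CircLip a) (hb : CircLip b) : CircLip fun ζ => a ζ + b ζ := by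
  exact circLip_iff.2 ((circLip_iff.1 ha).add (circLip_iff.1 hb))

theorem CircLip.sub (ha : CircLip a) (hb : CircLip b) : CircLip fun ζ => a ζ - b ζ := by
  exact circLip_iff.2 ((circLip_iff.1 ha).sub (circLip_iff.1 hb))

theorem CircLip.neg (ha : CircLip a) : CircLip fun ζ => - a ζ := by
  exact circLip_iff.2 (circLip_iff.1 ha).neg

theorem CircLip.mul (ha : CircLip a) (hb : CircLip b) : CircLip fun ζ => a ζ * b ζ := by
  exact circLip_iff.2 ((circLip_iff.1 ha).mul (circLip_iff.1 hb))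

theorem CircLip.conj (ha : CircLip a) : CircLip fun ζ => (starRingEnd ℂ) (a ζ) := by
  exact circLip_iff.2 (circLip_iff.1 ha).conj

theorem CircLip.sum {J : Type} (s : Finset J) {f : J → ℂ → ℂ} (h : ∀ j ∈ s, CircLip (f j)) :
    CircLip fun ζ => ∑ j ∈ s, f j ζ := by
  exact circLip_iff.2 (B14.CLip.sum s fun j hj => circLip_iff.1 (h j hj))

/-- a function dominated in increments by finitely many Lipschitz functions is Lipschitz. -/
theorem circLip_of_diff {J : Type} [Fintype J] {f : J → ℂ → ℂ} {c : J → ℝ}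
    (hf : ∀ j, CircLip (f j))
    (h : ∀ ζ ∈ uCirc, ∀ ξ ∈ uCirc, ‖a ζ - a ξ‖ ^ 2 ≤ ∑ j, c j * ‖f j ζ - f j ξ‖ ^ 2) :
    CircLip a := by
  choose C hC using hf
  refine ⟨Real.sqrt (∑ j, |c j| * C j ^ 2), fun ζ hζ ξ hξ => ?_⟩
  have h1 : ‖a ζ - a ξ‖ ^ 2 ≤ (∑ j, |c j| * C j ^ 2) * ‖ζ - ξ‖ ^ 2 := by
    refine (h ζ hζ ξ hξ).trans ?_
    rw [Finset.sum_mul]
    refine Finset.sum_le_sum fun j _ => ?_
    have h2 : ‖f j ζ - f j ξ‖ ^ 2 ≤ (C j * ‖ζ - ξ‖) ^ 2 :=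
      pow_le_pow_left₀ (norm_nonneg _) (hC j ζ hζ ξ hξ) 2
    calc c j * ‖f j ζ - f j ξ‖ ^ 2 ≤ |c j| * ‖f j ζ - f j ξ‖ ^ 2 :=
          mul_le_mul_of_nonneg_right (le_abs_self _) (sq_nonneg _)
      _ ≤ |c j| * (C j * ‖ζ - ξ‖) ^ 2 := mul_le_mul_of_nonneg_left h2 (abs_nonneg _)
      _ = |c j| * C j ^ 2 * ‖ζ - ξ‖ ^ 2 := by ring
  have h3 := Real.sqrt_le_sqrt h1
  rw [Real.sqrt_sq (norm_nonneg _), Real.sqrt_mul' _ (sq_nonneg _),
    Real.sqrt_sq (norm_nonneg _)] at h3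
  exact h3

theorem circSm_const (c : ℂ) : CircSm fun _ => c := by
  exact contDiff_const

theorem circSm_id : CircSm fun ζ => ζ := by
  exact contDiff_circleMap 0 1

theorem circSm_zpow (k : ℤ) : CircSm fun ζ => ζ ^ k := by
  have e : (fun θ : ℝ => circleMap 0 1 θ ^ k) = B14.ech k :=
    funext fun θ => (B14.ech_eq_zpow k θ).symm
  unfold CircSm
  rw [e]
  exact B14.contDiff_ech k

theorem CircSm.add (ha : CircSm a) (hb : CircSm b) : CircSm fun ζ => a ζ + b ζ := by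
  exact ContDiff.add ha hb

theorem CircSm.sub (ha : CircSm a) (hb : CircSm b) : CircSm fun ζ => a ζ - b ζ := by
  exact ContDiff.sub ha hb

theorem CircSm.neg (ha : CircSm a) : CircSm fun ζ => - a ζ := by
  exact ContDiff.neg ha

theorem CircSm.mul (ha : CircSm a) (hb : CircSm b) : CircSm fun ζ => a ζ * b ζ := by
  exact ContDiff.mul ha hb

theorem CircSm.conj (ha : CircSm a) : CircSm fun ζ => (starRingEnd ℂ) (a ζ) := by
  exact Complex.conjCLE.contDiff.comp ha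

theorem CircSm.sum {J : Type} (s : Finset J) {f : J → ℂ → ℂ} (h : ∀ j ∈ s, CircSm (f j)) :
    CircSm fun ζ => ∑ j ∈ s, f j ζ := by
  exact ContDiff.sum fun j hj => h j hj

theorem CircSm.inv (ha : CircSm a) (h0 : ∀ ζ ∈ uCirc, a ζ ≠ 0) : CircSm fun ζ => (a ζ)⁻¹ := by
  exact ContDiff.inv ha fun θ => h0 _ (circleMap_mem_uCirc θ)

theorem CircSm.cexp (ha : CircSm a) : CircSm fun ζ => Complex.exp (a ζ) := by
  exact ContDiff.cexp ha

theorem CircSm.re (ha : CircSm a) : CircSm fun ζ => ((a ζ).re : ℂ) := by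
  exact Complex.ofRealCLM.contDiff.comp (Complex.reCLM.contDiff.comp ha)

theorem CircSm.im (ha : CircSm a) : CircSm fun ζ => ((a ζ).im : ℂ) := by
  exact Complex.ofRealCLM.contDiff.comp (Complex.imCLM.contDiff.comp ha)

/-- composition of a real smooth circle function with a function smooth on an open set containing
its range. -/
theorem CircSm.comp_real {u : ℂ → ℝ} (hu : CircSm fun ζ => (u ζ : ℂ)) {χ : ℝ → ℝ} {O : Set ℝ}
    (hO : IsOpen O) (hχ : ContDiffOn ℝ ∞ χ O) (hr : ∀ ζ ∈ uCirc, u ζ ∈ O) :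
    CircSm fun ζ => (χ (u ζ) : ℂ) := by
  exact circSm_iff.2 (B14.CSm.comp_real (u := B14.bd u) (circSm_iff.1 hu) hO hχ
    fun θ => hr _ (circleMap_mem_uCirc θ))

theorem CircSm.dth (ha : CircSm a) : CircSm (dth a) := by
  have e : (fun θ : ℝ => Claimed.Agent.R316.dth a (circleMap 0 1 θ)) = deriv (B14.bd a) :=
    funext fun θ => dth_circleMap a θ
  unfold CircSm
  rw [e]
  exact (circSm_iff.1 ha).derivative.smooth

theorem IsTrigPoly.circSm {P : ℕ} (ha : IsTrigPoly P a) : CircSm a := by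
  obtain ⟨c, hc⟩ := ha
  have h1 : CircSm fun ζ => ∑ k ∈ Finset.Icc (-(P : ℤ)) P, c k * ζ ^ k :=
    CircSm.sum _ fun k _ => (circSm_const (c k)).mul (circSm_zpow k)
  exact h1.congr fun ζ hζ => (hc ζ hζ).symm

theorem holSm_const (c : ℂ) : HolSm fun _ => c := by
  exact holSm_of_b14 (B14.HolSm.const c)

theorem holSm_id : HolSm fun ζ => ζ := by
  exact holSm_of_b14 B14.holSm_id

theorem HolSm.add (ha : HolSm a) (hb : HolSm b) : HolSm fun ζ => a ζ + b ζ := by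
  exact holSm_of_b14 (ha.toB14.add hb.toB14)

theorem HolSm.sub (ha : HolSm a) (hb : HolSm b) : HolSm fun ζ => a ζ - b ζ := by
  exact holSm_of_b14 (ha.toB14.sub hb.toB14)

theorem HolSm.neg (ha : HolSm a) : HolSm fun ζ => - a ζ := by
  exact holSm_of_b14 ha.toB14.neg

theorem HolSm.mul (ha : HolSm a) (hb : HolSm b) : HolSm fun ζ => a ζ * b ζ := by
  exact holSm_of_b14 (ha.toB14.mul hb.toB14)

theorem HolSm.pow (ha : HolSm a) (k : ℕ) : HolSm fun ζ => a ζ ^ k := by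
  exact holSm_of_b14 (ha.toB14.pow k)

theorem HolSm.sum {J : Type} (s : Finset J) {f : J → ℂ → ℂ} (h : ∀ j ∈ s, HolSm (f j)) :
    HolSm fun ζ => ∑ j ∈ s, f j ζ := by
  exact holSm_of_b14 (B14.HolSm.sum s fun j hj => (h j hj).toB14)

theorem HolSm.inv (ha : HolSm a) (h0 : ∀ ζ ∈ uDiscC, a ζ ≠ 0) : HolSm fun ζ => (a ζ)⁻¹ := by
  exact holSm_of_b14 (ha.toB14.inv h0)

theorem HolSm.cexp (ha : HolSm a) : HolSm fun ζ => Complex.exp (a ζ) := by
  exact holSm_of_b14 ha.toB14.cexp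

/-- determinant of a matrix of `HolSm` functions. -/
theorem HolSm.det {ι : Type} [Fintype ι] [DecidableEq ι] {A : ℂ → Matrix ι ι ℂ}
    (hA : ∀ i j, HolSm fun ζ => A ζ i j) : HolSm fun ζ => (A ζ).det := by
  exact holSm_of_b14 (B14.holSm_det fun i j => (hA i j).toB14)

/-- maximum principle. -/
theorem HolSm.norm_le (ha : HolSm a) {C : ℝ} (h : ∀ ζ ∈ uCirc, ‖a ζ‖ ≤ C) :
    ∀ ζ ∈ uDiscC, ‖a ζ‖ ≤ C := by
  exact fun ζ hζ => ha.toB14.norm_le (fun θ => h _ (circleMap_mem_uCirc θ)) hζ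

/-- maximum principle for columns (Euclidean norm). -/
theorem HolSm.sum_normSq_le {ι : Type} [Fintype ι] {l : ℂ → ι → ℂ} (hl : ∀ i, HolSm fun ζ => l ζ i)
    {C : ℝ} (h : ∀ ζ ∈ uCirc, ∑ i, ‖l ζ i‖ ^ 2 ≤ C) : ∀ ζ ∈ uDiscC, ∑ i, ‖l ζ i‖ ^ 2 ≤ C := by
  exact fun ζ hζ => B14.nsq_le_of_bd (Z := l) (fun i => (hl i).toB14)
    (fun θ => h _ (circleMap_mem_uCirc θ)) hζ

/-- minimum principle. -/
theorem HolSm.le_norm (ha : HolSm a) (h0 : ∀ ζ ∈ uDiscC, a ζ ≠ 0) {c : ℝ}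
    (h : ∀ ζ ∈ uCirc, c ≤ ‖a ζ‖) : ∀ ζ ∈ uDiscC, c ≤ ‖a ζ‖ := by
  intro ζ hζ
  rcases le_or_gt c 0 with hc | hc
  · exact hc.trans (norm_nonneg _)
  have h1 := (ha.inv h0).norm_le (C := c⁻¹) (fun ξ hξ => by
    rw [norm_inv]
    exact inv_anti₀ hc (h ξ hξ)) ζ hζ
  rw [norm_inv] at h1
  exact (inv_le_inv₀ (norm_pos_iff.2 (h0 ζ hζ)) hc).1 h1

/-- identity principle from the boundary. -/
theorem HolSm.eq_of_eqOn_circle (ha : HolSm a) (hb : HolSm b) (h : Set.EqOn a b uCirc) :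
    Set.EqOn a b uDiscC := by
  exact ha.toB14.eqOn_of_bd_eq hb.toB14 fun θ => h (circleMap_mem_uCirc θ)

/-- the complex derivative of a `HolSm` function extends to a `HolSm` function; on the circle it is
the angular derivative. -/
theorem HolSm.exists_deriv (ha : HolSm a) :
    ∃ a₁ : ℂ → ℂ, HolSm a₁ ∧ (∀ ζ ∈ uDisc, deriv a ζ = a₁ ζ) ∧
      ∀ ζ ∈ uCirc, dth a ζ = Complex.I * ζ * a₁ ζ := by
  refine ⟨B14.dsm a, holSm_of_b14 ha.toB14.holSm_dsm, fun ζ hζ => ha.toB14.deriv_eq hζ,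
    forall_uCirc_iff.2 fun θ => ?_⟩
  rw [dth_circleMap, ha.toB14.deriv_bd]
  rfl

/-- dilations: `a(r ζ)`, `r ≤ 1`. -/
theorem HolSm.dilate (ha : HolSm a) {r : ℝ} (h0 : 0 ≤ r) (h1 : r ≤ 1) :
    HolSm fun ζ => a (r * ζ) := by
  have hn : ∀ ζ : ℂ, ‖(r : ℂ) * ζ‖ ≤ ‖ζ‖ := fun ζ => by
    rw [norm_mul, Complex.norm_real, Real.norm_eq_abs, abs_of_nonneg h0]
    exact mul_le_of_le_one_left (norm_nonneg _) h1
  refine ⟨?_, ?_⟩
  · refine ha.1.comp ((differentiable_const _).mul differentiable_id).differentiableOn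
      fun ζ hζ => ?_
    rw [mem_ball_zero_iff] at hζ ⊢
    exact lt_of_le_of_lt (hn ζ) hζ
  · refine ha.2.comp (contDiff_const.mul contDiff_id).contDiffOn fun ζ hζ => ?_
    rw [mem_closedBall_zero_iff] at hζ ⊢
    exact (hn ζ).trans hζ

end Basic

section Fourier

variable {a b : ℂ → ℂ}

theorem fco_add (ha : CircLip a) (hb : CircLip b) (k : ℤ) :
    fco (fun ζ => a ζ + b ζ) k = fco a k + fco b k := by
  simp only [fco_eq_fc]
  exact B14.fc_add (circLip_iff.1 ha).continuous (circLip_iff.1 hb).continuous k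

theorem fco_const_mul (c : ℂ) (a : ℂ → ℂ) (k : ℤ) : fco (fun ζ => c * a ζ) k = c * fco a k := by
  simp only [fco_eq_fc]
  exact B14.fc_const_mul c (B14.bd a) k

theorem fco_conj (a : ℂ → ℂ) (k : ℤ) :
    fco (fun ζ => (starRingEnd ℂ) (a ζ)) k = (starRingEnd ℂ) (fco a (-k)) := by
  simp only [fco_eq_fc]
  exact B14.fc_conj (B14.bd a) k

theorem fco_zpow_mul (a : ℂ → ℂ) (m k : ℤ) : fco (fun ζ => ζ ^ m * a ζ) k = fco a (k - m) := by
  simp only [fco_eq_fc]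
  rw [← B14.fc_ech_mul m (B14.bd a) k]
  congr 1
  funext θ
  simp only [B14.bd, B14.ech_eq_zpow]

theorem fco_zpow (m k : ℤ) : fco (fun ζ => ζ ^ m) k = if k = m then 1 else 0 := by
  rw [fco_eq_fc, ← B14.fc_ech m k]
  congr 1
  funext θ
  simp only [B14.bd, B14.ech_eq_zpow]

theorem norm_fco_le {C : ℝ} (ha : ContinuousOn a uCirc) (h : ∀ ζ ∈ uCirc, ‖a ζ‖ ≤ C) (k : ℤ) :
    ‖fco a k‖ ≤ C := by
  rw [fco_eq_fc]
  exact B14.norm_fc_le (fun θ => h _ (circleMap_mem_uCirc θ)) k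

theorem fco_dth (ha : CircSm a) (k : ℤ) : fco (dth a) k = Complex.I * k * fco a k := by
  have e : B14.bd (dth a) = deriv (B14.bd a) := funext fun θ => dth_circleMap a θ
  rw [fco_eq_fc, fco_eq_fc, e, B14.fc_deriv (B14.bd_periodic a)
    ((circSm_iff.1 ha).smooth.of_le (by norm_cast))]
  ring

/-- rapid decay of the Fourier coefficients of a smooth function. -/
theorem CircSm.fco_decay (ha : CircSm a) (N : ℕ) :
    ∃ C : ℝ, ∀ k : ℤ, ‖fco a k‖ * (1 + |(k : ℝ)|) ^ N ≤ C := by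
  obtain ⟨C₀, hC₀⟩ := (circSm_iff.1 ha).rapid 0
  obtain ⟨C₁, hC₁⟩ := (circSm_iff.1 ha).rapid N
  refine ⟨2 ^ N * (C₀ + C₁), fun k => ?_⟩
  rw [fco_eq_fc]
  have h0 := hC₀ k
  have h1 := hC₁ k
  rw [pow_zero, one_mul] at h0
  have hx : (0 : ℝ) ≤ |(k : ℝ)| := abs_nonneg _
  have h2 : (1 + |(k : ℝ)|) ^ N ≤ 2 ^ N * (1 + |(k : ℝ)| ^ N) := by
    rcases le_total |(k : ℝ)| 1 with hk | hk
    · calc (1 + |(k : ℝ)|) ^ N ≤ 2 ^ N := pow_le_pow_left₀ (by positivity) (by linarith) N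
        _ ≤ 2 ^ N * (1 + |(k : ℝ)| ^ N) := by
          have : (0 : ℝ) ≤ |(k : ℝ)| ^ N := by positivity
          nlinarith [pow_pos (two_pos : (0 : ℝ) < 2) N]
    · calc (1 + |(k : ℝ)|) ^ N ≤ (2 * |(k : ℝ)|) ^ N :=
          pow_le_pow_left₀ (by positivity) (by linarith) N
        _ = 2 ^ N * |(k : ℝ)| ^ N := mul_pow _ _ _
        _ ≤ 2 ^ N * (1 + |(k : ℝ)| ^ N) := by
          nlinarith [pow_pos (two_pos : (0 : ℝ) < 2) N]
  calc ‖B14.fc (B14.bd a) k‖ * (1 + |(k : ℝ)|) ^ N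
      ≤ ‖B14.fc (B14.bd a) k‖ * (2 ^ N * (1 + |(k : ℝ)| ^ N)) :=
        mul_le_mul_of_nonneg_left h2 (norm_nonneg _)
    _ = 2 ^ N * (‖B14.fc (B14.bd a) k‖ + |(k : ℝ)| ^ N * ‖B14.fc (B14.bd a) k‖) := by ring
    _ ≤ 2 ^ N * (C₀ + C₁) := by gcongr

/-- Fourier inversion for smooth functions. -/
theorem CircSm.hasSum_fco (ha : CircSm a) {ζ : ℂ} (hζ : ζ ∈ uCirc) :
    HasSum (fun k : ℤ => fco a k * ζ ^ k) (a ζ) := by
  obtain ⟨θ, rfl⟩ := mem_uCirc_iff.1 hζ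
  have h := (circSm_iff.1 ha).hasSum θ
  simp only [B14.ech_eq_zpow, ← fco_eq_fc] at h
  exact h

/-- a rapidly decaying sequence is the Fourier sequence of a smooth function. -/
theorem exists_circSm_of_decay (c : ℤ → ℂ)
    (hc : ∀ N : ℕ, ∃ C : ℝ, ∀ k : ℤ, ‖c k‖ * (1 + |(k : ℝ)|) ^ N ≤ C) :
    ∃ a : ℂ → ℂ, CircSm a ∧ ∀ k, fco a k = c k := by
  have hr : B14.RapidZ c := by
    intro N
    obtain ⟨C, hC⟩ := hc N
    refine ⟨C, fun k => le_trans ?_ (hC k)⟩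
    rw [mul_comm]
    refine mul_le_mul_of_nonneg_left ?_ (norm_nonneg _)
    exact pow_le_pow_left₀ (abs_nonneg _) (by linarith) N
  have e : B14.bd (ofAngle (B14.synth c)) = B14.synth c := bd_ofAngle (B14.synth_periodic c)
  refine ⟨ofAngle (B14.synth c), circSm_iff.2 (by rw [e]; exact hr.cSm_synth), fun k => ?_⟩
  rw [fco_eq_fc, e, hr.fc_synth_eq]

/-- Parseval. -/
theorem hasSum_normSq_fco (ha : ContinuousOn a uCirc) :
    HasSum (fun k : ℤ => ‖fco a k‖ ^ 2) (cA fun ζ => ‖a ζ‖ ^ 2) := by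
  have hc : Continuous (B14.bd a) :=
    ha.comp_continuous (continuous_circleMap 0 1) circleMap_mem_uCirc
  have h := B14.hasSum_sq_fc hc
  simp only [← fco_eq_fc] at h
  exact h

/-- Parseval, polarised. -/
theorem hasSum_fco_mul_conj (ha : ContinuousOn a uCirc) (hb : ContinuousOn b uCirc) :
    HasSum (fun k : ℤ => fco a k * (starRingEnd ℂ) (fco b k))
      (cA fun ζ => a ζ * (starRingEnd ℂ) (b ζ)) := by
  have hca : Continuous (B14.bd a) :=
    ha.comp_continuous (continuous_circleMap 0 1) circleMap_mem_uCirc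
  have hcb : Continuous (B14.bd b) :=
    hb.comp_continuous (continuous_circleMap 0 1) circleMap_mem_uCirc
  have h := B14.hasSum_fc_mul_conj hca hcb
  simp only [← fco_eq_fc] at h
  exact h

/-- uniqueness of Fourier coefficients. -/
theorem eqOn_of_fco_eq (ha : ContinuousOn a uCirc) (hb : ContinuousOn b uCirc)
    (h : ∀ k, fco a k = fco b k) : Set.EqOn a b uCirc := by
  have hca : Continuous (B14.bd a) :=
    ha.comp_continuous (continuous_circleMap 0 1) circleMap_mem_uCirc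
  have hcb : Continuous (B14.bd b) :=
    hb.comp_continuous (continuous_circleMap 0 1) circleMap_mem_uCirc
  have e := B14.eq_of_fc_eq hca (B14.bd_periodic a) hcb (B14.bd_periodic b)
    fun k => by rw [← fco_eq_fc, ← fco_eq_fc]; exact h k
  exact forall_uCirc_iff.2 fun θ => congrFun e θ

theorem HolSm.fco_neg (ha : HolSm a) {k : ℤ} (hk : k < 0) : fco a k = 0 := by
  rw [fco_eq_fc]
  exact ha.toB14.fc_neg hk

/-- mean value property. -/
theorem HolSm.fco_zero (ha : HolSm a) : fco a 0 = a 0 := by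
  rw [fco_eq_fc, B14.fc_zero_index]
  exact ha.toB14.center.symm

theorem HolSm.cA_eq (ha : HolSm a) : cA a = a 0 := by
  exact ha.toB14.center.symm

/-- power series in the closed disc. -/
theorem HolSm.hasSum_fco (ha : HolSm a) {ζ : ℂ} (hζ : ζ ∈ uDiscC) :
    HasSum (fun k : ℕ => fco a k * ζ ^ k) (a ζ) := by
  have h := ha.toB14.hasSum hζ
  simp only [← fco_eq_fc] at h
  exact h

theorem HolSm.normSq_zero_le (ha : HolSm a) : ‖a 0‖ ^ 2 ≤ cA fun ζ => ‖a ζ‖ ^ 2 := by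
  have h := hasSum_normSq_fco (ha.2.continuousOn.mono Metric.sphere_subset_closedBall)
  have h1 := le_hasSum h 0 fun j _ => sq_nonneg _
  rwa [ha.fco_zero] at h1

end Fourier

/-! ## `S5-C2`: the double integral formula for `D` and the boundary calculus (5.12) -/

section Double

variable {a b : ℂ → ℂ}

theorem Dsq_nonneg (a : ℂ → ℂ) : 0 ≤ Dsq a :=
  tsum_nonneg fun _ => by positivity

theorem DsqV_nonneg {ι : Type} [Fintype ι] (a : ℂ → ι → ℂ) : 0 ≤ DsqV a :=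
  Finset.sum_nonneg fun _ _ => Dsq_nonneg _

theorem DsqM_nonneg {ι κ : Type} [Fintype ι] [Fintype κ] (a : ℂ → Matrix ι κ ℂ) : 0 ≤ DsqM a :=
  Finset.sum_nonneg fun _ _ => Finset.sum_nonneg fun _ _ => Dsq_nonneg _

theorem DsqR_nonneg (u : ℂ → ℝ) : 0 ≤ DsqR u := Dsq_nonneg _

theorem CircLip.summable_Dsq (ha : CircLip a) :
    Summable fun k : ℤ => |(k : ℝ)| * ‖fco a k‖ ^ 2 := by
  simp only [fco_eq_fc]
  exact (circLip_iff.1 ha).summable_hsq

/-- `(1/2π) ∫ |e^{ikθ} - 1|² / |e^{iθ} - 1|² dθ = |k|`. -/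
theorem cA_fejer_kernel (k : ℤ) :
    cA (fun ξ : ℂ => ‖ξ ^ k - 1‖ ^ 2 / ‖ξ - 1‖ ^ 2) = |(k : ℝ)| := by
  rw [cA_eq_pavg, ← B14.pavg_ech_sub_one_div_dqK k]
  congr 1
  funext θ
  simp only [B14.bd, B14.dqK, B14.ech_eq_zpow, zpow_one]

/-- eq. (4.5): the difference quotient formula (Parseval in `ζ`, `cA_fejer_kernel`, Tonelli). -/
theorem CircLip.Dsq_eq_double (ha : CircLip a) :
    Dsq a = cA fun ξ : ℂ => cA fun ζ : ℂ => ‖a (ξ * ζ) - a ζ‖ ^ 2 / ‖ξ - 1‖ ^ 2 := by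
  rw [Dsq_eq_hsq, B14.hsq_eq_dqsq (circLip_iff.1 ha), cA_eq_pavg]
  unfold B14.dqsq
  congr 1
  funext θ
  show _ = cA fun ζ : ℂ => ‖a (circleMap 0 1 θ * ζ) - a ζ‖ ^ 2 / ‖circleMap 0 1 θ - 1‖ ^ 2
  rw [cA_eq_pavg, ← B14.pavg_div_const_real]
  congr 1
  funext t
  have e : circleMap 0 1 θ * circleMap 0 1 t = circleMap 0 1 (t + θ) := by
    simp only [circleMap, zero_add, Complex.ofReal_one, one_mul, ← Complex.exp_add]
    congr 1
    push_cast
    ring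
  simp only [B14.bd, B14.dqK, B14.ech_one, e]

/-- COMPARISON PRINCIPLE (source of all rules (5.12)): domination of the increments gives domination
of `D²`. -/
theorem Dsq_sum_le_of_diff {I J : Type} [Fintype I] [Fintype J] {f : I → ℂ → ℂ} {g : J → ℂ → ℂ}
    {c : J → ℝ} (hg : ∀ j, CircLip (g j)) (hc : ∀ j, 0 ≤ c j)
    (h : ∀ ζ ∈ uCirc, ∀ ξ ∈ uCirc,
      ∑ i, ‖f i ζ - f i ξ‖ ^ 2 ≤ ∑ j, c j * ‖g j ζ - g j ξ‖ ^ 2) :
    ∑ i, Dsq (f i) ≤ ∑ j, c j * Dsq (g j) := by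
  have hfl : ∀ i, CircLip (f i) := fun i => circLip_of_diff hg fun ζ hζ ξ hξ =>
    (Finset.single_le_sum (f := fun i => ‖f i ζ - f i ξ‖ ^ 2) (fun _ _ => sq_nonneg _)
      (Finset.mem_univ i)).trans (h ζ hζ ξ hξ)
  have hF : ∀ i ∈ (Finset.univ : Finset I),
      B14.DQAdm fun s t => ‖B14.bd (f i) s - B14.bd (f i) t‖ :=
    fun i _ => (circLip_iff.1 (hfl i)).dqAdm
  have hG : ∀ j ∈ (Finset.univ : Finset J),
      B14.DQAdm fun s t => Real.sqrt (c j) * ‖B14.bd (g j) s - B14.bd (g j) t‖ :=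
    fun j _ => (circLip_iff.1 (hg j)).dqAdm.const_mul (Real.sqrt_nonneg _)
  have e1 : ∑ i, Dsq (f i) = B14.dqsq fun s t =>
      Real.sqrt (∑ i, ‖B14.bd (f i) s - B14.bd (f i) t‖ ^ 2) := by
    rw [B14.dqsq_sqrt_sum_sq Finset.univ hF]
    exact Finset.sum_congr rfl fun i _ => by
      rw [Dsq_eq_hsq, B14.hsq_eq_dqsq (circLip_iff.1 (hfl i))]
  have e2 : ∑ j, c j * Dsq (g j) = B14.dqsq fun s t =>
      Real.sqrt (∑ j, (Real.sqrt (c j) * ‖B14.bd (g j) s - B14.bd (g j) t‖) ^ 2) := by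
    rw [B14.dqsq_sqrt_sum_sq Finset.univ hG]
    refine Finset.sum_congr rfl fun j _ => ?_
    rw [Dsq_eq_hsq, B14.hsq_eq_dqsq (circLip_iff.1 (hg j)), ← B14.dq_sq, ← B14.dq_sq,
      B14.dq_const_mul (Real.sqrt_nonneg _), mul_pow, Real.sq_sqrt (hc j)]
  rw [e1, e2]
  refine B14.dqsq_mono (B14.DQAdm.sqrt_sum_sq _ hF) (B14.DQAdm.sqrt_sum_sq _ hG) fun s t => ?_
  refine Real.sqrt_le_sqrt ?_
  refine (h _ (circleMap_mem_uCirc s) _ (circleMap_mem_uCirc t)).trans (le_of_eq ?_)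
  refine Finset.sum_congr rfl fun j _ => ?_
  rw [mul_pow, Real.sq_sqrt (hc j)]
  rfl

theorem Dsq_le_of_diff {J : Type} [Fintype J] {g : J → ℂ → ℂ}
    {c : J → ℝ} (hg : ∀ j, CircLip (g j)) (hc : ∀ j, 0 ≤ c j)
    (h : ∀ ζ ∈ uCirc, ∀ ξ ∈ uCirc, ‖a ζ - a ξ‖ ^ 2 ≤ ∑ j, c j * ‖g j ζ - g j ξ‖ ^ 2) :
    Dsq a ≤ ∑ j, c j * Dsq (g j) := by
  have h1 := Dsq_sum_le_of_diff (I := Unit) (f := fun _ => a) hg hc (by simpa using h)
  simpa using h1

/-- Fubini on a box for bounded measurable functions. -/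
theorem s5c_swap {f : ℝ → ℝ → ℝ} (hf : Measurable (Function.uncurry f)) {a b c d M : ℝ}
    (hab : a ≤ b) (hcd : c ≤ d)
    (hM : ∀ x ∈ Set.Ioc a b, ∀ y ∈ Set.Ioc c d, |f x y| ≤ M) :
    ∫ x in a..b, ∫ y in c..d, f x y = ∫ y in c..d, ∫ x in a..b, f x y := by
  simp only [intervalIntegral.integral_of_le hab, intervalIntegral.integral_of_le hcd]
  refine integral_integral_swap ?_
  rw [Measure.prod_restrict]
  refine Measure.integrableOn_of_bounded (M := M) ?_ hf.aestronglyMeasurable ?_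
  · rw [Measure.prod_prod]
    exact (ENNReal.mul_lt_top measure_Ioc_lt_top measure_Ioc_lt_top).ne
  · refine ae_restrict_of_forall_mem (measurableSet_Ioc.prod measurableSet_Ioc) fun p hp => ?_
    exact hM p.1 hp.1 p.2 hp.2

theorem s5c_hsq_le_integral {A : ℝ → ℂ} {G : ℝ → ℝ → ℂ} {κ : ℝ → ℝ} {α β C : ℝ} (hαβ : α ≤ β)
    (hC : 0 ≤ C) (hA : B14.CLip A) (hG : ∀ u, B14.CLip (G u))
    (hGc : Continuous fun p : ℝ × ℝ => G p.1 p.2)
    (hκ : Continuous κ) (hκ0 : ∀ u, 0 ≤ κ u)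
    (hb : ∀ u θ t, ‖G u (t + θ) - G u t‖ ^ 2 ≤ C * B14.dqK θ)
    (h : ∀ s t, ‖A s - A t‖ ^ 2 ≤ ∫ u in α..β, κ u * ‖G u s - G u t‖ ^ 2) :
    B14.hsq A ≤ ∫ u in α..β, κ u * B14.hsq (G u) := by
  have h2π : (0 : ℝ) ≤ 2 * Real.pi := B14.two_pi_pos'.le
  obtain ⟨K, hK⟩ := isCompact_Icc.exists_bound_of_continuousOn (s := Set.Icc α β) hκ.continuousOn
  have hK' : ∀ u ∈ Set.Ioc α β, κ u ≤ K := fun u hu =>
    (le_abs_self _).trans (hK u ⟨hu.1.le, hu.2⟩)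
  have hK0 : 0 ≤ K := (norm_nonneg _).trans (hK α ⟨le_rfl, hαβ⟩)
  -- the integrand
  have hWc : Continuous fun q : (ℝ × ℝ) × ℝ => ‖G q.1.1 (q.2 + q.1.2) - G q.1.1 q.2‖ ^ 2 := by
    have h1 : Continuous fun q : (ℝ × ℝ) × ℝ => G q.1.1 (q.2 + q.1.2) :=
      hGc.comp ((continuous_fst.comp continuous_fst).prodMk
        (continuous_snd.add (continuous_snd.comp continuous_fst)))
    have h2 : Continuous fun q : (ℝ × ℝ) × ℝ => G q.1.1 q.2 :=
      hGc.comp ((continuous_fst.comp continuous_fst).prodMk continuous_snd)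
    exact (h1.sub h2).norm.pow 2
  set H : ℝ → ℝ → ℝ := fun u θ => B14.pavg fun t => ‖G u (t + θ) - G u t‖ ^ 2 with hH
  have hHc : Continuous fun p : ℝ × ℝ => H p.1 p.2 := by
    have := (intervalIntegral.continuous_parametric_intervalIntegral_of_continuous' (μ := volume)
      (f := fun (p : ℝ × ℝ) (t : ℝ) => ‖G p.1 (t + p.2) - G p.1 t‖ ^ 2) hWc 0
      (2 * Real.pi)).const_smul ((2 * Real.pi)⁻¹ : ℝ)
    exact this
  have hct : ∀ u θ, Continuous fun t => ‖G u (t + θ) - G u t‖ ^ 2 := fun u θ =>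
    hWc.comp (continuous_const.prodMk continuous_id : Continuous fun t : ℝ => (((u, θ) : ℝ × ℝ), t))
  have hH0 : ∀ u θ, 0 ≤ H u θ := fun u θ => B14.pavg_nonneg fun t => sq_nonneg _
  have hHb : ∀ u θ, H u θ ≤ C * B14.dqK θ := fun u θ =>
    B14.pavg_le_of_le (hct u θ) fun t => hb u θ t
  -- step (a)
  have hstepa : ∀ θ, B14.pavg (fun t => ‖A (t + θ) - A t‖ ^ 2) ≤ ∫ u in α..β, κ u * H u θ := by
    intro θ
    have hc1 : Continuous fun t => ‖A (t + θ) - A t‖ ^ 2 :=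
      ((hA.continuous.comp (continuous_id.add continuous_const)).sub hA.continuous).norm.pow 2
    have hc3 : Continuous fun q : ℝ × ℝ => κ q.2 * ‖G q.2 (q.1 + θ) - G q.2 q.1‖ ^ 2 :=
      (hκ.comp continuous_snd).mul (hWc.comp
        ((continuous_snd.prodMk continuous_const).prodMk continuous_fst))
    have hc2 : Continuous fun t => ∫ u in α..β, κ u * ‖G u (t + θ) - G u t‖ ^ 2 :=
      intervalIntegral.continuous_parametric_intervalIntegral_of_continuous' (μ := volume)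
        (f := fun (t u : ℝ) => κ u * ‖G u (t + θ) - G u t‖ ^ 2) hc3 α β
    refine (B14.pavg_mono hc1 hc2 fun t => h (t + θ) t).trans (le_of_eq ?_)
    unfold B14.pavg
    rw [s5c_swap (f := fun (t u : ℝ) => κ u * ‖G u (t + θ) - G u t‖ ^ 2) hc3.measurable h2π hαβ
      (M := K * (C * B14.dqK θ)) (fun t _ u hu => by
        rw [abs_of_nonneg (mul_nonneg (hκ0 u) (sq_nonneg _))]
        exact mul_le_mul (hK' u hu) (hb u θ t) (sq_nonneg _) hK0),
      smul_eq_mul, ← intervalIntegral.integral_const_mul]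
    refine intervalIntegral.integral_congr fun u _ => ?_
    simp only [hH, B14.pavg, smul_eq_mul]
    rw [intervalIntegral.integral_const_mul]
    ring
  -- the majorant in `θ`
  have hφc : Continuous fun θ => ∫ u in α..β, κ u * H u θ :=
    intervalIntegral.continuous_parametric_intervalIntegral_of_continuous' (μ := volume)
      (f := fun (θ u : ℝ) => κ u * H u θ)
      ((hκ.comp continuous_snd).mul (hHc.comp continuous_swap)) α β
  have hφb : ∀ θ ∈ Set.Icc (0 : ℝ) (2 * Real.pi),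
      |∫ u in α..β, κ u * H u θ| ≤ (K * C * |β - α|) * B14.dqK θ := by
    intro θ _
    have := intervalIntegral.norm_integral_le_of_norm_le_const (a := α) (b := β)
      (f := fun u => κ u * H u θ) (C := K * (C * B14.dqK θ)) (fun u hu => by
        rw [Set.uIoc_of_le hαβ] at hu
        rw [Real.norm_eq_abs, abs_of_nonneg (mul_nonneg (hκ0 u) (hH0 u θ))]
        exact mul_le_mul (hK' u hu) (hHb u θ) (hH0 u θ) hK0)
    rw [Real.norm_eq_abs] at this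
    calc _ ≤ K * (C * B14.dqK θ) * |β - α| := this
      _ = _ := by ring
  rw [B14.hsq_eq_dqsq hA]
  unfold B14.dqsq
  refine (B14.pavg_mono' hA.dqAdm.intervalIntegrable (B14.intervalIntegrable_div_dqK hφc hφb)
    fun θ _ => div_le_div_of_nonneg_right (hstepa θ) (B14.dqK_nonneg θ)).trans (le_of_eq ?_)
  -- step (b)
  have hmeas : Measurable (Function.uncurry fun (θ u : ℝ) => κ u * H u θ / B14.dqK θ) :=
    (((hκ.comp continuous_snd).mul (hHc.comp continuous_swap)).measurable).div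
      (B14.continuous_dqK.measurable.comp measurable_fst)
  unfold B14.pavg
  simp only [← intervalIntegral.integral_div]
  rw [s5c_swap (f := fun (θ u : ℝ) => κ u * H u θ / B14.dqK θ) hmeas h2π hαβ
      (M := K * C) (fun θ _ u hu => by
        rw [abs_of_nonneg (div_nonneg (mul_nonneg (hκ0 u) (hH0 u θ)) (B14.dqK_nonneg θ))]
        refine div_le_of_le_mul₀ (B14.dqK_nonneg θ) (mul_nonneg hK0 hC) ?_
        calc κ u * H u θ ≤ K * (C * B14.dqK θ) := mul_le_mul (hK' u hu) (hHb u θ) (hH0 u θ) hK0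
          _ = K * C * B14.dqK θ := by ring),
      smul_eq_mul, ← intervalIntegral.integral_const_mul]
  refine intervalIntegral.integral_congr fun u _ => ?_
  rw [B14.hsq_eq_dqsq (hG u)]
  unfold B14.dqsq
  simp only [B14.pavg, smul_eq_mul, hH, mul_div_assoc]
  rw [intervalIntegral.integral_const_mul]
  ring

/-- comparison principle, integral form (`u` ranges over a compact interval; same proof, Fubini). -/
theorem Dsq_le_of_diff_integral {g : ℝ → ℂ → ℂ} {c : ℝ → ℝ} {α β C : ℝ} (hαβ : α ≤ β)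
    (hg : ∀ u ∈ Set.Icc α β, ∀ ζ ∈ uCirc, ∀ ξ ∈ uCirc, ‖g u ζ - g u ξ‖ ≤ C * ‖ζ - ξ‖)
    (hgc : ContinuousOn (fun p : ℝ × ℂ => g p.1 p.2) (Set.Icc α β ×ˢ uCirc))
    (hc : ContinuousOn c (Set.Icc α β)) (hc0 : ∀ u ∈ Set.Icc α β, 0 ≤ c u)
    (h : ∀ ζ ∈ uCirc, ∀ ξ ∈ uCirc, ‖a ζ - a ξ‖ ^ 2 ≤ ∫ u in α..β, c u * ‖g u ζ - g u ξ‖ ^ 2) :
    Dsq a ≤ ∫ u in α..β, c u * Dsq (g u) := by
  set P : ℝ → ℝ := fun u => (Set.projIcc α β hαβ u : ℝ) with hP
  have hPc : Continuous P := continuous_subtype_val.comp continuous_projIcc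
  have hPm : ∀ u, P u ∈ Set.Icc α β := fun u => (Set.projIcc α β hαβ u).2
  have hPe : ∀ u ∈ Set.Icc α β, P u = u := fun u hu => by
    simp only [hP, Set.projIcc_of_mem hαβ hu]
  have hint : ∀ F : ℝ → ℝ, ∫ u in α..β, F (P u) = ∫ u in α..β, F u := fun F =>
    intervalIntegral.integral_congr fun u hu => by
      rw [Set.uIcc_of_le hαβ] at hu
      simp only [hPe u hu]
  have hGc : Continuous fun p : ℝ × ℝ => g (P p.1) (circleMap 0 1 p.2) :=
    hgc.comp_continuous ((hPc.comp continuous_fst).prodMk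
      ((continuous_circleMap 0 1).comp continuous_snd))
      fun p => ⟨hPm p.1, circleMap_mem_uCirc p.2⟩
  have hκ : Continuous fun u => c (P u) := hc.comp_continuous hPc hPm
  have hGl : ∀ u, B14.CLip fun s => g (P u) (circleMap 0 1 s) := fun u =>
    circLip_iff.1 ⟨C, hg _ (hPm u)⟩
  have hb : ∀ u θ t, ‖g (P u) (circleMap 0 1 (t + θ)) - g (P u) (circleMap 0 1 t)‖ ^ 2 ≤
      C ^ 2 * B14.dqK θ := by
    intro u θ t
    have h1 := hg _ (hPm u) _ (circleMap_mem_uCirc (t + θ)) _ (circleMap_mem_uCirc t)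
    have h2 : ‖circleMap 0 1 (t + θ) - circleMap 0 1 t‖ ^ 2 = B14.dqK θ := by
      have e : circleMap 0 1 (t + θ) - circleMap 0 1 t =
          circleMap 0 1 t * (circleMap 0 1 θ - 1) := by
        simp only [circleMap, zero_add, Complex.ofReal_one, one_mul, mul_sub, mul_one,
          ← Complex.exp_add]
        congr 2
        push_cast
        ring
      have h4 : ‖circleMap 0 1 t‖ = 1 := by simp
      rw [e, norm_mul, h4, one_mul, B14.dqK, B14.ech_one]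
    calc _ ≤ (C * ‖circleMap 0 1 (t + θ) - circleMap 0 1 t‖) ^ 2 :=
          pow_le_pow_left₀ (norm_nonneg _) h1 2
      _ = C ^ 2 * B14.dqK θ := by rw [mul_pow, h2]
  have hmain : ∀ s t, ‖B14.bd a s - B14.bd a t‖ ^ 2 ≤
      ∫ u in α..β, c (P u) * ‖g (P u) (circleMap 0 1 s) - g (P u) (circleMap 0 1 t)‖ ^ 2 := by
    intro s t
    rw [hint fun u => c u * ‖g u (circleMap 0 1 s) - g u (circleMap 0 1 t)‖ ^ 2]
    exact h _ (circleMap_mem_uCirc s) _ (circleMap_mem_uCirc t)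
  obtain ⟨K, hK⟩ := isCompact_Icc.exists_bound_of_continuousOn (s := Set.Icc α β) hc
  have hK0 : 0 ≤ K := (norm_nonneg _).trans (hK α ⟨le_rfl, hαβ⟩)
  have hA : CircLip a := by
    refine circLip_of_diff (J := Unit) (f := fun _ ζ => ζ) (c := fun _ => K * C ^ 2 * |β - α|)
      (fun _ => circSm_id.circLip) fun ζ hζ ξ hξ => ?_
    refine (h ζ hζ ξ hξ).trans ?_
    have h1 := intervalIntegral.norm_integral_le_of_norm_le_const (a := α) (b := β)
      (f := fun u => c u * ‖g u ζ - g u ξ‖ ^ 2) (C := K * (C ^ 2 * ‖ζ - ξ‖ ^ 2)) (fun u hu => by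
        rw [Set.uIoc_of_le hαβ] at hu
        have hu' : u ∈ Set.Icc α β := ⟨hu.1.le, hu.2⟩
        rw [norm_mul, norm_pow, norm_norm]
        refine mul_le_mul (hK u hu') ?_ (sq_nonneg _) hK0
        rw [← mul_pow]
        exact pow_le_pow_left₀ (norm_nonneg _) (hg u hu' ζ hζ ξ hξ) 2)
    refine (le_abs_self _).trans (h1.trans (le_of_eq ?_))
    simp
    ring
  have key := s5c_hsq_le_integral (A := B14.bd a) (G := fun u s => g (P u) (circleMap 0 1 s))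
    (κ := fun u => c (P u)) hαβ (sq_nonneg C) (circLip_iff.1 hA) hGl hGc hκ
    (fun u => hc0 _ (hPm u)) hb hmain
  rw [Dsq_eq_hsq, ← hint fun u => c u * Dsq (g u)]
  simp only [Dsq_eq_hsq]
  exact key

theorem Dsq_const (c : ℂ) : Dsq (fun _ => c) = 0 := by
  rw [Dsq_eq_hsq]
  exact B14.hsq_const c

theorem Dsq_const_mul (c : ℂ) (a : ℂ → ℂ) : Dsq (fun ζ => c * a ζ) = ‖c‖ ^ 2 * Dsq a := by
  rw [Dsq_eq_hsq, Dsq_eq_hsq]
  exact B14.hsq_const_mul c _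

theorem Dsq_neg (a : ℂ → ℂ) : Dsq (fun ζ => - a ζ) = Dsq a := by
  rw [Dsq_eq_hsq, Dsq_eq_hsq]
  exact B14.hsq_neg _

theorem Dsq_conj (a : ℂ → ℂ) : Dsq (fun ζ => (starRingEnd ℂ) (a ζ)) = Dsq a := by
  rw [Dsq_eq_hsq, Dsq_eq_hsq]
  exact B14.hsq_conj _

theorem Dsq_add_const (a : ℂ → ℂ) (c : ℂ) (ha : CircLip a) : Dsq (fun ζ => a ζ + c) = Dsq a := by
  rw [Dsq_eq_hsq, Dsq_eq_hsq]
  exact B14.hsq_add_const (circLip_iff.1 ha).continuous c

/-- triangle inequality. -/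
theorem sqrt_Dsq_add_le (ha : CircLip a) (hb : CircLip b) :
    Real.sqrt (Dsq fun ζ => a ζ + b ζ) ≤ Real.sqrt (Dsq a) + Real.sqrt (Dsq b) := by
  rw [Dsq_eq_hsq, Dsq_eq_hsq, Dsq_eq_hsq]
  exact B14.hD_add_le (circLip_iff.1 ha) (circLip_iff.1 hb)

theorem Dsq_add_le (ha : CircLip a) (hb : CircLip b) :
    Dsq (fun ζ => a ζ + b ζ) ≤ 2 * Dsq a + 2 * Dsq b := by
  have h := sqrt_Dsq_add_le ha hb
  have h1 := Real.sq_sqrt (Dsq_nonneg fun ζ => a ζ + b ζ)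
  have h2 := Real.sq_sqrt (Dsq_nonneg a)
  have h3 := Real.sq_sqrt (Dsq_nonneg b)
  have h4 := Real.sqrt_nonneg (Dsq fun ζ => a ζ + b ζ)
  nlinarith [sq_nonneg (Real.sqrt (Dsq a) - Real.sqrt (Dsq b)), Real.sqrt_nonneg (Dsq a),
    Real.sqrt_nonneg (Dsq b)]

theorem Dsq_sum_le {J : Type} [Fintype J] {f : J → ℂ → ℂ} (hf : ∀ j, CircLip (f j)) :
    Dsq (fun ζ => ∑ j, f j ζ) ≤ Fintype.card J * ∑ j, Dsq (f j) := by
  have h := Dsq_le_of_diff (a := fun ζ => ∑ j, f j ζ) (g := f)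
    (c := fun _ => (Fintype.card J : ℝ)) hf (fun _ => Nat.cast_nonneg _) fun ζ _ ξ _ => by
      rw [← Finset.sum_sub_distrib, ← Finset.mul_sum]
      have h1 : ‖∑ j, (f j ζ - f j ξ)‖ ^ 2 ≤ (∑ j, ‖f j ζ - f j ξ‖) ^ 2 :=
        pow_le_pow_left₀ (norm_nonneg _) (norm_sum_le _ _) 2
      refine h1.trans ?_
      have h2 := sq_sum_le_card_mul_sum_sq (s := (Finset.univ : Finset J))
        (f := fun j => ‖f j ζ - f j ξ‖)
      simpa using h2
  rwa [← Finset.mul_sum] at h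

/-- product rule, first line of (5.12). -/
theorem sqrt_Dsq_mul_le (ha : CircLip a) (hb : CircLip b) {A B : ℝ}
    (hA : ∀ ζ ∈ uCirc, ‖a ζ‖ ≤ A) (hB : ∀ ζ ∈ uCirc, ‖b ζ‖ ≤ B) :
    Real.sqrt (Dsq fun ζ => a ζ * b ζ) ≤ A * Real.sqrt (Dsq b) + B * Real.sqrt (Dsq a) := by
  rw [Dsq_eq_hsq, Dsq_eq_hsq, Dsq_eq_hsq]
  exact B14.hD_mul_le (circLip_iff.1 ha) (circLip_iff.1 hb)
    (fun θ => hA _ (circleMap_mem_uCirc θ)) (fun θ => hB _ (circleMap_mem_uCirc θ))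

theorem Dsq_mul_le (ha : CircLip a) (hb : CircLip b) {A B : ℝ}
    (hA : ∀ ζ ∈ uCirc, ‖a ζ‖ ≤ A) (hB : ∀ ζ ∈ uCirc, ‖b ζ‖ ≤ B) :
    Dsq (fun ζ => a ζ * b ζ) ≤ 2 * A ^ 2 * Dsq b + 2 * B ^ 2 * Dsq a := by
  have h := sqrt_Dsq_mul_le ha hb hA hB
  have h1 := Real.sq_sqrt (Dsq_nonneg fun ζ => a ζ * b ζ)
  have h2 := Real.sq_sqrt (Dsq_nonneg a)
  have h3 := Real.sq_sqrt (Dsq_nonneg b)
  have h4 := Real.sqrt_nonneg (Dsq fun ζ => a ζ * b ζ)
  have h5 : Dsq (fun ζ => a ζ * b ζ) ≤ (A * Real.sqrt (Dsq b) + B * Real.sqrt (Dsq a)) ^ 2 := by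
    rw [← h1]
    exact pow_le_pow_left₀ h4 h 2
  nlinarith [sq_nonneg (A * Real.sqrt (Dsq b) - B * Real.sqrt (Dsq a))]

theorem Dsq_re_le (ha : CircLip a) : DsqR (fun ζ => (a ζ).re) ≤ Dsq a := by
  have h := B14.hsq_re_add_im (circLip_iff.1 ha)
  rw [DsqR_eq_hsq, Dsq_eq_hsq, h]
  have h2 := B14.hsq_nonneg fun θ => (((B14.bd a θ).im : ℝ) : ℂ)
  have e : (fun θ => ((B14.bd (fun ζ => (a ζ).re) θ : ℝ) : ℂ)) =
      fun θ => (((B14.bd a θ).re : ℝ) : ℂ) := rfl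
  rw [e]
  linarith

theorem Dsq_im_le (ha : CircLip a) : DsqR (fun ζ => (a ζ).im) ≤ Dsq a := by
  have h := B14.hsq_re_add_im (circLip_iff.1 ha)
  rw [DsqR_eq_hsq, Dsq_eq_hsq, h]
  have h2 := B14.hsq_nonneg fun θ => (((B14.bd a θ).re : ℝ) : ℂ)
  have e : (fun θ => ((B14.bd (fun ζ => (a ζ).im) θ : ℝ) : ℂ)) =
      fun θ => (((B14.bd a θ).im : ℝ) : ℂ) := rfl
  rw [e]
  linarith

/-- the sesquilinear pairing `B_D(a, b) = ∑ |k| a_k conj b_k`. -/
noncomputable def BD (a b : ℂ → ℂ) : ℂ :=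
  ∑' k : ℤ, ((|(k : ℝ)| : ℝ) : ℂ) * fco a k * (starRingEnd ℂ) (fco b k)

theorem BD_eq_hB (a b : ℂ → ℂ) : BD a b = B14.hB (B14.bd a) (B14.bd b) := by
  unfold BD B14.hB
  simp only [fco_eq_fc, mul_assoc]

theorem norm_BD_le (ha : CircLip a) (hb : CircLip b) :
    ‖BD a b‖ ≤ Real.sqrt (Dsq a) * Real.sqrt (Dsq b) := by
  rw [BD_eq_hB, Dsq_eq_hsq, Dsq_eq_hsq]
  exact B14.norm_hB_le (circLip_iff.1 ha) (circLip_iff.1 hb)

theorem Dsq_add_eq (ha : CircLip a) (hb : CircLip b) :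
    Dsq (fun ζ => a ζ + b ζ) = Dsq a + 2 * (BD a b).re + Dsq b := by
  rw [BD_eq_hB, Dsq_eq_hsq, Dsq_eq_hsq, Dsq_eq_hsq]
  have h := B14.hsq_add (circLip_iff.1 ha) (circLip_iff.1 hb)
  have e : B14.bd (fun ζ => a ζ + b ζ) = fun θ => B14.bd a θ + B14.bd b θ := rfl
  rw [e, h]
  ring

/-- `B_D(a, ·)` is integration against the smooth function `Λ a = ∑ |k| a_k ζ^k`. -/
theorem exists_BD_kernel (ha : CircSm a) :
    ∃ La : ℂ → ℂ, CircSm La ∧ ∀ b : ℂ → ℂ, ContinuousOn b uCirc →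
      BD a b = cA fun ζ => La ζ * (starRingEnd ℂ) (b ζ) := by
  have hr : B14.RapidZ fun k : ℤ => ((|(k : ℝ)| : ℝ) : ℂ) * B14.fc (B14.bd a) k := by
    refine ((circSm_iff.1 ha).rapid.mul_pow 1).of_norm_le fun k => le_of_eq ?_
    rw [norm_mul, norm_mul, pow_one, Complex.norm_real, Complex.norm_intCast, Real.norm_eq_abs,
      abs_abs]
  set cc : ℤ → ℂ := fun k : ℤ => ((|(k : ℝ)| : ℝ) : ℂ) * B14.fc (B14.bd a) k with hcc
  have e : B14.bd (ofAngle (B14.synth cc)) = B14.synth cc := bd_ofAngle (B14.synth_periodic cc)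
  refine ⟨ofAngle (B14.synth cc), circSm_iff.2 (by rw [e]; exact hr.cSm_synth), fun b hb => ?_⟩
  have hcb : Continuous (B14.bd b) :=
    hb.comp_continuous (continuous_circleMap 0 1) circleMap_mem_uCirc
  have h := B14.hasSum_fc_mul_conj hr.cSm_synth.continuous hcb
  simp only [hr.fc_synth_eq] at h
  rw [cA_eq_pavg]
  have e2 : B14.bd (fun ζ => ofAngle (B14.synth cc) ζ * (starRingEnd ℂ) (b ζ)) =
      fun θ => B14.synth cc θ * (starRingEnd ℂ) (B14.bd b θ) := by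
    funext θ
    show B14.bd (ofAngle (B14.synth cc)) θ * _ = _
    rw [e]
    rfl
  rw [e2, ← h.tsum_eq]
  unfold BD
  simp only [fco_eq_fc, hcc]

/-- third line of (5.12): the `H^{1/2}`-`H^{-1/2}` pairing. -/
theorem norm_cA_mul_dth_le (ha : CircLip a) (hb : CircSm b) :
    ‖cA fun ζ => a ζ * dth b ζ‖ ≤ Real.sqrt (Dsq a) * Real.sqrt (Dsq b) := by
  rw [Dsq_eq_hsq, Dsq_eq_hsq, cA_eq_pavg]
  have e : B14.bd (fun ζ => a ζ * dth b ζ) = fun θ => B14.bd a θ * deriv (B14.bd b) θ := by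
    funext θ
    show a (circleMap 0 1 θ) * dth b (circleMap 0 1 θ) = _
    rw [dth_circleMap]
    rfl
  rw [e]
  exact B14.norm_pavg_mul_deriv_le (circLip_iff.1 ha) (circSm_iff.1 hb)

theorem HolSm.Dsq_dilate_le (ha : HolSm a) {r : ℝ} (h0 : 0 ≤ r) (h1 : r ≤ 1) :
    Dsq (fun ζ => a (r * ζ)) ≤ Dsq a := by
  have A := ha.toB14
  have hr : B14.RapidN fun n : ℕ => (r : ℂ) ^ n * B14.fc (B14.bd a) (n : ℤ) := by
    intro N
    obtain ⟨C, hC⟩ := A.rapidN N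
    refine ⟨C, fun k => le_trans ?_ (hC k)⟩
    refine mul_le_mul_of_nonneg_left ?_ (by positivity)
    rw [norm_mul, norm_pow, Complex.norm_real, Real.norm_eq_abs, abs_of_nonneg h0]
    exact mul_le_of_le_one_left (norm_nonneg _) (pow_le_one₀ h0 h1)
  have e : B14.bd (fun ζ => a (r * ζ)) =
      B14.bd (B14.psum fun n : ℕ => (r : ℂ) ^ n * B14.fc (B14.bd a) (n : ℤ)) := by
    funext θ
    have s1 := A.hasSum (B14.mul_circleMap_mem_closedBall h0 h1 θ)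
    have s2 := hr.hasSum_psum (B14.circleMap_mem_closedBall θ)
    refine s1.unique ?_
    have e2 : (fun n : ℕ => B14.fc (B14.bd a) (n : ℤ) * ((r : ℂ) * circleMap 0 1 θ) ^ n) =
        fun n : ℕ => (r : ℂ) ^ n * B14.fc (B14.bd a) (n : ℤ) * circleMap 0 1 θ ^ n := by
      funext n
      rw [mul_pow]
      ring
    rw [e2]
    exact s2
  rw [Dsq_eq_hsq, Dsq_eq_hsq, e,
    B14.hsq_eq_tsum_nat (fun k hk => by rw [hr.fc_bd_psum, if_neg (not_le.2 hk)]),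
    B14.hsq_eq_tsum_nat (fun k hk => A.fc_neg hk)]
  have hs : Summable fun n : ℕ => (n : ℝ) * ‖B14.fc (B14.bd a) (n : ℤ)‖ ^ 2 := by
    have h2 := A.cSm_bd.cLip.summable_hsq.comp_injective (i := fun n : ℕ => (n : ℤ))
      Nat.cast_injective
    refine h2.congr fun n => ?_
    simp
  have hle : ∀ n : ℕ, (n : ℝ) * ‖B14.fc (B14.bd (B14.psum fun n : ℕ =>
      (r : ℂ) ^ n * B14.fc (B14.bd a) (n : ℤ))) (n : ℤ)‖ ^ 2 ≤
      (n : ℝ) * ‖B14.fc (B14.bd a) (n : ℤ)‖ ^ 2 := by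
    intro n
    rw [hr.fc_bd_psum_nat]
    refine mul_le_mul_of_nonneg_left ?_ (Nat.cast_nonneg n)
    refine pow_le_pow_left₀ (norm_nonneg _) ?_ 2
    rw [norm_mul, norm_pow, Complex.norm_real, Real.norm_eq_abs, abs_of_nonneg h0]
    exact mul_le_of_le_one_left (norm_nonneg _) (pow_le_one₀ h0 h1)
  exact Summable.tsum_le_tsum hle
    (Summable.of_nonneg_of_le (fun n => by positivity) hle hs) hs

/-- for holomorphic `a`: `D(a)² = ⟨conj a · (-i ∂_θ a)⟩`. -/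
theorem HolSm.Dsq_eq (ha : HolSm a) :
    ((Dsq a : ℝ) : ℂ) = cA fun ζ => (starRingEnd ℂ) (a ζ) * (-Complex.I * dth a ζ) := by
  rw [Dsq_eq_hsq, B14.hsq_eq_pavg_deriv_of_nonneg ha.toB14.cSm_bd fun k hk => ha.toB14.fc_neg hk,
    cA_eq_pavg, ← B14.pavg_const_mul]
  congr 1
  funext θ
  show _ = (starRingEnd ℂ) (a (circleMap 0 1 θ)) * (-Complex.I * dth a (circleMap 0 1 θ))
  rw [dth_circleMap]
  simp only [B14.bd]
  ring

/-- `∑_{k ≠ 0} |a_k|² ≤ D(a)²`. -/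
theorem cA_normSq_sub_le_Dsq (ha : CircLip a) :
    cA (fun ζ => ‖a ζ - cA a‖ ^ 2) ≤ Dsq a := by
  rw [Dsq_eq_hsq]
  exact B14.pavg_sub_pavg_sq_le_hsq (circLip_iff.1 ha)

end Double

/-! ## `S5-C3`: holomorphic extension, conjugate functions, outer functions (5.13),
weighted mean value inequality (5.28) -/

section Ext

variable {a : ℂ → ℂ}

/-- a smooth circle function without negative frequencies extends to a `HolSm` function
(`g ζ = ∑_{k ≥ 0} a_k ζ^k`; all derivatives of the series converge uniformly on the closed disc). -/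
theorem exists_holSm_of_fco_neg (ha : CircSm a) (h : ∀ k : ℤ, k < 0 → fco a k = 0) :
    ∃ g : ℂ → ℂ, HolSm g ∧ Set.EqOn g a uCirc := by
  have ha' := circSm_iff.1 ha
  refine ⟨B14.szego (B14.bd a), holSm_of_b14 (B14.holSm_szego ha'), forall_uCirc_iff.2 fun θ => ?_⟩
  exact congrFun (B14.bd_szego_of_fc_neg ha' fun k hk => by rw [← fco_eq_fc]; exact h k hk) θ

/-- Schwarz/Herglotz extension of a real smooth function: `g = u_0 + 2 ∑_{k>0} u_k ζ^k`. -/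
theorem exists_holSm_re {u : ℂ → ℝ} (hu : CircSm fun ζ => (u ζ : ℂ)) :
    ∃ g : ℂ → ℂ, HolSm g ∧ (∀ ζ ∈ uCirc, (g ζ).re = u ζ) ∧ g 0 = (cA u : ℝ) ∧
      Dsq g = 2 * DsqR u ∧ DsqR (fun ζ => (g ζ).im) = DsqR u := by
  have hu' : B14.CSm fun θ => ((B14.bd u θ : ℝ) : ℂ) := circSm_iff.1 hu
  refine ⟨B14.schw (B14.bd u), holSm_of_b14 (B14.holSm_schw hu'),
    forall_uCirc_iff.2 fun θ => B14.bd_schw_re hu' θ, B14.schw_center _, ?_, ?_⟩
  · rw [Dsq_eq_hsq, DsqR_eq_hsq]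
    exact B14.hsq_bd_schw hu'
  · rw [DsqR_eq_hsq, DsqR_eq_hsq]
    exact B14.hsq_hilb hu'

/-- positivity of the harmonic extension. -/
theorem HolSm.re_pos {g : ℂ → ℂ} (hg : HolSm g) (h : ∀ ζ ∈ uCirc, 0 < (g ζ).re) :
    ∀ ζ ∈ uDiscC, 0 < (g ζ).re := by
  have hc : ContinuousOn (fun ζ => (g ζ).re) uCirc :=
    Complex.continuous_re.comp_continuousOn
      (hg.2.continuousOn.mono Metric.sphere_subset_closedBall)
  obtain ⟨ζ₀, hζ₀, hmin⟩ := (isCompact_sphere (0 : ℂ) 1).exists_isMinOn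
    ⟨1, by simp⟩ hc
  intro ζ hζ
  have h1 := (hg.neg.cexp).norm_le (C := Real.exp (-(g ζ₀).re)) (fun ξ hξ => by
    rw [Complex.norm_exp, Complex.neg_re]
    exact Real.exp_le_exp.2 (neg_le_neg (hmin hξ))) ζ hζ
  rw [Complex.norm_exp, Complex.neg_re, Real.exp_le_exp] at h1
  have := h ζ₀ hζ₀
  linarith

/-- OUTER FUNCTION with modulus `e^u`. -/
theorem exists_outer {u : ℂ → ℝ} (hu : CircSm fun ζ => (u ζ : ℂ)) :
    ∃ h : ℂ → ℂ, HolSm h ∧ (∀ ζ ∈ uDiscC, h ζ ≠ 0) ∧ (∀ ζ ∈ uCirc, ‖h ζ‖ = Real.exp (u ζ)) ∧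
      h 0 = (Real.exp (cA u) : ℝ) ∧
      Dsq (fun ζ => h ζ / (‖h ζ‖ : ℂ)) ≤ DsqR u := by
  have hu' : B14.CSm fun θ => ((B14.bd u θ : ℝ) : ℂ) := circSm_iff.1 hu
  refine ⟨B14.outer (B14.bd u), holSm_of_b14 (B14.holSm_outer hu'),
    fun ζ _ => B14.outer_ne_zero _ ζ, forall_uCirc_iff.2 fun θ => B14.norm_bd_outer hu' θ,
    B14.outer_center _, ?_⟩
  rw [Dsq_eq_hsq, DsqR_eq_hsq]
  have e : B14.bd (fun ζ => B14.outer (B14.bd u) ζ / (‖B14.outer (B14.bd u) ζ‖ : ℂ)) =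
      fun θ => Complex.exp (Complex.I * ((B14.hilb (B14.bd u) θ : ℝ) : ℂ)) := by
    funext θ
    show B14.bd (B14.outer (B14.bd u)) θ / (‖B14.bd (B14.outer (B14.bd u)) θ‖ : ℂ) = _
    rw [B14.norm_bd_outer hu', B14.bd_outer hu']
    have : ((Real.exp (B14.bd u θ) : ℝ) : ℂ) ≠ 0 := by
      exact_mod_cast (Real.exp_pos _).ne'
    field_simp
  rw [e]
  exact (Real.sqrt_le_sqrt_iff (B14.hsq_nonneg _)).1 (B14.hD_phase_le hu')

/-- (5.13): outer function of a modulus `e^u ≤ 1`. -/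
theorem exists_outer_le_one {u : ℂ → ℝ} (hu : CircSm fun ζ => (u ζ : ℂ))
    (h0 : ∀ ζ ∈ uCirc, u ζ ≤ 0) :
    ∃ h : ℂ → ℂ, HolSm h ∧ (∀ ζ ∈ uDiscC, h ζ ≠ 0) ∧ (∀ ζ ∈ uCirc, ‖h ζ‖ = Real.exp (u ζ)) ∧
      h 0 = (Real.exp (cA u) : ℝ) ∧ (∀ ζ ∈ uDiscC, ‖h ζ‖ ≤ 1) ∧
      Dsq (fun ζ => h ζ / (‖h ζ‖ : ℂ)) ≤ DsqR u ∧ Dsq h ≤ 4 * DsqR u := by
  have hu' : B14.CSm fun θ => ((B14.bd u θ : ℝ) : ℂ) := circSm_iff.1 hu
  have h0' : ∀ θ, B14.bd u θ ≤ 0 := fun θ => h0 _ (circleMap_mem_uCirc θ)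
  refine ⟨B14.outer (B14.bd u), holSm_of_b14 (B14.holSm_outer hu'),
    fun ζ _ => B14.outer_ne_zero _ ζ, forall_uCirc_iff.2 fun θ => B14.norm_bd_outer hu' θ,
    B14.outer_center _, fun ζ hζ => ?_, ?_, ?_⟩
  · have := B14.norm_outer_le hu' h0' hζ
    rwa [Real.exp_zero] at this
  · rw [Dsq_eq_hsq, DsqR_eq_hsq]
    have e : B14.bd (fun ζ => B14.outer (B14.bd u) ζ / (‖B14.outer (B14.bd u) ζ‖ : ℂ)) =
        fun θ => Complex.exp (Complex.I * ((B14.hilb (B14.bd u) θ : ℝ) : ℂ)) := by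
      funext θ
      show B14.bd (B14.outer (B14.bd u)) θ / (‖B14.bd (B14.outer (B14.bd u)) θ‖ : ℂ) = _
      rw [B14.norm_bd_outer hu', B14.bd_outer hu']
      have : ((Real.exp (B14.bd u θ) : ℝ) : ℂ) ≠ 0 := by
        exact_mod_cast (Real.exp_pos _).ne'
      field_simp
    rw [e]
    exact (Real.sqrt_le_sqrt_iff (B14.hsq_nonneg _)).1 (B14.hD_phase_le hu')
  · rw [Dsq_eq_hsq, DsqR_eq_hsq]
    have h1 := B14.hD_bd_outer_le hu' h0'
    rw [Real.exp_zero, mul_one] at h1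
    have h2 := pow_le_pow_left₀ (B14.hD_nonneg _) h1 2
    rw [mul_pow, B14.hD_sq, B14.hD_sq] at h2
    linarith

/-- (5.28) without logarithmic subharmonicity: multiply by the outer function `k`, `|k|² = om`, and
use `|k(0) Z(0)|² ≤ ⟨|k Z|²⟩`. -/
theorem exp_cA_log_mul_le {om : ℂ → ℝ} (hom : CircSm fun ζ => (om ζ : ℂ))
    (hpos : ∀ ζ ∈ uCirc, 0 < om ζ) {J : Type} [Fintype J] {Z : J → ℂ → ℂ} (hZ : ∀ j, HolSm (Z j)) :
    Real.exp (cA fun ζ => Real.log (om ζ)) * ∑ j, ‖Z j 0‖ ^ 2 ≤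
      cA fun ζ => om ζ * ∑ j, ‖Z j ζ‖ ^ 2 := by
  have hlog : CircSm fun ζ => ((Real.log (om ζ) : ℝ) : ℂ) :=
    hom.comp_real isOpen_Ioi
      (fun x hx => (Real.contDiffAt_log.2 (ne_of_gt hx)).contDiffWithinAt) hpos
  have hu : CircSm fun ζ => (((1 / 2 : ℝ) * Real.log (om ζ) : ℝ) : ℂ) := by
    have := (circSm_const ((1 / 2 : ℝ) : ℂ)).mul hlog
    refine this.congr fun ζ _ => ?_
    push_cast
    rfl
  obtain ⟨k, hk, -, hnorm, hk0, -⟩ := exists_outer hu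
  have hsq : ∀ ζ ∈ uCirc, ‖k ζ‖ ^ 2 = om ζ := fun ζ hζ => by
    rw [hnorm ζ hζ, ← Real.exp_nat_mul]
    have : ((2 : ℕ) : ℝ) * (1 / 2 * Real.log (om ζ)) = Real.log (om ζ) := by
      push_cast
      ring
    rw [this, Real.exp_log (hpos ζ hζ)]
  have hcA : cA (fun ζ => (1 / 2 : ℝ) * Real.log (om ζ)) =
      (1 / 2 : ℝ) * cA fun ζ => Real.log (om ζ) :=
    B14.pavg_const_mul_real _ _
  have hk0sq : ‖k 0‖ ^ 2 = Real.exp (cA fun ζ => Real.log (om ζ)) := by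
    rw [hk0, Complex.norm_real, Real.norm_eq_abs, abs_of_pos (Real.exp_pos _), hcA,
      ← Real.exp_nat_mul]
    congr 1
    push_cast
    ring
  have hj : ∀ j, ‖k 0‖ ^ 2 * ‖Z j 0‖ ^ 2 ≤ cA fun ζ => ‖k ζ * Z j ζ‖ ^ 2 := fun j => by
    have := (hk.mul (hZ j)).normSq_zero_le
    rwa [norm_mul, mul_pow] at this
  have hcont : ∀ j, Continuous (B14.bd fun ζ => ‖k ζ * Z j ζ‖ ^ 2) := fun j =>
    ((hk.mul (hZ j)).circSm.continuous.norm.pow 2)
  have hsum : cA (fun ζ => ∑ j, ‖k ζ * Z j ζ‖ ^ 2) = ∑ j, cA fun ζ => ‖k ζ * Z j ζ‖ ^ 2 :=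
    B14.pavg_sum Finset.univ (fun j => B14.bd fun ζ => ‖k ζ * Z j ζ‖ ^ 2) fun j _ => hcont j
  have hcongr : cA (fun ζ => om ζ * ∑ j, ‖Z j ζ‖ ^ 2) = cA fun ζ => ∑ j, ‖k ζ * Z j ζ‖ ^ 2 :=
    cA_congr fun ζ hζ => by
      simp only [norm_mul, mul_pow, ← Finset.mul_sum, hsq ζ hζ]
  rw [hcongr, hsum, ← hk0sq, Finset.mul_sum]
  exact Finset.sum_le_sum fun j _ => hj j

/-- scalar Jensen: `exp ⟨log γ⟩ ≤ ⟨γ⟩`. -/
theorem exp_cA_log_le {om : ℂ → ℝ} (hom : ContinuousOn om uCirc) (hpos : ∀ ζ ∈ uCirc, 0 < om ζ) :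
    Real.exp (cA fun ζ => Real.log (om ζ)) ≤ cA om := by
  have hc : Continuous (B14.bd om) :=
    hom.comp_continuous (continuous_circleMap 0 1) circleMap_mem_uCirc
  have hc2 : Continuous fun θ => Real.log (B14.bd om θ) :=
    hc.log fun θ => (hpos _ (circleMap_mem_uCirc θ)).ne'
  refine (B14.exp_pavg_le hc2).trans (le_of_eq ?_)
  rw [cA_eq_pavg]
  congr 1
  funext θ
  exact Real.exp_log (hpos _ (circleMap_mem_uCirc θ))

end Ext

/-! ## `S5-C4`: Fejer means -/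

section Fejer

variable {a : ℂ → ℂ}

theorem isTrigPoly_fejer (P : ℕ) (a : ℂ → ℂ) : IsTrigPoly P (fejer P a) := by
  exact ⟨fun k => ((1 - |(k : ℝ)| / (P + 1) : ℝ) : ℂ) * fco a k, fun ζ _ => rfl⟩

/-- positivity of the Fejer kernel, in the form of a convexity statement: every closed convex
constraint `Re ⟨c, ·⟩ ≤ C` on finitely many functions is inherited by the means. -/
theorem re_sum_fejer_le {J : Type} [Fintype J] (P : ℕ) {f : J → ℂ → ℂ}
    (hf : ∀ j, ContinuousOn (f j) uCirc) (c : J → ℂ) {C : ℝ}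
    (h : ∀ ζ ∈ uCirc, (∑ j, c j * f j ζ).re ≤ C) :
    ∀ ζ ∈ uCirc, (∑ j, c j * fejer P (f j) ζ).re ≤ C := by
  refine forall_uCirc_iff.2 fun θ => ?_
  have hc : ∀ j, Continuous (B14.bd (f j)) := fun j =>
    (hf j).comp_continuous (continuous_circleMap 0 1) circleMap_mem_uCirc
  have hK : Continuous fun t => ((B14.fejK P t : ℝ) : ℂ) :=
    Complex.continuous_ofReal.comp (B14.continuous_fejK P)
  have hcs : ∀ j, Continuous fun t => B14.bd (f j) (θ - t) := fun j =>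
    (hc j).comp (continuous_const.sub continuous_id)
  have e1 : ∀ j, fejer P (f j) (circleMap 0 1 θ) =
      B14.pavg fun t => ((B14.fejK P t : ℝ) : ℂ) * B14.bd (f j) (θ - t) := fun j => by
    rw [← B14.fejer_eq_pavg P (hc j) (B14.bd_periodic _) θ, ← bd_fejer]
    rfl
  have e2 : ∑ j, c j * fejer P (f j) (circleMap 0 1 θ) =
      B14.pavg fun t => ((B14.fejK P t : ℝ) : ℂ) * ∑ j, c j * B14.bd (f j) (θ - t) := by
    simp only [e1, ← B14.pavg_const_mul]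
    rw [← B14.pavg_sum Finset.univ
      (fun j t => c j * (((B14.fejK P t : ℝ) : ℂ) * B14.bd (f j) (θ - t)))
      fun j _ => continuous_const.mul (hK.mul (hcs j))]
    congr 1
    funext t
    rw [Finset.mul_sum]
    exact Finset.sum_congr rfl fun j _ => by ring
  have hcS : Continuous fun t => ∑ j, c j * B14.bd (f j) (θ - t) :=
    continuous_finsetSum _ fun j _ => continuous_const.mul (hcs j)
  have hKS : Continuous fun t => ((B14.fejK P t : ℝ) : ℂ) * ∑ j, c j * B14.bd (f j) (θ - t) :=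
    hK.mul hcS
  rw [e2, B14.pavg_re hKS]
  have e3 : (fun t => (((B14.fejK P t : ℝ) : ℂ) * ∑ j, c j * B14.bd (f j) (θ - t)).re) =
      fun t => B14.fejK P t * (∑ j, c j * B14.bd (f j) (θ - t)).re := by
    funext t
    rw [Complex.re_ofReal_mul]
  rw [e3]
  have h1 : B14.pavg (fun t => B14.fejK P t * (∑ j, c j * B14.bd (f j) (θ - t)).re) ≤
      B14.pavg fun t => C * B14.fejK P t :=
    B14.pavg_mono ((B14.continuous_fejK P).mul (Complex.continuous_re.comp hcS))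
      (continuous_const.mul (B14.continuous_fejK P)) fun t => by
        rw [mul_comm C]
        exact mul_le_mul_of_nonneg_left (h _ (circleMap_mem_uCirc (θ - t))) (B14.fejK_nonneg P t)
  rw [B14.pavg_const_mul_real, B14.pavg_fejK, mul_one] at h1
  exact h1

theorem norm_fejer_le (P : ℕ) (ha : ContinuousOn a uCirc) {C : ℝ} (h : ∀ ζ ∈ uCirc, ‖a ζ‖ ≤ C) :
    ∀ ζ ∈ uCirc, ‖fejer P a ζ‖ ≤ C := by
  refine forall_uCirc_iff.2 fun θ => ?_
  have hc : Continuous (B14.bd a) :=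
    ha.comp_continuous (continuous_circleMap 0 1) circleMap_mem_uCirc
  have h1 := B14.norm_fejer_le P hc (B14.bd_periodic a) (fun θ => h _ (circleMap_mem_uCirc θ)) θ
  rw [← bd_fejer] at h1
  exact h1

theorem fejer_conj (P : ℕ) (a : ℂ → ℂ) {ζ : ℂ} (hζ : ζ ∈ uCirc) :
    fejer P (fun ξ => (starRingEnd ℂ) (a ξ)) ζ = (starRingEnd ℂ) (fejer P a ζ) := by
  obtain ⟨θ, rfl⟩ := mem_uCirc_iff.1 hζ
  have h1 := B14.fejer_conj P (B14.bd a) θ
  rw [← bd_fejer] at h1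
  have e : (fun t => (starRingEnd ℂ) (B14.bd a t)) = B14.bd fun ξ => (starRingEnd ℂ) (a ξ) := rfl
  rw [e, ← bd_fejer] at h1
  exact h1

theorem fco_fejer (P : ℕ) (a : ℂ → ℂ) (k : ℤ) :
    fco (fejer P a) k = if |k| ≤ (P : ℤ) then ((1 - |(k : ℝ)| / (P + 1) : ℝ) : ℂ) * fco a k else 0 := by
  rw [fco_eq_fc, bd_fejer, B14.fc_fejer, ← fco_eq_fc]
  have hP : (0 : ℝ) < (P : ℝ) + 1 := by positivity
  split_ifs with hk
  · have h1 : |(k : ℝ)| ≤ (P : ℝ) := by exact_mod_cast hk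
    rw [max_eq_left]
    rw [sub_nonneg, div_le_one hP]
    linarith
  · have h1 : (P : ℝ) + 1 ≤ |(k : ℝ)| := by
      have : (P : ℤ) + 1 ≤ |k| := by omega
      exact_mod_cast this
    rw [max_eq_right, Complex.ofReal_zero, zero_mul]
    rw [sub_nonpos, le_div_iff₀ hP]
    linarith

theorem Dsq_fejer_le (P : ℕ) (ha : CircLip a) : Dsq (fejer P a) ≤ Dsq a := by
  rw [Dsq_eq_hsq, Dsq_eq_hsq, bd_fejer]
  exact B14.hsq_fejer_le P (circLip_iff.1 ha)

/-- (5.18). -/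
theorem cA_normSq_fejer_sub_le (P : ℕ) (ha : CircLip a) :
    cA (fun ζ => ‖fejer P a ζ - a ζ‖ ^ 2) ≤ Dsq a / (P + 1) := by
  rw [Dsq_eq_hsq]
  have h1 := B14.pavg_fejer_sub_sq_le P (circLip_iff.1 ha)
  rw [← bd_fejer] at h1
  exact h1

/-- Fejér mean of a character. -/
theorem s5c_fejer_ech (P : ℕ) (m : ℤ) (θ : ℝ) :
    B14.fejer P (B14.ech m) θ =
      if |m| ≤ (P : ℤ) then ((1 - |(m : ℝ)| / (P + 1) : ℝ) : ℂ) * B14.ech m θ else 0 := by
  unfold B14.fejer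
  simp only [B14.fc_ech, mul_ite, ite_mul, mul_one, mul_zero, zero_mul, Finset.sum_ite_eq',
    Finset.mem_Icc, abs_le]

theorem s5c_pavg_fejK_ech (P : ℕ) (m : ℤ) (hm : |m| = 1) :
    B14.pavg (fun t => ((B14.fejK P t : ℝ) : ℂ) * B14.ech m t) = ((1 - 1 / ((P : ℝ) + 1) : ℝ) : ℂ) := by
  have h1 := B14.fejer_eq_pavg P (B14.continuous_ech (-m)) (B14.ech_periodic (-m)) 0
  simp only [zero_sub, B14.ech_neg_arg, neg_neg] at h1
  rw [← h1, s5c_fejer_ech, B14.ech_at_zero, mul_one, abs_neg, hm]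
  have hm' : |((-m : ℤ) : ℝ)| = 1 := by
    have : |(-m : ℤ)| = 1 := by rw [abs_neg, hm]
    exact_mod_cast this
  rw [hm']
  split_ifs with hP
  · rfl
  · have : P = 0 := by omega
    subst this
    simp

/-- the second moment of the Fejér kernel. -/
theorem s5c_pavg_fejK_dqK (P : ℕ) :
    B14.pavg (fun t => B14.fejK P t * B14.dqK t) = 2 / ((P : ℝ) + 1) := by
  have hK : Continuous fun t => ((B14.fejK P t : ℝ) : ℂ) :=
    Complex.continuous_ofReal.comp (B14.continuous_fejK P)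
  have e : (fun t => ((B14.fejK P t * B14.dqK t : ℝ) : ℂ)) =
      fun t => (2 * ((B14.fejK P t : ℝ) : ℂ) - ((B14.fejK P t : ℝ) : ℂ) * B14.ech 1 t) -
        ((B14.fejK P t : ℝ) : ℂ) * B14.ech (-1) t := by
    funext t
    have h1 : B14.ech 1 t + B14.ech (-1) t = ((2 * Real.cos t : ℝ) : ℂ) := by
      rw [B14.ech_neg, Complex.add_conj, B14.ech_one_eq]
    have h2 : B14.ech (-1) t = ((2 * Real.cos t : ℝ) : ℂ) - B14.ech 1 t := by
      rw [← h1]; ring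
    rw [h2, B14.dqK_eq]
    push_cast
    ring
  have h3 : ((B14.pavg (fun t => B14.fejK P t * B14.dqK t) : ℝ) : ℂ) =
      ((2 / ((P : ℝ) + 1) : ℝ) : ℂ) := by
    rw [← B14.pavg_ofReal, e,
      B14.pavg_sub (a := fun t => 2 * ((B14.fejK P t : ℝ) : ℂ) -
          ((B14.fejK P t : ℝ) : ℂ) * B14.ech 1 t)
        (b := fun t => ((B14.fejK P t : ℝ) : ℂ) * B14.ech (-1) t)
        ((continuous_const.mul hK).sub (hK.mul (B14.continuous_ech 1)))
        (hK.mul (B14.continuous_ech (-1))),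
      B14.pavg_sub (a := fun t => 2 * ((B14.fejK P t : ℝ) : ℂ))
        (b := fun t => ((B14.fejK P t : ℝ) : ℂ) * B14.ech 1 t)
        (continuous_const.mul hK) (hK.mul (B14.continuous_ech 1)),
      B14.pavg_const_mul, B14.pavg_ofReal, B14.pavg_fejK, s5c_pavg_fejK_ech P 1 (by simp),
      s5c_pavg_fejK_ech P (-1) (by simp)]
    push_cast
    ring
  exact_mod_cast h3

theorem s5c_normSq_circleMap_sub (θ t : ℝ) :
    ‖circleMap 0 1 (θ - t) - circleMap 0 1 θ‖ ^ 2 = B14.dqK t := by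
  have e : circleMap 0 1 (θ - t) - circleMap 0 1 θ =
      circleMap 0 1 θ * (circleMap 0 1 (-t) - 1) := by
    simp only [circleMap, zero_add, Complex.ofReal_one, one_mul, mul_sub, mul_one,
      ← Complex.exp_add]
    congr 2
    push_cast
    ring
  have h4 : ‖circleMap 0 1 θ‖ = 1 := by simp
  rw [e, norm_mul, h4, one_mul, ← B14.dqK_neg, B14.dqK, B14.ech_one]

/-- Korovkin form of uniform continuity on the circle. -/
theorem s5c_korovkin {a : ℂ → ℂ} (ha : ContinuousOn a (Metric.sphere (0 : ℂ) 1)) {ε : ℝ}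
    (hε : 0 < ε) : ∃ M : ℝ, 0 ≤ M ∧ ∀ ζ ∈ Metric.sphere (0 : ℂ) 1, ∀ ξ ∈ Metric.sphere (0 : ℂ) 1,
      ‖a ζ - a ξ‖ ≤ ε + M * ‖ζ - ξ‖ ^ 2 := by
  have hu := (isCompact_sphere (0 : ℂ) 1).uniformContinuousOn_of_continuous ha
  obtain ⟨η, hη, hu'⟩ := Metric.uniformContinuousOn_iff.1 hu ε hε
  obtain ⟨B, hB⟩ := (isCompact_sphere (0 : ℂ) 1).exists_bound_of_continuousOn ha
  have hB0 : 0 ≤ B := (norm_nonneg _).trans (hB 1 (by simp))
  refine ⟨2 * B / η ^ 2, by positivity, fun ζ hζ ξ hξ => ?_⟩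
  rcases lt_or_ge (dist ζ ξ) η with h | h
  · have h1 := (hu' ζ hζ ξ hξ h).le
    rw [dist_eq_norm] at h1
    have : 0 ≤ 2 * B / η ^ 2 * ‖ζ - ξ‖ ^ 2 := by positivity
    linarith
  · rw [dist_eq_norm] at h
    have h1 : ‖a ζ - a ξ‖ ≤ 2 * B := by
      calc ‖a ζ - a ξ‖ ≤ ‖a ζ‖ + ‖a ξ‖ := norm_sub_le _ _
        _ ≤ B + B := add_le_add (hB ζ hζ) (hB ξ hξ)
        _ = 2 * B := by ring
    have h2 : 1 ≤ ‖ζ - ξ‖ ^ 2 / η ^ 2 := by
      rw [le_div_iff₀ (by positivity), one_mul]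
      exact pow_le_pow_left₀ hη.le h 2
    have h3 : 2 * B / η ^ 2 * ‖ζ - ξ‖ ^ 2 = 2 * B * (‖ζ - ξ‖ ^ 2 / η ^ 2) := by ring
    rw [h3]
    nlinarith

theorem s5c_fejer_sub_le {a : ℂ → ℂ} (ha : ContinuousOn a (Metric.sphere (0 : ℂ) 1)) {ε M : ℝ}
    (hM : ∀ ζ ∈ Metric.sphere (0 : ℂ) 1, ∀ ξ ∈ Metric.sphere (0 : ℂ) 1,
      ‖a ζ - a ξ‖ ≤ ε + M * ‖ζ - ξ‖ ^ 2) (P : ℕ) (θ : ℝ) :
    ‖B14.fejer P (B14.bd a) θ - B14.bd a θ‖ ≤ ε + M * (2 / ((P : ℝ) + 1)) := by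
  have hmem : ∀ θ : ℝ, circleMap 0 1 θ ∈ Metric.sphere (0 : ℂ) 1 := fun θ =>
    circleMap_mem_sphere 0 zero_le_one θ
  have hc : Continuous (B14.bd a) := ha.comp_continuous (continuous_circleMap 0 1) hmem
  have hK : Continuous fun t => ((B14.fejK P t : ℝ) : ℂ) :=
    Complex.continuous_ofReal.comp (B14.continuous_fejK P)
  have hcs : Continuous fun t => B14.bd a (θ - t) := hc.comp (continuous_const.sub continuous_id)
  have e1 : B14.bd a θ = B14.pavg fun t => ((B14.fejK P t : ℝ) : ℂ) * B14.bd a θ := by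
    rw [B14.pavg_mul_const, B14.pavg_ofReal, B14.pavg_fejK]
    simp
  have e2 : B14.fejer P (B14.bd a) θ - B14.bd a θ =
      B14.pavg fun t => ((B14.fejK P t : ℝ) : ℂ) * (B14.bd a (θ - t) - B14.bd a θ) := by
    conv_lhs => rw [e1, B14.fejer_eq_pavg P hc (B14.bd_periodic a) θ]
    rw [← B14.pavg_sub (a := fun t => ((B14.fejK P t : ℝ) : ℂ) * B14.bd a (θ - t))
      (b := fun t => ((B14.fejK P t : ℝ) : ℂ) * B14.bd a θ) (hK.mul hcs) (hK.mul continuous_const)]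
    congr 1
    funext t
    ring
  rw [e2]
  refine (B14.norm_pavg_le_pavg_norm _).trans ?_
  have h1 : B14.pavg (fun t => ‖((B14.fejK P t : ℝ) : ℂ) * (B14.bd a (θ - t) - B14.bd a θ)‖) ≤
      B14.pavg fun t => ε * B14.fejK P t + M * (B14.fejK P t * B14.dqK t) := by
    refine B14.pavg_mono (hK.mul (hcs.sub continuous_const)).norm
      ((continuous_const.mul (B14.continuous_fejK P)).add
        (continuous_const.mul ((B14.continuous_fejK P).mul B14.continuous_dqK))) fun t => ?_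
    rw [norm_mul, Complex.norm_real, Real.norm_eq_abs, abs_of_nonneg (B14.fejK_nonneg P t)]
    have h2 := hM _ (hmem (θ - t)) _ (hmem θ)
    rw [s5c_normSq_circleMap_sub] at h2
    calc B14.fejK P t * ‖B14.bd a (θ - t) - B14.bd a θ‖
        ≤ B14.fejK P t * (ε + M * B14.dqK t) :=
          mul_le_mul_of_nonneg_left h2 (B14.fejK_nonneg P t)
      _ = _ := by ring
  refine h1.trans (le_of_eq ?_)
  rw [B14.pavg_add (a := fun t => ε * B14.fejK P t)
    (b := fun t => M * (B14.fejK P t * B14.dqK t)) (continuous_const.mul (B14.continuous_fejK P))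
    (continuous_const.mul ((B14.continuous_fejK P).mul B14.continuous_dqK)),
    B14.pavg_const_mul_real, B14.pavg_const_mul_real, B14.pavg_fejK, s5c_pavg_fejK_dqK, mul_one]

/-- Fejer's theorem (density of trigonometric polynomials + `norm_fejer_le`). -/
theorem tendsto_fejer (ha : ContinuousOn a uCirc) {δ : ℝ} (hδ : 0 < δ) :
    ∀ᶠ P : ℕ in atTop, ∀ ζ ∈ uCirc, ‖fejer P a ζ - a ζ‖ ≤ δ := by
  obtain ⟨M, hM0, hM⟩ := s5c_korovkin ha (half_pos hδ)
  filter_upwards [eventually_ge_atTop ⌈4 * M / δ⌉₊] with P hP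
  refine forall_uCirc_iff.2 fun θ => ?_
  have h1 := s5c_fejer_sub_le ha hM P θ
  rw [← bd_fejer] at h1
  refine h1.trans ?_
  have h2 : 4 * M / δ ≤ (P : ℝ) := (Nat.le_ceil _).trans (by exact_mod_cast hP)
  have hP1 : (0 : ℝ) < (P : ℝ) + 1 := by positivity
  have h3 : M * (2 / ((P : ℝ) + 1)) ≤ δ / 2 := by
    rw [div_le_iff₀ hδ] at h2
    rw [← mul_div_assoc, div_le_iff₀ hP1]
    nlinarith
  linarith

/-- the shifted mean `ζ^{P+1} σ_P a` is a polynomial vanishing at `0`. -/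
theorem exists_holSm_shift_fejer (P : ℕ) (ha : ContinuousOn a uCirc) {C : ℝ}
    (h : ∀ ζ ∈ uCirc, ‖a ζ‖ ≤ C) :
    ∃ l : ℂ → ℂ, HolSm l ∧ l 0 = 0 ∧ (∀ ζ ∈ uCirc, l ζ = ζ ^ (P + 1) * fejer P a ζ) ∧
      Dsq l ≤ (2 * P + 1) * C ^ 2 := by
  have hc : Continuous (B14.bd a) :=
    ha.comp_continuous (continuous_circleMap 0 1) circleMap_mem_uCirc
  refine ⟨B14.fejerPoly P (B14.bd a), holSm_of_b14 (B14.holSm_fejerPoly P _),
    B14.fejerPoly_zero P _, forall_uCirc_iff.2 fun θ => ?_, ?_⟩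
  · have h1 := B14.bd_fejerPoly P (B14.bd a) θ
    rw [← bd_fejer, B14.ech_eq_zpow] at h1
    have e : circleMap 0 1 θ ^ ((P : ℤ) + 1) = circleMap 0 1 θ ^ (P + 1) := by
      have : ((P : ℤ) + 1) = ((P + 1 : ℕ) : ℤ) := by push_cast; rfl
      rw [this, zpow_natCast]
    rw [e] at h1
    exact h1
  · rw [Dsq_eq_hsq]
    refine (B14.hsq_bd_fejerPoly_le P hc).trans ?_
    refine mul_le_mul_of_nonneg_left ?_ (by positivity)
    exact B14.pavg_le_of_le (hc.norm.pow 2) fun θ =>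
      pow_le_pow_left₀ (norm_nonneg _) (h _ (circleMap_mem_uCirc θ)) 2

end Fejer

/-! ## `S5-C5`: Stokes on the unit disc -/

section Stokes

/-- `∂u/∂ζ̄` in one variable. -/
noncomputable def dbar1 (u : ℂ → ℂ) (ζ : ℂ) : ℂ :=
  (1 / 2 : ℂ) * (fderiv ℝ u ζ 1 + Complex.I * fderiv ℝ u ζ Complex.I)

/-- `∂u/∂ζ` in one variable. -/
noncomputable def d1 (u : ℂ → ℂ) (ζ : ℂ) : ℂ :=
  (1 / 2 : ℂ) * (fderiv ℝ u ζ 1 - Complex.I * fderiv ℝ u ζ Complex.I)

variable {u : ℂ → ℂ}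

theorem s5c_uniqueDiffOn : UniqueDiffOn ℝ uDiscC :=
  uniqueDiffOn_convex (convex_closedBall 0 1)
    ⟨0, by rw [interior_closedBall (0 : ℂ) one_ne_zero]; simp⟩

theorem s5c_continuousOn_fderivWithin (hu : ContDiffOn ℝ ∞ u uDiscC) :
    ContinuousOn (fderivWithin ℝ u uDiscC) uDiscC :=
  hu.continuousOn_fderivWithin s5c_uniqueDiffOn (by simp)

theorem s5c_mem_nhds {ζ : ℂ} (hζ : ζ ∈ uDisc) : uDiscC ∈ 𝓝 ζ :=
  Filter.mem_of_superset (Metric.isOpen_ball.mem_nhds hζ) Metric.ball_subset_closedBall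

theorem s5c_fderiv_eq {ζ : ℂ} (hζ : ζ ∈ uDisc) :
    fderiv ℝ u ζ = fderivWithin ℝ u uDiscC ζ :=
  (fderivWithin_of_mem_nhds (s5c_mem_nhds hζ)).symm

/-- `∂̄u` computed with the derivative within the closed disc. -/
noncomputable def s5c_dbarW (u : ℂ → ℂ) (ζ : ℂ) : ℂ :=
  (1 / 2 : ℂ) * (fderivWithin ℝ u uDiscC ζ 1 + Complex.I * fderivWithin ℝ u uDiscC ζ Complex.I)

theorem s5c_continuousOn_dbarW (hu : ContDiffOn ℝ ∞ u uDiscC) :
    ContinuousOn (s5c_dbarW u) uDiscC := by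
  have hW := s5c_continuousOn_fderivWithin hu
  exact continuousOn_const.mul ((hW.clm_apply continuousOn_const).add
    (continuousOn_const.mul (hW.clm_apply continuousOn_const)))

theorem s5c_dbar1_eq {ζ : ℂ} (hζ : ζ ∈ uDisc) : dbar1 u ζ = s5c_dbarW u ζ := by
  unfold dbar1 s5c_dbarW
  rw [s5c_fderiv_eq hζ]

theorem integrableOn_dbar1 (hu : ContDiffOn ℝ ∞ u uDiscC) : IntegrableOn (dbar1 u) uDisc := by
  exact (B14.integrableOn_ball_of_continuousOn (s5c_continuousOn_dbarW hu)).congr_fun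
    (fun _ hζ => (s5c_dbar1_eq hζ).symm) measurableSet_ball

theorem s5c_d1_eq_conj (u : ℂ → ℂ) (ζ : ℂ) :
    d1 u ζ = (starRingEnd ℂ) (dbar1 (fun w => (starRingEnd ℂ) (u w)) ζ) := by
  have h : fderiv ℝ (fun w => (starRingEnd ℂ) (u w)) ζ =
      (Complex.conjCLE : ℂ →L[ℝ] ℂ).comp (fderiv ℝ u ζ) :=
    Complex.conjCLE.comp_fderiv
  unfold d1 dbar1
  rw [h]
  simp only [ContinuousLinearMap.comp_apply, ContinuousLinearEquiv.coe_coe, Complex.conjCLE_apply,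
    map_mul, map_add, Complex.conj_conj, Complex.conj_I, map_div₀, map_one, map_ofNat]
  ring

theorem s5c_contDiffOn_conj (hu : ContDiffOn ℝ ∞ u uDiscC) :
    ContDiffOn ℝ ∞ (fun w => (starRingEnd ℂ) (u w)) uDiscC :=
  Complex.conjCLE.contDiff.comp_contDiffOn hu

theorem integrableOn_d1 (hu : ContDiffOn ℝ ∞ u uDiscC) : IntegrableOn (d1 u) uDisc := by
  have h := integrableOn_dbar1 (s5c_contDiffOn_conj hu)
  have h2 := (Complex.conjCLE : ℂ →L[ℝ] ℂ).integrable_comp h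
  refine h2.congr (Eventually.of_forall fun ζ => ?_)
  exact (s5c_d1_eq_conj u ζ).symm

theorem s5c_stokes_dilate (hu : ContDiffOn ℝ ∞ u uDiscC) {ρ : ℝ} (h0 : 0 < ρ) (h1 : ρ < 1) :
    B14.pavg (fun θ => B14.ech 1 θ * u (ρ * circleMap 0 1 θ)) =
      (Real.pi : ℂ)⁻¹ * ∫ z in uDisc, (ρ : ℂ) * s5c_dbarW u (ρ * z) := by
  have hR : 1 < ρ⁻¹ := (one_lt_inv₀ h0).2 h1
  have hmaps : ∀ z ∈ Metric.ball (0 : ℂ) ρ⁻¹, (ρ : ℂ) * z ∈ uDisc := by
    intro z hz
    rw [mem_ball_zero_iff] at hz ⊢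
    rw [norm_mul, Complex.norm_real, Real.norm_eq_abs, abs_of_pos h0]
    calc ρ * ‖z‖ < ρ * ρ⁻¹ := mul_lt_mul_of_pos_left hz h0
      _ = 1 := mul_inv_cancel₀ h0.ne'
  have hF : ContDiffOn ℝ 1 (fun z => u (ρ * z)) (Metric.ball 0 ρ⁻¹) :=
    (hu.of_le (by norm_cast)).comp (contDiff_const.mul contDiff_id).contDiffOn
      (fun z hz => Metric.ball_subset_closedBall (hmaps z hz))
  refine (B14.stokes_disc hR hF).trans ?_
  congr 1
  refine setIntegral_congr_fun measurableSet_ball fun z hz => ?_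
  have hz' : (ρ : ℂ) * z ∈ uDisc := hmaps z (Metric.ball_subset_ball hR.le hz)
  have hd : DifferentiableAt ℝ u (ρ * z) :=
    (hu.contDiffAt (s5c_mem_nhds hz')).differentiableAt (by simp)
  have h2 : HasFDerivAt (fun z : ℂ => (ρ : ℂ) * z) (ρ • ContinuousLinearMap.id ℝ ℂ) z := by
    have h3 := ((ContinuousLinearMap.id ℝ ℂ).hasFDerivAt (x := z)).const_smul ρ
    have e : (fun z : ℂ => (ρ : ℂ) * z) = fun z : ℂ => ρ • (ContinuousLinearMap.id ℝ ℂ) z := by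
      funext w
      simp [Complex.real_smul]
    rw [e]
    exact h3
  have hcomp := hd.hasFDerivAt.comp z h2
  have e2 : (u ∘ fun z : ℂ => (ρ : ℂ) * z) = fun z => u (ρ * z) := rfl
  rw [e2] at hcomp
  show B14.dbarC (fun z => u (ρ * z)) z = _
  unfold B14.dbarC s5c_dbarW
  rw [hcomp.fderiv, ← s5c_fderiv_eq hz']
  have hs : ∀ v : ℂ, fderiv ℝ u (ρ * z) (ρ • v) = (ρ : ℂ) * fderiv ℝ u (ρ * z) v := fun v => by
    rw [map_smul, Complex.real_smul]
  simp only [ContinuousLinearMap.comp_apply, _root_.smul_apply, ContinuousLinearMap.id_apply, hs]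
  ring

/-- Cauchy-Pompeiu/Stokes: `∫_Δ ∂̄u dA = (1/2i) ∮ u dζ = π ⟨ζ u⟩`.  (Polar coordinates:
`∂_r + (i/r) ∂_θ = 2 e^{-iθ} ∂̄`, so `d/dr [r ∫ u(re^{iθ}) e^{iθ} dθ] = 2 r ∫ ∂̄u dθ`.) -/
theorem integral_dbar1 (hu : ContDiffOn ℝ ∞ u uDiscC) :
    ∫ ζ in uDisc, dbar1 u ζ = (Real.pi : ℂ) * cA fun ζ => ζ * u ζ := by
  set p : ℝ → ℝ := fun ρ => (Set.projIcc (0 : ℝ) 1 zero_le_one ρ : ℝ) with hp
  have hpc : Continuous p := continuous_subtype_val.comp continuous_projIcc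
  have hpm : ∀ ρ, p ρ ∈ Set.Icc (0 : ℝ) 1 := fun ρ => (Set.projIcc (0 : ℝ) 1 zero_le_one ρ).2
  have hpe : ∀ ρ ∈ Set.Icc (0 : ℝ) 1, p ρ = ρ := fun ρ hρ => by
    simp only [hp, Set.projIcc_of_mem zero_le_one hρ]
  have hmem : ∀ (ρ : ℝ) (z : ℂ), z ∈ uDiscC → ((p ρ : ℝ) : ℂ) * z ∈ uDiscC := by
    intro ρ z hz
    rw [mem_closedBall_zero_iff] at hz ⊢
    rw [norm_mul, Complex.norm_real, Real.norm_eq_abs, abs_of_nonneg (hpm ρ).1]
    exact mul_le_one₀ (hpm ρ).2 (norm_nonneg _) hz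
  -- the left side
  have hLc : Continuous fun ρ : ℝ =>
      B14.pavg fun θ => B14.ech 1 θ * u ((p ρ : ℝ) * circleMap 0 1 θ) := by
    have h1 : Continuous fun q : ℝ × ℝ => B14.ech 1 q.2 * u ((p q.1 : ℝ) * circleMap 0 1 q.2) := by
      refine ((B14.continuous_ech 1).comp continuous_snd).mul ?_
      refine hu.continuousOn.comp_continuous ?_ fun q =>
        hmem q.1 _ (B14.circleMap_mem_closedBall q.2)
      exact (Complex.continuous_ofReal.comp (hpc.comp continuous_fst)).mul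
        ((continuous_circleMap 0 1).comp continuous_snd)
    exact (intervalIntegral.continuous_parametric_intervalIntegral_of_continuous' (μ := volume)
      (f := fun (ρ θ : ℝ) => B14.ech 1 θ * u ((p ρ : ℝ) * circleMap 0 1 θ)) h1 0
      (2 * Real.pi)).const_smul ((2 * Real.pi)⁻¹ : ℝ)
  -- the right side
  have hD := s5c_continuousOn_dbarW hu
  obtain ⟨C, hC⟩ := (isCompact_closedBall (0 : ℂ) 1).exists_bound_of_continuousOn hD
  have hfin : IsFiniteMeasure (volume.restrict uDisc) :=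
    ⟨by rw [Measure.restrict_apply_univ]; exact measure_ball_lt_top⟩
  have hRc : Continuous fun ρ : ℝ =>
      ∫ z in uDisc, ((p ρ : ℝ) : ℂ) * s5c_dbarW u ((p ρ : ℝ) * z) := by
    refine continuous_of_dominated (bound := fun _ => C) (fun ρ => ?_) (fun ρ => ?_)
      (integrable_const _) ?_
    · refine ContinuousOn.aestronglyMeasurable ?_ measurableSet_ball
      refine continuousOn_const.mul (hD.comp (continuous_const.mul continuous_id).continuousOn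
        fun z hz => hmem ρ z (Metric.ball_subset_closedBall hz))
    · refine (ae_restrict_iff' measurableSet_ball).2 (Eventually.of_forall fun z hz => ?_)
      rw [norm_mul, Complex.norm_real, Real.norm_eq_abs, abs_of_nonneg (hpm ρ).1]
      have h2 := hC _ (hmem ρ z (Metric.ball_subset_closedBall hz))
      calc p ρ * ‖s5c_dbarW u ((p ρ : ℝ) * z)‖ ≤ 1 * C :=
            mul_le_mul (hpm ρ).2 h2 (norm_nonneg _) zero_le_one
        _ = C := one_mul _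
    · refine (ae_restrict_iff' measurableSet_ball).2 (Eventually.of_forall fun z hz => ?_)
      refine (Complex.continuous_ofReal.comp hpc).mul ?_
      exact hD.comp_continuous ((Complex.continuous_ofReal.comp hpc).mul continuous_const)
        fun ρ => hmem ρ z (Metric.ball_subset_closedBall hz)
  have hev : (fun ρ : ℝ => B14.pavg fun θ => B14.ech 1 θ * u ((p ρ : ℝ) * circleMap 0 1 θ))
      =ᶠ[𝓝[<] (1 : ℝ)] fun ρ : ℝ =>
        (Real.pi : ℂ)⁻¹ * ∫ z in uDisc, ((p ρ : ℝ) : ℂ) * s5c_dbarW u ((p ρ : ℝ) * z) := by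
    filter_upwards [Ioo_mem_nhdsLT (zero_lt_one' ℝ)] with ρ hρ
    rw [hpe ρ ⟨hρ.1.le, hρ.2.le⟩]
    exact s5c_stokes_dilate hu hρ.1 hρ.2
  have hRc' : Continuous fun ρ : ℝ =>
      (Real.pi : ℂ)⁻¹ * ∫ z in uDisc, ((p ρ : ℝ) : ℂ) * s5c_dbarW u ((p ρ : ℝ) * z) :=
    continuous_const.mul hRc
  have hlim := tendsto_nhds_unique_of_eventuallyEq
    ((hLc.tendsto 1).mono_left nhdsWithin_le_nhds)
    ((hRc'.tendsto 1).mono_left nhdsWithin_le_nhds) hev
  rw [hpe 1 ⟨zero_le_one, le_rfl⟩] at hlim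
  simp only [Complex.ofReal_one, one_mul] at hlim
  have e1 : ∫ ζ in uDisc, dbar1 u ζ = ∫ ζ in uDisc, s5c_dbarW u ζ :=
    setIntegral_congr_fun measurableSet_ball fun z hz => s5c_dbar1_eq hz
  have e2 : (cA fun ζ => ζ * u ζ) = B14.pavg fun θ => B14.ech 1 θ * u (circleMap 0 1 θ) := by
    rw [cA_eq_pavg]
    congr 1
    funext θ
    rw [B14.ech_one]
    rfl
  rw [e1, e2, hlim, ← mul_assoc, mul_inv_cancel₀ (by exact_mod_cast Real.pi_ne_zero), one_mul]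

theorem integral_d1 (hu : ContDiffOn ℝ ∞ u uDiscC) :
    ∫ ζ in uDisc, d1 u ζ = (Real.pi : ℂ) * cA fun ζ => (starRingEnd ℂ) ζ * u ζ := by
  have h := integral_dbar1 (s5c_contDiffOn_conj hu)
  simp only [s5c_d1_eq_conj u]
  rw [integral_conj, h, map_mul, Complex.conj_ofReal, cA_eq_pavg, cA_eq_pavg, ← B14.pavg_conj]
  congr 2
  funext θ
  simp [B14.bd]

/-- for holomorphic `a`: `D(a)² = π⁻¹ ∫_Δ |a'|² dA`. -/
theorem HolSm.Dsq_eq_integral {a : ℂ → ℂ} (ha : HolSm a) :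
    Dsq a = Real.pi⁻¹ * ∫ ζ in uDisc, ‖deriv a ζ‖ ^ 2 := by
  rw [Dsq_eq_hsq]
  exact ha.toB14.hsq_eq_area

/-- the monomials `√((k+1)/π) ζ^k` are orthonormal in `L²(Δ)`: Bessel's inequality. -/
theorem bessel_disc {b : ℂ → ℂ} (hb : ContinuousOn b uDiscC) :
    Summable (fun k : ℕ => ((k : ℝ) + 1) * ‖Real.pi⁻¹ * ∫ ζ in uDisc, b ζ * ζ ^ k‖ ^ 2) ∧
    ∑' k : ℕ, ((k : ℝ) + 1) * ‖(Real.pi⁻¹ : ℂ) * ∫ ζ in uDisc, b ζ * ζ ^ k‖ ^ 2 ≤
      Real.pi⁻¹ * ∫ ζ in uDisc, ‖b ζ‖ ^ 2 := by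
  have h := B14.bessel_disc hb
  refine ⟨?_, h.2⟩
  simp only [Complex.ofReal_inv]
  exact h.1

/-- the angular derivative of a function smooth on the closed disc. -/
noncomputable def s5c_T (b : ℂ → ℂ) (ζ : ℂ) : ℂ := fderivWithin ℝ b uDiscC ζ (Complex.I * ζ)

theorem s5c_contDiffOn_T {b : ℂ → ℂ} (hb : ContDiffOn ℝ ∞ b uDiscC) :
    ContDiffOn ℝ ∞ (s5c_T b) uDiscC := by
  have h1 : ContDiffOn ℝ ∞ (fderivWithin ℝ b uDiscC) uDiscC :=
    hb.fderivWithin s5c_uniqueDiffOn (by simp)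
  exact h1.clm_apply (contDiff_const.mul contDiff_id).contDiffOn

theorem s5c_hasDerivAt_circle {b : ℂ → ℂ} (hb : ContDiffOn ℝ ∞ b uDiscC) {r : ℝ}
    (hr : r ∈ Set.Icc (0 : ℝ) 1) (θ : ℝ) :
    HasDerivAt (fun θ => b (circleMap 0 r θ)) (s5c_T b (circleMap 0 r θ)) θ := by
  have hm := B14.circleMap_mem_closedBall_of_mem hr
  have h1 : HasFDerivWithinAt b (fderivWithin ℝ b uDiscC (circleMap 0 r θ)) uDiscC
      (circleMap 0 r θ) :=
    ((hb.differentiableOn (by simp)) _ (hm θ)).hasFDerivWithinAt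
  have h2 : HasDerivAt (circleMap 0 r) (circleMap 0 r θ * Complex.I) θ := hasDerivAt_circleMap 0 r θ
  have h3 := h1.comp_hasDerivAt θ h2 (Eventually.of_forall hm)
  unfold s5c_T
  rw [mul_comm Complex.I]
  exact h3

theorem s5c_integral_T_mul_pow {b : ℂ → ℂ} (hb : ContDiffOn ℝ ∞ b uDiscC) (k : ℕ) :
    ∫ ζ in uDisc, s5c_T b ζ * ζ ^ k = -((k : ℂ) * Complex.I) * ∫ ζ in uDisc, b ζ * ζ ^ k := by
  have hc1 : ContinuousOn (fun ζ => s5c_T b ζ * ζ ^ k) uDiscC :=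
    (s5c_contDiffOn_T hb).continuousOn.mul (continuous_pow k).continuousOn
  have hc2 : ContinuousOn (fun ζ => b ζ * ζ ^ k) uDiscC :=
    hb.continuousOn.mul (continuous_pow k).continuousOn
  rw [B14.integral_ball_polar hc1, B14.integral_ball_polar hc2,
    ← intervalIntegral.integral_const_mul]
  refine intervalIntegral.integral_congr fun r hr => ?_
  rw [Set.uIcc_of_le zero_le_one] at hr
  have hm := B14.circleMap_mem_closedBall_of_mem hr
  have hβ : ContDiff ℝ ∞ fun θ => b (circleMap 0 r θ) :=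
    hb.comp_contDiff (contDiff_circleMap 0 r) hm
  have hper : Function.Periodic (fun θ => b (circleMap 0 r θ)) (2 * Real.pi) := fun θ => by
    simp only [periodic_circleMap 0 r θ]
  have hder : deriv (fun θ => b (circleMap 0 r θ)) = fun θ => s5c_T b (circleMap 0 r θ) :=
    funext fun θ => (s5c_hasDerivAt_circle hb hr θ).deriv
  have h1 := B14.fc_deriv hper (hβ.of_le (by norm_cast)) (-(k : ℤ))
  rw [hder] at h1
  unfold B14.fc at h1
  simp only [neg_neg] at h1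
  have key : B14.pavg (fun θ => s5c_T b (circleMap 0 r θ) * circleMap 0 r θ ^ k) =
      -((k : ℂ) * Complex.I) * B14.pavg fun θ => b (circleMap 0 r θ) * circleMap 0 r θ ^ k := by
    have e1 : (fun θ => s5c_T b (circleMap 0 r θ) * circleMap 0 r θ ^ k) =
        fun θ => (r : ℂ) ^ k * (B14.ech (k : ℤ) θ * s5c_T b (circleMap 0 r θ)) := by
      funext θ
      rw [B14.circleMap_zero_pow]
      ring
    have e2 : (fun θ => b (circleMap 0 r θ) * circleMap 0 r θ ^ k) =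
        fun θ => (r : ℂ) ^ k * (B14.ech (k : ℤ) θ * b (circleMap 0 r θ)) := by
      funext θ
      rw [B14.circleMap_zero_pow]
      ring
    rw [e1, e2, B14.pavg_const_mul, B14.pavg_const_mul, h1]
    push_cast
    ring
  simp only [key, Complex.real_smul]
  ring

theorem s5c_contDiffOn_T_iter {b : ℂ → ℂ} (hb : ContDiffOn ℝ ∞ b uDiscC) (N : ℕ) :
    ContDiffOn ℝ ∞ (s5c_T^[N] b) uDiscC := by
  induction N generalizing b with
  | zero => exact hb
  | succ n ih =>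
    rw [Function.iterate_succ_apply]
    exact ih (s5c_contDiffOn_T hb)

theorem s5c_moment_iter {b : ℂ → ℂ} (hb : ContDiffOn ℝ ∞ b uDiscC) (N k : ℕ) :
    ‖∫ ζ in uDisc, b ζ * ζ ^ k‖ * (k : ℝ) ^ N = ‖∫ ζ in uDisc, (s5c_T^[N] b) ζ * ζ ^ k‖ := by
  induction N generalizing b with
  | zero => simp
  | succ n ih =>
    rw [Function.iterate_succ_apply, ← ih (s5c_contDiffOn_T hb), s5c_integral_T_mul_pow hb,
      norm_mul, norm_neg, norm_mul, Complex.norm_I, mul_one, Complex.norm_natCast]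
    ring

theorem s5c_moment_le {f : ℂ → ℂ} (hf : ContinuousOn f uDiscC) :
    ∃ C : ℝ, ∀ k : ℕ, ‖∫ ζ in uDisc, f ζ * ζ ^ k‖ ≤ C := by
  obtain ⟨C, hC⟩ := (isCompact_closedBall (0 : ℂ) 1).exists_bound_of_continuousOn hf
  refine ⟨C * volume.real uDisc, fun k => ?_⟩
  refine norm_setIntegral_le_of_norm_le_const measure_ball_lt_top fun ζ hζ => ?_
  rw [norm_mul, norm_pow]
  have h1 : ‖ζ‖ ≤ 1 := by
    rw [mem_ball_zero_iff] at hζ
    exact hζ.le
  calc ‖f ζ‖ * ‖ζ‖ ^ k ≤ C * 1 :=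
        mul_le_mul (hC ζ (Metric.ball_subset_closedBall hζ)) (pow_le_one₀ (norm_nonneg _) h1)
          (by positivity) ((norm_nonneg _).trans (hC ζ (Metric.ball_subset_closedBall hζ)))
    _ = C := mul_one _

/-- rapid decay of the moments of a function smooth on the closed disc (angular integration by
parts in polar coordinates). -/
theorem moments_decay {b : ℂ → ℂ} (hb : ContDiffOn ℝ ∞ b uDiscC) (N : ℕ) :
    ∃ C : ℝ, ∀ k : ℕ, ‖∫ ζ in uDisc, b ζ * ζ ^ k‖ * (1 + (k : ℝ)) ^ N ≤ C := by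
  obtain ⟨C₀, hC₀⟩ := s5c_moment_le hb.continuousOn
  obtain ⟨C₁, hC₁⟩ := s5c_moment_le (s5c_contDiffOn_T_iter hb N).continuousOn
  refine ⟨2 ^ N * (C₀ + C₁), fun k => ?_⟩
  have h0 := hC₀ k
  have h1 := hC₁ k
  rw [← s5c_moment_iter hb] at h1
  have hx : (0 : ℝ) ≤ (k : ℝ) := Nat.cast_nonneg k
  have h2 : (1 + (k : ℝ)) ^ N ≤ 2 ^ N * (1 + (k : ℝ) ^ N) := by
    rcases le_total (k : ℝ) 1 with hk | hk
    · calc (1 + (k : ℝ)) ^ N ≤ 2 ^ N := pow_le_pow_left₀ (by positivity) (by linarith) N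
        _ ≤ 2 ^ N * (1 + (k : ℝ) ^ N) := by
          have : (0 : ℝ) ≤ (k : ℝ) ^ N := by positivity
          nlinarith [pow_pos (two_pos : (0 : ℝ) < 2) N]
    · calc (1 + (k : ℝ)) ^ N ≤ (2 * (k : ℝ)) ^ N :=
          pow_le_pow_left₀ (by positivity) (by linarith) N
        _ = 2 ^ N * (k : ℝ) ^ N := mul_pow _ _ _
        _ ≤ 2 ^ N * (1 + (k : ℝ) ^ N) := by
          nlinarith [pow_pos (two_pos : (0 : ℝ) < 2) N]
  calc ‖∫ ζ in uDisc, b ζ * ζ ^ k‖ * (1 + (k : ℝ)) ^ N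
      ≤ ‖∫ ζ in uDisc, b ζ * ζ ^ k‖ * (2 ^ N * (1 + (k : ℝ) ^ N)) :=
        mul_le_mul_of_nonneg_left h2 (norm_nonneg _)
    _ = 2 ^ N * (‖∫ ζ in uDisc, b ζ * ζ ^ k‖ + ‖∫ ζ in uDisc, b ζ * ζ ^ k‖ * (k : ℝ) ^ N) := by
        ring
    _ ≤ 2 ^ N * (C₀ + C₁) := by gcongr

end Stokes

/-! ## `S5-C6`: families depending holomorphically on a parameter `z`; the mean value test -/

section CauchyZ

/-- the dictionary for families depending on a parameter. -/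
theorem holFam_of_circle {X : ℂ → ℂ → ℂ} {r₀ : ℝ}
    (hhol : ∀ ζ ∈ uCirc, DifferentiableOn ℂ (fun z => X z ζ) (Metric.ball 0 r₀))
    (hcont : ContinuousOn (fun p : ℂ × ℂ => X p.1 p.2) (Metric.ball 0 r₀ ×ˢ uCirc)) :
    B14.HolFam (fun z => B14.bd (X z)) r₀ where
  hol := fun θ => hhol _ (circleMap_mem_uCirc θ)
  cont := by
    have h1 : Continuous fun p : ℂ × ℝ => ((p.1, circleMap 0 1 p.2) : ℂ × ℂ) :=
      continuous_fst.prodMk ((continuous_circleMap 0 1).comp continuous_snd)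
    exact hcont.comp h1.continuousOn fun p hp => ⟨hp.1, circleMap_mem_uCirc p.2⟩

/-- CAUCHY ESTIMATES IN THE SEMINORM `D`.  `X z ζ` is holomorphic in `z ∈ B(0, r₀)` for every `ζ` of
the circle, jointly continuous, Lipschitz in `ζ`, with `D(X_z)² ≤ M`.  Then `V_z = ∂_z X_z` satisfies
`D(V_0)² ≤ M / r₀²` and `D(V_z - V_0)² ≤ 64 M |z|² / r₀⁴` for `|z| ≤ r₀/2`.
(Each Fourier coefficient `z ↦ fco (X z) k` is holomorphic; Parseval on `|z| = ρ < r₀`:
`∑_n ρ^{2n} ∑_k |k| |c_{n,k}|² = avg_{|z| = ρ} D(X_z)² ≤ M`.) -/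
theorem Dsq_deriv_le {X : ℂ → ℂ → ℂ} {r₀ M : ℝ} (hr : 0 < r₀)
    (hhol : ∀ ζ ∈ uCirc, DifferentiableOn ℂ (fun z => X z ζ) (Metric.ball 0 r₀))
    (hcont : ContinuousOn (fun p : ℂ × ℂ => X p.1 p.2) (Metric.ball 0 r₀ ×ˢ uCirc))
    (hlip : ∀ z ∈ Metric.ball (0 : ℂ) r₀, CircLip (X z))
    (hlip' : ∀ z ∈ Metric.ball (0 : ℂ) r₀, CircLip fun ζ => deriv (fun y => X y ζ) z)
    (hM : ∀ z ∈ Metric.ball (0 : ℂ) r₀, Dsq (X z) ≤ M) :
    Dsq (fun ζ => deriv (fun y => X y ζ) 0) ≤ M / r₀ ^ 2 ∧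
    ∀ z : ℂ, ‖z‖ ≤ r₀ / 2 →
      Dsq (fun ζ => deriv (fun y => X y ζ) z - deriv (fun y => X y ζ) 0) ≤
        64 * M * ‖z‖ ^ 2 / r₀ ^ 4 := by
  have key := (holFam_of_circle hhol hcont).hsq_deriv_le hr
    (fun z hz => circLip_iff.1 (hlip z hz))
    (fun z hz => (circLip_iff.1 (hlip' z hz)).continuous)
    (fun z hz => by rw [← Dsq_eq_hsq]; exact hM z hz)
  simp only [Dsq_eq_hsq]
  exact key

/-- Parseval in `z`: the circle mean in `z` of `D(X_z)²`. -/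
theorem avg_Dsq_le {X : ℂ → ℂ → ℂ} {r₀ M : ℝ} (hr : 0 < r₀)
    (hhol : ∀ ζ ∈ uCirc, DifferentiableOn ℂ (fun z => X z ζ) (Metric.ball 0 r₀))
    (hcont : ContinuousOn (fun p : ℂ × ℂ => X p.1 p.2) (Metric.ball 0 r₀ ×ˢ uCirc))
    (hlip : ∀ z ∈ Metric.ball (0 : ℂ) r₀, CircLip (X z))
    (hlip' : CircLip fun ζ => deriv (fun y => X y ζ) 0)
    (hM : ∀ z ∈ Metric.ball (0 : ℂ) r₀, Dsq (X z) ≤ M) {r : ℝ} (h0 : 0 < r) (h1 : r ≤ r₀ / 2) :
    CircleIntegrable (fun z => Dsq (X z)) 0 r ∧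
    Real.circleAverage (fun z => Dsq (X z)) 0 r ≤
      Dsq (X 0) + r ^ 2 * Dsq (fun ζ => deriv (fun y => X y ζ) 0) + 2 * M * r ^ 4 / r₀ ^ 4 := by
  have key := (holFam_of_circle hhol hcont).pavg_hsq_le hr
    (fun z hz => circLip_iff.1 (hlip z hz)) (circLip_iff.1 hlip')
    (fun z hz => by rw [← Dsq_eq_hsq]; exact hM z hz) h0 h1
  simp only [Dsq_eq_hsq]
  exact key

/-- sup norm Cauchy estimate (scalar, for reference). -/
theorem norm_deriv_sub_le {F : ℂ → ℂ} {r₀ M : ℝ} (hr : 0 < r₀)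
    (hhol : DifferentiableOn ℂ F (Metric.ball 0 r₀)) (hM : ∀ z ∈ Metric.ball (0 : ℂ) r₀, ‖F z‖ ≤ M) :
    ‖deriv F 0‖ ≤ M / r₀ ∧ ∀ z : ℂ, ‖z‖ ≤ r₀ / 2 → ‖deriv F z - deriv F 0‖ ≤ 8 * M * ‖z‖ / r₀ ^ 2 := by
  exact B14.norm_deriv_sub_le_vec hr hhol hM

/-- `∂_z ∂_{\bar z}` of a real function of one complex variable. -/
noncomputable def lap1 (Φ : ℂ → ℝ) (z : ℂ) : ℝ :=
  (dbar1 (fun y => d1 (fun x => (Φ x : ℂ)) y) z).re

/-- mean value inequality: `lap1 Φ ≤ Λ` on `B(0, r₀)` implies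
`avg_{|z| = r} Φ ≤ Φ(0) + Λ r²`. -/
theorem circleAverage_le_of_lap1_le {Φ : ℂ → ℝ} {r₀ Λ : ℝ}
    (hΦ : ContDiffOn ℝ 2 Φ (Metric.ball 0 r₀)) (hΛ : ∀ z ∈ Metric.ball (0 : ℂ) r₀, lap1 Φ z ≤ Λ)
    {r : ℝ} (h0 : 0 < r) (h1 : r < r₀) :
    Real.circleAverage Φ 0 r ≤ Φ 0 + Λ * r ^ 2 := by
  exact B14.pavg_le_of_lap_le hΦ hΛ h0 h1

end CauchyZ

end Claimed.Agent.R316
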