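import Claimed.Agent.R316.S5.Symbol

/-!
# Row 316, Section 5.4: the backward clock ((5.24)-(5.26)) and the field `clock` of `FixedJ`

Only `w` and `s` are varied, the disc `f` is FIXED: no deformation of discs in `Y` is needed here.

Leaves:
* `S5-K1` `clock_variation` (circle analysis only): `Γ` holomorphic with `Re Γ = γ - 1` on the circle, `Γ(0) = 0`
  (`exists_holSm_re`), `w' = w + (λ/2) Γ`, `s' = s e^λ`, `λ < 0`.
* `S5-K2` `backward_test` (5.26): compare `fun5` at `(f, w', s')` with `mu5`; Taylor in `λ` with the bounds of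
  `∂_t`, `∂_t²` of `N + d_0` on `K × [0, T]` (`cost_time_bounds`); choose `|λ| = √η`.
* `S5-K3` `sympP_Tb` (frame invariance: `conj_ambM_ddc`, `sympP_conj`, `sympP_smul`), `clock_avg_le` (`IsWalls.sympl`, `cA_g0_ge`).  `clock5` (assembly) is PROVED.
-/

set_option autoImplicit false
set_option linter.unusedSectionVars false
set_option maxSynthPendingDepth 3
open scoped ContDiff ComplexOrder Topology Matrix
open MeasureTheory Filter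

namespace Claimed.Agent.R316

/-- the clock variation, on the level of the unit disc. -/
theorem clock_variation {w : ℂ → ℂ} (hw : HolSm w) (hw0 : w 0 = 0) {γ : ℂ → ℝ}
    (hγ : CircSm fun ζ => (γ ζ : ℂ)) (hpos : ∀ ζ ∈ uCirc, 0 < γ ζ) (hmean : cA γ = 1) :
    ∃ Γ : ℂ → ℂ, HolSm Γ ∧ Γ 0 = 0 ∧ (∀ ζ ∈ uCirc, (Γ ζ).re = γ ζ - 1) ∧
      (∀ ζ ∈ uDiscC, -1 < (Γ ζ).re) ∧ Dsq Γ = 2 * DsqR γ ∧
      ∀ lam : ℝ, Dsq (fun ζ => w ζ + (lam / 2 : ℝ) * Γ ζ) ≤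
        Dsq w + |lam| * Real.sqrt (Dsq w) * Real.sqrt (2 * DsqR γ) + lam ^ 2 / 2 * DsqR γ := by
  obtain ⟨g, hg, hre, hg0, hD, -⟩ := exists_holSm_re hγ
  have hΓ : HolSm fun ζ => g ζ + (-1) := hg.add (holSm_const (-1))
  have hDΓ : Dsq (fun ζ => g ζ + (-1)) = 2 * DsqR γ := by
    rw [Dsq_add_const g (-1) hg.circSm.circLip, hD]
  refine ⟨fun ζ => g ζ + (-1), hΓ, ?_, fun ζ hζ => ?_, fun ζ hζ => ?_, hDΓ, fun lam => ?_⟩
  · simp [hg0, hmean]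
  · simp [hre ζ hζ, sub_eq_add_neg]
  · have := hg.re_pos (fun ζ hζ => by rw [hre ζ hζ]; exact hpos ζ hζ) ζ hζ
    simp only [Complex.add_re, Complex.neg_re, Complex.one_re]
    linarith
  · have hc : HolSm fun ζ => ((lam / 2 : ℝ) : ℂ) * (g ζ + (-1)) := (holSm_const _).mul hΓ
    have h1 := Dsq_add_eq hw.circSm.circLip hc.circSm.circLip
    have h2 := norm_BD_le hw.circSm.circLip hc.circSm.circLip
    have h3 : Dsq (fun ζ => ((lam / 2 : ℝ) : ℂ) * (g ζ + (-1))) = (lam / 2) ^ 2 * (2 * DsqR γ) := by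
      rw [Dsq_const_mul, hDΓ, Complex.norm_real, Real.norm_eq_abs, sq_abs]
    have h4 : Real.sqrt (Dsq fun ζ => ((lam / 2 : ℝ) : ℂ) * (g ζ + (-1)))
        = |lam| / 2 * Real.sqrt (2 * DsqR γ) := by
      rw [h3, Real.sqrt_mul (sq_nonneg _), Real.sqrt_sq_eq_abs, abs_div, abs_two]
    have h5 := (Complex.re_le_norm (BD w fun ζ => ((lam / 2 : ℝ) : ℂ) * (g ζ + (-1)))).trans h2
    rw [h4] at h5
    rw [h1, h3]
    nlinarith

/-! ### elementary calculus -/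

/-- first order Taylor estimate from a Lipschitz derivative. -/
theorem clk_taylor {F F' : ℝ → ℝ} {I : Set ℝ} (hI : Convex ℝ I) {L : ℝ}
    (hd : ∀ t ∈ I, HasDerivAt F (F' t) t)
    (hL : ∀ t ∈ I, ∀ t' ∈ I, |F' t - F' t'| ≤ L * |t - t'|) {t t' : ℝ} (ht : t ∈ I)
    (ht' : t' ∈ I) : |F t' - F t - F' t * (t' - t)| ≤ L * (t' - t) ^ 2 := by
  by_cases hne : t = t'
  · subst hne
    simp
  have hpos : 0 < |t - t'| := abs_pos.2 (sub_ne_zero.2 hne)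
  have hL0 : 0 ≤ L := by
    have := (abs_nonneg _).trans (hL t ht t' ht')
    exact nonneg_of_mul_nonneg_left this hpos
  have hsub : Set.uIcc t t' ⊆ I := hI.ordConnected.uIcc_subset ht ht'
  have h1 : ∀ u ∈ Set.uIcc t t', HasDerivWithinAt (fun u => F u - F' t * u) (F' u - F' t)
      (Set.uIcc t t') u := fun u hu => by
    have h0 : HasDerivAt (fun u => F u - F' t * u) (F' u - F' t * 1) u :=
      (hd u (hsub hu)).sub ((hasDerivAt_id u).const_mul (F' t))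
    rw [mul_one] at h0
    exact h0.hasDerivWithinAt
  have h2 : ∀ u ∈ Set.uIcc t t', ‖F' u - F' t‖ ≤ L * |t' - t| := fun u hu => by
    rw [Real.norm_eq_abs]
    refine (hL u (hsub hu) t ht).trans (mul_le_mul_of_nonneg_left ?_ hL0)
    exact Set.abs_sub_left_of_mem_uIcc hu
  have h3 := Convex.norm_image_sub_le_of_norm_hasDerivWithin_le h1 h2 (convex_uIcc t t')
    Set.left_mem_uIcc Set.right_mem_uIcc
  rw [Real.norm_eq_abs, Real.norm_eq_abs] at h3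
  have e1 : F t' - F' t * t' - (F t - F' t * t) = F t' - F t - F' t * (t' - t) := by ring
  have e2 : L * |t' - t| * |t' - t| = L * (t' - t) ^ 2 := by
    rw [mul_assoc, ← sq, sq_abs]
  rw [e1, e2] at h3
  exact h3

/-- the effect of the multiplicative time change `t ↦ t e^x`, `-1 ≤ x ≤ 0`. -/
theorem clk_pointwise {F F' : ℝ → ℝ} {T C : ℝ}
    (hd : ∀ t ∈ Set.Ioo (0 : ℝ) T, HasDerivAt F (F' t) t ∧ |F' t| ≤ C ∧
      ∀ t' ∈ Set.Ioo (0 : ℝ) T, |F' t - F' t'| ≤ C * |t - t'|)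
    {t x : ℝ} (ht : t ∈ Set.Ioo (0 : ℝ) T) (hx0 : x ≤ 0) (hx1 : -1 ≤ x) :
    F (t * Real.exp x) ≤ F t + x * (t * F' t) + C * (T + T ^ 2) * x ^ 2 := by
  have hC : 0 ≤ C := (abs_nonneg _).trans (hd t ht).2.1
  have he1 : Real.exp x ≤ 1 := Real.exp_le_one_iff.2 hx0
  have he0 : 0 < Real.exp x := Real.exp_pos x
  have he2 : x + 1 ≤ Real.exp x := Real.add_one_le_exp x
  have he3 : |Real.exp x - 1 - x| ≤ x ^ 2 :=
    Real.abs_exp_sub_one_sub_id_le (abs_le.2 ⟨hx1, hx0.trans zero_le_one⟩)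
  have ht' : t * Real.exp x ∈ Set.Ioo (0 : ℝ) T :=
    ⟨mul_pos ht.1 he0, lt_of_le_of_lt (by nlinarith [ht.1]) ht.2⟩
  have h1 := clk_taylor (F := F) (F' := F') (convex_Ioo 0 T) (fun t ht => (hd t ht).1)
    (fun t ht t' ht' => (hd t ht).2.2 t' ht') ht ht'
  have h2 := (abs_le.1 h1).2
  have hT : 0 < T := ht.1.trans ht.2
  have e1 : t * Real.exp x - t = t * x + t * (Real.exp x - 1 - x) := by ring
  have b1 : F' t * (t * (Real.exp x - 1 - x)) ≤ C * T * x ^ 2 := by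
    have : |F' t * (t * (Real.exp x - 1 - x))| ≤ C * (T * x ^ 2) := by
      rw [abs_mul, abs_mul, abs_of_pos ht.1]
      exact mul_le_mul (hd t ht).2.1 (mul_le_mul ht.2.le he3 (abs_nonneg _) hT.le)
        (mul_nonneg ht.1.le (abs_nonneg _)) hC
    linarith [le_abs_self (F' t * (t * (Real.exp x - 1 - x)))]
  have b2 : (t * Real.exp x - t) ^ 2 ≤ T ^ 2 * x ^ 2 := by
    have e2 : (t * Real.exp x - t) ^ 2 = t ^ 2 * (1 - Real.exp x) ^ 2 := by ring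
    rw [e2]
    have b3 : (1 - Real.exp x) ^ 2 ≤ x ^ 2 := by
      rw [← sq_abs x, abs_of_nonpos hx0]
      exact pow_le_pow_left₀ (by linarith) (by linarith) 2
    exact mul_le_mul (pow_le_pow_left₀ ht.1.le ht.2.le 2) b3 (sq_nonneg _) (sq_nonneg _)
  have b4 := mul_le_mul_of_nonneg_left b2 hC
  rw [e1] at h2
  nlinarith

/-- first order Taylor estimate in the time variable, uniform on a compact cylinder. -/
theorem clk_phi_taylor {E : Type} [NormedAddCommGroup E] [NormedSpace ℝ E] [FiniteDimensional ℝ E]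
    {φ : ℝ → E → ℝ} (hφ : ContDiff ℝ ∞ (fun a : ℝ × E => φ a.1 a.2)) (a b : ℝ) (p₀ : E) (r : ℝ) :
    ∃ C : ℝ, ∀ p ∈ Metric.closedBall p₀ r, ∀ s ∈ Set.Icc a b,
      |deriv (fun s' => φ s' p) s| ≤ C ∧
      ∀ s' ∈ Set.Icc a b,
        |φ s' p - φ s p - deriv (fun s' => φ s' p) s * (s' - s)| ≤ C * (s' - s) ^ 2 := by
  have hψ : ContDiff ℝ 1 fun x : ℝ × E => fderiv ℝ (fun a : ℝ × E => φ a.1 a.2) x (1, 0) :=
    (hφ.fderiv_right (m := 1) (by norm_cast)).clm_apply contDiff_const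
  have hder : ∀ (s : ℝ) (p : E), HasDerivAt (fun s' => φ s' p)
      (fderiv ℝ (fun a : ℝ × E => φ a.1 a.2) (s, p) (1, 0)) s := fun s p => by
    have h1 : HasFDerivAt (fun a : ℝ × E => φ a.1 a.2)
        (fderiv ℝ (fun a : ℝ × E => φ a.1 a.2) (s, p)) ((fun x : ℝ => (x, p)) s) :=
      (hφ.differentiable (by simp) (s, p)).hasFDerivAt
    have h2 : HasDerivAt (fun x : ℝ => (x, p)) ((1 : ℝ), (0 : E)) s :=
      (hasDerivAt_id s).prodMk (hasDerivAt_const s p)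
    exact h1.comp_hasDerivAt s h2
  have hcomp : IsCompact (Set.Icc a b ×ˢ Metric.closedBall p₀ r) :=
    isCompact_Icc.prod (isCompact_closedBall p₀ r)
  have hconv : Convex ℝ (Set.Icc a b ×ˢ Metric.closedBall p₀ r) :=
    (convex_Icc a b).prod (convex_closedBall p₀ r)
  obtain ⟨L, hL⟩ := hψ.contDiffOn.exists_lipschitzOnWith one_ne_zero hconv hcomp
  obtain ⟨M, hM⟩ := hcomp.exists_bound_of_continuousOn hψ.continuous.continuousOn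
  refine ⟨max M L, fun p hp s hs => ?_⟩
  have hLip : ∀ t ∈ Set.Icc a b, ∀ t' ∈ Set.Icc a b,
      |fderiv ℝ (fun a : ℝ × E => φ a.1 a.2) (t, p) (1, 0) -
        fderiv ℝ (fun a : ℝ × E => φ a.1 a.2) (t', p) (1, 0)| ≤ max M L * |t - t'| := by
    intro t ht t' ht'
    have h1 := hL.dist_le_mul (t, p) ⟨ht, hp⟩ (t', p) ⟨ht', hp⟩
    rw [Prod.dist_eq, dist_self, max_eq_left dist_nonneg, Real.dist_eq, Real.dist_eq] at h1
    exact h1.trans (mul_le_mul_of_nonneg_right (le_max_right _ _) (abs_nonneg _))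
  rw [(hder s p).deriv]
  refine ⟨?_, fun s' hs' => ?_⟩
  · have := hM (s, p) ⟨hs, hp⟩
    rw [Real.norm_eq_abs] at this
    exact this.trans (le_max_left _ _)
  · exact clk_taylor (F := fun s' => φ s' p)
      (F' := fun s' => fderiv ℝ (fun a : ℝ × E => φ a.1 a.2) (s', p) (1, 0)) (convex_Icc a b)
      (fun t _ => hder t p) hLip hs hs'

theorem clk_cA_mono {u v : ℂ → ℝ} (hu : Continuous (B14.bd u)) (hv : Continuous (B14.bd v))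
    (h : ∀ ζ ∈ uCirc, u ζ ≤ v ζ) : cA u ≤ cA v :=
  B14.pavg_mono hu hv fun θ => h _ (circleMap_mem_uCirc θ)

variable {V : Type} [NormedAddCommGroup V] [InnerProductSpace ℝ V] [FiniteDimensional ℝ V]
variable [MeasurableSpace V] [BorelSpace V]
variable {n : ℕ} {𝓜 : CMfd V (Fin n)} {g : HFam V (Fin n)} {o : V}
variable {D : FlowData 𝓜 g o} {𝒴 : CMfd (CotAmb V) (Fin n ⊕ Fin n)}
variable {X : S5Ctx V n} {𝔚 : Walls V} {err A1 A2 : ℝ}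

/-- the time derivative of `N + d_0`, as a smooth function on `Y × [0, T]`. -/
noncomputable def clkFt (𝔚 : Walls V) (D : FlowData 𝓜 g o) (T : ℝ) (t : ℝ) (y : CotAmb V) : ℝ :=
  derivWithin (fun s => D.N y s) (Set.Icc 0 T) t + 𝔚.d0t t y.1

theorem clkFt_eqns_cite : True := by
  have := @clkFt.eq_1
  trivial

theorem Std5.sFt (h : Std5 X 𝔚 D 𝒴 err A1 A2) :
    𝒴.SmoothST (Set.Icc 0 X.T) (clkFt 𝔚 D X.T) :=
  smoothST_add (h.sN.derivWithin h.timeDom) (smoothST_base h.cot h.walls.d0t_smooth)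

theorem clkFt_eq {T t : ℝ} (ht : t ∈ Set.Ioo (0 : ℝ) T) (y : CotAmb V) :
    clkFt 𝔚 D T t y = deriv (fun s => D.N y s) t + 𝔚.d0t t y.1 := by
  unfold clkFt
  rw [derivWithin_of_mem_nhds (Icc_mem_nhds ht.1 ht.2)]

/-- first and second time derivatives of `N + d_0` are bounded on the region. -/
theorem cost_time_bounds (h : Std5 X 𝔚 D 𝒴 err A1 A2) :
    ∃ C : ℝ, ∀ y ∈ 𝔚.reg 𝒴, ∀ t ∈ Set.Ioo (0 : ℝ) X.T,
      HasDerivAt (fun s => D.N y s + 𝔚.d0 s y.1) (deriv (fun s => D.N y s) t + 𝔚.d0t t y.1) t ∧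
      |deriv (fun s => D.N y s) t + 𝔚.d0t t y.1| ≤ C ∧
      ∀ t' ∈ Set.Ioo (0 : ℝ) X.T,
        |(deriv (fun s => D.N y s) t + 𝔚.d0t t y.1) - (deriv (fun s => D.N y s) t' + 𝔚.d0t t' y.1)|
          ≤ C * |t - t'| := by
  obtain ⟨K, hK, hKY, hreg⟩ := h.walls.compact
  obtain ⟨C, hC⟩ := (SmST.ofReal h.sFt).exists_glip h.valid.imm hK hKY
  refine ⟨C, fun y hy t ht => ?_⟩
  have htI := Set.Ioo_subset_Icc_self ht
  have hnh : Set.Icc 0 X.T ∈ 𝓝 t := Icc_mem_nhds ht.1 ht.2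
  refine ⟨?_, ?_, fun t' ht' => ?_⟩
  · have h1 := (h.sN.hasDerivWithinAt htI hy.1).hasDerivAt hnh
    rw [derivWithin_of_mem_nhds hnh] at h1
    have h2 := (h.walls.d0_deriv t htI y.1 (h.base_mem hy.1)).hasDerivAt hnh
    exact h1.add h2
  · have := hC.1 y (hreg hy) t htI
    rw [Complex.norm_real, Real.norm_eq_abs, clkFt_eq ht] at this
    exact this
  · have := hC.2 y (hreg hy) y (hreg hy) t htI t' (Set.Ioo_subset_Icc_self ht')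
    rw [sub_self, norm_zero, zero_add, ← Complex.ofReal_sub, Complex.norm_real, Real.norm_eq_abs,
      clkFt_eq ht, clkFt_eq ht'] at this
    exact this

/-- `D(γ)² ≤ C (1 + 𝓔)`, `γ ≤ C`. -/
theorem gam_bounds (h : Std5 X 𝔚 D 𝒴 err A1 A2) (B : ℝ) :
    ∃ C : ℝ, ∀ c : Config V n, IsAdm X 𝔚 𝒴 c →
      A1 * cA (fun ζ => 𝔚.dc (c.f ζ) (c.time ζ)) + A2 * cA (fun ζ => D.N (c.f ζ) (c.time ζ)) ≤ B →
      CircSm (fun ζ => (c.gam 𝔚 D ζ : ℂ)) ∧ (∀ ζ ∈ uCirc, 0 < c.gam 𝔚 D ζ) ∧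
      cA (c.gam 𝔚 D) = 1 ∧ (∀ ζ ∈ uCirc, c.gam 𝔚 D ζ ≤ C) ∧
      DsqR (c.gam 𝔚 D) ≤ C * (1 + energy5 X 𝔚 𝓜 g c) := by
  obtain ⟨C1, hC1, -⟩ := gam0_glip h
  refine ⟨|C1| * Real.exp B + Real.exp B ^ 2 * (2 * C1 ^ 2 * (1 + 4 * X.T ^ 2)),
    fun c hc hB => ?_⟩
  have hs := h.s_pos hc
  have htm := h.time_mem hc
  obtain ⟨ht1, ht2⟩ := Dsq_time_le hc hs
  have hg := circSm_g0 h hc
  have hgpos := g0_pos (D := D) hc
  have hA : Real.exp (-B) ≤ cA (c.g0 𝔚 D) :=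
    (Real.exp_le_exp.2 (neg_le_neg hB)).trans (sym_cA_g0_ge h hc)
  have hApos : 0 < cA (c.g0 𝔚 D) := (Real.exp_pos _).trans_le hA
  have hAinv : (cA (c.g0 𝔚 D))⁻¹ ≤ Real.exp B := by
    have := inv_anti₀ (Real.exp_pos _) hA
    rwa [Real.exp_neg, inv_inv] at this
  have hAinv0 : 0 < (cA (c.g0 𝔚 D))⁻¹ := inv_pos.2 hApos
  have hgam : ∀ ζ, c.gam 𝔚 D ζ = (cA (c.g0 𝔚 D))⁻¹ * c.g0 𝔚 D ζ := fun ζ => by
    unfold Config.gam
    rw [div_eq_inv_mul]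
  have hE := energy5_nonneg h hc
  have p1 : 0 ≤ |C1| * Real.exp B := by positivity
  have p2 : 0 ≤ Real.exp B ^ 2 * (2 * C1 ^ 2 * (1 + 4 * X.T ^ 2)) := by positivity
  refine ⟨?_, fun ζ hζ => div_pos (hgpos ζ hζ) hApos, ?_, fun ζ hζ => ?_, ?_⟩
  · refine ((circSm_const (((cA (c.g0 𝔚 D))⁻¹ : ℝ) : ℂ)).mul hg).congr fun ζ _ => ?_
    show (((cA (c.g0 𝔚 D))⁻¹ : ℝ) : ℂ) * ((c.g0 𝔚 D ζ : ℝ) : ℂ) = ((c.gam 𝔚 D ζ : ℝ) : ℂ)
    rw [hgam ζ]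
    push_cast
    rfl
  · have e1 : c.gam 𝔚 D = fun ζ => (cA (c.g0 𝔚 D))⁻¹ * c.g0 𝔚 D ζ := funext hgam
    rw [e1]
    show B14.pavg (fun θ => (cA (c.g0 𝔚 D))⁻¹ * B14.bd (c.g0 𝔚 D) θ) = 1
    rw [B14.pavg_const_mul_real]
    exact inv_mul_cancel₀ hApos.ne'
  · have e2 := hC1.1 _ (hc.bdry ζ hζ) _ (Set.Ioo_subset_Icc_self (htm ζ hζ))
    rw [Complex.norm_real, Real.norm_eq_abs] at e2
    have e3 : c.g0 𝔚 D ζ ≤ |C1| := (le_abs_self _).trans (e2.trans (le_abs_self _))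
    rw [hgam ζ, mul_comm]
    have := mul_le_mul e3 hAinv hAinv0.le (abs_nonneg _)
    linarith
  · have hX : ∀ r, CircLip fun ζ => X.G (c.f ζ) r :=
      fun r => (hc.disc.holSm_G h.valid.imm r).circSm.circLip
    have hW := (Dsq_comp_le hC1 hX ht1.circLip hc.bdry
      fun ζ hζ => Set.Ioo_subset_Icc_self (htm ζ hζ)).2
    have a1 := areaG_nonneg h hc
    have a2 := DsqV_nonneg (fun ζ => (X.G (c.f ζ) : Fin X.q → ℂ))
    have a3 := Dsq_nonneg c.w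
    have a4 := DsqR_nonneg (fun ζ => Real.log (𝔚.pw (c.f ζ)))
    have hE1 : DsqV (fun ζ => (X.G (c.f ζ) : Fin X.q → ℂ)) ≤ energy5 X 𝔚 𝓜 g c := by
      unfold energy5; linarith
    have hE2 : Dsq c.w ≤ energy5 X 𝔚 𝓜 g c := by
      unfold energy5; linarith
    have e1 : DsqR (c.gam 𝔚 D) = (cA (c.g0 𝔚 D))⁻¹ ^ 2 *
        Dsq (fun ζ => ((𝔚.gam0 D (c.f ζ) (c.time ζ) : ℝ) : ℂ)) := by
      unfold DsqR
      have : (fun ζ => ((c.gam 𝔚 D ζ : ℝ) : ℂ)) = fun ζ =>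
          (((cA (c.g0 𝔚 D))⁻¹ : ℝ) : ℂ) * ((𝔚.gam0 D (c.f ζ) (c.time ζ) : ℝ) : ℂ) := by
        funext ζ
        rw [hgam ζ]
        push_cast
        rfl
      rw [this, Dsq_const_mul, Complex.norm_real, Real.norm_eq_abs, sq_abs]
    have e2 : DsqV (fun ζ => (X.G (c.f ζ) : Fin X.q → ℂ)) + DsqR c.time ≤
        (1 + 4 * X.T ^ 2) * (1 + energy5 X 𝔚 𝓜 g c) := by
      have h5 : 4 * X.T ^ 2 * Dsq c.w ≤ 4 * X.T ^ 2 * energy5 X 𝔚 𝓜 g c :=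
        mul_le_mul_of_nonneg_left hE2 (by positivity)
      nlinarith [sq_nonneg X.T]
    have e3 : Dsq (fun ζ => ((𝔚.gam0 D (c.f ζ) (c.time ζ) : ℝ) : ℂ)) ≤
        2 * C1 ^ 2 * (1 + 4 * X.T ^ 2) * (1 + energy5 X 𝔚 𝓜 g c) := by
      refine hW.trans ?_
      rw [mul_assoc (2 * C1 ^ 2)]
      exact mul_le_mul_of_nonneg_left e2 (by positivity)
    have e4 : (cA (c.g0 𝔚 D))⁻¹ ^ 2 ≤ Real.exp B ^ 2 := pow_le_pow_left₀ hAinv0.le hAinv 2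
    rw [e1]
    have e5 := mul_le_mul e4 e3 (Dsq_nonneg _) (sq_nonneg _)
    have e6 : 0 ≤ |C1| * Real.exp B * (1 + energy5 X 𝔚 𝓜 g c) := mul_nonneg p1 (by linarith)
    nlinarith

theorem circSm_gam (h : Std5 X 𝔚 D 𝒴 err A1 A2) {c : Config V n} (hc : IsAdm X 𝔚 𝒴 c) :
    CircSm fun ζ => ((c.gam 𝔚 D ζ : ℝ) : ℂ) := by
  refine ((circSm_g0 h hc).mul (circSm_const (((cA (c.g0 𝔚 D))⁻¹ : ℝ) : ℂ))).congr fun ζ _ => ?_
  unfold Config.gam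
  rw [div_eq_mul_inv]
  push_cast
  rfl

/-- the integrand `(t/s) γ ∂_t (N + d_0)` is smooth on the circle. -/
theorem clk_circSm_a (h : Std5 X 𝔚 D 𝒴 err A1 A2) {c : Config V n} (hc : IsAdm X 𝔚 𝒴 c) :
    CircSm fun ζ => ((c.time ζ / c.s * c.gam 𝔚 D ζ *
      (deriv (fun s => D.N (c.f ζ) s) (c.time ζ) + 𝔚.d0t (c.time ζ) (c.f ζ).1) : ℝ) : ℂ) := by
  have ht := (Dsq_time_le hc (h.s_pos hc)).1
  refine (((ht.mul (circSm_const (((c.s)⁻¹ : ℝ) : ℂ))).mul (circSm_gam h hc)).mul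
    (h.circSm hc h.sFt)).congr fun ζ hζ => ?_
  show ((c.time ζ : ℝ) : ℂ) * (((c.s)⁻¹ : ℝ) : ℂ) * ((c.gam 𝔚 D ζ : ℝ) : ℂ) *
    ((clkFt 𝔚 D X.T (c.time ζ) (c.f ζ) : ℝ) : ℂ) = _
  rw [clkFt_eq (h.time_mem hc ζ hζ), div_eq_mul_inv]
  push_cast
  rfl

/-- the varied configuration `(f, w + (λ/2) Γ, s e^λ)`. -/
noncomputable def clkCfg (c : Config V n) (Γ : ℂ → ℂ) (lam : ℝ) : Config V n where
  p := c.p
  s := c.s * Real.exp lam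
  f := c.f
  w := fun ζ => c.w ζ + ((lam / 2 : ℝ) : ℂ) * Γ ζ

theorem clkCfg_eqns_cite : True := by
  have := @clkCfg.eq_1
  trivial

theorem clkCfg_time (c : Config V n) (Γ : ℂ → ℂ) (lam : ℝ) (ζ : ℂ) :
    (clkCfg c Γ lam).time ζ = c.time ζ * Real.exp (lam * (1 + (Γ ζ).re)) := by
  unfold Config.time clkCfg
  simp only [Complex.add_re, Complex.re_ofReal_mul]
  rw [mul_assoc, mul_assoc, ← Real.exp_add, ← Real.exp_add]
  congr 2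
  ring

theorem clkCfg_adm (h : Std5 X 𝔚 D 𝒴 err A1 A2) {c : Config V n} (hc : IsAdm X 𝔚 𝒴 c)
    (hs : |c.s - X.s₀| ≤ X.rc / 2) {Γ : ℂ → ℂ} (hΓ : HolSm Γ) (hΓ0 : Γ 0 = 0)
    (hΓre : ∀ ζ ∈ uDiscC, -1 < (Γ ζ).re) {lam : ℝ} (hl0 : lam ≤ 0)
    (hl1 : (X.s₀ + X.rc) * (-lam) ≤ X.rc / 2) : IsAdm X 𝔚 𝒴 (clkCfg c Γ lam) where
  p_mem := hc.p_mem
  s_mem := by
    have hs0 := h.s_pos hc
    have h1 := abs_le.1 hs
    have h2 : Real.exp lam ≤ 1 := Real.exp_le_one_iff.2 hl0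
    have h3 := Real.add_one_le_exp lam
    have h4 := hc.s_mem.2
    have hrc := h.valid.rc_pos
    show c.s * Real.exp lam ∈ Set.Icc _ _
    constructor
    · have h5 : c.s * (-lam) ≤ (X.s₀ + X.rc) * (-lam) :=
        mul_le_mul_of_nonneg_right h4 (by linarith)
      have h6 : c.s * (lam + 1) ≤ c.s * Real.exp lam := mul_le_mul_of_nonneg_left h3 hs0.le
      nlinarith
    · have : c.s * Real.exp lam ≤ c.s * 1 := mul_le_mul_of_nonneg_left h2 hs0.le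
      linarith
  disc := hc.disc
  w_hol := hc.w_hol.add ((holSm_const _).mul hΓ)
  f_zero := hc.f_zero
  w_zero := by
    show c.w 0 + ((lam / 2 : ℝ) : ℂ) * Γ 0 = 0
    rw [hc.w_zero, hΓ0, mul_zero, add_zero]
  time_lt := fun ζ hζ => by
    rw [clkCfg_time]
    have h1 := hc.time_lt ζ hζ
    have h2 : 0 < c.time ζ := mul_pos (h.s_pos hc) (Real.exp_pos _)
    have h3 : Real.exp (lam * (1 + (Γ ζ).re)) ≤ 1 :=
      Real.exp_le_one_iff.2 (mul_nonpos_of_nonpos_of_nonneg hl0 (by linarith [hΓre ζ hζ]))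
    calc _ ≤ c.time ζ * 1 := mul_le_mul_of_nonneg_left h3 h2.le
      _ < X.T := by rw [mul_one]; exact h1
  bdry := hc.bdry

theorem clk_cont_cost (h : Std5 X 𝔚 D 𝒴 err A1 A2) {c : Config V n} (hc : IsAdm X 𝔚 𝒴 c) :
    Continuous (B14.bd fun ζ => 𝔚.cost D (c.f ζ) (c.time ζ)) :=
  (sym_cont (circSm_N h hc)).add (sym_cont (circSm_dc h hc))

/-- the change of the boundary average under the clock variation. -/
theorem clk_bdry_le (h : Std5 X 𝔚 D 𝒴 err A1 A2) {Ct Cg : ℝ}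
    (hCt : ∀ y ∈ 𝔚.reg 𝒴, ∀ t ∈ Set.Ioo (0 : ℝ) X.T,
      HasDerivAt (fun s => D.N y s + 𝔚.d0 s y.1) (deriv (fun s => D.N y s) t + 𝔚.d0t t y.1) t ∧
      |deriv (fun s => D.N y s) t + 𝔚.d0t t y.1| ≤ Ct ∧
      ∀ t' ∈ Set.Ioo (0 : ℝ) X.T,
        |(deriv (fun s => D.N y s) t + 𝔚.d0t t y.1) - (deriv (fun s => D.N y s) t' + 𝔚.d0t t' y.1)|
          ≤ Ct * |t - t'|)
    {c : Config V n} (hc : IsAdm X 𝔚 𝒴 c) {Γ : ℂ → ℂ} {lam : ℝ}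
    (hc' : IsAdm X 𝔚 𝒴 (clkCfg c Γ lam))
    (hpos : ∀ ζ ∈ uCirc, 0 < c.gam 𝔚 D ζ) (hle : ∀ ζ ∈ uCirc, c.gam 𝔚 D ζ ≤ Cg)
    (hΓre : ∀ ζ ∈ uCirc, (Γ ζ).re = c.gam 𝔚 D ζ - 1) (hl0 : lam ≤ 0) (hl1 : -lam * Cg ≤ 1) :
    bdry5 𝔚 D (clkCfg c Γ lam) ≤ bdry5 𝔚 D c +
      lam * c.s * cA (fun ζ => c.time ζ / c.s * c.gam 𝔚 D ζ *
          (deriv (fun s => D.N (c.f ζ) s) (c.time ζ) + 𝔚.d0t (c.time ζ) (c.f ζ).1)) +
      Ct * (X.T + X.T ^ 2) * Cg ^ 2 * lam ^ 2 := by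
  have hs := h.s_pos hc
  have hT := h.valid.T_pos
  have c1 := clk_cont_cost h hc'
  have c2 := clk_cont_cost h hc
  have c3 := sym_cont (clk_circSm_a h hc)
  have c3' : Continuous fun θ => lam * c.s * B14.bd (fun ζ => c.time ζ / c.s * c.gam 𝔚 D ζ *
      (deriv (fun s => D.N (c.f ζ) s) (c.time ζ) + 𝔚.d0t (c.time ζ) (c.f ζ).1)) θ :=
    continuous_const.mul c3
  have c4 : Continuous fun θ => B14.bd (fun ζ => 𝔚.cost D (c.f ζ) (c.time ζ)) θ +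
      lam * c.s * B14.bd (fun ζ => c.time ζ / c.s * c.gam 𝔚 D ζ *
          (deriv (fun s => D.N (c.f ζ) s) (c.time ζ) + 𝔚.d0t (c.time ζ) (c.f ζ).1)) θ :=
    c2.add c3'
  have c5 : Continuous fun _ : ℝ => Ct * (X.T + X.T ^ 2) * Cg ^ 2 * lam ^ 2 := continuous_const
  have c6 : Continuous fun θ => B14.bd (fun ζ => 𝔚.cost D (c.f ζ) (c.time ζ)) θ +
      lam * c.s * B14.bd (fun ζ => c.time ζ / c.s * c.gam 𝔚 D ζ *
          (deriv (fun s => D.N (c.f ζ) s) (c.time ζ) + 𝔚.d0t (c.time ζ) (c.f ζ).1)) θ +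
      Ct * (X.T + X.T ^ 2) * Cg ^ 2 * lam ^ 2 := c4.add c5
  have key := B14.pavg_mono c1 c6 fun θ => ?_
  · rw [B14.pavg_add c4 c5, B14.pavg_add c2 c3',
      B14.pavg_const_mul_real, B14.pavg_const] at key
    exact key
  · obtain ⟨ζ, hζd⟩ : ∃ ζ : ℂ, ζ = circleMap 0 1 θ := ⟨_, rfl⟩
    have hζ : ζ ∈ uCirc := hζd ▸ circleMap_mem_uCirc θ
    show 𝔚.cost D (c.f (circleMap 0 1 θ)) ((clkCfg c Γ lam).time (circleMap 0 1 θ)) ≤
      𝔚.cost D (c.f (circleMap 0 1 θ)) (c.time (circleMap 0 1 θ)) +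
      lam * c.s * (c.time (circleMap 0 1 θ) / c.s * c.gam 𝔚 D (circleMap 0 1 θ) *
        (deriv (fun s => D.N (c.f (circleMap 0 1 θ)) s) (c.time (circleMap 0 1 θ)) +
          𝔚.d0t (c.time (circleMap 0 1 θ)) (c.f (circleMap 0 1 θ)).1)) +
      Ct * (X.T + X.T ^ 2) * Cg ^ 2 * lam ^ 2
    rw [← hζd, clkCfg_time, hΓre ζ hζ]
    have hy := hc.bdry ζ hζ
    have ht := h.time_mem hc ζ hζ
    have g0 := hpos ζ hζ
    have g1 := hle ζ hζ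
    have hx0 : lam * c.gam 𝔚 D ζ ≤ 0 := mul_nonpos_of_nonpos_of_nonneg hl0 g0.le
    have hx1 : -1 ≤ lam * c.gam 𝔚 D ζ := by
      have : -lam * c.gam 𝔚 D ζ ≤ -lam * Cg := mul_le_mul_of_nonneg_left g1 (by linarith)
      linarith
    have hCt0 : 0 ≤ Ct := (abs_nonneg _).trans (hCt _ hy _ ht).2.1
    have h1 := clk_pointwise (F := fun s => D.N (c.f ζ) s + 𝔚.d0 s (c.f ζ).1)
      (F' := fun t => deriv (fun s => D.N (c.f ζ) s) t + 𝔚.d0t t (c.f ζ).1) (hCt _ hy) ht hx0 hx1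
    have e1 : lam * (1 + (c.gam 𝔚 D ζ - 1)) = lam * c.gam 𝔚 D ζ := by ring
    rw [e1]
    obtain ⟨Ft, hFt⟩ : ∃ Ft : ℝ, Ft = deriv (fun s => D.N (c.f ζ) s) (c.time ζ) +
      𝔚.d0t (c.time ζ) (c.f ζ).1 := ⟨_, rfl⟩
    simp only [← hFt] at h1 ⊢
    have e2 : lam * c.s * (c.time ζ / c.s * c.gam 𝔚 D ζ * Ft) =
        lam * c.gam 𝔚 D ζ * (c.time ζ * Ft) := by
      field_simp
    have e3 : (lam * c.gam 𝔚 D ζ) ^ 2 ≤ Cg ^ 2 * lam ^ 2 := by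
      rw [mul_pow, mul_comm]
      exact mul_le_mul_of_nonneg_right (pow_le_pow_left₀ g0.le g1 2) (sq_nonneg _)
    have e4 : Ct * (X.T + X.T ^ 2) * (lam * c.gam 𝔚 D ζ) ^ 2 ≤
        Ct * (X.T + X.T ^ 2) * Cg ^ 2 * lam ^ 2 := by
      rw [mul_assoc (Ct * (X.T + X.T ^ 2)) (Cg ^ 2)]
      exact mul_le_mul_of_nonneg_left e3 (by positivity)
    rw [e2]
    unfold Walls.cost Walls.dc
    linarith

/-- the change of the energy under the clock variation. -/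
theorem clk_energy_le {c : Config V n} {Γ : ℂ → ℂ} {lam Cg E G : ℝ}
    (hE : E = energy5 X 𝔚 𝓜 g c) (hw : Dsq c.w ≤ E) (hG0 : 0 ≤ G) (hG : G ≤ Cg * (1 + E))
    (hD : Dsq (fun ζ => c.w ζ + ((lam / 2 : ℝ) : ℂ) * Γ ζ) ≤
        Dsq c.w + |lam| * Real.sqrt (Dsq c.w) * Real.sqrt (2 * G) + lam ^ 2 / 2 * G)
    (hl : |lam| ≤ 1) :
    energy5 X 𝔚 𝓜 g (clkCfg c Γ lam) ≤ E + |lam| * ((1 / 2 + 3 / 2 * Cg) * (1 + E)) := by
  have hw0 := Dsq_nonneg c.w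
  have e1 : energy5 X 𝔚 𝓜 g (clkCfg c Γ lam) =
      E - Dsq c.w + Dsq (fun ζ => c.w ζ + ((lam / 2 : ℝ) : ℂ) * Γ ζ) := by
    rw [hE]
    unfold energy5 clkCfg
    ring
  have h2G : 0 ≤ 2 * G := by linarith
  have e2 : Real.sqrt (Dsq c.w) * Real.sqrt (2 * G) ≤ (Dsq c.w + 2 * G) / 2 := by
    nlinarith [Real.sq_sqrt hw0, Real.sq_sqrt h2G,
      sq_nonneg (Real.sqrt (Dsq c.w) - Real.sqrt (2 * G))]
  have hl0 := abs_nonneg lam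
  have e3 : lam ^ 2 ≤ |lam| := by
    rw [← sq_abs]
    nlinarith
  have e4 : |lam| * Real.sqrt (Dsq c.w) * Real.sqrt (2 * G) ≤ |lam| * ((Dsq c.w + 2 * G) / 2) := by
    rw [mul_assoc]
    exact mul_le_mul_of_nonneg_left e2 hl0
  have e5 : lam ^ 2 / 2 * G ≤ |lam| * (G / 2) := by
    have := mul_le_mul_of_nonneg_right e3 (by linarith : 0 ≤ G / 2)
    linarith
  have e6 : (Dsq c.w + 2 * G) / 2 + G / 2 ≤ (1 / 2 + 3 / 2 * Cg) * (1 + E) := by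
    nlinarith
  have e7 := mul_le_mul_of_nonneg_left e6 hl0
  rw [e1]
  linarith

/-- the change of the test function under the clock variation. -/
theorem clk_phi_le {φ : ℝ → ℝ} {dφ Cp s S lam : ℝ} (hs0 : 0 < s) (hsS : s ≤ S) (hd : |dφ| ≤ Cp)
    (hT : |φ (s * Real.exp lam) - φ s - dφ * (s * Real.exp lam - s)| ≤
      Cp * (s * Real.exp lam - s) ^ 2) (hl0 : lam ≤ 0) (hl1 : -1 ≤ lam) :
    φ s - φ (s * Real.exp lam) ≤ -lam * s * dφ + (Cp * S + Cp * S ^ 2) * lam ^ 2 := by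
  have hC : 0 ≤ Cp := (abs_nonneg _).trans hd
  have he1 : Real.exp lam ≤ 1 := Real.exp_le_one_iff.2 hl0
  have he2 : lam + 1 ≤ Real.exp lam := Real.add_one_le_exp lam
  have he3 : |Real.exp lam - 1 - lam| ≤ lam ^ 2 :=
    Real.abs_exp_sub_one_sub_id_le (abs_le.2 ⟨hl1, hl0.trans zero_le_one⟩)
  have hS : 0 < S := hs0.trans_le hsS
  have h2 := (abs_le.1 hT).1
  have e1 : s * Real.exp lam - s = s * lam + s * (Real.exp lam - 1 - lam) := by ring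
  have b1 : -(dφ * (s * (Real.exp lam - 1 - lam))) ≤ Cp * S * lam ^ 2 := by
    have : |dφ * (s * (Real.exp lam - 1 - lam))| ≤ Cp * (S * lam ^ 2) := by
      rw [abs_mul, abs_mul, abs_of_pos hs0]
      exact mul_le_mul hd (mul_le_mul hsS he3 (abs_nonneg _) hS.le)
        (mul_nonneg hs0.le (abs_nonneg _)) hC
    linarith [neg_abs_le (dφ * (s * (Real.exp lam - 1 - lam)))]
  have b2 : (s * Real.exp lam - s) ^ 2 ≤ S ^ 2 * lam ^ 2 := by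
    have e2 : (s * Real.exp lam - s) ^ 2 = s ^ 2 * (1 - Real.exp lam) ^ 2 := by ring
    rw [e2]
    have b3 : (1 - Real.exp lam) ^ 2 ≤ lam ^ 2 := by
      rw [← sq_abs lam, abs_of_nonpos hl0]
      exact pow_le_pow_left₀ (by linarith) (by linarith) 2
    exact mul_le_mul (pow_le_pow_left₀ hs0.le hsS 2) b3 (sq_nonneg _) (sq_nonneg _)
  have b4 := mul_le_mul_of_nonneg_left b2 hC
  have e3 : dφ * (s * Real.exp lam - s) = dφ * (s * lam) + dφ * (s * (Real.exp lam - 1 - lam)) := by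
    rw [e1]; ring
  rw [e3] at h2
  nlinarith

/-- the final division. -/
theorem clk_final {μ s A dφ ε E K2 K3 K4 lo : ℝ} (hμ : 0 < μ) (hlo : 0 < lo) (hs : lo ≤ s)
    (hε : 0 ≤ ε) (hE : 0 ≤ E) (hK2 : 0 ≤ K2) (hK3 : 0 ≤ K3) (hK4 : 0 ≤ K4)
    (hmain : μ * s * A ≤ μ * s * dφ + μ * (ε * (K3 * (1 + E))) + (K2 + K4 + 1) * μ ^ 2) :
    A ≤ dφ + (K3 + K2 + K4 + 1) / lo * ε * (1 + E) + (K3 + K2 + K4 + 1) / lo * μ := by
  have hs0 : 0 < s := hlo.trans_le hs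
  have h1 : s * A ≤ s * dφ + (ε * (K3 * (1 + E)) + (K2 + K4 + 1) * μ) := by
    refine le_of_mul_le_mul_left ?_ hμ
    nlinarith
  have hR : 0 ≤ ε * (K3 * (1 + E)) + (K2 + K4 + 1) * μ := by positivity
  have h2 : A ≤ dφ + (ε * (K3 * (1 + E)) + (K2 + K4 + 1) * μ) / s := by
    rw [← sub_le_iff_le_add', le_div_iff₀ hs0]
    linarith
  have h3 : (ε * (K3 * (1 + E)) + (K2 + K4 + 1) * μ) / s ≤
      (ε * (K3 * (1 + E)) + (K2 + K4 + 1) * μ) / lo := div_le_div_of_nonneg_left hR hlo hs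
  have h4 : (ε * (K3 * (1 + E)) + (K2 + K4 + 1) * μ) / lo ≤
      (K3 + K2 + K4 + 1) / lo * ε * (1 + E) + (K3 + K2 + K4 + 1) / lo * μ := by
    rw [div_le_iff₀ hlo]
    have e : ((K3 + K2 + K4 + 1) / lo * ε * (1 + E) + (K3 + K2 + K4 + 1) / lo * μ) * lo =
        (K3 + K2 + K4 + 1) * (ε * (1 + E)) + (K3 + K2 + K4 + 1) * μ := by
      field_simp
    rw [e]
    have p1 : 0 ≤ ε * (1 + E) := by positivity
    have p2 : 0 ≤ (K2 + K4 + 1) * (ε * (1 + E)) := by positivity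
    have p3 : 0 ≤ K3 * μ := by positivity
    nlinarith
  linarith

/-- (5.26), the backward test. -/
theorem backward_test (h : Std5 X 𝔚 D 𝒴 err A1 A2) (B : ℝ) :
    ∃ C η₀ : ℝ, 0 < η₀ ∧ ∀ (ε η : ℝ) (c : Config V n), 0 ≤ ε → ε ≤ 1 → 0 < η → η ≤ η₀ →
      IsAdm X 𝔚 𝒴 c → fun5 X 𝔚 D ε c ≤ mu5 X 𝔚 D 𝒴 ε + η → |c.s - X.s₀| ≤ X.rc / 2 →
      A1 * cA (fun ζ => 𝔚.dc (c.f ζ) (c.time ζ)) + A2 * cA (fun ζ => D.N (c.f ζ) (c.time ζ)) ≤ B →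
      cA (fun ζ => c.time ζ / c.s * c.gam 𝔚 D ζ *
          (deriv (fun s => D.N (c.f ζ) s) (c.time ζ) + 𝔚.d0t (c.time ζ) (c.f ζ).1)) ≤
        deriv (fun s => X.φ s c.p) c.s + C * ε * (1 + energy5 X 𝔚 𝓜 g c) + C * Real.sqrt η := by
  obtain ⟨Ct, hCt⟩ := cost_time_bounds h
  obtain ⟨Cg, hCg⟩ := gam_bounds h B
  obtain ⟨Cp, hCp⟩ := clk_phi_taylor h.valid.smooth (X.s₀ - X.rc) (X.s₀ + X.rc) X.p₀ X.rc
  have hlo := h.valid.s_lo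
  have hrc := h.valid.rc_pos
  have hT := h.valid.T_pos
  have hS : 0 < X.s₀ + X.rc := by linarith
  obtain ⟨ρ, hρ⟩ : ∃ ρ : ℝ, ρ = min 1 (min (1 / (|Cg| + 1)) (X.rc / (2 * (X.s₀ + X.rc)))) :=
    ⟨_, rfl⟩
  have hρ0 : 0 < ρ := by
    rw [hρ]
    exact lt_min one_pos (lt_min (by positivity) (by positivity))
  have hρ1 : ρ ≤ 1 := hρ ▸ min_le_left _ _
  have hρ2 : ρ ≤ 1 / (|Cg| + 1) := hρ ▸ (min_le_right _ _).trans (min_le_left _ _)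
  have hρ3 : ρ ≤ X.rc / (2 * (X.s₀ + X.rc)) := hρ ▸ (min_le_right _ _).trans (min_le_right _ _)
  refine ⟨((1 / 2 + 3 / 2 * |Cg|) + |Ct| * (X.T + X.T ^ 2) * |Cg| ^ 2 +
    (|Cp| * (X.s₀ + X.rc) + |Cp| * (X.s₀ + X.rc) ^ 2) + 1) / (X.s₀ - X.rc), ρ ^ 2, by positivity,
    fun ε η c hε0 _ hη0 hη1 hc hfun hs hB => ?_⟩
  obtain ⟨g1, g2, g3, g4, g5⟩ := hCg c hc hB
  obtain ⟨Γ, hΓ, hΓ0, hΓre, hΓpos, -, hΓD⟩ := clock_variation hc.w_hol hc.w_zero g1 g2 g3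
  obtain ⟨μ, hμ⟩ : ∃ μ : ℝ, μ = Real.sqrt η := ⟨_, rfl⟩
  have hμ0 : 0 < μ := hμ ▸ Real.sqrt_pos.2 hη0
  have hμρ : μ ≤ ρ := by
    rw [hμ]
    exact (Real.sqrt_le_sqrt hη1).trans_eq (Real.sqrt_sq hρ0.le)
  have hμsq : μ ^ 2 = η := by rw [hμ]; exact Real.sq_sqrt hη0.le
  have hE0 := energy5_nonneg h hc
  obtain ⟨E, hE⟩ : ∃ E : ℝ, E = energy5 X 𝔚 𝓜 g c := ⟨_, rfl⟩
  have hs0 := h.s_pos hc
  have l0 : -μ ≤ 0 := by linarith
  have l1 : (X.s₀ + X.rc) * (-(-μ)) ≤ X.rc / 2 := by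
    rw [neg_neg]
    have := mul_le_mul_of_nonneg_left (hμρ.trans hρ3) hS.le
    have e : (X.s₀ + X.rc) * (X.rc / (2 * (X.s₀ + X.rc))) = X.rc / 2 := by field_simp
    linarith
  have l2 : -(-μ) * |Cg| ≤ 1 := by
    rw [neg_neg]
    have h1 : μ * (|Cg| + 1) ≤ 1 := by
      have := mul_le_mul_of_nonneg_right (hμρ.trans hρ2) (by positivity : 0 ≤ |Cg| + 1)
      have e : 1 / (|Cg| + 1) * (|Cg| + 1) = 1 := by field_simp
      linarith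
    nlinarith
  have hc' := clkCfg_adm h hc hs hΓ hΓ0 hΓpos l0 l1
  have hmu := mu5_le h hc' hε0
  -- the three changes
  have hCt' : ∀ y ∈ 𝔚.reg 𝒴, ∀ t ∈ Set.Ioo (0 : ℝ) X.T,
      HasDerivAt (fun s => D.N y s + 𝔚.d0 s y.1) (deriv (fun s => D.N y s) t + 𝔚.d0t t y.1) t ∧
      |deriv (fun s => D.N y s) t + 𝔚.d0t t y.1| ≤ |Ct| ∧
      ∀ t' ∈ Set.Ioo (0 : ℝ) X.T,
        |(deriv (fun s => D.N y s) t + 𝔚.d0t t y.1) - (deriv (fun s => D.N y s) t' + 𝔚.d0t t' y.1)|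
          ≤ |Ct| * |t - t'| := fun y hy t ht =>
    ⟨(hCt y hy t ht).1, (hCt y hy t ht).2.1.trans (le_abs_self _), fun t' ht' =>
      ((hCt y hy t ht).2.2 t' ht').trans
        (mul_le_mul_of_nonneg_right (le_abs_self _) (abs_nonneg _))⟩
  have b1 := clk_bdry_le h hCt' hc hc' g2 (fun ζ hζ => (g4 ζ hζ).trans (le_abs_self _)) hΓre l0 l2
  have hw : Dsq c.w ≤ E := by
    have a1 := areaG_nonneg h hc
    have a2 := DsqV_nonneg (fun ζ => (X.G (c.f ζ) : Fin X.q → ℂ))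
    have a4 := DsqR_nonneg (fun ζ => Real.log (𝔚.pw (c.f ζ)))
    rw [hE]
    unfold energy5
    linarith
  have habs : |(-μ)| = μ := by rw [abs_neg, abs_of_pos hμ0]
  have b2 := clk_energy_le (Γ := Γ) (lam := -μ) (Cg := |Cg|) hE hw (DsqR_nonneg _)
    (g5.trans (by
      rw [← hE]
      exact mul_le_mul_of_nonneg_right (le_abs_self _) (by rw [hE]; linarith)))
    (hΓD (-μ)) (by rw [habs]; exact hμρ.trans hρ1)
  rw [habs] at b2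
  obtain ⟨p1, p2⟩ := hCp c.p hc.p_mem c.s hc.s_mem
  have b3 := clk_phi_le (φ := fun s => X.φ s c.p) (Cp := |Cp|) hs0 hc.s_mem.2
    (p1.trans (le_abs_self _))
    ((p2 _ hc'.s_mem).trans (mul_le_mul_of_nonneg_right (le_abs_self _) (sq_nonneg _))) l0
    (by linarith [hμρ.trans hρ1])
  rw [← hE, ← hμ]
  refine clk_final hμ0 hlo hc.s_mem.1 hε0 (hE ▸ hE0) (by positivity) (by positivity)
    (by positivity) ?_
  have f1 : fun5 X 𝔚 D ε c = bdry5 𝔚 D c + ε * E - X.φ c.s c.p := by rw [hE]; rfl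
  have f2 : fun5 X 𝔚 D ε (clkCfg c Γ (-μ)) = bdry5 𝔚 D (clkCfg c Γ (-μ)) +
      ε * energy5 X 𝔚 𝓜 g (clkCfg c Γ (-μ)) - X.φ (c.s * Real.exp (-μ)) c.p := rfl
  have b4 := mul_le_mul_of_nonneg_left b2 hε0
  rw [f1] at hfun
  rw [f2] at hmu
  simp only [neg_neg, neg_sq] at b1 b3
  nlinarith

/-- the cost is `C²` at points of the region, in every parametrisation. -/
theorem clk_cost_c2 (h : Std5 X 𝔚 D 𝒴 err A1 A2) {Ψ : CE (Fin n ⊕ Fin n) → CotAmb V}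
    {W : Set (CE (Fin n ⊕ Fin n))} (hΨ : 𝒴.IsHol Ψ W) {p : CE (Fin n ⊕ Fin n)} (hp : p ∈ W)
    (hy : Ψ p ∈ 𝔚.reg 𝒴) {t : ℝ} (ht : t ∈ Set.Icc 0 X.T) :
    ContDiffAt ℝ 2 ((fun y' => 𝔚.cost D y' t) ∘ Ψ) p := by
  have c2 : ∀ {u : ℝ → CotAmb V → ℝ}, 𝒴.SmoothST (Set.Icc 0 X.T) u →
      ContDiffAt ℝ 2 (u t ∘ Ψ) p := fun hu =>
    (smoothST_contDiffAt hu hΨ ht hp).of_le (by norm_cast)
  have hn := c2 h.sN
  have he := c2 h.sd0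
  have ha := c2 (h.sδ1 (Set.Icc 0 X.T))
  have hb := c2 (h.sδ2 (Set.Icc 0 X.T))
  have ha' : ContDiffAt ℝ 2 (fun w => (((fun y' : CotAmb V => 𝔚.δ1 y'.1) ∘ Ψ) w)⁻¹) p :=
    ha.inv (h.δ_pos hy).1.ne'
  have hb' : ContDiffAt ℝ 2 (fun w => (((fun y' : CotAmb V => 𝔚.δ2 y') ∘ Ψ) w)⁻¹) p :=
    hb.inv (h.δ_pos hy).2.ne'
  have hcost : ((fun y' => 𝔚.cost D y' t) ∘ Ψ) = fun w =>
      (((fun y' => D.N y' t) ∘ Ψ) w + ((fun y' : CotAmb V => 𝔚.d0 t y'.1) ∘ Ψ) w +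
        (((fun y' : CotAmb V => 𝔚.δ1 y'.1) ∘ Ψ) w)⁻¹ +
        (((fun y' : CotAmb V => 𝔚.δ2 y') ∘ Ψ) w)⁻¹) + (-2) := by
    funext w
    simp only [Function.comp, Walls.cost, Walls.dc, Walls.kw]
    ring
  rw [hcost]
  exact (((hn.add he).add ha').add hb').add contDiffAt_const

/-- `p(T_b, J_E) = m⁴ p(W_b)`. -/
theorem sympP_Tb (h : Std5 X 𝔚 D 𝒴 err A1 A2) {c : Config V n} (hc : IsAdm X 𝔚 𝒴 c)
    {U : ℂ → Matrix (Fin X.q) (Fin n ⊕ Fin n) ℂ}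
    {JE : ℂ → Matrix (Fin n ⊕ Fin n) (Fin n ⊕ Fin n) ℂ} (hF : IsFrame 𝓜 X.G c.f U JE)
    {ζ : ℂ} (hζ : ζ ∈ uCirc) {Φ : CE (Fin n) → V} {U₀ : Set (CE (Fin n))} (hΦ : 𝓜.IsHol Φ U₀)
    {p : CE (Fin n ⊕ Fin n)} (hp : p ∈ cotDom U₀) (hfp : c.f ζ = cotParam Φ p) :
    sympP (c.Tb X 𝔚 D 𝒴 U ζ) (JE ζ) =
      c.mw 𝔚 ζ ^ 4 *
        sympP (levi (fun p' => 𝔚.cost D (cotParam Φ p') (c.time ζ)) p) (Jstd (Fin n)) := by
  obtain ⟨S, -, hU, hJ⟩ := hF.tangent ζ (Metric.sphere_subset_closedBall hζ) Φ U₀ p hΦ hp hfp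
  have hΨ := h.cot.isHol hΦ
  have hreg : cotParam Φ p ∈ 𝔚.reg 𝒴 := hfp ▸ hc.bdry ζ hζ
  have hβ := clk_cost_c2 h hΨ hp hreg (Set.Ioo_subset_Icc_self (h.time_mem hc ζ hζ))
  have h1 := conj_ambM_ddc h.valid.imm hΨ hp hβ S
  unfold Config.Tb Walls.symb
  rw [Matrix.mul_smul, Matrix.smul_mul, sympP_smul, hU, hfp, h1, sympP_conj, hJ]
  congr 1
  unfold Config.mw
  rw [hfp, ← pow_mul, ← pow_mul]
  congr 1
  ring

/-- the error constant of the clock inequality. -/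
noncomputable def errClock (X : S5Ctx V n) (err B : ℝ) : ℝ :=
  X.T / (X.s₀ - X.rc) * err * Real.exp B

/-- (5.24) averaged.  POINTWISE on the circle (chart `Φ = 𝓜.pΦ (c.f ζ).1`, `c.f ζ = cotParam Φ p` by `S6.s6g_exists_cotParam`…, `c.time ζ ∈ (0, T)`): by `sympP_Tb` the left integrand is
`(t/s) γ p(W_b)`; `IsWalls.sympl` divided by `⟨γ₀⟩`: `γ p(W_b) ≤ γ (∂_t N + ∂_t d_0) + err / ⟨γ₀⟩`, `⟨γ₀⟩ ≥ e^{-B}` (`cA_g0_ge`), `t/s ≤ T / (s₀ - rc)`.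
Then monotonicity of the average: both integrands are continuous on the circle (left: `om_ok`, `Tb_ok`, `HolSm`; right: `gam_bounds`, `Dsq_time_le`, `N_smooth`/`circSm_comp` for `∂_t N`, `IsWalls.d0t_smooth`). -/
theorem clock_avg_le (h : Std5 X 𝔚 D 𝒴 err A1 A2) (CF B : ℝ) {c : Config V n}
    (hc : IsAdm X 𝔚 𝒴 c) {U : ℂ → Matrix (Fin X.q) (Fin n ⊕ Fin n) ℂ}
    {JE : ℂ → Matrix (Fin n ⊕ Fin n) (Fin n ⊕ Fin n) ℂ} (hF : IsFrame 𝓜 X.G c.f U JE)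
    (hFB : FrameBd CF X.G c.f U JE)
    (hB : A1 * cA (fun ζ => 𝔚.dc (c.f ζ) (c.time ζ)) +
      A2 * cA (fun ζ => D.N (c.f ζ) (c.time ζ)) ≤ B) :
    cA (fun ζ => (c.time ζ / c.s * c.gam 𝔚 D ζ * (c.mw 𝔚 ζ ^ 4)⁻¹) *
        sympP (c.Tb X 𝔚 D 𝒴 U ζ) (JE ζ)) ≤
      cA (fun ζ => c.time ζ / c.s * c.gam 𝔚 D ζ *
          (deriv (fun s => D.N (c.f ζ) s) (c.time ζ) + 𝔚.d0t (c.time ζ) (c.f ζ).1)) +
        errClock X err B := by
  obtain ⟨Co, hCo⟩ := om_ok h B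
  obtain ⟨CT, hCT⟩ := Tb_ok h CF
  have hom := (hCo c hc hB).1
  have hTb := (hCT c U JE hc hF hFB).1
  have hs := h.s_pos hc
  have htm := h.time_mem hc
  have hlo := h.valid.s_lo
  have hgpos := g0_pos (D := D) hc
  have hA : Real.exp (-B) ≤ cA (c.g0 𝔚 D) :=
    (Real.exp_le_exp.2 (neg_le_neg hB)).trans (sym_cA_g0_ge h hc)
  have hApos : 0 < cA (c.g0 𝔚 D) := (Real.exp_pos _).trans_le hA
  have hAinv : (cA (c.g0 𝔚 D))⁻¹ ≤ Real.exp B := by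
    have := inv_anti₀ (Real.exp_pos _) hA
    rwa [Real.exp_neg, inv_inv] at this
  have herr := h.walls.err_nonneg
  -- continuity
  have cT : Continuous fun θ : ℝ => c.Tb X 𝔚 D 𝒴 U (circleMap 0 1 θ) :=
    continuous_matrix fun i j => (hTb i j).continuousOn.comp_continuous (continuous_circleMap 0 1)
      circleMap_mem_uCirc
  have cJ : Continuous fun θ : ℝ => JE (circleMap 0 1 θ) :=
    continuous_matrix fun i j => (hF.JE_hol i j).circSm.continuous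
  have cP : Continuous fun θ : ℝ =>
      sympP (c.Tb X 𝔚 D 𝒴 U (circleMap 0 1 θ)) (JE (circleMap 0 1 θ)) := by
    unfold sympP
    exact continuous_const.mul (Complex.continuous_re.comp
      (((cJ.matrix_conjTranspose.matrix_mul cT).matrix_mul cJ).matrix_mul
        cT.matrix_transpose).matrix_trace)
  have c1 : Continuous (B14.bd fun ζ => (c.time ζ / c.s * c.gam 𝔚 D ζ * (c.mw 𝔚 ζ ^ 4)⁻¹) *
      sympP (c.Tb X 𝔚 D 𝒴 U ζ) (JE ζ)) := (sym_cont hom).mul cP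
  have c2 := sym_cont (clk_circSm_a h hc)
  have c3 : Continuous (B14.bd fun ζ => c.time ζ / c.s * c.gam 𝔚 D ζ *
      (deriv (fun s => D.N (c.f ζ) s) (c.time ζ) + 𝔚.d0t (c.time ζ) (c.f ζ).1) +
        errClock X err B) := c2.add continuous_const
  have key := clk_cA_mono c1 c3 fun ζ hζ => ?_
  · refine key.trans (le_of_eq ?_)
    show B14.pavg (fun θ => B14.bd (fun ζ => c.time ζ / c.s * c.gam 𝔚 D ζ *
      (deriv (fun s => D.N (c.f ζ) s) (c.time ζ) + 𝔚.d0t (c.time ζ) (c.f ζ).1)) θ +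
        errClock X err B) = _
    rw [B14.pavg_add c2 continuous_const, B14.pavg_const]
    rfl
  · have hy := hc.bdry ζ hζ
    have hx := h.base_mem hy.1
    have hΦ := 𝓜.isHol_pΦ hx
    obtain ⟨ξ, hξ⟩ := S6.s6g_exists_cotParam h.cot hy.1 hΦ (𝓜.co_mem hx) (𝓜.pΦ_co hx).symm
    have hp := S6.s6g_cJoin_mem_cotDom (𝓜.co_mem hx) ξ
    have e1 := sympP_Tb h hc hF hζ hΦ hp hξ
    have e2 := h.walls.sympl _ _ hΦ _ hp (hξ ▸ hy) _ (htm ζ hζ)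
    rw [← hξ] at e2
    have hmw : 0 < c.mw 𝔚 ζ ^ 4 := pow_pos (pow_pos hy.2 _) 4
    obtain ⟨P, hP⟩ : ∃ P : ℝ, P = sympP (levi (fun p' => 𝔚.cost D (cotParam (𝓜.pΦ (c.f ζ).1) p')
      (c.time ζ)) (S6.cJoin (𝓜.co (c.f ζ).1) ξ)) (Jstd (Fin n)) := ⟨_, rfl⟩
    rw [← hP] at e1 e2
    obtain ⟨Ft, hFt⟩ : ∃ Ft : ℝ, Ft = deriv (fun s => D.N (c.f ζ) s) (c.time ζ) +
      𝔚.d0t (c.time ζ) (c.f ζ).1 := ⟨_, rfl⟩
    have e3 : 𝔚.gam0 D (c.f ζ) (c.time ζ) * (P - Ft) ≤ err := by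
      rw [hFt]
      linarith
    rw [e1, ← hFt]
    have e4 : c.gam 𝔚 D ζ * (P - Ft) ≤ err * Real.exp B := by
      have : c.gam 𝔚 D ζ * (P - Ft) =
          (𝔚.gam0 D (c.f ζ) (c.time ζ) * (P - Ft)) * (cA (c.g0 𝔚 D))⁻¹ := by
        unfold Config.gam Config.g0
        rw [div_eq_mul_inv]
        ring
      rw [this]
      calc _ ≤ err * (cA (c.g0 𝔚 D))⁻¹ :=
            mul_le_mul_of_nonneg_right e3 (inv_pos.2 hApos).le
        _ ≤ err * Real.exp B := mul_le_mul_of_nonneg_left hAinv herr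
    have b0 : 0 ≤ c.time ζ / c.s := (div_pos (htm ζ hζ).1 hs).le
    have b1 : c.time ζ / c.s ≤ X.T / (X.s₀ - X.rc) :=
      div_le_div₀ ((htm ζ hζ).1.le.trans (htm ζ hζ).2.le) (htm ζ hζ).2.le hlo hc.s_mem.1
    have e5 : c.time ζ / c.s * (c.gam 𝔚 D ζ * (P - Ft)) ≤ errClock X err B := by
      unfold errClock
      rw [mul_assoc]
      exact (mul_le_mul_of_nonneg_left e4 b0).trans
        (mul_le_mul_of_nonneg_right b1 (mul_nonneg herr (Real.exp_pos _).le))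
    have e6 : c.time ζ / c.s * c.gam 𝔚 D ζ * (c.mw 𝔚 ζ ^ 4)⁻¹ * (c.mw 𝔚 ζ ^ 4 * P) =
        c.time ζ / c.s * c.gam 𝔚 D ζ * P := by
      rw [mul_assoc, ← mul_assoc _ (c.mw 𝔚 ζ ^ 4) P, inv_mul_cancel₀ hmw.ne', one_mul]
    rw [e6]
    linarith

/-- the field `clock` of `FixedJ`.  `B` is any bound for `A1 (μ₀ + 1) + A2 (μ₀ + 1 + sup φ)`. -/
theorem clock5 (h : Std5 X 𝔚 D 𝒴 err A1 A2) (hmu : mu5 X 𝔚 D 𝒴 0 < (X.rc / 2) ^ 4) (CF B : ℝ)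
    (hB : ∀ s ∈ Set.Icc (X.s₀ - X.rc) (X.s₀ + X.rc), ∀ p ∈ Metric.closedBall X.p₀ X.rc,
      A1 * (mu5 X 𝔚 D 𝒴 0 + 1) + A2 * (mu5 X 𝔚 D 𝒴 0 + 1 + X.φ s p) ≤ B)
    (τ : ℝ) (hτ : 0 < τ) :
    ∀ᶠ ε in 𝓝[>] (0 : ℝ), ∀ᶠ η in 𝓝[>] (0 : ℝ), ∀ P, Adm5 X 𝔚 D 𝒴 CF ε η P →
      cA (fun ζ => P.om ζ * sympP (P.Tb ζ) (P.JE ζ)) ≤ P.ds + errClock X err B + τ := by
  obtain ⟨C, η₀, hη₀, hbt⟩ := backward_test h B
  set μ₀ : ℝ := mu5 X 𝔚 D 𝒴 0 with hμ₀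
  set τ' : ℝ := min (min 1 ((X.rc / 2) ^ 4 - μ₀)) (τ / (2 * (|C| + 1))) with hτ'
  have hτ'0 : 0 < τ' := lt_min (lt_min one_pos (by linarith)) (by positivity)
  have hτ'1 : τ' ≤ 1 := (min_le_left _ _).trans (min_le_left _ _)
  have hτ'2 : μ₀ + τ' ≤ (X.rc / 2) ^ 4 := by
    have := (min_le_left _ _).trans (min_le_right _ _) |>.trans_eq' hτ'.symm
    linarith
  have hτ'3 : |C| * τ' ≤ τ / 2 := by
    have h1 : τ' ≤ τ / (2 * (|C| + 1)) := min_le_right _ _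
    rw [le_div_iff₀ (by positivity)] at h1
    nlinarith [abs_nonneg C]
  have hε1 : ∀ᶠ ε in 𝓝[>] (0 : ℝ), 0 < ε ∧ ε ≤ 1 := by
    filter_upwards [Ioc_mem_nhdsGT (show (0 : ℝ) < 1 from one_pos)] with ε hε
    exact hε
  have hη1 : ∀ᶠ η in 𝓝[>] (0 : ℝ), 0 < η ∧ η ≤ min η₀ (τ' ^ 2) := by
    filter_upwards [Ioc_mem_nhdsGT (show (0 : ℝ) < min η₀ (τ' ^ 2) from
      lt_min hη₀ (by positivity))] with η hη
    exact hη
  filter_upwards [center_close h τ' hτ'0, hε1] with ε h1 hε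
  filter_upwards [h1, hη1] with η h2 hη P hP
  obtain ⟨c, U, JE, S0, hc, hfun, hF, hFB, hS0, rfl⟩ := hP
  have hadm := hc.1
  obtain ⟨hcen, hd, hN, hpen⟩ := h2 c hadm hfun
  have hBc : A1 * cA (fun ζ => 𝔚.dc (c.f ζ) (c.time ζ)) +
      A2 * cA (fun ζ => D.N (c.f ζ) (c.time ζ)) ≤ B := by
    have a1 := h.walls.A1_nonneg
    have a2 := h.walls.A2_nonneg
    have b0 := hB c.s hadm.s_mem c.p hadm.p_mem
    have b1 : cA (fun ζ => 𝔚.dc (c.f ζ) (c.time ζ)) ≤ μ₀ + 1 := by linarith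
    have b2 : cA (fun ζ => D.N (c.f ζ) (c.time ζ)) ≤ μ₀ + 1 + X.φ c.s c.p := by linarith
    have b3 := mul_le_mul_of_nonneg_left b1 a1
    have b4 := mul_le_mul_of_nonneg_left b2 a2
    linarith
  have hs : |c.s - X.s₀| ≤ X.rc / 2 := by
    have e1 : (c.s - X.s₀) ^ 4 ≤ (X.rc / 2) ^ 4 := by
      have : 0 ≤ ‖c.p - X.p₀‖ ^ 4 := by positivity
      linarith
    have e2 : |c.s - X.s₀| ^ 4 ≤ (X.rc / 2) ^ 4 := by
      rwa [show |c.s - X.s₀| ^ 4 = (c.s - X.s₀) ^ 4 from by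
        rw [show (4 : ℕ) = 2 * 2 from rfl, pow_mul, pow_mul, sq_abs]]
    exact le_of_pow_le_pow_left₀ (by norm_num) (by linarith [h.valid.rc_pos]) e2
  have hb := hbt ε η c hε.1.le hε.2 hη.1 (hη.2.trans (min_le_left _ _)) hadm hfun hs hBc
  have ha := clock_avg_le h CF B hadm hF hFB hBc
  have hsq : Real.sqrt η ≤ τ' := by
    have : η ≤ τ' ^ 2 := hη.2.trans (min_le_right _ _)
    exact (Real.sqrt_le_sqrt this).trans_eq (Real.sqrt_sq hτ'0.le)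
  have hEn := energy5_nonneg h hadm
  have c1 : C * ε * (1 + energy5 X 𝔚 𝓜 g c) ≤ τ / 2 := by
    have : C * ε * (1 + energy5 X 𝔚 𝓜 g c) = C * (ε * (1 + energy5 X 𝔚 𝓜 g c)) := by ring
    rw [this]
    have p0 : 0 ≤ ε * (1 + energy5 X 𝔚 𝓜 g c) := mul_nonneg hε.1.le (by linarith)
    calc C * (ε * (1 + energy5 X 𝔚 𝓜 g c)) ≤ |C| * (ε * (1 + energy5 X 𝔚 𝓜 g c)) := by
          gcongr
          exact le_abs_self C
      _ ≤ |C| * τ' := by gcongr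
      _ ≤ τ / 2 := hτ'3
  have c2 : C * Real.sqrt η ≤ τ / 2 := by
    calc C * Real.sqrt η ≤ |C| * Real.sqrt η := by
          gcongr
          exact le_abs_self C
      _ ≤ |C| * τ' := by gcongr
      _ ≤ τ / 2 := hτ'3
  show cA (fun ζ => (c.time ζ / c.s * c.gam 𝔚 D ζ * (c.mw 𝔚 ζ ^ 4)⁻¹) *
      sympP (c.Tb X 𝔚 D 𝒴 U ζ) (JE ζ)) ≤
    deriv (fun s => X.φ s c.p) c.s + errClock X err B + τ
  linarith

end Claimed.Agent.R316
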