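import Claimed.Agent.R316.S5.ParamInt

/-!
# Row 316, Section 5.2: abstract analysis for the logarithmic wall seminorm (`BP-S5-LW`)

MATHLIB + `S5/Circle.lean` + `S5/ParamInt.lean` only, no geometry.  Used by `S5/LogWallG.lean` and `S5/LogWall.lean` (`logwall_e_le`, `logwall_c_le`).

* `LW-A` : `lw_chord_arc`, `lw_famSm_lip` (uniform Lipschitz constant of a smooth family over a compact parameter set), `lw_sub_eq_integral`
  (`w_z - w_0 = ∫₀¹ 2 Re (z ∂_z w_{sz}) ds` for a REAL family), `lw_Dsq_sub_le` (`D(w_z - w_0)² ≤ 4 |z|² sup_s D(∂_z w_{sz})²`, by `Dsq_le_of_diff_integral`).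
* `LW-B` : `lw_abs_exp_sub_le`, `lw_Dsq_exp_le` (`D(e^{-a e}) ≤ a R D(e)`), `lw_absorb` (the ABSORPTION argument).
* `LW-C` : `lw_lin_le`, `lw_quad_le` (`D²` of `∑ λ_r Z_r` and of `Re ∑ conj Z_i 𝕃_ij Z_j`).
-/

set_option autoImplicit false
open scoped ContDiff ComplexOrder Topology Matrix
open MeasureTheory Filter

namespace Claimed.Agent.R316

/-! ### `LW-A` -/

/-- chord-arc with an explicit constant (second half of the proof of `circLip_iff`). -/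
theorem lw_chord_arc {a : ℂ → ℂ} {K : ℝ} (hK0 : 0 ≤ K)
    (hK : ∀ s t : ℝ, ‖a (circleMap 0 1 s) - a (circleMap 0 1 t)‖ ≤ K * |s - t|) :
    ∀ ζ ∈ uCirc, ∀ ξ ∈ uCirc, ‖a ζ - a ξ‖ ≤ K * (Real.pi / 2) * ‖ζ - ξ‖ := by
  intro ζ hζ ξ hξ
  have hζ1 : ‖ζ‖ = 1 := by simpa using hζ
  have hξ1 : ‖ξ‖ = 1 := by simpa using hξ
  have hξ0 : ξ ≠ 0 := by
    intro h0
    rw [h0] at hξ1
    simp at hξ1
  set u : ℝ := Complex.arg (ζ / ξ) with hu
  set t : ℝ := Complex.arg ξ with ht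
  have hq : ‖ζ / ξ‖ = 1 := by rw [norm_div, hζ1, hξ1, div_one]
  have e1 : Complex.exp (Complex.I * (u : ℂ)) = ζ / ξ := by
    have := Complex.norm_mul_exp_arg_mul_I (ζ / ξ)
    rw [hq] at this
    rw [mul_comm]
    simpa using this
  have e2 : circleMap 0 1 t = ξ := by
    have := Complex.norm_mul_exp_arg_mul_I ξ
    rw [hξ1] at this
    simpa [circleMap] using this
  have e3 : circleMap 0 1 (t + u) = ζ := by
    have h5 : circleMap 0 1 (t + u) = circleMap 0 1 t * Complex.exp (Complex.I * (u : ℂ)) := by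
      simp only [circleMap, zero_add, Complex.ofReal_one, one_mul, ← Complex.exp_add]
      congr 1
      push_cast
      ring
    rw [h5, e2, e1]
    field_simp
  have h6 := hK (t + u) t
  simp only [e2, e3, add_sub_cancel_left] at h6
  have h7 : |u| ≤ Real.pi / 2 * ‖ζ - ξ‖ := by
    have h8 : ‖ζ - ξ‖ = ‖Complex.exp (Complex.I * (u : ℂ)) - 1‖ := by
      rw [e1, div_sub_one hξ0, norm_div, hξ1, div_one]
    rw [h8, Complex.norm_exp_I_mul_ofReal_sub_one, Real.norm_eq_abs, abs_mul, abs_two]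
    have hu1 : |u| ≤ Real.pi := Complex.abs_arg_le_pi _
    have h9 : 2 / Real.pi * (|u| / 2) ≤ Real.sin (|u| / 2) :=
      Real.mul_le_sin (by positivity) (by linarith)
    have h10 : |Real.sin (u / 2)| = Real.sin (|u| / 2) := by
      rcases abs_cases u with ⟨hh, _⟩ | ⟨hh, _⟩
      · rw [hh]
        exact abs_of_nonneg (Real.sin_nonneg_of_nonneg_of_le_pi (by linarith [abs_nonneg u])
          (by linarith [Real.pi_pos]))
      · rw [hh, neg_div, Real.sin_neg]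
        rw [abs_of_nonpos]
        have : 0 ≤ Real.sin (-u / 2) := Real.sin_nonneg_of_nonneg_of_le_pi (by linarith)
          (by linarith [Real.pi_pos])
        rw [neg_div, Real.sin_neg] at this
        linarith
    rw [h10]
    have hpi := Real.pi_pos
    have h11 : |u| = Real.pi / 2 * (2 * (2 / Real.pi * (|u| / 2))) := by
      field_simp
    calc |u| = Real.pi / 2 * (2 * (2 / Real.pi * (|u| / 2))) := h11
      _ ≤ Real.pi / 2 * (2 * Real.sin (|u| / 2)) := by gcongr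
  calc ‖a ζ - a ξ‖ ≤ K * |u| := h6
    _ ≤ K * (Real.pi / 2 * ‖ζ - ξ‖) := by gcongr
    _ = K * (Real.pi / 2) * ‖ζ - ξ‖ := by ring

/-- a smooth family is uniformly Lipschitz on the circle, over compact parameter sets. -/
theorem lw_famSm_lip {Ω : Set ℂ} {u : ℂ → ℂ → ℂ} (hΩ : IsOpen Ω) (hu : FamSm Ω u) {K : Set ℂ}
    (hK : IsCompact K) (hKΩ : K ⊆ Ω) :
    ∃ C : ℝ, ∀ z ∈ K, ∀ ζ ∈ uCirc, ∀ ξ ∈ uCirc, ‖u z ζ - u z ξ‖ ≤ C * ‖ζ - ξ‖ := by
  have h1 : ContinuousOn (fun p : ℂ × ℂ => dth (u p.1) p.2) (K ×ˢ uCirc) :=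
    (hu.dth hΩ).continuousOn_joint.mono (Set.prod_mono hKΩ le_rfl)
  obtain ⟨C₀, hC₀⟩ := (hK.prod (isCompact_sphere (0 : ℂ) 1)).exists_bound_of_continuousOn h1
  refine ⟨|C₀| * (Real.pi / 2), fun z hz => lw_chord_arc (abs_nonneg _) fun s t => ?_⟩
  have hsm : CircSm (u z) := hu.circSm (hKΩ hz)
  have hd : Differentiable ℝ fun θ : ℝ => u z (circleMap 0 1 θ) :=
    ContDiff.differentiable hsm (by simp)
  have hb : ∀ θ : ℝ, ‖deriv (fun θ : ℝ => u z (circleMap 0 1 θ)) θ‖ ≤ |C₀| := fun θ => by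
    have h2 := hC₀ (z, circleMap 0 1 θ) ⟨hz, circleMap_mem_uCirc θ⟩
    simp only [dth_circleMap] at h2
    exact h2.trans (le_abs_self _)
  have := Convex.norm_image_sub_le_of_norm_deriv_le (s := Set.univ)
    (fun θ _ => hd θ) (fun θ _ => hb θ) convex_univ (Set.mem_univ t) (Set.mem_univ s)
  simpa [Real.norm_eq_abs] using this

theorem lwa_smul_mem {r₀ : ℝ} {z : ℂ} (hz : z ∈ Metric.ball (0 : ℂ) r₀) {s : ℝ}
    (hs : s ∈ Set.Icc (0 : ℝ) 1) : (s : ℂ) * z ∈ Metric.ball (0 : ℂ) r₀ := by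
  rw [mem_ball_zero_iff] at hz ⊢
  rw [norm_mul, Complex.norm_real, Real.norm_eq_abs, abs_of_nonneg hs.1]
  nlinarith [norm_nonneg z, hs.2]

/-- for a real function `dbar1 = conj d1`, so the real derivative is `2 Re (d1 · w)`. -/
theorem lwa_fderiv_real (a : ℂ → ℝ) (y w : ℂ) :
    fderiv ℝ (fun x => (a x : ℂ)) y w = ((2 * (w * d1 (fun x => (a x : ℂ)) y).re : ℝ) : ℂ) := by
  have h1 := d1_conj (fun x => (a x : ℂ)) y
  simp only [Complex.conj_ofReal] at h1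
  have h2 : dbar1 (fun x => (a x : ℂ)) y = (starRingEnd ℂ) (d1 (fun x => (a x : ℂ)) y) := by
    rw [h1, Complex.conj_conj]
  rw [fderiv_eq_d1_dbar1, h2, ← map_mul, Complex.add_conj, mul_comm w]

theorem lwa_continuousOn_d1 {r₀ : ℝ} {w : ℂ → ℂ → ℝ}
    (hw : FamSm (Metric.ball 0 r₀) fun z ζ => (w z ζ : ℂ)) {z : ℂ}
    (hz : z ∈ Metric.ball (0 : ℂ) r₀) {ζ : ℂ} (hζ : ζ ∈ uCirc) :
    ContinuousOn (fun s : ℝ => d1 (fun y => (w y ζ : ℂ)) (s * z)) (Set.Icc 0 1) := by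
  have h1 : ContinuousOn (fun y => d1 (fun x => (w x ζ : ℂ)) y) (Metric.ball 0 r₀) :=
    ((hw.d1 Metric.isOpen_ball).contDiffOn_z hζ).continuousOn
  refine h1.comp (Continuous.continuousOn (by fun_prop)) fun s hs => lwa_smul_mem hz hs

/-- fundamental theorem of calculus along the segment `[0, z]` for a real family. -/
theorem lw_sub_eq_integral {r₀ : ℝ} {w : ℂ → ℂ → ℝ}
    (hw : FamSm (Metric.ball 0 r₀) fun z ζ => (w z ζ : ℂ)) {z : ℂ}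
    (hz : z ∈ Metric.ball (0 : ℂ) r₀) {ζ : ℂ} (hζ : ζ ∈ uCirc) :
    w z ζ - w 0 ζ = ∫ s in (0 : ℝ)..1, 2 * (z * d1 (fun y => (w y ζ : ℂ)) (s * z)).re := by
  have hder : ∀ s ∈ Set.uIcc (0 : ℝ) 1, HasDerivAt (fun s : ℝ => w (s * z) ζ)
      (2 * (z * d1 (fun y => (w y ζ : ℂ)) (s * z)).re) s := by
    intro s hs
    rw [Set.uIcc_of_le zero_le_one] at hs
    have hmem := lwa_smul_mem hz hs
    have h1 : DifferentiableAt ℝ (fun y => (w y ζ : ℂ)) (s * z) :=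
      ((hw.contDiffOn_z hζ).contDiffAt (Metric.isOpen_ball.mem_nhds hmem)).differentiableAt
        (by simp)
    have h2 : HasDerivAt (fun s : ℝ => (s : ℂ) * z) z s := by
      simpa using (Complex.ofRealCLM.hasDerivAt (x := s)).mul_const z
    have h3 := h1.hasFDerivAt.comp_hasDerivAt s h2
    rw [lwa_fderiv_real] at h3
    have h4 := Complex.reCLM.hasFDerivAt.comp_hasDerivAt s h3
    simpa [Function.comp_def] using h4
  have hint : IntervalIntegrable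
      (fun s : ℝ => 2 * (z * d1 (fun y => (w y ζ : ℂ)) (s * z)).re) volume 0 1 := by
    apply ContinuousOn.intervalIntegrable
    rw [Set.uIcc_of_le zero_le_one]
    have := lwa_continuousOn_d1 hw hz hζ
    exact continuousOn_const.mul (Complex.continuous_re.comp_continuousOn
      (continuousOn_const.mul this))
  rw [intervalIntegral.integral_eq_sub_of_hasDerivAt hder hint]
  simp

/-- Cauchy-Schwarz on `[0, 1]`. -/
theorem lwa_sq_integral_le {ψ : ℝ → ℝ} (hψ : ContinuousOn ψ (Set.Icc 0 1)) :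
    (∫ s in (0 : ℝ)..1, ψ s) ^ 2 ≤ ∫ s in (0 : ℝ)..1, ψ s ^ 2 := by
  obtain ⟨m, hm⟩ : ∃ m : ℝ, m = ∫ s in (0 : ℝ)..1, ψ s := ⟨_, rfl⟩
  rw [← hm]
  have hu : Set.uIcc (0 : ℝ) 1 = Set.Icc 0 1 := Set.uIcc_of_le zero_le_one
  have i1 : IntervalIntegrable ψ volume 0 1 := by
    apply ContinuousOn.intervalIntegrable
    rwa [hu]
  have i2 : IntervalIntegrable (fun s => ψ s ^ 2) volume 0 1 := by
    apply ContinuousOn.intervalIntegrable
    rw [hu]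
    exact hψ.pow 2
  have h0 : 0 ≤ ∫ s in (0 : ℝ)..1, (ψ s - m) ^ 2 :=
    intervalIntegral.integral_nonneg zero_le_one fun s _ => sq_nonneg _
  have h1 : ∫ s in (0 : ℝ)..1, (ψ s - m) ^ 2 =
      (∫ s in (0 : ℝ)..1, ψ s ^ 2) - 2 * m * m + m ^ 2 := by
    have e : (fun s => (ψ s - m) ^ 2) = fun s => ψ s ^ 2 - 2 * m * ψ s + m ^ 2 := by
      funext s
      ring
    rw [e, intervalIntegral.integral_add (i2.sub (i1.const_mul _)) intervalIntegrable_const,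
      intervalIntegral.integral_sub i2 (i1.const_mul _), intervalIntegral.integral_const_mul,
      intervalIntegral.integral_const, ← hm]
    simp
  nlinarith

/-- `D(w_z - w_0)² ≤ 4 |z|² sup_{s ∈ [0,1]} D(∂_z w_{sz})²`. -/
theorem lw_Dsq_sub_le {r₀ : ℝ} {w : ℂ → ℂ → ℝ}
    (hw : FamSm (Metric.ball 0 r₀) fun z ζ => (w z ζ : ℂ)) {z : ℂ}
    (hz : z ∈ Metric.ball (0 : ℂ) r₀) {B : ℝ}
    (hB : ∀ s ∈ Set.Icc (0 : ℝ) 1, Dsq (fun ζ => d1 (fun y => (w y ζ : ℂ)) (s * z)) ≤ B) :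
    DsqR (fun ζ => w z ζ - w 0 ζ) ≤ 4 * ‖z‖ ^ 2 * B := by
  have hb : FamSm (Metric.ball 0 r₀) fun y ζ => d1 (fun x => (w x ζ : ℂ)) y :=
    hw.d1 Metric.isOpen_ball
  have hzn : ‖z‖ < r₀ := by simpa using hz
  obtain ⟨C, hC⟩ := lw_famSm_lip Metric.isOpen_ball hb (isCompact_closedBall (0 : ℂ) ‖z‖)
    (Metric.closedBall_subset_ball hzn)
  have hmemc : ∀ s ∈ Set.Icc (0 : ℝ) 1, (s : ℂ) * z ∈ Metric.closedBall (0 : ℂ) ‖z‖ := by
    intro s hs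
    rw [mem_closedBall_zero_iff, norm_mul, Complex.norm_real, Real.norm_eq_abs,
      abs_of_nonneg hs.1]
    nlinarith [norm_nonneg z, hs.2]
  have hgc : ContinuousOn (fun p : ℝ × ℂ => d1 (fun x => (w x p.2 : ℂ)) (p.1 * z))
      (Set.Icc 0 1 ×ˢ uCirc) := by
    have h1 := hb.continuousOn_joint
    have h2 : ContinuousOn (fun p : ℝ × ℂ => (((p.1 : ℂ) * z, p.2) : ℂ × ℂ))
        (Set.Icc 0 1 ×ˢ uCirc) := Continuous.continuousOn (by fun_prop)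
    exact ContinuousOn.comp (g := fun p : ℂ × ℂ => d1 (fun x => (w x p.2 : ℂ)) p.1)
      (f := fun p : ℝ × ℂ => (((p.1 : ℂ) * z, p.2) : ℂ × ℂ)) h1 h2
      fun p hp => ⟨lwa_smul_mem hz hp.1, hp.2⟩
  have key := Dsq_le_of_diff_integral (a := fun ζ => ((w z ζ - w 0 ζ : ℝ) : ℂ))
    (g := fun s ζ => d1 (fun x => (w x ζ : ℂ)) (s * z)) (c := fun _ => 4 * ‖z‖ ^ 2)
    (α := 0) (β := 1) (C := C) zero_le_one
    (fun s hs ζ hζ ξ hξ => hC _ (hmemc s hs) ζ hζ ξ hξ) hgc continuousOn_const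
    (fun _ _ => by positivity)
    (fun ζ hζ ξ hξ => by
      have c1 := lwa_continuousOn_d1 hw hz hζ
      have c2 := lwa_continuousOn_d1 hw hz hξ
      have hu : Set.uIcc (0 : ℝ) 1 = Set.Icc 0 1 := Set.uIcc_of_le zero_le_one
      have cψ : ContinuousOn (fun s : ℝ => 2 * (z * (d1 (fun y => (w y ζ : ℂ)) (s * z) -
          d1 (fun y => (w y ξ : ℂ)) (s * z))).re) (Set.Icc 0 1) :=
        continuousOn_const.mul (Complex.continuous_re.comp_continuousOn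
          (continuousOn_const.mul (c1.sub c2)))
      have i1 : IntervalIntegrable
          (fun s : ℝ => 2 * (z * d1 (fun y => (w y ζ : ℂ)) (s * z)).re) volume 0 1 := by
        apply ContinuousOn.intervalIntegrable
        rw [hu]
        exact continuousOn_const.mul (Complex.continuous_re.comp_continuousOn
          (continuousOn_const.mul c1))
      have i2 : IntervalIntegrable
          (fun s : ℝ => 2 * (z * d1 (fun y => (w y ξ : ℂ)) (s * z)).re) volume 0 1 := by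
        apply ContinuousOn.intervalIntegrable
        rw [hu]
        exact continuousOn_const.mul (Complex.continuous_re.comp_continuousOn
          (continuousOn_const.mul c2))
      have e1 : (w z ζ - w 0 ζ) - (w z ξ - w 0 ξ) =
          ∫ s in (0 : ℝ)..1, 2 * (z * (d1 (fun y => (w y ζ : ℂ)) (s * z) -
            d1 (fun y => (w y ξ : ℂ)) (s * z))).re := by
        rw [lw_sub_eq_integral hw hz hζ, lw_sub_eq_integral hw hz hξ,
          ← intervalIntegral.integral_sub i1 i2]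
        congr 1
        funext s
        rw [mul_sub, Complex.sub_re]
        ring
      rw [← Complex.ofReal_sub, Complex.norm_real, Real.norm_eq_abs, sq_abs, e1]
      refine (lwa_sq_integral_le cψ).trans ?_
      refine intervalIntegral.integral_mono_on zero_le_one ?_ ?_ fun s _ => ?_
      · apply ContinuousOn.intervalIntegrable
        rw [hu]
        exact cψ.pow 2
      · apply ContinuousOn.intervalIntegrable
        rw [hu]
        exact continuousOn_const.mul ((c1.sub c2).norm.pow 2)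
      · have h5 := Complex.abs_re_le_norm (z * (d1 (fun y => (w y ζ : ℂ)) (s * z) -
          d1 (fun y => (w y ξ : ℂ)) (s * z)))
        rw [norm_mul] at h5
        rw [mul_pow, ← sq_abs (Complex.re _)]
        have h6 := pow_le_pow_left₀ (abs_nonneg _) h5 2
        rw [mul_pow] at h6
        nlinarith)
  refine le_trans key ?_
  have hB0 : 0 ≤ B := (Dsq_nonneg _).trans (hB 0 ⟨le_rfl, zero_le_one⟩)
  have h7 := intervalIntegral.norm_integral_le_of_norm_le_const (a := (0 : ℝ)) (b := 1)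
    (f := fun s : ℝ => 4 * ‖z‖ ^ 2 * Dsq (fun ζ => d1 (fun x => (w x ζ : ℂ)) (s * z)))
    (C := 4 * ‖z‖ ^ 2 * B) (fun s hs => by
      rw [Set.uIoc_of_le zero_le_one] at hs
      rw [Real.norm_eq_abs, abs_of_nonneg (mul_nonneg (by positivity) (Dsq_nonneg _))]
      exact mul_le_mul_of_nonneg_left (hB s ⟨hs.1.le, hs.2⟩) (by positivity))
  simp only [sub_zero, abs_one, mul_one] at h7
  exact (le_abs_self _).trans h7

/-! ### `LW-B` -/

theorem lw_abs_exp_sub_le {x y R : ℝ} (hx : Real.exp x ≤ R) (hy : Real.exp y ≤ R) :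
    |Real.exp x - Real.exp y| ≤ R * |x - y| := by
  have key : ∀ {x y : ℝ}, Real.exp x ≤ R → y ≤ x →
      |Real.exp x - Real.exp y| ≤ R * |x - y| := by
    intro x y hx hyx
    rw [abs_of_nonneg (sub_nonneg.2 (Real.exp_le_exp.2 hyx)), abs_of_nonneg (sub_nonneg.2 hyx)]
    have h1 := Real.add_one_le_exp (y - x)
    have h2 : Real.exp y = Real.exp x * Real.exp (y - x) := by
      rw [← Real.exp_add]
      ring_nf
    have h3 := Real.exp_pos x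
    rw [h2]
    nlinarith [mul_nonneg h3.le (sub_nonneg.2 h1), mul_nonneg (sub_nonneg.2 hx) (sub_nonneg.2 hyx)]
  rcases le_total y x with h | h
  · exact key hx h
  · rw [abs_sub_comm, abs_sub_comm x y]
    exact key hy h

/-- `D(e^{-a e}) ≤ a R D(e)` if `e^{-a e} ≤ R`. -/
theorem lw_Dsq_exp_le {e : ℂ → ℝ} (he : CircLip fun ζ => (e ζ : ℂ)) {a R : ℝ} (ha : 0 ≤ a)
    (hR : ∀ ζ ∈ uCirc, Real.exp (-(a * e ζ)) ≤ R) :
    CircLip (fun ζ => ((Real.exp (-(a * e ζ)) : ℝ) : ℂ)) ∧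
      DsqR (fun ζ => Real.exp (-(a * e ζ))) ≤ (a * R) ^ 2 * DsqR e := by
  have hdiff : ∀ ζ ∈ uCirc, ∀ ξ ∈ uCirc,
      ‖((Real.exp (-(a * e ζ)) : ℝ) : ℂ) - ((Real.exp (-(a * e ξ)) : ℝ) : ℂ)‖ ^ 2 ≤
        ∑ _j : Unit, (a * R) ^ 2 * ‖((e ζ : ℝ) : ℂ) - ((e ξ : ℝ) : ℂ)‖ ^ 2 := by
    intro ζ hζ ξ hξ
    have h1 := lw_abs_exp_sub_le (hR ζ hζ) (hR ξ hξ)
    have h2 : |-(a * e ζ) - -(a * e ξ)| = a * |e ζ - e ξ| := by
      have : -(a * e ζ) - -(a * e ξ) = -(a * (e ζ - e ξ)) := by ring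
      rw [this, abs_neg, abs_mul, abs_of_nonneg ha]
    rw [h2] at h1
    rw [← Complex.ofReal_sub, ← Complex.ofReal_sub, Complex.norm_real, Complex.norm_real,
      Real.norm_eq_abs, Real.norm_eq_abs]
    simp only [Finset.univ_unique, Finset.sum_const, Finset.card_singleton, one_smul]
    rw [← mul_pow]
    refine pow_le_pow_left₀ (abs_nonneg _) (h1.trans (le_of_eq ?_)) 2
    ring
  refine ⟨circLip_of_diff (fun _ : Unit => he) hdiff, ?_⟩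
  have h := Dsq_le_of_diff (fun _ : Unit => he) (fun _ => by positivity) hdiff
  simpa [DsqR] using h

/-- ABSORPTION.  `e` a real smooth family with `e_0 = 0` and `∂_z e_z = e^{-a e_z} β_z`.  If `e^{-a e} ≤ R`, `|β| ≤ K`, `D(β_y) ≤ B` for `|y| ≤ ρ` and
`4 ρ K a R ≤ 1`, then `D(e_z) ≤ 4 ρ R B` for `|z| ≤ ρ`.
PROOF.  `y ↦ D(e_y)²` is continuous on the compact `closedBall 0 ρ` (`FamSm.continuousOn_Dsq`): let `y₀` be a maximum point, `φ = D(e_{y₀})`.  By `lw_Dsq_sub_le` at `z = y₀`: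
`φ ≤ 2 ρ sup_{|y| ≤ ρ} D(b_y)`, `D(b_y) ≤ R D(β_y) + K D(e^{-a e_y}) ≤ R B + K a R φ` (`sqrt_Dsq_mul_le`, `lw_Dsq_exp_le`).  Hence `φ ≤ 2 ρ R B + φ / 2`. -/
theorem lw_absorb {r₀ ρ a R K B : ℝ} {e : ℂ → ℂ → ℝ} {β : ℂ → ℂ → ℂ}
    (he : FamSm (Metric.ball 0 r₀) fun z ζ => (e z ζ : ℂ)) (he0 : ∀ ζ ∈ uCirc, e 0 ζ = 0)
    (hρ0 : 0 ≤ ρ) (hρ : ρ < r₀) (ha : 0 ≤ a) (hB0 : 0 ≤ B)
    (hd : ∀ y : ℂ, ‖y‖ ≤ ρ → ∀ ζ ∈ uCirc,
      d1 (fun x => (e x ζ : ℂ)) y = ((Real.exp (-(a * e y ζ)) : ℝ) : ℂ) * β y ζ)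
    (hR : ∀ y : ℂ, ‖y‖ ≤ ρ → ∀ ζ ∈ uCirc, Real.exp (-(a * e y ζ)) ≤ R)
    (hβL : ∀ y : ℂ, ‖y‖ ≤ ρ → CircLip (β y))
    (hK : ∀ y : ℂ, ‖y‖ ≤ ρ → ∀ ζ ∈ uCirc, ‖β y ζ‖ ≤ K)
    (hB : ∀ y : ℂ, ‖y‖ ≤ ρ → Dsq (β y) ≤ B ^ 2)
    (hsmall : 4 * ρ * (K * a * R) ≤ 1) :
    ∀ z : ℂ, ‖z‖ ≤ ρ → DsqR (e z) ≤ (4 * ρ * R * B) ^ 2 := by
  have h1c : (1 : ℂ) ∈ uCirc := by simp [uCirc]
  have h00 : ‖(0 : ℂ)‖ ≤ ρ := by simpa using hρ0
  have hK0 : 0 ≤ K := (norm_nonneg _).trans (hK 0 h00 1 h1c)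
  have hR0 : 0 ≤ R := (Real.exp_pos _).le.trans (hR 0 h00 1 h1c)
  have hsub : Metric.closedBall (0 : ℂ) ρ ⊆ Metric.ball 0 r₀ :=
    Metric.closedBall_subset_ball hρ
  have hcont := (FamSm.continuousOn_Dsq Metric.isOpen_ball he).mono hsub
  obtain ⟨y₀, hy₀, hmax⟩ := (isCompact_closedBall (0 : ℂ) ρ).exists_isMaxOn
    ⟨0, by simpa using hρ0⟩ hcont
  have hy₀' : ‖y₀‖ ≤ ρ := by simpa using hy₀
  set φ : ℝ := Real.sqrt (DsqR (e y₀)) with hφ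
  have hφ0 : 0 ≤ φ := Real.sqrt_nonneg _
  have hφsq : φ ^ 2 = DsqR (e y₀) := Real.sq_sqrt (DsqR_nonneg _)
  have hle : ∀ y : ℂ, ‖y‖ ≤ ρ → DsqR (e y) ≤ DsqR (e y₀) := fun y hy =>
    hmax (by simpa using hy)
  have heL : ∀ y : ℂ, ‖y‖ ≤ ρ → CircLip fun ζ => (e y ζ : ℂ) := fun y hy =>
    (he.circSm (hsub (by simpa using hy))).circLip
  set S : ℝ := R * B + K * (a * R * φ) with hS
  have hS0 : 0 ≤ S := by positivity
  have hb : ∀ y : ℂ, ‖y‖ ≤ ρ → Dsq (fun ζ => d1 (fun x => (e x ζ : ℂ)) y) ≤ S ^ 2 := by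
    intro y hy
    have e1 : Dsq (fun ζ => d1 (fun x => (e x ζ : ℂ)) y) =
        Dsq fun ζ => ((Real.exp (-(a * e y ζ)) : ℝ) : ℂ) * β y ζ :=
      Dsq_congr fun ζ hζ => hd y hy ζ hζ
    obtain ⟨hEL, hED⟩ := lw_Dsq_exp_le (heL y hy) ha (hR y hy)
    have h1 := sqrt_Dsq_mul_le hEL (hβL y hy) (A := R) (B := K)
      (fun ζ hζ => by
        rw [Complex.norm_real, Real.norm_eq_abs, abs_of_pos (Real.exp_pos _)]
        exact hR y hy ζ hζ) (hK y hy)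
    have h2 : Real.sqrt (Dsq (β y)) ≤ B := Real.sqrt_le_iff.2 ⟨hB0, hB y hy⟩
    have h3 : Real.sqrt (Dsq fun ζ => ((Real.exp (-(a * e y ζ)) : ℝ) : ℂ)) ≤ a * R * φ := by
      refine Real.sqrt_le_iff.2 ⟨by positivity, ?_⟩
      have h4 : (a * R) ^ 2 * DsqR (e y) ≤ (a * R) ^ 2 * DsqR (e y₀) :=
        mul_le_mul_of_nonneg_left (hle y hy) (by positivity)
      calc Dsq (fun ζ => ((Real.exp (-(a * e y ζ)) : ℝ) : ℂ)) ≤ (a * R) ^ 2 * DsqR (e y) := hED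
        _ ≤ (a * R) ^ 2 * DsqR (e y₀) := h4
        _ = (a * R * φ) ^ 2 := by rw [mul_pow (a * R) φ, hφsq]
    have h5 : Real.sqrt (Dsq fun ζ => ((Real.exp (-(a * e y ζ)) : ℝ) : ℂ) * β y ζ) ≤ S :=
      h1.trans (add_le_add (mul_le_mul_of_nonneg_left h2 hR0) (mul_le_mul_of_nonneg_left h3 hK0))
    rw [e1]
    exact (Real.sqrt_le_iff.1 h5).2
  have h6 := lw_Dsq_sub_le he (hsub hy₀) (B := S ^ 2) fun s hs => hb _ (by
    rw [norm_mul, Complex.norm_real, Real.norm_eq_abs, abs_of_nonneg hs.1]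
    calc s * ‖y₀‖ ≤ 1 * ‖y₀‖ := mul_le_mul_of_nonneg_right hs.2 (norm_nonneg _)
      _ ≤ ρ := by rw [one_mul]; exact hy₀')
  have e2 : DsqR (fun ζ => e y₀ ζ - e 0 ζ) = DsqR (e y₀) :=
    Dsq_congr fun ζ hζ => by
      show ((e y₀ ζ - e 0 ζ : ℝ) : ℂ) = ((e y₀ ζ : ℝ) : ℂ)
      rw [he0 ζ hζ, sub_zero]
  rw [e2, ← hφsq] at h6
  have h7 : φ ^ 2 ≤ (2 * ρ * S) ^ 2 := by
    have h8 : ‖y₀‖ ^ 2 ≤ ρ ^ 2 := pow_le_pow_left₀ (norm_nonneg _) hy₀' 2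
    have h9 : 4 * ‖y₀‖ ^ 2 * S ^ 2 ≤ 4 * ρ ^ 2 * S ^ 2 :=
      mul_le_mul_of_nonneg_right (by linarith) (by positivity)
    calc φ ^ 2 ≤ 4 * ‖y₀‖ ^ 2 * S ^ 2 := h6
      _ ≤ 4 * ρ ^ 2 * S ^ 2 := h9
      _ = (2 * ρ * S) ^ 2 := by ring
  have h10 : φ ≤ 2 * ρ * S := abs_le_of_sq_le_sq' h7 (by positivity) |>.2
  have h11 : φ ≤ 4 * ρ * R * B := by
    have h12 : 4 * ρ * (K * a * R) * φ ≤ 1 * φ := mul_le_mul_of_nonneg_right hsmall hφ0
    rw [hS] at h10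
    nlinarith
  intro z hz
  calc DsqR (e z) ≤ DsqR (e y₀) := hle z hz
    _ = φ ^ 2 := hφsq.symm
    _ ≤ (4 * ρ * R * B) ^ 2 := pow_le_pow_left₀ hφ0 h11 2

/-! ### `LW-C` -/

/-- `D²` of `∑_r λ_r Z_r` (`Dsq_sum_le`, `Dsq_mul_le`). -/
theorem lw_lin_le {q : ℕ} {lam Z : ℂ → Fin q → ℂ} {C Bz DX : ℝ}
    (hlam : ∀ r, CircLip fun ζ => lam ζ r) (hZ : ∀ r, CircLip fun ζ => Z ζ r)
    (hC : ∀ r, ∀ ζ ∈ uCirc, ‖lam ζ r‖ ≤ C) (hBz : ∀ r, ∀ ζ ∈ uCirc, ‖Z ζ r‖ ≤ Bz)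
    (hD : ∀ r, Dsq (fun ζ => lam ζ r) ≤ DX) :
    CircLip (fun ζ => ∑ r, lam ζ r * Z ζ r) ∧
    (∀ ζ ∈ uCirc, ‖∑ r, lam ζ r * Z ζ r‖ ≤ q * (C * Bz)) ∧
    Dsq (fun ζ => ∑ r, lam ζ r * Z ζ r) ≤
      q * (2 * C ^ 2 * DsqV Z + 2 * Bz ^ 2 * (q * DX)) := by
  have hp : ∀ r, CircLip fun ζ => lam ζ r * Z ζ r := fun r => (hlam r).mul (hZ r)
  refine ⟨CircLip.sum _ fun r _ => hp r, fun ζ hζ => ?_, ?_⟩
  · calc ‖∑ r, lam ζ r * Z ζ r‖ ≤ ∑ r, ‖lam ζ r * Z ζ r‖ := norm_sum_le _ _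
      _ ≤ ∑ _r : Fin q, C * Bz := Finset.sum_le_sum fun r _ => by
          rw [norm_mul]
          exact mul_le_mul (hC r ζ hζ) (hBz r ζ hζ) (norm_nonneg _)
            ((norm_nonneg _).trans (hC r ζ hζ))
      _ = q * (C * Bz) := by
          rw [Finset.sum_const, Finset.card_univ, Fintype.card_fin, nsmul_eq_mul]
  · refine (Dsq_sum_le hp).trans ?_
    rw [Fintype.card_fin]
    refine mul_le_mul_of_nonneg_left ?_ (Nat.cast_nonneg _)
    calc ∑ r, Dsq (fun ζ => lam ζ r * Z ζ r)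
        ≤ ∑ r, (2 * C ^ 2 * Dsq (fun ζ => Z ζ r) + 2 * Bz ^ 2 * DX) :=
          Finset.sum_le_sum fun r _ => by
            have h1 := Dsq_mul_le (hlam r) (hZ r) (hC r) (hBz r)
            have h2 := mul_le_mul_of_nonneg_left (hD r) (by positivity : (0 : ℝ) ≤ 2 * Bz ^ 2)
            linarith
      _ = 2 * C ^ 2 * DsqV Z + 2 * Bz ^ 2 * (q * DX) := by
          rw [Finset.sum_add_distrib, ← Finset.mul_sum, Finset.sum_const, Finset.card_univ,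
            Fintype.card_fin, nsmul_eq_mul]
          unfold DsqV
          ring

/-- `D²` of `Re ∑_{ij} conj Z_i 𝕃_ij Z_j` (`Dsq_re_le`, `Dsq_sum_le` twice, `Dsq_mul_le` twice, `Dsq_conj`). -/
theorem lw_quad_le {q : ℕ} {Lm : ℂ → Matrix (Fin q) (Fin q) ℂ} {Z : ℂ → Fin q → ℂ} {C Bz DX : ℝ}
    (hL : ∀ i j, CircLip fun ζ => Lm ζ i j) (hZ : ∀ r, CircLip fun ζ => Z ζ r)
    (hC : ∀ i j, ∀ ζ ∈ uCirc, ‖Lm ζ i j‖ ≤ C) (hBz : ∀ r, ∀ ζ ∈ uCirc, ‖Z ζ r‖ ≤ Bz)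
    (hD : ∀ i j, Dsq (fun ζ => Lm ζ i j) ≤ DX) :
    CircLip (fun ζ => ((qf (Lm ζ) (Z ζ) : ℝ) : ℂ)) ∧
    (∀ ζ ∈ uCirc, |qf (Lm ζ) (Z ζ)| ≤ q ^ 2 * (C * Bz ^ 2)) ∧
    DsqR (fun ζ => qf (Lm ζ) (Z ζ)) ≤
      q ^ 2 * (6 * q * (C * Bz) ^ 2 * DsqV Z + 4 * Bz ^ 4 * (q ^ 2 * DX)) := by
  have hLZ : ∀ i j, CircLip fun ζ => Lm ζ i j * Z ζ j := fun i j => (hL i j).mul (hZ j)
  have hT : ∀ i j, CircLip fun ζ => (starRingEnd ℂ) (Z ζ i) * (Lm ζ i j * Z ζ j) := fun i j =>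
    (hZ i).conj.mul (hLZ i j)
  have hTi : ∀ i, CircLip fun ζ => ∑ j, (starRingEnd ℂ) (Z ζ i) * (Lm ζ i j * Z ζ j) := fun i =>
    CircLip.sum _ fun j _ => hT i j
  have hF : CircLip fun ζ => ∑ i, ∑ j, (starRingEnd ℂ) (Z ζ i) * (Lm ζ i j * Z ζ j) :=
    CircLip.sum _ fun i _ => hTi i
  have eq : ∀ ζ, qf (Lm ζ) (Z ζ) =
      (∑ i, ∑ j, (starRingEnd ℂ) (Z ζ i) * (Lm ζ i j * Z ζ j)).re := by
    intro ζ
    unfold qf
    congr 1
    simp only [dotProduct, Matrix.mulVec, Finset.mul_sum]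
    rfl
  have hFb : ∀ ζ ∈ uCirc, ‖∑ i, ∑ j, (starRingEnd ℂ) (Z ζ i) * (Lm ζ i j * Z ζ j)‖ ≤
      q ^ 2 * (C * Bz ^ 2) := by
    intro ζ hζ
    calc ‖∑ i, ∑ j, (starRingEnd ℂ) (Z ζ i) * (Lm ζ i j * Z ζ j)‖
        ≤ ∑ i, ‖∑ j, (starRingEnd ℂ) (Z ζ i) * (Lm ζ i j * Z ζ j)‖ := norm_sum_le _ _
      _ ≤ ∑ i, ∑ j, ‖(starRingEnd ℂ) (Z ζ i) * (Lm ζ i j * Z ζ j)‖ :=
          Finset.sum_le_sum fun i _ => norm_sum_le _ _
      _ ≤ ∑ _i : Fin q, ∑ _j : Fin q, Bz * (C * Bz) :=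
          Finset.sum_le_sum fun i _ => Finset.sum_le_sum fun j _ => by
            rw [norm_mul, norm_mul, RCLike.norm_conj]
            have hBz0 : 0 ≤ Bz := (norm_nonneg _).trans (hBz i ζ hζ)
            have hC0 : 0 ≤ C := (norm_nonneg _).trans (hC i j ζ hζ)
            exact mul_le_mul (hBz i ζ hζ)
              (mul_le_mul (hC i j ζ hζ) (hBz j ζ hζ) (norm_nonneg _) hC0)
              (by positivity) hBz0
      _ = q ^ 2 * (C * Bz ^ 2) := by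
          simp only [Finset.sum_const, Finset.card_univ, Fintype.card_fin, nsmul_eq_mul]
          ring
  have hre : CircLip fun ζ => (((∑ i, ∑ j, (starRingEnd ℂ) (Z ζ i) * (Lm ζ i j * Z ζ j)).re : ℝ) : ℂ) := by
    obtain ⟨c, hc⟩ := hF
    refine ⟨c, fun ζ hζ ξ hξ => ?_⟩
    rw [← Complex.ofReal_sub, Complex.norm_real, Real.norm_eq_abs, ← Complex.sub_re]
    exact (Complex.abs_re_le_norm _).trans (hc ζ hζ ξ hξ)
  refine ⟨hre.congr fun ζ _ => by simp only [eq], fun ζ hζ => ?_, ?_⟩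
  · rw [eq]
    exact (Complex.abs_re_le_norm _).trans (hFb ζ hζ)
  · have e1 : DsqR (fun ζ => qf (Lm ζ) (Z ζ)) =
        DsqR fun ζ => (∑ i, ∑ j, (starRingEnd ℂ) (Z ζ i) * (Lm ζ i j * Z ζ j)).re := by
      congr 1
      funext ζ
      exact eq ζ
    rw [e1]
    refine (Dsq_re_le hF).trans ?_
    have hterm : ∀ i j, Dsq (fun ζ => (starRingEnd ℂ) (Z ζ i) * (Lm ζ i j * Z ζ j)) ≤
        4 * (C * Bz) ^ 2 * Dsq (fun ζ => Z ζ j) + 4 * Bz ^ 4 * DX +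
          2 * (C * Bz) ^ 2 * Dsq (fun ζ => Z ζ i) := by
      intro i j
      have h1 := Dsq_mul_le (hZ i).conj (hLZ i j) (A := Bz) (B := C * Bz)
        (fun ζ hζ => by rw [RCLike.norm_conj]; exact hBz i ζ hζ)
        (fun ζ hζ => by
          rw [norm_mul]
          exact mul_le_mul (hC i j ζ hζ) (hBz j ζ hζ) (norm_nonneg _)
            ((norm_nonneg _).trans (hC i j ζ hζ)))
      rw [Dsq_conj] at h1
      have h2 := Dsq_mul_le (hL i j) (hZ j) (hC i j) (hBz j)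
      have h3 := mul_le_mul_of_nonneg_left (hD i j) (by positivity : (0 : ℝ) ≤ 2 * Bz ^ 2)
      have h4 := mul_le_mul_of_nonneg_left (h2.trans (add_le_add le_rfl h3))
        (by positivity : (0 : ℝ) ≤ 2 * Bz ^ 2)
      refine h1.trans ?_
      nlinarith
    have hsum : ∑ i, ∑ j, Dsq (fun ζ => (starRingEnd ℂ) (Z ζ i) * (Lm ζ i j * Z ζ j)) ≤
        6 * q * (C * Bz) ^ 2 * DsqV Z + 4 * Bz ^ 4 * (q ^ 2 * DX) := by
      calc ∑ i, ∑ j, Dsq (fun ζ => (starRingEnd ℂ) (Z ζ i) * (Lm ζ i j * Z ζ j))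
          ≤ ∑ i : Fin q, ∑ j : Fin q, (4 * (C * Bz) ^ 2 * Dsq (fun ζ => Z ζ j) + 4 * Bz ^ 4 * DX +
            2 * (C * Bz) ^ 2 * Dsq (fun ζ => Z ζ i)) :=
            Finset.sum_le_sum fun i _ => Finset.sum_le_sum fun j _ => hterm i j
        _ = 6 * q * (C * Bz) ^ 2 * DsqV Z + 4 * Bz ^ 4 * (q ^ 2 * DX) := by
            simp only [Finset.sum_add_distrib, Finset.sum_const, Finset.card_univ,
              Fintype.card_fin, nsmul_eq_mul, ← Finset.mul_sum]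
            unfold DsqV
            ring
    calc Dsq (fun ζ => ∑ i, ∑ j, (starRingEnd ℂ) (Z ζ i) * (Lm ζ i j * Z ζ j))
        ≤ q * ∑ i, Dsq (fun ζ => ∑ j, (starRingEnd ℂ) (Z ζ i) * (Lm ζ i j * Z ζ j)) := by
          have := Dsq_sum_le hTi
          rwa [Fintype.card_fin] at this
      _ ≤ q * ∑ i, (q * ∑ j, Dsq (fun ζ => (starRingEnd ℂ) (Z ζ i) * (Lm ζ i j * Z ζ j))) := by
          refine mul_le_mul_of_nonneg_left (Finset.sum_le_sum fun i _ => ?_) (Nat.cast_nonneg _)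
          have := Dsq_sum_le (hT i)
          rwa [Fintype.card_fin] at this
      _ = q ^ 2 * ∑ i, ∑ j, Dsq (fun ζ => (starRingEnd ℂ) (Z ζ i) * (Lm ζ i j * Z ζ j)) := by
          rw [← Finset.mul_sum]
          ring
      _ ≤ _ := mul_le_mul_of_nonneg_left hsum (by positivity)

end Claimed.Agent.R316
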