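import Claimed.Agent.R316.S5.Fam
import Claimed.Agent.R316.S5.LogWallA

/-!
# Row 316, Section 5.2: the geometric input of `logwall_e_le`, `logwall_c_le` (`BP-S5-LW`)

Notation: `lwE = e_z = log p(F z) - log p(f)`, `lwZ = Z_z = V_z / |hh|`, `lwLam = λ = p^a ∂ log p`, `lwL = 𝕃 = p^{2a} dd log p` (the cleared tensors of `wall_tensors_glip`).

* `LW-D` : `lw_beta`, `lw_gamma` : sup bound, `CircLip` and `D²`-bound of `β = ∑ λ_r(f) Z_r`, `γ = qf (𝕃(f)) Z` along ANY circle map `f` into the region and any bounded `Z`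
  (`wall_tensors_glip`, `Dsq_comp_le` with constant time, `lw_lin_le`, `lw_quad_le`).  The constant depends only on the walls and on `L`.
* `LW-E` : `lw_circLip`, `lw_fields` : along a deformation, for `|y| ≤ r₁` : `|Z_y| ≤ √|L| + 1`, `e^{-a e_y} ≤ 2`, `D(X_y)² + D(Z_y)² ≤ 2 S + C'|y|`
  (`IsDeform.Z_bounds`, `wall_ratio`, `Dsq_add_le`).
* `LW-F` : `lw_b_eq`, `lw_c_eq` : algebra (`(p^a)⁻¹ = e^{-a(log p - log p₀)} (p₀^a)⁻¹`).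
-/

set_option autoImplicit false
set_option maxSynthPendingDepth 3
open scoped ContDiff ComplexOrder Topology Matrix
open MeasureTheory Filter

namespace Claimed.Agent.R316

variable {V : Type} [NormedAddCommGroup V] [InnerProductSpace ℝ V] [FiniteDimensional ℝ V]
variable [MeasurableSpace V] [BorelSpace V]
variable {n : ℕ} {𝓜 : CMfd V (Fin n)} {g : HFam V (Fin n)} {o : V}
variable {D : FlowData 𝓜 g o} {𝒴 : CMfd (CotAmb V) (Fin n ⊕ Fin n)}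
variable {X : S5Ctx V n} {𝔚 : Walls V} {err A1 A2 : ℝ}
variable {c : Config V n} {hh : ℂ → ℂ} {Vh : ℂ → Fin X.q → ℂ} {F : ℂ → ℂ → CotAmb V}
variable {pz : ℂ → CE (Fin n ⊕ Fin n)} {r₀ M : ℝ}

/-- `e_z = log p(F z) - log p(f)`. -/
noncomputable def lwE (𝔚 : Walls V) (c : Config V n) (F : ℂ → ℂ → CotAmb V) (z ζ : ℂ) : ℝ :=
  Real.log (𝔚.pw (F z ζ)) - Real.log (𝔚.pw (c.f ζ))

/-- the normalised field `Z_z = V_z / |hh|`. -/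
noncomputable def lwZ (X : S5Ctx V n) (hh : ℂ → ℂ) (F : ℂ → ℂ → CotAmb V) (z ζ : ℂ) :
    Fin X.q → ℂ :=
  fun r => famV X.G F z ζ r / (‖hh ζ‖ : ℂ)

/-- `λ = p^a ∂ log p`. -/
noncomputable def lwLam (X : S5Ctx V n) (𝔚 : Walls V) (𝒴 : CMfd (CotAmb V) (Fin n ⊕ Fin n))
    (y : CotAmb V) : Fin X.q → ℂ :=
  fun r => ((𝔚.pw y ^ 𝔚.a : ℝ) : ℂ) * gDz 𝒴 X.G (fun y' => (Real.log (𝔚.pw y') : ℂ)) y r

/-- `𝕃 = p^{2a} dd log p`. -/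
noncomputable def lwL (X : S5Ctx V n) (𝔚 : Walls V) (𝒴 : CMfd (CotAmb V) (Fin n ⊕ Fin n))
    (y : CotAmb V) : Matrix (Fin X.q) (Fin X.q) ℂ :=
  ((𝔚.pw y ^ (2 * 𝔚.a) : ℝ) : ℂ) • ambM 𝒴 X.G (ddc fun y' => Real.log (𝔚.pw y')) y

/-! ### `LW-D` -/

/-- `Dsq_comp_le` for a time independent tensor. -/
theorem lwd_comp {q : ℕ} {G : CotAmb V → CE (Fin q)} {S : Set (CotAmb V)} {C : ℝ}
    {β : CotAmb V → ℂ} (hβ : GLipOn G S Set.univ C fun y _ => β y)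
    {f : ℂ → CotAmb V} (hX : ∀ r, CircLip fun ζ => G (f ζ) r) (hf : ∀ ζ ∈ uCirc, f ζ ∈ S) :
    CircLip (fun ζ => β (f ζ)) ∧ (∀ ζ ∈ uCirc, ‖β (f ζ)‖ ≤ C) ∧
    Dsq (fun ζ => β (f ζ)) ≤ 2 * C ^ 2 * DsqV (fun ζ => (G (f ζ) : Fin q → ℂ)) := by
  have h := Dsq_comp_le hβ (t := fun _ => 0) hX (circLip_const _) hf (fun _ _ => Set.mem_univ _)
  refine ⟨h.1, fun ζ hζ => hβ.1 _ (hf ζ hζ) 0 (Set.mem_univ _), ?_⟩
  have h0 : DsqR (fun _ : ℂ => (0 : ℝ)) = 0 := Dsq_const _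
  have := h.2
  rwa [h0, add_zero] at this

theorem lw_beta (h : Std5 X 𝔚 D 𝒴 err A1 A2) (L : ℝ) :
    ∃ K : ℝ, 0 ≤ K ∧ ∀ (f : ℂ → CotAmb V) (Z : ℂ → Fin X.q → ℂ),
      (∀ ζ ∈ uCirc, f ζ ∈ 𝔚.reg 𝒴) → (∀ r, CircLip fun ζ => X.G (f ζ) r) →
      (∀ r, CircLip fun ζ => Z ζ r) → (∀ r, ∀ ζ ∈ uCirc, ‖Z ζ r‖ ≤ Real.sqrt |L| + 1) →
      CircLip (fun ζ => ∑ r, lwLam X 𝔚 𝒴 (f ζ) r * Z ζ r) ∧
      (∀ ζ ∈ uCirc, ‖∑ r, lwLam X 𝔚 𝒴 (f ζ) r * Z ζ r‖ ≤ K) ∧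
      Dsq (fun ζ => ∑ r, lwLam X 𝔚 𝒴 (f ζ) r * Z ζ r) ≤
        K * (DsqV (fun ζ => (X.G (f ζ) : Fin X.q → ℂ)) + DsqV Z) := by
  obtain ⟨C, hlam, -, -, -⟩ := wall_tensors_glip h
  set Bz : ℝ := Real.sqrt |L| + 1 with hBz
  have hBz0 : 0 ≤ Bz := by positivity
  set q : ℝ := (X.q : ℝ) with hq
  have hq0 : 0 ≤ q := Nat.cast_nonneg _
  refine ⟨q * (|C| * Bz) + 2 * q * C ^ 2 + 4 * q ^ 2 * Bz ^ 2 * C ^ 2, by positivity,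
    fun f Z hf hX hZ hZb => ?_⟩
  have hc := fun r => lwd_comp (hlam r) hX hf
  obtain ⟨k1, k2, k3⟩ := lw_lin_le (lam := fun ζ => lwLam X 𝔚 𝒴 (f ζ)) (Z := Z)
    (fun r => (hc r).1) hZ (fun r => (hc r).2.1) hZb (fun r => (hc r).2.2)
  have d1 := DsqV_nonneg (fun ζ => (X.G (f ζ) : Fin X.q → ℂ))
  have d2 := DsqV_nonneg Z
  refine ⟨k1, fun ζ hζ => (k2 ζ hζ).trans ?_, k3.trans ?_⟩
  · have e1 : q * (C * Bz) ≤ q * (|C| * Bz) :=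
      mul_le_mul_of_nonneg_left (mul_le_mul_of_nonneg_right (le_abs_self C) hBz0) hq0
    have e2 : 0 ≤ 2 * q * C ^ 2 + 4 * q ^ 2 * Bz ^ 2 * C ^ 2 := by positivity
    linarith
  · set a := DsqV (fun ζ => (X.G (f ζ) : Fin X.q → ℂ))
    set b := DsqV Z
    have e1 : 0 ≤ q * (|C| * Bz) * (a + b) := by positivity
    have e2 : 0 ≤ 2 * q * C ^ 2 * a := by positivity
    have e3 : 0 ≤ 4 * q ^ 2 * Bz ^ 2 * C ^ 2 * b := by positivity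
    nlinarith

theorem lw_gamma (h : Std5 X 𝔚 D 𝒴 err A1 A2) (L : ℝ) :
    ∃ K : ℝ, 0 ≤ K ∧ ∀ (f : ℂ → CotAmb V) (Z : ℂ → Fin X.q → ℂ),
      (∀ ζ ∈ uCirc, f ζ ∈ 𝔚.reg 𝒴) → (∀ r, CircLip fun ζ => X.G (f ζ) r) →
      (∀ r, CircLip fun ζ => Z ζ r) → (∀ r, ∀ ζ ∈ uCirc, ‖Z ζ r‖ ≤ Real.sqrt |L| + 1) →
      CircLip (fun ζ => ((qf (lwL X 𝔚 𝒴 (f ζ)) (Z ζ) : ℝ) : ℂ)) ∧
      (∀ ζ ∈ uCirc, |qf (lwL X 𝔚 𝒴 (f ζ)) (Z ζ)| ≤ K) ∧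
      DsqR (fun ζ => qf (lwL X 𝔚 𝒴 (f ζ)) (Z ζ)) ≤
        K * (DsqV (fun ζ => (X.G (f ζ) : Fin X.q → ℂ)) + DsqV Z) := by
  obtain ⟨C, -, hL, -, -⟩ := wall_tensors_glip h
  set Bz : ℝ := Real.sqrt |L| + 1 with hBz
  have hBz0 : 0 ≤ Bz := by positivity
  set q : ℝ := (X.q : ℝ) with hq
  have hq0 : 0 ≤ q := Nat.cast_nonneg _
  refine ⟨q ^ 2 * (|C| * Bz ^ 2) + 6 * q ^ 3 * (C * Bz) ^ 2 + 8 * q ^ 4 * Bz ^ 4 * C ^ 2,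
    by positivity, fun f Z hf hX hZ hZb => ?_⟩
  have hc := fun i j => lwd_comp (hL i j) hX hf
  obtain ⟨k1, k2, k3⟩ := lw_quad_le (Lm := fun ζ => lwL X 𝔚 𝒴 (f ζ)) (Z := Z)
    (fun i j => (hc i j).1) hZ (fun i j => (hc i j).2.1) hZb (fun i j => (hc i j).2.2)
  have d1 := DsqV_nonneg (fun ζ => (X.G (f ζ) : Fin X.q → ℂ))
  have d2 := DsqV_nonneg Z
  refine ⟨k1, fun ζ hζ => (k2 ζ hζ).trans ?_, k3.trans ?_⟩
  · have e1 : q ^ 2 * (C * Bz ^ 2) ≤ q ^ 2 * (|C| * Bz ^ 2) :=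
      mul_le_mul_of_nonneg_left (mul_le_mul_of_nonneg_right (le_abs_self C) (by positivity))
        (by positivity)
    have e2 : 0 ≤ 6 * q ^ 3 * (C * Bz) ^ 2 + 8 * q ^ 4 * Bz ^ 4 * C ^ 2 := by positivity
    linarith
  · set a := DsqV (fun ζ => (X.G (f ζ) : Fin X.q → ℂ))
    set b := DsqV Z
    have e1 : 0 ≤ q ^ 2 * (|C| * Bz ^ 2) * (a + b) := by positivity
    have e2 : 0 ≤ 6 * q ^ 3 * (C * Bz) ^ 2 * a := by positivity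
    have e3 : 0 ≤ 8 * q ^ 4 * Bz ^ 4 * C ^ 2 * b := by positivity
    nlinarith

/-! ### `LW-E` -/

theorem lw_circLip (h : Std5 X 𝔚 D 𝒴 err A1 A2) (hc : IsAdm X 𝔚 𝒴 c)
    (hmod : ∀ ζ ∈ uCirc, ‖hh ζ‖ = c.mw 𝔚 ζ) (hD : IsDeform X 𝔚 𝒴 c hh Vh F pz r₀ M) {y : ℂ}
    (hy : y ∈ Metric.ball (0 : ℂ) r₀) :
    (∀ ζ ∈ uCirc, F y ζ ∈ 𝔚.reg 𝒴) ∧ (∀ r, CircLip fun ζ => X.G (F y ζ) r) ∧
      ∀ r, CircLip fun ζ => lwZ X hh F y ζ r := by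
  have hfam := hD.isFam
  have hG := h.valid.imm
  have hm : ∀ ζ ∈ uCirc, 0 < ‖hh ζ‖ := fun ζ hζ => by
    rw [hmod ζ hζ]
    exact pow_pos (pw_mem h (hc.bdry ζ hζ)).1 _
  have hmS : CircSm fun ζ => ((‖hh ζ‖ : ℝ) : ℂ) :=
    (circSm_mw h hc).congr fun ζ hζ => by
      show ((c.mw 𝔚 ζ : ℝ) : ℂ) = ((‖hh ζ‖ : ℝ) : ℂ)
      rw [hmod ζ hζ]
  refine ⟨fun ζ hζ => (hD.adm y hy).bdry ζ hζ,
    fun r => ((hfam.famSm_G hG r).circSm hy).circLip, fun r => ?_⟩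
  have h1 := ((hfam.famSm_V hG r).circSm hy).mul
    (hmS.inv fun ζ hζ => by exact_mod_cast (hm ζ hζ).ne')
  exact h1.circLip

theorem lwe_DsqV_le {ι : Type} [Fintype ι] {a b : ℂ → ι → ℂ} (ha : ∀ i, CircLip fun ζ => a ζ i)
    (hb : ∀ i, CircLip fun ζ => b ζ i) :
    DsqV b ≤ 2 * DsqV a + 2 * DsqV (fun ζ i => b ζ i - a ζ i) := by
  unfold DsqV
  rw [Finset.mul_sum, Finset.mul_sum, ← Finset.sum_add_distrib]
  refine Finset.sum_le_sum fun i _ => ?_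
  have h1 := Dsq_add_le (ha i) ((hb i).sub (ha i))
  have e : (fun ζ => a ζ i + (b ζ i - a ζ i)) = fun ζ => b ζ i := funext fun ζ => by ring
  rwa [e] at h1

theorem lw_fields (h : Std5 X 𝔚 D 𝒴 err A1 A2) (L : ℝ) {r₀ : ℝ} (hr₀ : 0 < r₀) (M : ℝ) :
    ∃ C' r₁ : ℝ, 0 ≤ C' ∧ 0 < r₁ ∧ r₁ ≤ r₀ / 2 ∧ r₁ ≤ 1 ∧
      ∀ (c : Config V n) (hh : ℂ → ℂ) (Vh : ℂ → Fin X.q → ℂ)
      (F : ℂ → ℂ → CotAmb V) (pz : ℂ → CE (Fin n ⊕ Fin n)), IsAdm X 𝔚 𝒴 c →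
      (∀ ζ ∈ uCirc, ‖hh ζ‖ = c.mw 𝔚 ζ) → IsDeform X 𝔚 𝒴 c hh Vh F pz r₀ M →
      (∀ ζ ∈ uCirc, ∑ k, ‖Vh ζ k‖ ^ 2 ≤ L * ‖hh ζ‖ ^ 2) →
      ∀ y : ℂ, ‖y‖ ≤ r₁ →
        (∀ r, ∀ ζ ∈ uCirc, ‖lwZ X hh F y ζ r‖ ≤ Real.sqrt |L| + 1) ∧
        (∀ ζ ∈ uCirc, Real.exp (-((𝔚.a : ℝ) * lwE 𝔚 c F y ζ)) ≤ 2) ∧
        DsqV (fun ζ => (X.G (F y ζ) : Fin X.q → ℂ)) + DsqV (fun ζ => lwZ X hh F y ζ) ≤
          2 * (DsqV (fun ζ => (X.G (c.f ζ) : Fin X.q → ℂ)) +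
            DsqV (fun ζ k => Vh ζ k / (‖hh ζ‖ : ℂ))) + C' * ‖y‖ := by
  obtain ⟨Cw, rw', hCw0, hrw0, hrw1, -, hw⟩ := wall_ratio h hr₀ M
  set q : ℝ := (X.q : ℝ) with hq
  have hq0 : 0 ≤ q := Nat.cast_nonneg _
  set a : ℝ := (𝔚.a : ℝ) with ha
  have ha0 : 0 ≤ a := Nat.cast_nonneg _
  refine ⟨8 * q * |M| / r₀ ^ 2 + 128 * q * |M| / r₀ ^ 4,
    min (min rw' 1) (min (r₀ / (8 * |M| + 1)) (1 / (2 * a * Cw + 1))), by positivity,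
    by positivity, ?_, ?_, ?_⟩
  · exact (min_le_left _ _).trans ((min_le_left _ _).trans hrw1)
  · exact (min_le_left _ _).trans (min_le_right _ _)
  intro c hh Vh F pz hc hmod hD hVL y hy
  have hy1 : ‖y‖ ≤ rw' := hy.trans ((min_le_left _ _).trans (min_le_left _ _))
  have hy2 : ‖y‖ ≤ 1 := hy.trans ((min_le_left _ _).trans (min_le_right _ _))
  have hy3 : ‖y‖ ≤ r₀ / (8 * |M| + 1) := hy.trans ((min_le_right _ _).trans (min_le_left _ _))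
  have hy4 : ‖y‖ ≤ 1 / (2 * a * Cw + 1) := hy.trans ((min_le_right _ _).trans (min_le_right _ _))
  have hy5 : ‖y‖ ≤ r₀ / 2 := hy1.trans hrw1
  have hyB : y ∈ Metric.ball (0 : ℂ) r₀ := by
    rw [mem_ball_zero_iff]
    linarith
  have h0B : (0 : ℂ) ∈ Metric.ball (0 : ℂ) r₀ := by simpa using hr₀
  have hC : ∀ ζ ∈ uCirc, ζ ∈ uDiscC := fun ζ hζ => Metric.sphere_subset_closedBall hζ
  have hm : ∀ ζ ∈ uCirc, 0 < ‖hh ζ‖ := fun ζ hζ => by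
    rw [hmod ζ hζ]
    exact pow_pos (pw_mem h (hc.bdry ζ hζ)).1 _
  obtain ⟨z1, z2, z3, -⟩ := hD.Z_bounds h hr₀ hc hmod
  obtain ⟨-, lX, lZ⟩ := lw_circLip h hc hmod hD hyB
  obtain ⟨-, lX0, lZ0⟩ := lw_circLip h hc hmod hD h0B
  have lX0' : ∀ r, CircLip fun ζ => X.G (c.f ζ) r := fun r =>
    (lX0 r).congr fun ζ hζ => by
      show X.G (F 0 ζ) r = X.G (c.f ζ) r
      rw [hD.F_zero ζ (hC ζ hζ)]
  have lZ0' : ∀ r, CircLip fun ζ => Vh ζ r / (‖hh ζ‖ : ℂ) := fun r =>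
    (lZ0 r).congr fun ζ hζ => by
      show famV X.G F 0 ζ r / (‖hh ζ‖ : ℂ) = Vh ζ r / (‖hh ζ‖ : ℂ)
      rw [hD.famV_zero (hC ζ hζ)]
  have hny := norm_nonneg y
  have hM8 : 8 * |M| * ‖y‖ ≤ r₀ := by
    have e1 : (0 : ℝ) < 8 * |M| + 1 := by positivity
    rw [le_div_iff₀ e1] at hy3
    nlinarith [abs_nonneg M]
  refine ⟨fun r ζ hζ => ?_, fun ζ hζ => ?_, ?_⟩
  · have hmz := hm ζ hζ
    have e1 : ‖Vh ζ r‖ ≤ Real.sqrt |L| * ‖hh ζ‖ := by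
      have e2 : ‖Vh ζ r‖ ^ 2 ≤ (Real.sqrt |L| * ‖hh ζ‖) ^ 2 := by
        rw [mul_pow, Real.sq_sqrt (abs_nonneg L)]
        calc ‖Vh ζ r‖ ^ 2 ≤ ∑ k, ‖Vh ζ k‖ ^ 2 :=
              Finset.single_le_sum (f := fun k => ‖Vh ζ k‖ ^ 2) (fun k _ => by positivity)
                (Finset.mem_univ r)
          _ ≤ L * ‖hh ζ‖ ^ 2 := hVL ζ hζ
          _ ≤ |L| * ‖hh ζ‖ ^ 2 := mul_le_mul_of_nonneg_right (le_abs_self L) (by positivity)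
      exact (pow_le_pow_iff_left₀ (norm_nonneg _) (by positivity) two_ne_zero).1 e2
    have e3 : ‖famV X.G F y ζ r - Vh ζ r‖ ≤ 1 * ‖hh ζ‖ := by
      refine (z1 y hy5 ζ hζ r).trans (mul_le_mul_of_nonneg_right ?_ hmz.le)
      rw [div_le_one hr₀]
      have : 8 * M * ‖y‖ ≤ 8 * |M| * ‖y‖ := by
        have := le_abs_self M
        nlinarith
      linarith
    have e4 : ‖famV X.G F y ζ r‖ ≤ (Real.sqrt |L| + 1) * ‖hh ζ‖ := by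
      have := norm_add_le (Vh ζ r) (famV X.G F y ζ r - Vh ζ r)
      rw [add_sub_cancel] at this
      linarith
    show ‖famV X.G F y ζ r / (‖hh ζ‖ : ℂ)‖ ≤ _
    rw [norm_div, Complex.norm_real, norm_norm, div_le_iff₀ hmz]
    exact e4
  · have e1 := (hw c hh Vh F pz hc hmod hD y hy1 ζ hζ).2.2
    have e2 : -(a * lwE 𝔚 c F y ζ) ≤ a * (Cw * ‖y‖) := by
      have : -lwE 𝔚 c F y ζ ≤ Cw * ‖y‖ := (neg_le_abs _).trans e1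
      nlinarith
    have e3 : a * (Cw * ‖y‖) ≤ 1 / 2 := by
      have e4 : (0 : ℝ) < 2 * a * Cw + 1 := by positivity
      rw [le_div_iff₀ e4] at hy4
      have : 0 ≤ a * Cw := by positivity
      nlinarith
    have e5 : (1 / 2 : ℝ) ≤ Real.log 2 := by
      have := Real.log_two_gt_d9
      linarith
    calc Real.exp (-(a * lwE 𝔚 c F y ζ)) ≤ Real.exp (Real.log 2) :=
          Real.exp_le_exp.2 (e2.trans (e3.trans e5))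
      _ = 2 := Real.exp_log (by norm_num)
  · have s1 := lwe_DsqV_le (a := fun ζ => (X.G (c.f ζ) : Fin X.q → ℂ))
      (b := fun ζ => (X.G (F y ζ) : Fin X.q → ℂ)) lX0' lX
    have s2 := lwe_DsqV_le (a := fun ζ k => Vh ζ k / (‖hh ζ‖ : ℂ))
      (b := fun ζ => lwZ X hh F y ζ) lZ0' lZ
    have s3 := z3 y hy5
    have s4 := z2 y hy5
    have e : (fun ζ i => lwZ X hh F y ζ i - Vh ζ i / (‖hh ζ‖ : ℂ)) =
        fun ζ k => (famV X.G F y ζ k - Vh ζ k) / (‖hh ζ‖ : ℂ) := by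
      funext ζ k
      show famV X.G F y ζ k / (‖hh ζ‖ : ℂ) - _ = _
      rw [sub_div]
    rw [e] at s2
    have hsq : ‖y‖ ^ 2 ≤ ‖y‖ := by nlinarith
    have t1 : 4 * q * M * ‖y‖ ^ 2 / r₀ ^ 2 ≤ 4 * q * |M| / r₀ ^ 2 * ‖y‖ := by
      rw [div_mul_eq_mul_div]
      refine div_le_div_of_nonneg_right ?_ (by positivity)
      have : 4 * q * M * ‖y‖ ^ 2 ≤ 4 * q * |M| * ‖y‖ ^ 2 :=
        mul_le_mul_of_nonneg_right
          (mul_le_mul_of_nonneg_left (le_abs_self M) (by positivity)) (by positivity)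
      exact this.trans (mul_le_mul_of_nonneg_left hsq (by positivity))
    have t2 : 64 * q * M * ‖y‖ ^ 2 / r₀ ^ 4 ≤ 64 * q * |M| / r₀ ^ 4 * ‖y‖ := by
      rw [div_mul_eq_mul_div]
      refine div_le_div_of_nonneg_right ?_ (by positivity)
      have : 64 * q * M * ‖y‖ ^ 2 ≤ 64 * q * |M| * ‖y‖ ^ 2 :=
        mul_le_mul_of_nonneg_right
          (mul_le_mul_of_nonneg_left (le_abs_self M) (by positivity)) (by positivity)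
      exact this.trans (mul_le_mul_of_nonneg_left hsq (by positivity))
    have u1 : (8 * q * |M| / r₀ ^ 2 + 128 * q * |M| / r₀ ^ 4) * ‖y‖ =
        2 * (4 * q * |M| / r₀ ^ 2 * ‖y‖) + 2 * (64 * q * |M| / r₀ ^ 4 * ‖y‖) := by ring
    rw [u1]
    linarith

/-! ### `LW-F` -/

theorem lwf_exp_eq {p p₀ : ℝ} (hp : 0 < p) (hp₀ : 0 < p₀) (a : ℕ) :
    Real.exp (-((a : ℝ) * (Real.log p - Real.log p₀))) = (p ^ a)⁻¹ * p₀ ^ a := by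
  have h1 : -((a : ℝ) * (Real.log p - Real.log p₀)) =
      (a : ℝ) * Real.log p₀ - (a : ℝ) * Real.log p := by ring
  rw [h1, Real.exp_sub, mul_comm (a : ℝ), mul_comm (a : ℝ), Real.exp_mul, Real.exp_mul,
    Real.exp_log hp, Real.exp_log hp₀, Real.rpow_natCast, Real.rpow_natCast, div_eq_mul_inv,
    mul_comm]

theorem lw_b_eq {p p₀ : ℝ} (hp : 0 < p) (hp₀ : 0 < p₀) (a : ℕ) {q : ℕ} (lam W : Fin q → ℂ) :
    (((p ^ a)⁻¹ : ℝ) : ℂ) * ∑ r, lam r * W r =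
      ((Real.exp (-((a : ℝ) * (Real.log p - Real.log p₀))) : ℝ) : ℂ) *
        ∑ r, lam r * (W r / ((p₀ ^ a : ℝ) : ℂ)) := by
  rw [lwf_exp_eq hp hp₀, Finset.mul_sum, Finset.mul_sum]
  refine Finset.sum_congr rfl fun r _ => ?_
  have h0 : ((p₀ ^ a : ℝ) : ℂ) ≠ 0 := by
    exact_mod_cast (pow_pos hp₀ a).ne'
  push_cast
  push_cast at h0
  field_simp

theorem lw_c_eq {p p₀ : ℝ} (hp : 0 < p) (hp₀ : 0 < p₀) (a : ℕ) {q : ℕ}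
    (A : Matrix (Fin q) (Fin q) ℂ) (W : Fin q → ℂ) :
    (p ^ (2 * a))⁻¹ * qf A W =
      Real.exp (-((2 * (a : ℝ)) * (Real.log p - Real.log p₀))) *
        qf A (fun r => W r / ((p₀ ^ a : ℝ) : ℂ)) := by
  have h0 : (p₀ ^ a : ℝ) ≠ 0 := (pow_pos hp₀ a).ne'
  have h1 : qf A (fun r => W r / ((p₀ ^ a : ℝ) : ℂ)) = ((p₀ ^ a)⁻¹) ^ 2 * qf A W := by
    rw [qf_eq_sum, qf_eq_sum]
    have : ∀ j k, (starRingEnd ℂ) (W j / ((p₀ ^ a : ℝ) : ℂ)) * A j k * (W k / ((p₀ ^ a : ℝ) : ℂ)) =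
        ((((p₀ ^ a)⁻¹) ^ 2 : ℝ) : ℂ) * ((starRingEnd ℂ) (W j) * A j k * W k) := by
      intro j k
      rw [map_div₀, Complex.conj_ofReal]
      push_cast
      ring
    simp only [this, ← Finset.mul_sum]
    rw [Complex.re_ofReal_mul]
  have h2 : Real.exp (-((2 * (a : ℝ)) * (Real.log p - Real.log p₀))) =
      ((p ^ a)⁻¹ * p₀ ^ a) ^ 2 := by
    rw [← lwf_exp_eq hp hp₀, ← Real.exp_nat_mul]
    congr 1
    push_cast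
    ring
  rw [h1, h2, pow_mul', ← mul_assoc]
  congr 1
  field_simp

end Claimed.Agent.R316
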