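import Claimed.Agent.R316.S5.ParamInt

/-!
# Row 316, Section 5.2: abstract assembly for the logarithmic wall seminorm (`S5-LW4`)

MATHLIB + `S5/Circle.lean` + `S5/ParamInt.lean` only, no geometry.  `q` is a real smooth family on the circle; if
`D(q_z - q_0)² ≤ |z|² (Ae + Ae' |z|)` and `D(∂_z ∂_{\bar z} q_z)² ≤ Ac + Ac' |z|` then
`avg_{|z| = r} D(q_z)² ≤ D(q_0)² + r² (D(q_0)² + Ac + Ae) + (2 Ac' + Ae') r³` (`lwh_assemble`).
-/

set_option autoImplicit false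
open scoped ContDiff ComplexOrder Topology Matrix
open MeasureTheory Filter

namespace Claimed.Agent.R316

/-- the kernel of `B_D(a, ·)` against a real function. -/
theorem lwh_kernel_real {a La : ℂ → ℂ} (hLa : CircSm La)
    (hBD : ∀ b : ℂ → ℂ, ContinuousOn b uCirc → BD a b = cA fun ζ => La ζ * (starRingEnd ℂ) (b ζ))
    {u : ℂ → ℝ} (hu : CircSm fun ζ => (u ζ : ℂ)) :
    cA (fun ζ => 2 * (La ζ).re * u ζ) = 2 * (BD a fun ζ => (u ζ : ℂ)).re := by
  rw [hBD _ hu.circLip.continuousOn]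
  have hc : Continuous (B14.bd fun ζ => La ζ * (starRingEnd ℂ) ((u ζ : ℝ) : ℂ)) :=
    (hLa.mul hu.conj).continuous
  rw [cA_eq_pavg, cA_eq_pavg, B14.pavg_re hc, ← B14.pavg_const_mul_real]
  congr 1
  funext θ
  simp only [B14.bd, Complex.conj_ofReal, Complex.re_mul_ofReal]
  ring

/-- `lap1` of an affine function of a real function. -/
theorem lwh_lap1_affine {Ω : Set ℂ} (hΩ : IsOpen Ω) {f : ℂ → ℝ}
    (hf : ContDiffOn ℝ ∞ (fun z => (f z : ℂ)) Ω) (k c₀ : ℝ) {z : ℂ} (hz : z ∈ Ω) :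
    lap1 (fun y => k * (f y - c₀)) z = k * lap1 f z := by
  have hd : ∀ y ∈ Ω, DifferentiableAt ℝ (fun z => (f z : ℂ)) y := fun y hy =>
    ((hf y hy).contDiffAt (hΩ.mem_nhds hy)).differentiableAt (by simp)
  have e1 : ∀ y ∈ Ω, d1 (fun x => ((k * (f x - c₀) : ℝ) : ℂ)) y =
      (k : ℂ) * d1 (fun x => (f x : ℂ)) y := by
    intro y hy
    have e : (fun x => ((k * (f x - c₀) : ℝ) : ℂ)) =
        fun x => (k : ℂ) * ((f x : ℂ) + (-(c₀ : ℂ))) := by
      funext x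
      push_cast
      ring
    have hs : DifferentiableAt ℝ (fun x => (f x : ℂ) + (-(c₀ : ℂ))) y :=
      (hd y hy).add (differentiableAt_const _)
    rw [e, d1_mul (a := fun _ => (k : ℂ)) (differentiableAt_const _) hs,
      d1_const, zero_mul, zero_add,
      d1_add (b := fun _ => (-(c₀ : ℂ))) (hd y hy) (differentiableAt_const _), d1_const,
      add_zero]
  have e2 : (fun y => d1 (fun x => ((k * (f x - c₀) : ℝ) : ℂ)) y) =ᶠ[𝓝 z]
      fun y => (k : ℂ) * d1 (fun x => (f x : ℂ)) y := by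
    filter_upwards [hΩ.mem_nhds hz] with y hy
    exact e1 y hy
  have hd1 : DifferentiableAt ℝ (fun y => d1 (fun x => (f x : ℂ)) y) z := by
    have h1 : ContDiffOn ℝ ∞ (fun y => fderiv ℝ (fun x => (f x : ℂ)) y) Ω :=
      hf.fderiv_of_isOpen hΩ (by simp)
    have h2 : DifferentiableAt ℝ (fun y => fderiv ℝ (fun x => (f x : ℂ)) y) z :=
      ((h1 z hz).contDiffAt (hΩ.mem_nhds hz)).differentiableAt (by simp)
    unfold d1
    exact (differentiableAt_const _).mul ((h2.clm_apply (differentiableAt_const _)).sub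
      ((differentiableAt_const _).mul (h2.clm_apply (differentiableAt_const _))))
  unfold lap1
  have e3 : dbar1 (fun y => d1 (fun x => ((k * (f x - c₀) : ℝ) : ℂ)) y) z =
      dbar1 (fun y => (k : ℂ) * d1 (fun x => (f x : ℂ)) y) z := B14.dbarC_congr e2
  rw [e3, dbar1_mul (a := fun _ => (k : ℂ)) (differentiableAt_const _) hd1, dbar1_const,
    zero_mul, zero_add, Complex.re_ofReal_mul]

/-- ASSEMBLY. -/
theorem lwh_assemble {r₀ r₂ r₃ Ae Ac Ae' Ac' : ℝ} {q : ℂ → ℂ → ℝ}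
    (hq : FamSm (Metric.ball 0 r₀) fun z ζ => (q z ζ : ℂ)) (hr₀ : 0 < r₀)
    (hr₂ : r₂ < r₀) (hr₃ : r₃ ≤ r₀) (hAc' : 0 ≤ Ac')
    (he : ∀ z : ℂ, ‖z‖ ≤ r₂ → DsqR (fun ζ => q z ζ - q 0 ζ) ≤ ‖z‖ ^ 2 * (Ae + Ae' * ‖z‖))
    (hc : ∀ z : ℂ, ‖z‖ ≤ r₃ → DsqR (fun ζ => lap1 (fun y => q y ζ) z) ≤ Ac + Ac' * ‖z‖)
    {r : ℝ} (h0 : 0 < r) (h1 : r ≤ r₂) (h2 : 2 * r ≤ r₃) :
    CircleIntegrable (fun z => DsqR (q z)) 0 r ∧
    Real.circleAverage (fun z => DsqR (q z)) 0 r ≤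
      DsqR (q 0) + r ^ 2 * (DsqR (q 0) + Ac + Ae) + (2 * Ac' + Ae') * r ^ 3 := by
  have hΩ : IsOpen (Metric.ball (0 : ℂ) r₀) := Metric.isOpen_ball
  have h0m : (0 : ℂ) ∈ Metric.ball (0 : ℂ) r₀ := Metric.mem_ball_self hr₀
  have hq0 : CircSm fun ζ => (q 0 ζ : ℂ) := hq.circSm h0m
  obtain ⟨La, hLa, hBD⟩ := exists_BD_kernel hq0
  have hE : FamSm (Metric.ball 0 r₀) fun z ζ => ((q z ζ - q 0 ζ : ℝ) : ℂ) :=
    (hq.sub (famSm_of_circSm hq0)).congr fun z _ ζ _ => by push_cast; rfl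
  set w : ℂ → ℂ → ℝ := fun z ζ => 2 * (La ζ).re * (q z ζ - q 0 ζ) with hw
  have hW : FamSm (Metric.ball 0 r₀) fun z ζ => (w z ζ : ℂ) :=
    (((famSm_const 2).mul (famSm_of_circSm hLa.re)).mul hE).congr fun z _ ζ _ => by
      simp only [hw]
      push_cast
      rfl
  -- the decomposition
  have hdec : ∀ z ∈ Metric.ball (0 : ℂ) r₀,
      DsqR (q z) = DsqR (q 0) + cA (w z) + DsqR (fun ζ => q z ζ - q 0 ζ) := by
    intro z hz
    have h3 := Dsq_add_eq hq0.circLip (hE.circSm hz).circLip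
    have h4 : (fun ζ => ((q 0 ζ : ℝ) : ℂ) + ((q z ζ - q 0 ζ : ℝ) : ℂ)) =
        fun ζ => ((q z ζ : ℝ) : ℂ) := by
      funext ζ
      push_cast
      ring
    rw [h4] at h3
    have h5 := lwh_kernel_real hLa hBD (hE.circSm hz)
    unfold DsqR
    rw [h3, ← h5]
  -- the middle term
  have hlap : ∀ z ∈ Metric.ball (0 : ℂ) r₃,
      lap1 (fun y => cA (w y)) z ≤ (DsqR (q 0) + Ac) + Ac' * ‖z‖ := by
    intro z hz
    have hz' : z ∈ Metric.ball (0 : ℂ) r₀ := Metric.ball_subset_ball hr₃ hz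
    have hzn : ‖z‖ ≤ r₃ := by simpa using (Metric.mem_ball.1 hz).le
    rw [lap1_cA hΩ hW hz']
    have hcS : CircSm fun ζ => ((lap1 (fun y => q y ζ) z : ℝ) : ℂ) := (hq.lap1 hΩ).circSm hz'
    have e1 : cA (fun ζ => lap1 (fun y => w y ζ) z) =
        cA fun ζ => 2 * (La ζ).re * lap1 (fun y => q y ζ) z :=
      cA_congr fun ζ hζ => lwh_lap1_affine hΩ (hq.contDiffOn_z hζ) _ _ hz'
    rw [e1, lwh_kernel_real hLa hBD hcS]
    have h3 := norm_BD_le hq0.circLip hcS.circLip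
    have h4 := Complex.re_le_norm (BD (fun ζ => ((q 0 ζ : ℝ) : ℂ))
      fun ζ => ((lap1 (fun y => q y ζ) z : ℝ) : ℂ))
    have h5 := Real.sq_sqrt (Dsq_nonneg fun ζ => ((q 0 ζ : ℝ) : ℂ))
    have h6 := Real.sq_sqrt (Dsq_nonneg fun ζ => ((lap1 (fun y => q y ζ) z : ℝ) : ℂ))
    have h7 := hc z hzn
    unfold DsqR at h7 ⊢
    nlinarith [sq_nonneg (Real.sqrt (Dsq fun ζ => ((q 0 ζ : ℝ) : ℂ)) -
      Real.sqrt (Dsq fun ζ => ((lap1 (fun y => q y ζ) z : ℝ) : ℂ)))]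
  obtain ⟨hI, hA⟩ := avg_le_of_lap1_le' (Φ := fun z => cA (w z)) (Λ₀ := DsqR (q 0) + Ac)
    (((hW.contDiffOn_cA_real hΩ).of_le (by norm_cast)).mono (Metric.ball_subset_ball hr₃))
    hAc' hlap h0 h2
  have hw0 : cA (w 0) = 0 := by
    have : w 0 = fun _ => 0 := by
      funext ζ
      simp [hw]
    rw [this]
    exact Real.circleAverage_const 0 0 1
  have hsph : ∀ z ∈ Metric.sphere (0 : ℂ) r, z ∈ Metric.ball (0 : ℂ) r₀ := by
    intro z hz
    rw [mem_sphere_zero_iff_norm] at hz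
    rw [mem_ball_zero_iff]
    linarith
  have hI0 : CircleIntegrable (fun z => DsqR (q z)) 0 r :=
    ContinuousOn.circleIntegrable h0.le ((FamSm.continuousOn_Dsq hΩ hq).mono hsph)
  refine ⟨hI0, ?_⟩
  have hI2 : CircleIntegrable (fun z => cA (w z) + (DsqR (q 0) + r ^ 2 * (Ae + Ae' * r))) 0 r :=
    hI.add (circleIntegrable_const _ _ _)
  have hmono := Real.circleAverage_mono hI0 hI2 fun z hz => by
    rw [abs_of_pos h0] at hz
    have hzn : ‖z‖ = r := by simpa using hz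
    have h3 := he z (by rw [hzn]; exact h1)
    rw [hzn] at h3
    rw [hdec z (hsph z hz)]
    linarith
  rw [Real.circleAverage_fun_add hI (circleIntegrable_const _ _ _),
    Real.circleAverage_const] at hmono
  rw [hw0] at hA
  nlinarith

end Claimed.Agent.R316
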