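import Claimed.Agent.R316.S5.Fam
import Claimed.Agent.R316.S5.LogWallG
import Claimed.Agent.R316.S5.LogWallH

/-!
# Row 316, Section 5.2: the logarithmic wall seminorm along a deformation (`S5-D5`)

Notation (on the circle): `q_z = log p(F z ·)`, `e_z = q_z - q_0`, `m₀ = |hh| = p^a ∘ f`, `Z_z = V_z / m₀`, `ϱ_z = p(f)/p(F z) = e^{-e_z}`,
`b_z = ∂_z q_z = ϱ_z^a β_z`, `β_z = ∑_r λ_r(F z) Z_z^r`, `c_z = ∂_z ∂_{\bar z} q_z = ϱ_z^{2a} qf (𝕃(F z)) Z_z`, with the cleared tensors `λ = p^a ∂ log p`, `𝕃 = p^{2a} dd log p` of `wall_tensors_glip`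
(`IsFam.d1_comp`, `IsFam.lap1_comp`).  `S = D(X_0)² + D(Z_0)²`.

PLAN.
* `D(q_z)² = D(q_0)² + 2 Re B_D(q_0, e_z) + D(e_z)²` (`Dsq_add_eq`).
* MIDDLE TERM.  `Ψ(z) = 2 Re B_D(q_0, e_z) = ⟨2 Re(Λq_0) e_z⟩` (`exists_BD_kernel` for the FIXED function `q_0`) is the circle average of a smooth family, `Ψ(0) = 0`,
  `lap1 Ψ(z) = ⟨2 Re(Λq_0) c_z⟩ = 2 Re B_D(q_0, c_z) ≤ 2 D(q_0) D(c_z) ≤ D(q_0)² + D(c_z)²` (`lap1_cA`, `norm_BD_le`); then `avg_le_of_lap1_le'`.  No Fubini, no Green formula.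
* `logwall_e_le`.  `e_z = ∫₀¹ 2 Re (z b_{sz}) ds`, so `D(e_z)² ≤ 4 |z|² ∫₀¹ D(b_{sz})² ds` (`Dsq_le_of_diff_integral`).  For `|y| ≤ r₁` (`wall_ratio`: `|e_y| ≤ C'|y|`, `ϱ^a ≤ 2`):
  `D(b_y) ≤ 2 D(β_y) + K_β D(ϱ_y^a)`, `D(ϱ_y^a) ≤ 2a D(e_y)` (`Dsq_le_of_diff`), `K_β = sup |β_y| ≤ C(L)`.  ABSORPTION: `φ(ρ) = max_{|y| ≤ ρ} D(e_y)` is finite (`FamSm.continuousOn_Dsq`, compactness);
  `φ ≤ 2ρ (2 sup D(β_y) + 2a K_β φ)`, hence `φ(ρ) ≤ 8 ρ sup D(β_y)` for `ρ ≤ 1/(8 a K_β)`.  `D(β_y)² ≤ C(L) (D(X_y)² + D(Z_y)²)` (`Dsq_comp_le`, `Dsq_mul_le`, `Dsq_sum_le`),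
  `D(X_y)² + D(Z_y)² ≤ S + C'|y|` (`IsDeform.Z_bounds`, `Dsq_le_add_of_sub`, `D_X`, `D_Z`), `sup |Z_y|² ≤ L + 1`.
* `logwall_c_le`.  `D(c_z) ≤ 4 D(qf (𝕃(F z)) Z_z) + K D(ϱ_z^{2a})`, `D(ϱ_z^{2a}) ≤ 8a D(e_z) ≤ C'|z|`.
The constants `Cb` depend only on the walls and `L`; `C'`, `r₁` on everything fixed (`r₀`, `M`), NOT on the configuration.  No bound of `D(q_0)` is available (none is needed).

Leaves: `S5-LW1` `IsDeform.famSm_logpw`, `d1_logpw`, `lap1_logpw`; `S5-LW2` `logwall_e_le`; `S5-LW3` `logwall_c_le`; `S5-LW4` `defo_logwall` (assembly).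
-/

set_option autoImplicit false
set_option maxSynthPendingDepth 3
open scoped ContDiff ComplexOrder Topology Matrix
open MeasureTheory Filter

namespace Claimed.Agent.R316

variable {V : Type} [NormedAddCommGroup V] [InnerProductSpace ℝ V] [FiniteDimensional ℝ V]
variable [MeasurableSpace V] [BorelSpace V]
variable {n : ℕ} {𝓜 : CMfd V (Fin n)} {g : HFam V (Fin n)} {o : V}
variable {D : FlowData 𝓜 g o} {𝒴 : CMfd (CotAmb V) (Fin n ⊕ Fin n)}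
variable {X : S5Ctx V n} {𝔚 : Walls V} {err A1 A2 : ℝ}
variable {c : Config V n} {hh : ℂ → ℂ} {Vh : ℂ → Fin X.q → ℂ} {F : ℂ → ℂ → CotAmb V}
variable {pz : ℂ → CE (Fin n ⊕ Fin n)} {r₀ M : ℝ}

/-! ### `S5-LW1` -/

/-- `log p` is smooth on the region. -/
theorem smoothOnC_log_pw (h : Std5 X 𝔚 D 𝒴 err A1 A2) {O : Set (CotAmb V)}
    (hOreg : 𝒴.carrier ∩ O = 𝔚.reg 𝒴) :
    SmoothOnC 𝒴 O fun y => ((Real.log (𝔚.pw y) : ℝ) : ℂ) := by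
  intro Ψ W hΨ
  have h1 := h.spw Set.univ Ψ W hΨ
  have h2 : ContDiffOn ℝ ∞ (fun z => 𝔚.pw (Ψ z)) W :=
    ContDiffOn.comp (g := fun q : ℝ × CE (Fin n ⊕ Fin n) => 𝔚.pw (Ψ q.2))
      (f := fun z => ((0 : ℝ), z)) h1 (contDiff_const.prodMk contDiff_id).contDiffOn
      fun z hz => ⟨Set.mem_univ _, hz⟩
  have hpos : ∀ z ∈ W ∩ Ψ ⁻¹' O, 𝔚.pw (Ψ z) ≠ 0 := by
    intro z hz
    obtain ⟨W', -, hW'⟩ := (𝒴.isParam hΨ).image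
    have hc : Ψ z ∈ 𝒴.carrier := by
      have : Ψ z ∈ Ψ '' W := ⟨z, hz.1, rfl⟩
      rw [hW'] at this
      exact this.1
    have : Ψ z ∈ 𝔚.reg 𝒴 := by
      rw [← hOreg]
      exact ⟨hc, hz.2⟩
    exact ne_of_gt this.2
  exact Complex.ofRealCLM.contDiff.comp_contDiffOn
    ((h2.mono Set.inter_subset_left).log hpos)

theorem lw1_mem_O (hD : IsDeform X 𝔚 𝒴 c hh Vh F pz r₀ M) {O : Set (CotAmb V)}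
    (hOreg : 𝒴.carrier ∩ O = 𝔚.reg 𝒴) {z ζ : ℂ} (hz : z ∈ Metric.ball (0 : ℂ) r₀)
    (hζ : ζ ∈ uCirc) : F z ζ ∈ O := by
  have h1 : F z ζ ∈ 𝔚.reg 𝒴 := (hD.adm z hz).bdry ζ hζ
  rw [← hOreg] at h1
  exact h1.2

theorem IsDeform.famSm_logpw (h : Std5 X 𝔚 D 𝒴 err A1 A2)
    (hD : IsDeform X 𝔚 𝒴 c hh Vh F pz r₀ M) :
    FamSm (Metric.ball 0 r₀) fun z ζ => ((Real.log (𝔚.pw (F z ζ)) : ℝ) : ℂ) := by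
  obtain ⟨O, hO, hOreg⟩ := exists_open_reg h
  exact hD.isFam.famSm_comp hO (smoothOnC_log_pw h hOreg)
    fun z hz ζ hζ => lw1_mem_O hD hOreg hz hζ

theorem IsDeform.d1_logpw (h : Std5 X 𝔚 D 𝒴 err A1 A2)
    (hD : IsDeform X 𝔚 𝒴 c hh Vh F pz r₀ M) {z ζ : ℂ} (hz : z ∈ Metric.ball (0 : ℂ) r₀)
    (hζ : ζ ∈ uCirc) :
    d1 (fun y => ((Real.log (𝔚.pw (F y ζ)) : ℝ) : ℂ)) z =
      (((𝔚.pw (F z ζ) ^ 𝔚.a)⁻¹ : ℝ) : ℂ) *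
        ∑ r, (((𝔚.pw (F z ζ) ^ 𝔚.a : ℝ) : ℂ) *
          gDz 𝒴 X.G (fun y' => (Real.log (𝔚.pw y') : ℂ)) (F z ζ) r) * famV X.G F z ζ r := by
  obtain ⟨O, hO, hOreg⟩ := exists_open_reg h
  have h1 := (hD.isFam.d1_comp h.valid.imm hO (smoothOnC_log_pw h hOreg) hz
    (Metric.sphere_subset_closedBall hζ) (lw1_mem_O hD hOreg hz hζ)).1
  rw [h1, Finset.mul_sum]
  refine Finset.sum_congr rfl fun r _ => ?_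
  have hp : 0 < 𝔚.pw (F z ζ) := ((hD.adm z hz).bdry ζ hζ).2
  have hp' : ((𝔚.pw (F z ζ) ^ 𝔚.a : ℝ) : ℂ) ≠ 0 := by
    exact_mod_cast (pow_pos hp _).ne'
  rw [Complex.ofReal_inv]
  field_simp

theorem lw1_qf_smul {q : ℕ} (t : ℝ) (A : Matrix (Fin q) (Fin q) ℂ) (v : Fin q → ℂ) :
    qf ((t : ℂ) • A) v = t * qf A v := by
  unfold qf
  rw [Matrix.smul_mulVec, dotProduct_smul, smul_eq_mul, Complex.re_ofReal_mul]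

theorem IsDeform.lap1_logpw (h : Std5 X 𝔚 D 𝒴 err A1 A2)
    (hD : IsDeform X 𝔚 𝒴 c hh Vh F pz r₀ M) {z ζ : ℂ} (hz : z ∈ Metric.ball (0 : ℂ) r₀)
    (hζ : ζ ∈ uCirc) :
    lap1 (fun y => Real.log (𝔚.pw (F y ζ))) z =
      (𝔚.pw (F z ζ) ^ (2 * 𝔚.a))⁻¹ *
        qf (((𝔚.pw (F z ζ) ^ (2 * 𝔚.a) : ℝ) : ℂ) •
          ambM 𝒴 X.G (ddc fun y' => Real.log (𝔚.pw y')) (F z ζ)) (famV X.G F z ζ) := by
  obtain ⟨O, hO, hOreg⟩ := exists_open_reg h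
  have h1 := hD.isFam.lap1_comp h.valid.imm hO (β := fun y => Real.log (𝔚.pw y))
    (smoothOnC_log_pw h hOreg) hz
    (Metric.sphere_subset_closedBall hζ) (lw1_mem_O hD hOreg hz hζ)
  rw [h1, lw1_qf_smul, ← mul_assoc]
  have hp : 0 < 𝔚.pw (F z ζ) := ((hD.adm z hz).bdry ζ hζ).2
  rw [inv_mul_cancel₀ (pow_pos hp _).ne', one_mul]

/-! ### `S5-LW2` (glue: `BP-S5-LW`, leaves `LW-A..F` in `S5/LogWallA.lean`, `S5/LogWallG.lean`) -/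

theorem IsDeform.famSm_lwE (h : Std5 X 𝔚 D 𝒴 err A1 A2) (hr₀ : 0 < r₀)
    (hD : IsDeform X 𝔚 𝒴 c hh Vh F pz r₀ M) :
    FamSm (Metric.ball 0 r₀) fun z ζ => ((lwE 𝔚 c F z ζ : ℝ) : ℂ) := by
  have h1 := hD.famSm_logpw h
  have h0 : CircSm (fun ζ => ((Real.log (𝔚.pw (F 0 ζ)) : ℝ) : ℂ)) :=
    h1.circSm (Metric.mem_ball_self hr₀)
  have h0' : CircSm (fun ζ => ((Real.log (𝔚.pw (c.f ζ)) : ℝ) : ℂ)) :=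
    h0.congr fun ζ hζ => by
      show ((Real.log (𝔚.pw (F 0 ζ)) : ℝ) : ℂ) = _
      rw [hD.F_zero ζ (Metric.sphere_subset_closedBall hζ)]
  refine (h1.sub (famSm_of_circSm h0')).congr fun z _ ζ _ => ?_
  simp only [lwE]
  push_cast
  rfl

theorem lw_lwE_zero (hD : IsDeform X 𝔚 𝒴 c hh Vh F pz r₀ M) {ζ : ℂ} (hζ : ζ ∈ uCirc) :
    lwE 𝔚 c F 0 ζ = 0 := by
  simp only [lwE]
  rw [hD.F_zero ζ (Metric.sphere_subset_closedBall hζ), sub_self]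

theorem IsDeform.d1_lwE (h : Std5 X 𝔚 D 𝒴 err A1 A2) (hc : IsAdm X 𝔚 𝒴 c)
    (hmod : ∀ ζ ∈ uCirc, ‖hh ζ‖ = c.mw 𝔚 ζ)
    (hD : IsDeform X 𝔚 𝒴 c hh Vh F pz r₀ M) {z ζ : ℂ} (hz : z ∈ Metric.ball (0 : ℂ) r₀)
    (hζ : ζ ∈ uCirc) :
    d1 (fun y => ((lwE 𝔚 c F y ζ : ℝ) : ℂ)) z =
      ((Real.exp (-((𝔚.a : ℝ) * lwE 𝔚 c F z ζ)) : ℝ) : ℂ) *
        ∑ r, lwLam X 𝔚 𝒴 (F z ζ) r * lwZ X hh F z ζ r := by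
  have e1 : (fun y => ((lwE 𝔚 c F y ζ : ℝ) : ℂ)) = fun y =>
      ((Real.log (𝔚.pw (F y ζ)) : ℝ) : ℂ) - ((Real.log (𝔚.pw (c.f ζ)) : ℝ) : ℂ) := by
    funext y
    simp only [lwE]
    push_cast
    rfl
  have e2 : d1 (fun y => ((lwE 𝔚 c F y ζ : ℝ) : ℂ)) z =
      d1 (fun y => ((Real.log (𝔚.pw (F y ζ)) : ℝ) : ℂ)) z := by
    rw [e1]
    simp only [d1, fderiv_sub_const]
  rw [e2, hD.d1_logpw h hz hζ]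
  have hp : 0 < 𝔚.pw (F z ζ) := ((hD.adm z hz).bdry ζ hζ).2
  have hp₀ : 0 < 𝔚.pw (c.f ζ) := (hc.bdry ζ hζ).2
  have := lw_b_eq hp hp₀ 𝔚.a (lwLam X 𝔚 𝒴 (F z ζ)) (famV X.G F z ζ)
  simp only [lwLam] at this ⊢
  rw [this]
  simp only [lwE, lwZ, hmod ζ hζ, Config.mw]

theorem IsDeform.lap1_lwE (h : Std5 X 𝔚 D 𝒴 err A1 A2) (hc : IsAdm X 𝔚 𝒴 c)
    (hmod : ∀ ζ ∈ uCirc, ‖hh ζ‖ = c.mw 𝔚 ζ)
    (hD : IsDeform X 𝔚 𝒴 c hh Vh F pz r₀ M) {z ζ : ℂ} (hz : z ∈ Metric.ball (0 : ℂ) r₀)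
    (hζ : ζ ∈ uCirc) :
    lap1 (fun y => Real.log (𝔚.pw (F y ζ))) z =
      Real.exp (-((2 * (𝔚.a : ℝ)) * lwE 𝔚 c F z ζ)) *
        qf (lwL X 𝔚 𝒴 (F z ζ)) (lwZ X hh F z ζ) := by
  rw [hD.lap1_logpw h hz hζ]
  have hp : 0 < 𝔚.pw (F z ζ) := ((hD.adm z hz).bdry ζ hζ).2
  have hp₀ : 0 < 𝔚.pw (c.f ζ) := (hc.bdry ζ hζ).2
  have := lw_c_eq hp hp₀ 𝔚.a (lwL X 𝔚 𝒴 (F z ζ)) (famV X.G F z ζ)
  have hZ : lwZ X hh F z ζ = fun r => famV X.G F z ζ r / ((𝔚.pw (c.f ζ) ^ 𝔚.a : ℝ) : ℂ) := by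
    funext r
    simp only [lwZ, hmod ζ hζ, Config.mw]
  rw [hZ]
  simp only [lwL, lwE] at this ⊢
  rw [this]

theorem logwall_e_le (h : Std5 X 𝔚 D 𝒴 err A1 A2) (L : ℝ) :
    ∃ Cb : ℝ, 0 ≤ Cb ∧ ∀ (r₀ : ℝ), 0 < r₀ → ∀ M : ℝ, ∃ C' r₁ : ℝ, 0 ≤ C' ∧ 0 < r₁ ∧ r₁ ≤ r₀ / 2 ∧
      ∀ (c : Config V n) (hh : ℂ → ℂ) (Vh : ℂ → Fin X.q → ℂ)
      (F : ℂ → ℂ → CotAmb V) (pz : ℂ → CE (Fin n ⊕ Fin n)), IsAdm X 𝔚 𝒴 c →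
      (∀ ζ ∈ uCirc, ‖hh ζ‖ = c.mw 𝔚 ζ) → IsDeform X 𝔚 𝒴 c hh Vh F pz r₀ M →
      (∀ ζ ∈ uCirc, ∑ k, ‖Vh ζ k‖ ^ 2 ≤ L * ‖hh ζ‖ ^ 2) →
      ∀ z : ℂ, ‖z‖ ≤ r₁ →
        DsqR (fun ζ => Real.log (𝔚.pw (F z ζ)) - Real.log (𝔚.pw (c.f ζ))) ≤
          ‖z‖ ^ 2 * (Cb * (DsqV (fun ζ => (X.G (c.f ζ) : Fin X.q → ℂ)) +
            DsqV (fun ζ k => Vh ζ k / (‖hh ζ‖ : ℂ))) + C' * ‖z‖) := by
  obtain ⟨K, hK0, hβ⟩ := lw_beta h L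
  refine ⟨128 * K, by positivity, fun r₀ hr₀ M => ?_⟩
  obtain ⟨C', r₁, hC', hr₁, hr₁₀, -, hf⟩ := lw_fields h L hr₀ M
  have ha0 : (0 : ℝ) ≤ 𝔚.a := Nat.cast_nonneg _
  have hden : 0 < 8 * K * (𝔚.a : ℝ) + 1 := by positivity
  refine ⟨64 * K * C', min r₁ (1 / (8 * K * (𝔚.a : ℝ) + 1)), by positivity,
    lt_min hr₁ (by positivity), (min_le_left _ _).trans hr₁₀, ?_⟩
  intro c hh Vh F pz hc hmod hD hL z hz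
  have hz1 : ‖z‖ ≤ r₁ := hz.trans (min_le_left _ _)
  have hz2 : ‖z‖ ≤ 1 / (8 * K * (𝔚.a : ℝ) + 1) := hz.trans (min_le_right _ _)
  set S : ℝ := DsqV (fun ζ => (X.G (c.f ζ) : Fin X.q → ℂ)) +
    DsqV (fun ζ k => Vh ζ k / (‖hh ζ‖ : ℂ)) with hS
  have hS0 : 0 ≤ S := add_nonneg (DsqV_nonneg _) (DsqV_nonneg _)
  have hball : ∀ y : ℂ, ‖y‖ ≤ ‖z‖ → y ∈ Metric.ball (0 : ℂ) r₀ := fun y hy => by
    rw [mem_ball_zero_iff]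
    linarith
  have hBB : 0 ≤ K * (2 * S + C' * ‖z‖) := by positivity
  have key := lw_absorb (r₀ := r₀) (ρ := ‖z‖) (a := (𝔚.a : ℝ)) (R := 2) (K := K)
    (B := Real.sqrt (K * (2 * S + C' * ‖z‖))) (e := lwE 𝔚 c F)
    (β := fun y ζ => ∑ r, lwLam X 𝔚 𝒴 (F y ζ) r * lwZ X hh F y ζ r)
    (hD.famSm_lwE h hr₀) (fun ζ hζ => lw_lwE_zero hD hζ) (norm_nonneg _) (by linarith) ha0
    (Real.sqrt_nonneg _)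
    (fun y hy ζ hζ => hD.d1_lwE h hc hmod (hball y hy) hζ)
    (fun y hy => (hf c hh Vh F pz hc hmod hD hL y (hy.trans hz1)).2.1)
    (fun y hy => by
      obtain ⟨g1, g2, g3⟩ := lw_circLip h hc hmod hD (hball y hy)
      exact (hβ (F y) (lwZ X hh F y) g1 g2 g3
        (hf c hh Vh F pz hc hmod hD hL y (hy.trans hz1)).1).1)
    (fun y hy => by
      obtain ⟨g1, g2, g3⟩ := lw_circLip h hc hmod hD (hball y hy)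
      exact (hβ (F y) (lwZ X hh F y) g1 g2 g3
        (hf c hh Vh F pz hc hmod hD hL y (hy.trans hz1)).1).2.1)
    (fun y hy => by
      obtain ⟨g1, g2, g3⟩ := lw_circLip h hc hmod hD (hball y hy)
      obtain ⟨f1, -, f3⟩ := hf c hh Vh F pz hc hmod hD hL y (hy.trans hz1)
      rw [Real.sq_sqrt hBB]
      refine (hβ (F y) (lwZ X hh F y) g1 g2 g3 f1).2.2.trans ?_
      refine mul_le_mul_of_nonneg_left (f3.trans ?_) hK0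
      have : C' * ‖y‖ ≤ C' * ‖z‖ := mul_le_mul_of_nonneg_left hy hC'
      linarith)
    (by
      rw [le_div_iff₀ hden] at hz2
      nlinarith [norm_nonneg z])
    z le_rfl
  refine key.trans (le_of_eq ?_)
  rw [mul_pow, Real.sq_sqrt hBB]
  ring

/-! ### `S5-LW3` (glue) -/

theorem logwall_c_le (h : Std5 X 𝔚 D 𝒴 err A1 A2) (L : ℝ) :
    ∃ Cb : ℝ, 0 ≤ Cb ∧ ∀ (r₀ : ℝ), 0 < r₀ → ∀ M : ℝ, ∃ C' r₁ : ℝ, 0 ≤ C' ∧ 0 < r₁ ∧ r₁ ≤ r₀ / 2 ∧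
      ∀ (c : Config V n) (hh : ℂ → ℂ) (Vh : ℂ → Fin X.q → ℂ)
      (F : ℂ → ℂ → CotAmb V) (pz : ℂ → CE (Fin n ⊕ Fin n)), IsAdm X 𝔚 𝒴 c →
      (∀ ζ ∈ uCirc, ‖hh ζ‖ = c.mw 𝔚 ζ) → IsDeform X 𝔚 𝒴 c hh Vh F pz r₀ M →
      (∀ ζ ∈ uCirc, ∑ k, ‖Vh ζ k‖ ^ 2 ≤ L * ‖hh ζ‖ ^ 2) →
      ∀ z : ℂ, ‖z‖ ≤ r₁ →
        DsqR (fun ζ => lap1 (fun y => Real.log (𝔚.pw (F y ζ))) z) ≤
          Cb * (DsqV (fun ζ => (X.G (c.f ζ) : Fin X.q → ℂ)) +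
            DsqV (fun ζ k => Vh ζ k / (‖hh ζ‖ : ℂ))) + C' * ‖z‖ := by
  obtain ⟨Ce, hCe0, he⟩ := logwall_e_le h L
  obtain ⟨K, hK0, hγ⟩ := lw_gamma h L
  have ha0 : (0 : ℝ) ≤ 𝔚.a := Nat.cast_nonneg _
  refine ⟨64 * K + 128 * K ^ 2 * (𝔚.a : ℝ) ^ 2 * Ce, by positivity, fun r₀ hr₀ M => ?_⟩
  obtain ⟨Ce', r₂, hCe', hr₂, hr₂₀, he⟩ := he r₀ hr₀ M
  obtain ⟨C', r₁, hC', hr₁, hr₁₀, hr₁1, hf⟩ := lw_fields h L hr₀ M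
  refine ⟨32 * K * C' + 128 * K ^ 2 * (𝔚.a : ℝ) ^ 2 * Ce', min r₁ r₂, by positivity,
    lt_min hr₁ hr₂, (min_le_left _ _).trans hr₁₀, ?_⟩
  intro c hh Vh F pz hc hmod hD hL z hz
  have hz1 : ‖z‖ ≤ r₁ := hz.trans (min_le_left _ _)
  have hz2 : ‖z‖ ≤ r₂ := hz.trans (min_le_right _ _)
  have hz3 : ‖z‖ ≤ 1 := hz1.trans hr₁1
  have he := he c hh Vh F pz hc hmod hD hL z hz2
  set S : ℝ := DsqV (fun ζ => (X.G (c.f ζ) : Fin X.q → ℂ)) +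
    DsqV (fun ζ k => Vh ζ k / (‖hh ζ‖ : ℂ)) with hS
  have hS0 : 0 ≤ S := add_nonneg (DsqV_nonneg _) (DsqV_nonneg _)
  have hzb : z ∈ Metric.ball (0 : ℂ) r₀ := by
    rw [mem_ball_zero_iff]
    linarith
  obtain ⟨g1, g2, g3⟩ := lw_circLip h hc hmod hD hzb
  obtain ⟨f1, f2, f3⟩ := hf c hh Vh F pz hc hmod hD hL z hz1
  obtain ⟨k1, k2, k3⟩ := hγ (F z) (lwZ X hh F z) g1 g2 g3 f1
  have heL : CircLip fun ζ => ((lwE 𝔚 c F z ζ : ℝ) : ℂ) :=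
    ((hD.famSm_lwE h hr₀).circSm hzb).circLip
  have hR4 : ∀ ζ ∈ uCirc, Real.exp (-((2 * (𝔚.a : ℝ)) * lwE 𝔚 c F z ζ)) ≤ 4 := fun ζ hζ => by
    have h1 := f2 ζ hζ
    have h2 : Real.exp (-((2 * (𝔚.a : ℝ)) * lwE 𝔚 c F z ζ)) =
        Real.exp (-((𝔚.a : ℝ) * lwE 𝔚 c F z ζ)) * Real.exp (-((𝔚.a : ℝ) * lwE 𝔚 c F z ζ)) := by
      rw [← Real.exp_add]
      congr 1
      ring
    rw [h2]
    nlinarith [Real.exp_pos (-((𝔚.a : ℝ) * lwE 𝔚 c F z ζ))]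
  obtain ⟨w1, w2⟩ := lw_Dsq_exp_le heL (a := 2 * (𝔚.a : ℝ)) (R := 4) (by positivity) hR4
  have hcongr : DsqR (fun ζ => lap1 (fun y => Real.log (𝔚.pw (F y ζ))) z) =
      Dsq (fun ζ => ((Real.exp (-((2 * (𝔚.a : ℝ)) * lwE 𝔚 c F z ζ)) : ℝ) : ℂ) *
        ((qf (lwL X 𝔚 𝒴 (F z ζ)) (lwZ X hh F z ζ) : ℝ) : ℂ)) := by
    refine Dsq_congr fun ζ hζ => ?_
    show ((lap1 (fun y => Real.log (𝔚.pw (F y ζ))) z : ℝ) : ℂ) = _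
    rw [hD.lap1_lwE h hc hmod hzb hζ]
    push_cast
    rfl
  rw [hcongr]
  have hmul := Dsq_mul_le w1 k1 (A := 4) (B := K)
    (fun ζ hζ => by
      rw [Complex.norm_real, Real.norm_eq_abs, abs_of_pos (Real.exp_pos _)]
      exact hR4 ζ hζ)
    (fun ζ hζ => by
      rw [Complex.norm_real, Real.norm_eq_abs]
      exact k2 ζ hζ)
  refine hmul.trans ?_
  have t1 : Dsq (fun ζ => ((qf (lwL X 𝔚 𝒴 (F z ζ)) (lwZ X hh F z ζ) : ℝ) : ℂ)) ≤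
      K * (2 * S + C' * ‖z‖) := k3.trans (mul_le_mul_of_nonneg_left f3 hK0)
  have t2 : Dsq (fun ζ => ((Real.exp (-((2 * (𝔚.a : ℝ)) * lwE 𝔚 c F z ζ)) : ℝ) : ℂ)) ≤
      (2 * (𝔚.a : ℝ) * 4) ^ 2 * (Ce * S + Ce' * ‖z‖) := by
    refine w2.trans (mul_le_mul_of_nonneg_left ?_ (by positivity))
    refine le_trans he ?_
    have h5 : 0 ≤ Ce * S + Ce' * ‖z‖ := by positivity
    have h6 : ‖z‖ ^ 2 ≤ 1 := pow_le_one₀ (norm_nonneg _) hz3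
    nlinarith
  have t3 : 2 * K ^ 2 * Dsq (fun ζ => ((Real.exp (-((2 * (𝔚.a : ℝ)) * lwE 𝔚 c F z ζ)) : ℝ) : ℂ)) ≤
      2 * K ^ 2 * ((2 * (𝔚.a : ℝ) * 4) ^ 2 * (Ce * S + Ce' * ‖z‖)) :=
    mul_le_mul_of_nonneg_left t2 (by positivity)
  nlinarith

/-! ### `S5-LW4` -/

/-- `S5-D5`.  The logarithmic wall seminorm (assembly, see the header). -/
theorem defo_logwall (h : Std5 X 𝔚 D 𝒴 err A1 A2) (L : ℝ) :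
    ∃ Cb : ℝ, ∀ (r₀ : ℝ), 0 < r₀ → ∀ M : ℝ, ∃ C' r₁ : ℝ, 0 < r₁ ∧ r₁ ≤ r₀ / 2 ∧
      ∀ (c : Config V n) (hh : ℂ → ℂ) (Vh : ℂ → Fin X.q → ℂ)
      (F : ℂ → ℂ → CotAmb V) (pz : ℂ → CE (Fin n ⊕ Fin n)), IsAdm X 𝔚 𝒴 c →
      (∀ ζ ∈ uCirc, ‖hh ζ‖ = c.mw 𝔚 ζ) → IsDeform X 𝔚 𝒴 c hh Vh F pz r₀ M →
      (∀ ζ ∈ uCirc, ∑ k, ‖Vh ζ k‖ ^ 2 ≤ L * ‖hh ζ‖ ^ 2) →
      ∀ r : ℝ, 0 < r → r ≤ r₁ →
        CircleIntegrable (fun z => DsqR (fun ζ => Real.log (𝔚.pw (F z ζ)))) 0 r ∧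
        Real.circleAverage (fun z => DsqR (fun ζ => Real.log (𝔚.pw (F z ζ)))) 0 r ≤
          DsqR (fun ζ => Real.log (𝔚.pw (c.f ζ))) +
          r ^ 2 * (Cb * (1 + DsqR (fun ζ => Real.log (𝔚.pw (c.f ζ))) +
            DsqV (fun ζ => (X.G (c.f ζ) : Fin X.q → ℂ)) +
            DsqV (fun ζ k => Vh ζ k / (‖hh ζ‖ : ℂ)))) + C' * r ^ 3 := by
  obtain ⟨Ce, hCe0, he⟩ := logwall_e_le h L
  obtain ⟨Cc, hCc0, hcl⟩ := logwall_c_le h L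
  refine ⟨1 + Cc + Ce, fun r₀ hr₀ M => ?_⟩
  obtain ⟨Ce', r₂, hCe', hr₂, hr₂₀, he⟩ := he r₀ hr₀ M
  obtain ⟨Cc', r₃, hCc', hr₃, hr₃₀, hcl⟩ := hcl r₀ hr₀ M
  refine ⟨2 * Cc' + Ce', min r₂ (r₃ / 2), lt_min hr₂ (by positivity),
    (min_le_left _ _).trans hr₂₀, ?_⟩
  intro c hh Vh F pz hc hmod hD hL r h0 h1
  have hsub : uCirc ⊆ uDiscC := Metric.sphere_subset_closedBall
  set S : ℝ := DsqV (fun ζ => (X.G (c.f ζ) : Fin X.q → ℂ)) +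
    DsqV (fun ζ k => Vh ζ k / (‖hh ζ‖ : ℂ)) with hS
  have hS0 : 0 ≤ S := add_nonneg (DsqV_nonneg _) (DsqV_nonneg _)
  have e0 : DsqR (fun ζ => Real.log (𝔚.pw (F 0 ζ))) = DsqR (fun ζ => Real.log (𝔚.pw (c.f ζ))) :=
    Dsq_congr fun ζ hζ => by
      show ((Real.log (𝔚.pw (F 0 ζ)) : ℝ) : ℂ) = _
      rw [hD.F_zero ζ (hsub hζ)]
  have key := lwh_assemble (q := fun z ζ => Real.log (𝔚.pw (F z ζ))) (r₂ := r₂) (r₃ := r₃)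
    (Ae := Ce * S) (Ac := Cc * S) (Ae' := Ce') (Ac' := Cc') (hD.famSm_logpw h) hr₀
    (by linarith) (by linarith) hCc'
    (fun z hz => by
      have e1 : DsqR (fun ζ => Real.log (𝔚.pw (F z ζ)) - Real.log (𝔚.pw (F 0 ζ))) =
          DsqR (fun ζ => Real.log (𝔚.pw (F z ζ)) - Real.log (𝔚.pw (c.f ζ))) :=
        Dsq_congr fun ζ hζ => by
          show ((Real.log (𝔚.pw (F z ζ)) - Real.log (𝔚.pw (F 0 ζ)) : ℝ) : ℂ) = _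
          rw [hD.F_zero ζ (hsub hζ)]
      rw [e1]
      exact he c hh Vh F pz hc hmod hD hL z hz)
    (fun z hz => hcl c hh Vh F pz hc hmod hD hL z hz)
    h0 (h1.trans (min_le_left _ _)) (by
      have := h1.trans (min_le_right _ _)
      linarith)
  refine ⟨key.1, key.2.trans ?_⟩
  rw [e0]
  have hd0 := DsqR_nonneg fun ζ => Real.log (𝔚.pw (c.f ζ))
  set d : ℝ := DsqR fun ζ => Real.log (𝔚.pw (c.f ζ)) with hd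
  have h3 : d + Cc * S + Ce * S ≤ (1 + Cc + Ce) * (1 + d + DsqV (fun ζ => (X.G (c.f ζ) : Fin X.q → ℂ)) +
      DsqV (fun ζ k => Vh ζ k / (‖hh ζ‖ : ℂ))) := by
    have e : 1 + d + DsqV (fun ζ => (X.G (c.f ζ) : Fin X.q → ℂ)) +
      DsqV (fun ζ k => Vh ζ k / (‖hh ζ‖ : ℂ)) = 1 + d + S := by rw [hS]; ring
    rw [e]
    nlinarith [mul_nonneg hCc0 hd0, mul_nonneg hCe0 hd0]
  have h4 := mul_le_mul_of_nonneg_left h3 (by positivity : (0 : ℝ) ≤ r ^ 2)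
  linarith

end Claimed.Agent.R316
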