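import Claimed.Agent.R316.S5.SprayFam

/-!
# Row 316, Section 5.2: realisation of the first field (`S5-D7`, sub-blueprint).  THE GLUE `realization` IS PROVED.

Leaves:
* `S5-R1` `frame_U_ctl` : the entries of the frame are controlled (`FrameBd.U_le` with `v = e_j`, maximum principle, `FrameBd.U_D`).
* `S5-R2` `frame_JEinv_ctl` : the entries of `JE⁻¹` are controlled: on the circle `JE⁻¹ = Uᵀ P⁺(f) U` (`S4.poisI_frame`), `P⁺` is bounded and `G`-Lipschitz on the boundary compact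
  (`S4.pois_glip`, `S4.Dsq_comp_glip`), `CCtl` calculus.
* `S5-R3` `realize_alg` : `U JE Uᵀ Gmᵀ JE⁻¹ l = α U l` if `Gm U = α`.
-/

set_option autoImplicit false
set_option maxSynthPendingDepth 3
open scoped ContDiff ComplexOrder Topology Matrix
open MeasureTheory Filter

namespace Claimed.Agent.R316

section Frame

variable {V : Type} [NormedAddCommGroup V] [InnerProductSpace ℝ V] [FiniteDimensional ℝ V]
variable {n q : ℕ} {𝓜 : CMfd V (Fin n)} {𝒴 : CMfd (CotAmb V) (Fin n ⊕ Fin n)}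
variable {G : CotAmb V → CE (Fin q)}

/-- `S5-R1`. -/
theorem frame_U_ctl {CF E₀ : ℝ} {f : ℂ → CotAmb V} {U : ℂ → Matrix (Fin q) (Fin n ⊕ Fin n) ℂ}
    {JE : ℂ → Matrix (Fin n ⊕ Fin n) (Fin n ⊕ Fin n) ℂ} (hF : IsFrame 𝓜 G f U JE)
    (hB : FrameBd CF G f U JE) (hE : DsqV (fun ζ => (G (f ζ) : Fin q → ℂ)) ≤ E₀) :
    DsqM U ≤ |CF| * (1 + E₀) ∧ ∀ i j, S5Ctl 1 (|CF| * (1 + E₀)) fun ζ => U ζ i j := by
  classical
  have h0 := DsqV_nonneg (fun ζ => (G (f ζ) : Fin q → ℂ))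
  have hD : DsqM U ≤ |CF| * (1 + E₀) := by
    refine hB.U_D.trans ?_
    calc CF * (1 + DsqV fun ζ => (G (f ζ) : Fin q → ℂ))
        ≤ |CF| * (1 + DsqV fun ζ => (G (f ζ) : Fin q → ℂ)) :=
          mul_le_mul_of_nonneg_right (le_abs_self CF) (by linarith)
      _ ≤ |CF| * (1 + E₀) := mul_le_mul_of_nonneg_left (by linarith) (abs_nonneg CF)
  refine ⟨hD, fun i j => ⟨hF.U_hol i j, ?_, ?_⟩⟩
  · refine (hF.U_hol i j).norm_le fun ζ hζ => ?_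
    have h1 := hB.U_le ζ hζ (Pi.single j 1)
    have h2 : ∑ k, ‖(Pi.single j (1 : ℂ) : Fin n ⊕ Fin n → ℂ) k‖ ^ 2 = 1 := by
      rw [Finset.sum_eq_single j]
      · simp
      · intro k _ hk
        rw [Pi.single_eq_of_ne hk]; simp
      · intro h; exact absurd (Finset.mem_univ j) h
    rw [h2, Matrix.mulVec_single_one] at h1
    have h3 : ‖U ζ i j‖ ^ 2 ≤ 1 :=
      (Finset.single_le_sum (f := fun i => ‖(U ζ).col j i‖ ^ 2) (fun _ _ => sq_nonneg _)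
        (Finset.mem_univ i)).trans h1
    exact (sq_le_one_iff₀ (norm_nonneg _)).mp h3
  · refine le_trans ?_ hD
    unfold DsqM
    exact (Finset.single_le_sum (f := fun j => Dsq fun ζ => U ζ i j) (fun _ _ => Dsq_nonneg _)
      (Finset.mem_univ j)).trans (Finset.single_le_sum
        (f := fun i => ∑ j, Dsq fun ζ => U ζ i j)
        (fun _ _ => Finset.sum_nonneg fun _ _ => Dsq_nonneg _) (Finset.mem_univ i))

/-- `S5-R2`. -/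
theorem frame_JEinv_ctl (hY : IsCotangent 𝓜 𝒴) (hG : GImm 𝒴 G) {K : Set (CotAmb V)}
    (hK : IsCompact K) (hKY : K ⊆ 𝒴.carrier) (CF E₀ : ℝ) :
    ∃ C : ℝ, ∀ (f : ℂ → CotAmb V) (U : ℂ → Matrix (Fin q) (Fin n ⊕ Fin n) ℂ)
      (JE : ℂ → Matrix (Fin n ⊕ Fin n) (Fin n ⊕ Fin n) ℂ), IsSmDisc 𝒴 f → (∀ ζ ∈ uCirc, f ζ ∈ K) →
      IsFrame 𝓜 G f U JE → FrameBd CF G f U JE →
      DsqV (fun ζ => (G (f ζ) : Fin q → ℂ)) ≤ E₀ →
      (∀ ζ ∈ uDiscC, IsUnit (JE ζ).det) ∧ ∀ i j, S5Ctl C C fun ζ => (JE ζ)⁻¹ i j := by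
  classical
  obtain ⟨Cp, hCp0, hPb, hPl⟩ := S4.pois_glip (𝓜 := 𝓜) hY hG hK hKY
  -- the constants
  obtain ⟨DU, hDU⟩ : ∃ DU : ℝ, DU = |CF| * (1 + E₀) := ⟨_, rfl⟩
  obtain ⟨DP, hDP⟩ : ∃ DP : ℝ, DP = Cp ^ 2 * |E₀| := ⟨_, rfl⟩
  obtain ⟨B1, hB1⟩ : ∃ B1 : ℝ, B1 = Cp * 1 := ⟨_, rfl⟩
  obtain ⟨D1, hD1⟩ : ∃ D1 : ℝ, D1 = 2 * Cp ^ 2 * DU + 2 * 1 ^ 2 * DP := ⟨_, rfl⟩
  obtain ⟨B2, hB2⟩ : ∃ B2 : ℝ, B2 = 1 * B1 := ⟨_, rfl⟩
  obtain ⟨D2, hD2⟩ : ∃ D2 : ℝ, D2 = 2 * 1 ^ 2 * D1 + 2 * B1 ^ 2 * DU := ⟨_, rfl⟩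
  obtain ⟨D3, hD3⟩ : ∃ D3 : ℝ, D3 = (Fintype.card (Fin q) : ℝ) * ((Fintype.card (Fin q) : ℝ) *
      ((Fintype.card (Fin q) : ℝ) * ((Fintype.card (Fin q) : ℝ) * D2))) := ⟨_, rfl⟩
  refine ⟨max (Real.sqrt |CF|) D3, ?_⟩
  intro f U JE hf hfK hF hB hE
  have hfr := fun ζ (hζ : ζ ∈ uDiscC) => S4.poisI_frame hY hG hf.2.2 hF hζ
  have hunit : ∀ ζ ∈ uDiscC, IsUnit (JE ζ).det := fun ζ hζ => (hfr ζ hζ).1
  refine ⟨hunit, fun i j => ⟨S4.holSm_matInv hF.JE_hol hunit i j, fun ζ hζ => ?_, ?_⟩⟩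
  · refine le_trans ?_ (le_max_left _ _)
    refine Real.le_sqrt_of_sq_le ?_
    refine le_trans ?_ ((hB.JE_inv ζ hζ).trans (le_abs_self CF))
    unfold frobSq
    exact (Finset.single_le_sum (f := fun j => ‖(JE ζ)⁻¹ i j‖ ^ 2) (fun _ _ => sq_nonneg _)
      (Finset.mem_univ j)).trans (Finset.single_le_sum
        (f := fun i => ∑ j, ‖(JE ζ)⁻¹ i j‖ ^ 2)
        (fun _ _ => Finset.sum_nonneg fun _ _ => sq_nonneg _) (Finset.mem_univ i))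
  · refine le_trans ?_ (le_max_right _ _)
    have hsub : uCirc ⊆ uDiscC := Metric.sphere_subset_closedBall
    obtain ⟨-, hUc⟩ := frame_U_ctl hF hB hE
    have hUcc : ∀ a i, CCtl 1 DU fun ζ => U ζ a i := fun a i => by
      rw [hDU]; exact (hUc a i).cctl
    have hX : ∀ a, CircLip fun ζ => G (f ζ) a := fun a => (hf.holSm_G hG a).circSm.circLip
    have hPc : ∀ a b, CCtl Cp DP fun ζ => S4.poisI 𝓜 G (f ζ) a b := fun a b => by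
      obtain ⟨h1, h2⟩ := S4.Dsq_comp_glip (G := G) (f := f) (β := fun y => S4.poisI 𝓜 G y a b) hCp0
        (fun y hy y' hy' => (hPl y hy y' hy' a b).2) hX hfK
      refine ⟨h1, fun ζ hζ => (hPb _ (hfK ζ hζ) a b).2, h2.trans ?_⟩
      rw [hDP]
      exact mul_le_mul_of_nonneg_left (hE.trans (le_abs_self E₀)) (by positivity)
    have h1 : ∀ a b, CCtl B1 D1 fun ζ => S4.poisI 𝓜 G (f ζ) a b * U ζ b j := fun a b => by
      rw [hB1, hD1]; exact (hPc a b).mul (hUcc b j)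
    have h2 : ∀ a b, CCtl B2 D2 fun ζ => U ζ a i * (S4.poisI 𝓜 G (f ζ) a b * U ζ b j) :=
      fun a b => by rw [hB2, hD2]; exact (hUcc a i).mul (h1 a b)
    have h3 := CCtl.sum fun a => CCtl.sum fun b => h2 a b
    have h4 := h3.congr (g := fun ζ => (JE ζ)⁻¹ i j) (fun ζ hζ => by
      show ∑ a, ∑ b, U ζ a i * (S4.poisI 𝓜 G (f ζ) a b * U ζ b j) = (JE ζ)⁻¹ i j
      rw [(hfr ζ (hsub hζ)).2]
      simp only [Matrix.mul_apply, Matrix.transpose_apply, Finset.sum_mul]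
      rw [Finset.sum_comm]
      refine Finset.sum_congr rfl fun a _ => Finset.sum_congr rfl fun b _ => ?_
      ring)
    rw [hD3]
    exact h4.2.2

/-- `S5-R3`. -/
theorem realize_alg {κ Q : Type} [Fintype κ] [DecidableEq κ] [Fintype Q] [DecidableEq Q]
    {U : Matrix Q κ ℂ} {J : Matrix κ κ ℂ} {Gm : Matrix κ Q ℂ} {α : ℂ} (hJ : IsUnit J.det)
    (hGm : Gm * U = α • (1 : Matrix κ κ ℂ)) (l : κ → ℂ) :
    (U * J * Uᵀ) *ᵥ (fun k => ∑ i, Gm i k * ∑ j, J⁻¹ i j * l j) = α • (U *ᵥ l) := by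
  have h1 : (fun k => ∑ i, Gm i k * ∑ j, J⁻¹ i j * l j) = Gmᵀ *ᵥ (J⁻¹ *ᵥ l) := by
    funext k
    simp only [Matrix.mulVec, dotProduct, Matrix.transpose_apply]
  have h2 : Uᵀ * Gmᵀ = α • (1 : Matrix κ κ ℂ) := by
    rw [← Matrix.transpose_mul, hGm, Matrix.transpose_smul, Matrix.transpose_one]
  rw [h1, Matrix.mulVec_mulVec, Matrix.mulVec_mulVec]
  have h3 : U * J * Uᵀ * Gmᵀ * J⁻¹ = α • U := by
    calc U * J * Uᵀ * Gmᵀ * J⁻¹ = U * J * (Uᵀ * Gmᵀ) * J⁻¹ := by simp only [Matrix.mul_assoc]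
      _ = α • (U * (J * J⁻¹)) := by
          rw [h2, Matrix.mul_smul, Matrix.mul_one, Matrix.smul_mul, Matrix.mul_assoc]
      _ = α • U := by rw [Matrix.mul_nonsing_inv J hJ, Matrix.mul_one]
  rw [h3, Matrix.smul_mulVec]


end Frame

section Ctx

variable {V : Type} [NormedAddCommGroup V] [InnerProductSpace ℝ V] [FiniteDimensional ℝ V]
variable [MeasurableSpace V] [BorelSpace V]
variable {n : ℕ} {𝓜 : CMfd V (Fin n)} {g : HFam V (Fin n)} {o : V}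
variable {D : FlowData 𝓜 g o} {𝒴 : CMfd (CotAmb V) (Fin n ⊕ Fin n)}
variable {X : S5Ctx V n} {𝔚 : Walls V} {err A1 A2 : ℝ}

omit [MeasurableSpace V] [BorelSpace V] in
theorem IsDeform.congr_field {c : Config V n} {hh : ℂ → ℂ} {Vh Vh' : ℂ → Fin X.q → ℂ}
    {F : ℂ → ℂ → CotAmb V} {pz : ℂ → CE (Fin n ⊕ Fin n)} {r₀ M : ℝ}
    (hD : IsDeform X 𝔚 𝒴 c hh Vh F pz r₀ M) (e : ∀ ζ ∈ uDiscC, Vh ζ = Vh' ζ) :
    IsDeform X 𝔚 𝒴 c hh Vh' F pz r₀ M :=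
  { hD with first := fun ζ hζ k => by rw [← e ζ hζ]; exact hD.first ζ hζ k }

/-- `S5-D7`.  REALISATION of the first field.  Fixed: energy bound `E₀`, bounds `L`, `D₀` of the column, the loss `ηα`.
Steps: `K` = compact containing the region; `K'` from `disc_compactness` (`areaG ≤ E₀`); `c₀` from `frame_gram_lower`; `left_inverse_loss` gives
`α`, `Gm` with `Gm U = α`; coefficients `cc = Gmᵀ JE⁻¹ l` (bounded in sup and `D`), so `poisM(f) cc = U JE Uᵀ Gmᵀ JE⁻¹ l = α U l` (`poisM_frame`);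
`F z ζ = Sg (f ζ) (z hh(ζ) cc(ζ))` with the spray of `exists_spray`; see `spray_family`. -/
theorem realization (h : Std5 X 𝔚 D 𝒴 err A1 A2) (Pd : PrelimData 𝓜 g o) (CF E₀ L D₀ ηα : ℝ)
    (hη : 0 < ηα) :
    ∃ r₀ M : ℝ, 0 < r₀ ∧ ∀ (c : Config V n) (U : ℂ → Matrix (Fin X.q) (Fin n ⊕ Fin n) ℂ)
      (JE : ℂ → Matrix (Fin n ⊕ Fin n) (Fin n ⊕ Fin n) ℂ) (hh : ℂ → ℂ)
      (l : ℂ → Fin n ⊕ Fin n → ℂ),
      IsAdm X 𝔚 𝒴 c → energy5 X 𝔚 𝓜 g c ≤ E₀ → ‖c.p - X.p₀‖ ≤ X.rc / 2 →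
      IsFrame 𝓜 X.G c.f U JE → FrameBd CF X.G c.f U JE →
      HolSm hh → (∀ ζ ∈ uCirc, ‖hh ζ‖ = c.mw 𝔚 ζ) → (∀ ζ ∈ uDiscC, ‖hh ζ‖ ≤ 1) → Dsq hh ≤ D₀ →
      Dsq (fun ζ => hh ζ / (‖hh ζ‖ : ℂ)) ≤ D₀ →
      (∀ i, HolSm fun ζ => l ζ i) → (∀ ζ ∈ uCirc, ∑ i, ‖l ζ i‖ ^ 2 ≤ L) → DsqV l ≤ D₀ →
      ∃ (α : ℂ → ℂ) (F : ℂ → ℂ → CotAmb V) (pz : ℂ → CE (Fin n ⊕ Fin n)), IsLoss α ηα ∧
        IsDeform X 𝔚 𝒴 c hh (fun ζ => (α ζ * hh ζ) • (U ζ *ᵥ l ζ)) F pz r₀ M := by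
  classical
  have hG := h.valid.imm
  obtain ⟨K, hK, hKY, hreg⟩ := h.walls.compact
  obtain ⟨K', hK', hK'Y, hconf⟩ := disc_compactness h.init Pd h.cot hK hKY E₀
  obtain ⟨c₀, hc₀, hgram⟩ := frame_gram_lower h.cot hG hK' hK'Y CF
  obtain ⟨CG, hCG⟩ := left_inverse_loss (Fin X.q) (Fin n ⊕ Fin n) (c₀ := c₀)
    (D₀ := |CF| * (1 + E₀)) (η := ηα) hc₀ hη
  obtain ⟨CJ, hCJ⟩ := frame_JEinv_ctl h.cot hG hK hKY CF E₀
  obtain ⟨Sg, dom, hS⟩ := S4.exists_spray (𝓜 := 𝓜) h.cot hG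
  set κn : ℝ := (Fintype.card (Fin n ⊕ Fin n) : ℝ) with hκ
  set sL : ℝ := Real.sqrt L with hsL
  -- control of `∑_j JE⁻¹ i j l j`
  set B1 : ℝ := κn * (CJ * sL) with hB1
  set D1 : ℝ := κn * (κn * (2 * CJ ^ 2 * D₀ + 2 * sL ^ 2 * CJ)) with hD1
  set B2 : ℝ := κn * (CG * B1) with hB2
  set D2 : ℝ := κn * (κn * (2 * CG ^ 2 * D1 + 2 * B1 ^ 2 * CG)) with hD2
  set M₁ : ℝ := max (max E₀ D₀) (max B2 (X.q * D2)) with hM₁
  obtain ⟨r₀, M, hr₀, hfam⟩ := spray_family h hS hK' hK'Y M₁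
  refine ⟨r₀, M, hr₀, ?_⟩
  intro c U JE hh l hc hE hp hF hFB hhh hmod hh1 hDh hDu hl hlL hDl
  have hsub : uCirc ⊆ uDiscC := Metric.sphere_subset_closedBall
  have e1 := areaG_nonneg h hc
  have e2 := DsqV_nonneg (fun ζ => (X.G (c.f ζ) : Fin X.q → ℂ))
  have e3 := Dsq_nonneg c.w
  have e4 := DsqR_nonneg (fun ζ => Real.log (𝔚.pw (c.f ζ)))
  have hEdef : energy5 X 𝔚 𝓜 g c = areaG 𝓜 g c.f + DsqV (fun ζ => (X.G (c.f ζ) : Fin X.q → ℂ)) +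
      Dsq c.w + DsqR (fun ζ => Real.log (𝔚.pw (c.f ζ))) := rfl
  have hA : areaG 𝓜 g c.f ≤ E₀ := by linarith
  have hX : DsqV (fun ζ => (X.G (c.f ζ) : Fin X.q → ℂ)) ≤ E₀ := by linarith
  have hbK : ∀ ζ ∈ uCirc, c.f ζ ∈ K := fun ζ hζ => hreg (hc.bdry ζ hζ)
  have hfK' := hconf c.f hc.disc hbK hA
  obtain ⟨hUD, hUc⟩ := frame_U_ctl hF hFB hX
  obtain ⟨α, Gm, hα, hGmH, hGmU, hGmB, hGmD⟩ := hCG U hF.U_hol (fun i j => (hUc i j).2.1)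
    (hgram c.f U JE hF hFB hfK') hUD
  obtain ⟨hJu, hJc⟩ := hCJ c.f U JE hc.disc hbK hF hFB hX
  have hlD := HolSm.sum_normSq_le hl hlL
  have hlc : ∀ j, S5Ctl sL D₀ fun ζ => l ζ j := fun j => by
    refine ⟨hl j, fun ζ hζ => ?_, ?_⟩
    · refine Real.le_sqrt_of_sq_le ?_
      exact (Finset.single_le_sum (f := fun i => ‖l ζ i‖ ^ 2) (fun _ _ => sq_nonneg _)
        (Finset.mem_univ j)).trans (hlD ζ hζ)
    · exact (Finset.single_le_sum (f := fun i => Dsq fun ζ => l ζ i) (fun _ _ => Dsq_nonneg _)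
        (Finset.mem_univ j)).trans hDl
  have hGc : ∀ i k, S5Ctl CG CG fun ζ => Gm ζ i k := fun i k => by
    refine ⟨hGmH i k, hGmB i k, ?_⟩
    refine le_trans ?_ hGmD
    unfold DsqM
    exact (Finset.single_le_sum (f := fun k => Dsq fun ζ => Gm ζ i k) (fun _ _ => Dsq_nonneg _)
      (Finset.mem_univ k)).trans (Finset.single_le_sum
        (f := fun i => ∑ k, Dsq fun ζ => Gm ζ i k)
        (fun _ _ => Finset.sum_nonneg fun _ _ => Dsq_nonneg _) (Finset.mem_univ i))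
  have h1c : ∀ i, S5Ctl B1 D1 fun ζ => ∑ j, (JE ζ)⁻¹ i j * l ζ j := fun i =>
    S5Ctl.sum fun j => (hJc i j).mul (hlc j)
  set cc : ℂ → Fin X.q → ℂ := fun ζ k => ∑ i, Gm ζ i k * ∑ j, (JE ζ)⁻¹ i j * l ζ j with hcc
  have hccc : ∀ k, S5Ctl B2 D2 fun ζ => cc ζ k := fun k =>
    S5Ctl.sum fun i => (hGc i k).mul (h1c i)
  have hccD : DsqV cc ≤ X.q * D2 := by
    unfold DsqV
    calc ∑ k, Dsq (fun ζ => cc ζ k) ≤ ∑ _k : Fin X.q, D2 :=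
          Finset.sum_le_sum fun k _ => (hccc k).2.2
      _ = X.q * D2 := by simp
  obtain ⟨pz, hdef⟩ := hfam c hh cc hc hfK' hp (hX.trans ((le_max_left _ _).trans (le_max_left _ _)))
    hhh hmod hh1 (hDh.trans ((le_max_right _ _).trans (le_max_left _ _)))
    (hDu.trans ((le_max_right _ _).trans (le_max_left _ _))) (fun k => (hccc k).1)
    (fun ζ hζ k => ((hccc k).2.1 ζ hζ).trans ((le_max_left _ _).trans (le_max_right _ _)))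
    (hccD.trans ((le_max_right _ _).trans (le_max_right _ _)))
  refine ⟨α, _, pz, hα, hdef.congr_field fun ζ hζ => ?_⟩
  rw [poisM_frame h.cot hG hc.disc.2.2 hF hζ, realize_alg (hJu ζ hζ) (hGmU ζ hζ) (l ζ), smul_smul,
    mul_comm]

end Ctx

end Claimed.Agent.R316
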