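import Claimed.Agent.R316.S5.Bdry
import Claimed.Agent.R316.S5.Area
import Claimed.Agent.R316.S5.LogWall
import Claimed.Agent.R316.S5.Realize

/-!
# Row 316, Section 5.2: Lemma 5.2 (deformation estimate) = the field `defo` of `FixedJ`

STRATEGY (differs from the paper in the treatment of the remainders).  For an almost minimising configuration `c`, a
frame `(U, JE)`, the outer function `hh` with `|hh| = m = p^a ∘ f` on the circle and a holomorphic column `l` we construct a family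
`F z ζ` of discs, holomorphic in `(z, ζ)`, `|z| < r₀`, with first field `∂_z G(F z ζ)|₀ = Vh = α hh U l` (`IsDeform`, `realization`).
Every part of the functional satisfies a MEAN VALUE INEQUALITY
`avg_{|z| = r} Part(z) ≤ Part(0) + r² Main + C' r³`,
where `Main` involves only boundary constants and `C'`, `r₀` may depend on everything that is fixed (`defo_bdry`, `defo_center`,
`defo_area`, `defo_eucl`, `defo_logwall`).  No Taylor expansion of order three is needed: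
* `X_z = G ∘ F z` is HOLOMORPHIC in `z`; all control of `X_z`, `V_z = ∂_z X_z`, `Z_z = V_z / m` for `z ≠ 0`, in sup norm and in the seminorm `D`,
  comes from Cauchy estimates in `z` (`Dsq_deriv_le`, `avg_Dsq_le`, `norm_deriv_sub_le`) and the three bounds `disp`, `D_X`, `D_Z`;
* functions on `Y` are composed with `F z` through their `G`-Lipschitz bounds on the region (`symb_glip`, `wall_tensors_glip`);
* second derivatives in `z` are given by the chain rule along the holomorphic curves `z ↦ F z ζ` (`lap1_comp_curve`) and enter through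
  `circleAverage_le_of_lap1_le` pointwise in `ζ` + Fubini.
Testing the infimum: `μ ≤ avg_{|z|=r} fun5(z) ≤ fun5(0) + r² Main + C' r³ ≤ μ + η + …`, so `- Main ≤ η / r² + C' r`.

Leaves: `S5-D1` (`S5/Bdry.lean`), `S5-D3` (`S5/Area.lean`), `S5-D5` (`S5/LogWall.lean`); common calculus: `S5/ParamInt.lean`, `S5/Fam.lean` (`IsDeform` is defined there);
`S5-D7` (`S5/Realize.lean`, glue proved), `S5-D8` (`S5/SprayFam.lean`, glue proved);
`S5-D2`, `S5-D4`, `S5-D6`: one per theorem below (see the docstrings); `S5-D9` `defo5` is PROVED.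
-/

set_option autoImplicit false
set_option maxSynthPendingDepth 3
open scoped ContDiff ComplexOrder Topology Matrix
open MeasureTheory Filter

namespace Claimed.Agent.R316

variable {V : Type} [NormedAddCommGroup V] [InnerProductSpace ℝ V] [FiniteDimensional ℝ V]
variable [MeasurableSpace V] [BorelSpace V]
variable {n : ℕ} {𝓜 : CMfd V (Fin n)} {g : HFam V (Fin n)} {o : V}
variable {D : FlowData 𝓜 g o} {𝒴 : CMfd (CotAmb V) (Fin n ⊕ Fin n)}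
variable {X : S5Ctx V n} {𝔚 : Walls V} {err A1 A2 : ℝ}

theorem s5d_contDiff_levi_joint {κ : Type} [Fintype κ] [DecidableEq κ] {φ : ℝ → CE κ → ℝ}
    (hφ : ContDiff ℝ ∞ (fun a : ℝ × CE κ => φ a.1 a.2)) (j k : κ) : ContDiff ℝ ∞ (fun q : ℝ × CE κ => levi (φ q.1) q.2 j k) := by
    have := contDiffOn_levi_param (I := Set.univ) (U := Set.univ) uniqueDiffOn_univ isOpen_univ
      (F := fun a : ℝ × CE κ => φ a.1 a.2) (by simpa using hφ.contDiffOn) j k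
    rw [Set.univ_prod_univ, contDiffOn_univ] at this
    exact this

theorem s5d_contDiff_coord {κ : Type} [Fintype κ] [DecidableEq κ] (k : κ) : ContDiff ℝ ∞ (fun a : ℝ × CE κ × CE κ => a.2.2 k) := 
    (((EuclideanSpace.proj k : CE κ →L[ℂ] ℂ).contDiff).restrict_scalars ℝ).comp
      (contDiff_snd.comp contDiff_snd)

theorem s5d_contDiff_coord_conj {κ : Type} [Fintype κ] [DecidableEq κ] (k : κ) : ContDiff ℝ ∞ (fun a : ℝ × CE κ × CE κ => (starRingEnd ℂ) (a.2.2 k)) := 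
    Complex.conjCLE.contDiff.comp (s5d_contDiff_coord k)

theorem s5d_contDiff_levi_joint' {κ : Type} [Fintype κ] [DecidableEq κ] {φ : ℝ → CE κ → ℝ}
    (hφ : ContDiff ℝ ∞ (fun a : ℝ × CE κ => φ a.1 a.2)) (j k : κ) : ContDiff ℝ ∞ (fun a : ℝ × CE κ × CE κ => levi (φ a.1) a.2.1 j k) :=
    ContDiff.comp (g := fun q : ℝ × CE κ => levi (φ q.1) q.2 j k)
      (f := fun a : ℝ × CE κ × CE κ => (a.1, a.2.1)) (s5d_contDiff_levi_joint hφ j k)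
      (contDiff_fst.prodMk (contDiff_fst.comp contDiff_snd))

theorem s5d_contDiff_qf_levi {κ : Type} [Fintype κ] [DecidableEq κ] {φ : ℝ → CE κ → ℝ}
    (hφ : ContDiff ℝ ∞ (fun a : ℝ × CE κ => φ a.1 a.2)) :
    ContDiff ℝ ∞ (fun a : ℝ × CE κ × CE κ => qf (levi (φ a.1) a.2.1) (fun k => a.2.2 k)) := by
  simp only [qf_eq_sum]
  exact Complex.reCLM.contDiff.comp (ContDiff.sum fun j _ => ContDiff.sum fun k _ =>
    ((s5d_contDiff_coord_conj j).mul (s5d_contDiff_levi_joint' hφ j k)).mul (s5d_contDiff_coord k))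

/-- Cauchy estimates on `|z| < 3 r₀ / 4` for a curve with values in a ball. -/
theorem s5d_cauchy {E : Type} [NormedAddCommGroup E] [NormedSpace ℂ E] [CompleteSpace E]
    {G : ℂ → E} {r₀ M : ℝ} (hr : 0 < r₀)
    (hG : DifferentiableOn ℂ G (Metric.ball 0 r₀)) (hM : ∀ z ∈ Metric.ball (0 : ℂ) r₀, ‖G z‖ ≤ M)
    {z : ℂ} (hz : ‖z‖ ≤ 3 * r₀ / 4) :
    ‖deriv G z‖ ≤ 4 * M / r₀ ∧ ‖G z - G 0‖ ≤ 4 * M / r₀ * ‖z‖ ∧
      ‖deriv G z - deriv G 0‖ ≤ 32 * M / r₀ ^ 2 * ‖z‖ := by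
  have hsub : Metric.closedBall (0 : ℂ) (3 * r₀ / 4) ⊆ Metric.ball 0 r₀ :=
    Metric.closedBall_subset_ball (by linarith)
  have hsub2 : ∀ w ∈ Metric.closedBall (0 : ℂ) (3 * r₀ / 4),
      Metric.ball w (r₀ / 4) ⊆ Metric.ball 0 r₀ := by
    intro w hw y hy
    have hw' : ‖w‖ ≤ 3 * r₀ / 4 := by simpa using hw
    rw [mem_ball_zero_iff]
    have h1 : ‖y - w‖ < r₀ / 4 := by simpa [dist_eq_norm] using hy
    calc ‖y‖ = ‖(y - w) + w‖ := by rw [sub_add_cancel]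
      _ ≤ ‖y - w‖ + ‖w‖ := norm_add_le _ _
      _ < r₀ := by linarith
  have hr4 : 0 < r₀ / 4 := by linarith
  have hd : DifferentiableOn ℂ (deriv G) (Metric.ball 0 r₀) := hG.deriv Metric.isOpen_ball
  have hb1 : ∀ w ∈ Metric.closedBall (0 : ℂ) (3 * r₀ / 4), ‖deriv G w‖ ≤ 4 * M / r₀ := by
    intro w hw
    have := B14.norm_iteratedDeriv_le_of_bound (c := w) hr4 (hG.mono (hsub2 w hw))
      (fun y hy => hM y (hsub2 w hw hy)) 1
    rw [iteratedDeriv_one] at this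
    refine this.trans (le_of_eq ?_)
    simp only [Nat.factorial]
    push_cast
    field_simp
  have hb2 : ∀ w ∈ Metric.closedBall (0 : ℂ) (3 * r₀ / 4),
      ‖deriv (deriv G) w‖ ≤ 32 * M / r₀ ^ 2 := by
    intro w hw
    have := B14.norm_iteratedDeriv_le_of_bound (c := w) hr4 (hG.mono (hsub2 w hw))
      (fun y hy => hM y (hsub2 w hw hy)) 2
    rw [iteratedDeriv_succ, iteratedDeriv_one] at this
    refine this.trans (le_of_eq ?_)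
    simp only [Nat.factorial]
    push_cast
    field_simp
    ring
  have hz' : z ∈ Metric.closedBall (0 : ℂ) (3 * r₀ / 4) := by simpa using hz
  have h0' : (0 : ℂ) ∈ Metric.closedBall (0 : ℂ) (3 * r₀ / 4) := by simp; linarith
  refine ⟨hb1 z hz', ?_, ?_⟩
  · have := Convex.norm_image_sub_le_of_norm_deriv_le (f := G)
      (s := Metric.closedBall (0 : ℂ) (3 * r₀ / 4)) (x := 0) (y := z)
      (fun w hw => hG.differentiableAt (Metric.isOpen_ball.mem_nhds (hsub hw))) hb1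
      (convex_closedBall 0 _) h0' hz'
    rwa [sub_zero] at this
  · have := Convex.norm_image_sub_le_of_norm_deriv_le (f := deriv G)
      (s := Metric.closedBall (0 : ℂ) (3 * r₀ / 4)) (x := 0) (y := z)
      (fun w hw => hd.differentiableAt (Metric.isOpen_ball.mem_nhds (hsub hw))) hb2
      (convex_closedBall 0 _) h0' hz'
    rwa [sub_zero] at this

theorem s5d_deriv_coord {κ : Type} [Fintype κ] {pz : ℂ → CE κ} {z : ℂ}
    (h : DifferentiableAt ℂ pz z) (k : κ) : deriv (fun y => pz y k) z = deriv pz z k :=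
  ((EuclideanSpace.proj k : CE κ →L[ℂ] ℂ).hasFDerivAt.comp_hasDerivAt z h.hasDerivAt).deriv

theorem s5d_center_core {κ : Type} [Fintype κ] [DecidableEq κ] {φ : ℝ → CE κ → ℝ}
    (hφ : ContDiff ℝ ∞ (fun a : ℝ × CE κ => φ a.1 a.2)) (a b : ℝ) (p₀ : CE κ) (rc : ℝ) {r₀ : ℝ}
    (hr₀ : 0 < r₀) :
    ∃ C' : ℝ, ∀ (s : ℝ) (pz : ℂ → CE κ), s ∈ Set.Icc a b →
      DifferentiableOn ℂ pz (Metric.ball 0 r₀) →
      (∀ z ∈ Metric.ball (0 : ℂ) r₀, pz z ∈ Metric.closedBall p₀ rc) →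
      ∀ r : ℝ, 0 < r → r ≤ r₀ / 2 →
        CircleIntegrable (fun z => φ s (pz z)) 0 r ∧
        φ s (pz 0) + r ^ 2 * qf (levi (φ s) (pz 0)) (fun k => deriv (fun z => pz z k) 0)
          - C' * r ^ 3 ≤ Real.circleAverage (fun z => φ s (pz z)) 0 r := by
  set Q : ℝ × CE κ × CE κ → ℝ := fun a => qf (levi (φ a.1) a.2.1) (fun k => a.2.2 k) with hQdef
  have hQ : ContDiff ℝ ∞ Q := s5d_contDiff_qf_levi hφ
  set S : Set (ℝ × CE κ × CE κ) :=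
    Set.Icc a b ×ˢ (Metric.closedBall p₀ rc ×ˢ Metric.closedBall 0 (4 * rc / r₀)) with hS
  have hSc : IsCompact S :=
    isCompact_Icc.prod ((isCompact_closedBall _ _).prod (isCompact_closedBall _ _))
  have hSv : Convex ℝ S :=
    (convex_Icc a b).prod ((convex_closedBall _ _).prod (convex_closedBall _ _))
  obtain ⟨K, hK⟩ := hQ.contDiffOn.exists_lipschitzOnWith (by simp) hSv hSc
  refine ⟨3 / 2 * (K * (4 * rc / r₀ + 32 * rc / r₀ ^ 2)), fun s pz hs hpz hmem r h0 h1 => ?_⟩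
  have h00 : (0 : ℂ) ∈ Metric.ball (0 : ℂ) r₀ := by simpa using hr₀
  have hrc : 0 ≤ rc := dist_nonneg.trans (Metric.mem_closedBall.1 (hmem 0 h00))
  set G : ℂ → CE κ := fun z => pz z - p₀ with hGdef
  have hG : DifferentiableOn ℂ G (Metric.ball 0 r₀) := hpz.sub_const p₀
  have hGM : ∀ z ∈ Metric.ball (0 : ℂ) r₀, ‖G z‖ ≤ rc := fun z hz => by
    simpa [dist_eq_norm] using hmem z hz
  have hdG : ∀ z, deriv G z = deriv pz z := fun z => deriv_sub_const _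
  have hsm : ContDiff ℝ ∞ (φ s) := hφ.comp (contDiff_const.prodMk contDiff_id)
  have hpzR : ContDiffOn ℝ 2 pz (Metric.ball 0 r₀) :=
    (hpz.contDiffOn (n := 2) Metric.isOpen_ball).restrict_scalars ℝ
  have hdiff : ∀ z ∈ Metric.ball (0 : ℂ) r₀, ∀ᶠ y in 𝓝 z, DifferentiableAt ℂ pz y := fun z hz => by
    filter_upwards [Metric.isOpen_ball.mem_nhds hz] with y hy
    exact hpz.differentiableAt (Metric.isOpen_ball.mem_nhds hy)
  have hu : ContDiffOn ℝ 2 (fun z => φ s (pz z)) (Metric.ball 0 r₀) :=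
    (hsm.of_le (by norm_cast)).comp_contDiffOn hpzR
  have hsph : Metric.sphere (0 : ℂ) r ⊆ Metric.ball 0 r₀ := fun z hz => by
    have : ‖z‖ = r := by simpa using hz
    rw [mem_ball_zero_iff]
    linarith
  have hCI : CircleIntegrable (fun z => φ s (pz z)) 0 r :=
    (hu.continuousOn.mono hsph).circleIntegrable h0.le
  refine ⟨hCI, ?_⟩
  set Φ : ℂ → ℝ := (fun p => - φ s p) ∘ pz with hΦdef
  have hlap : ∀ z ∈ Metric.ball (0 : ℂ) r₀, lap1 Φ z = - Q (s, pz z, deriv pz z) := fun z hz => by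
    rw [hΦdef, amb_lap1_comp (hdiff z hz) ((hsm.neg.of_le (by norm_cast)).contDiffAt), levi_neg,
      qf_neg]
  have hρ : 3 / 2 * r ≤ 3 * r₀ / 4 := by linarith
  have hsubρ : Metric.ball (0 : ℂ) (3 / 2 * r) ⊆ Metric.ball 0 r₀ :=
    Metric.ball_subset_ball (by linarith)
  have hmemS : ∀ z : ℂ, ‖z‖ ≤ 3 * r₀ / 4 → (s, pz z, deriv pz z) ∈ S := fun z hz => by
    have hz' : z ∈ Metric.ball (0 : ℂ) r₀ := by
      rw [mem_ball_zero_iff]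
      linarith
    refine ⟨hs, hmem z hz', ?_⟩
    have := (s5d_cauchy hr₀ hG hGM hz).1
    rw [hdG] at this
    simpa using this
  have hΛ : ∀ z ∈ Metric.ball (0 : ℂ) (3 / 2 * r), lap1 Φ z ≤
      - Q (s, pz 0, deriv pz 0) + K * (4 * rc / r₀ + 32 * rc / r₀ ^ 2) * (3 / 2 * r) := by
    intro z hz
    have hz1 : ‖z‖ < 3 / 2 * r := by simpa using hz
    have hz2 : ‖z‖ ≤ 3 * r₀ / 4 := by linarith
    rw [hlap z (hsubρ hz)]
    have h3 := hK.dist_le_mul _ (hmemS z hz2) _ (hmemS 0 (by simp; linarith))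
    obtain ⟨-, c1, c2⟩ := s5d_cauchy hr₀ hG hGM hz2
    rw [hdG, hdG] at c2
    have c1' : ‖pz z - pz 0‖ ≤ 4 * rc / r₀ * ‖z‖ := by
      have : G z - G 0 = pz z - pz 0 := by simp [hGdef]
      rwa [this] at c1
    have h4 : dist ((s, pz z, deriv pz z) : ℝ × CE κ × CE κ) (s, pz 0, deriv pz 0) ≤
        (4 * rc / r₀ + 32 * rc / r₀ ^ 2) * (3 / 2 * r) := by
      have e1 : 0 ≤ 4 * rc / r₀ := by positivity
      have e2 : 0 ≤ 32 * rc / r₀ ^ 2 := by positivity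
      have e3 : 4 * rc / r₀ * ‖z‖ ≤ 4 * rc / r₀ * (3 / 2 * r) :=
        mul_le_mul_of_nonneg_left hz1.le e1
      have e4 : 32 * rc / r₀ ^ 2 * ‖z‖ ≤ 32 * rc / r₀ ^ 2 * (3 / 2 * r) :=
        mul_le_mul_of_nonneg_left hz1.le e2
      have e5 : 0 ≤ 4 * rc / r₀ * (3 / 2 * r) := by positivity
      have e6 : 0 ≤ 32 * rc / r₀ ^ 2 * (3 / 2 * r) := by positivity
      rw [Prod.dist_eq, Prod.dist_eq]
      simp only [dist_self, dist_eq_norm]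
      refine max_le (by nlinarith) (max_le ?_ ?_)
      · nlinarith
      · nlinarith
    have h5 : dist (Q (s, pz z, deriv pz z)) (Q (s, pz 0, deriv pz 0)) ≤
        K * ((4 * rc / r₀ + 32 * rc / r₀ ^ 2) * (3 / 2 * r)) :=
      h3.trans (mul_le_mul_of_nonneg_left h4 K.2)
    rw [Real.dist_eq] at h5
    have := (abs_le.1 h5).1
    linarith
  have key := circleAverage_le_of_lap1_le (Φ := Φ) (r₀ := 3 / 2 * r)
    (((hsm.neg.of_le (by norm_cast)).comp_contDiffOn hpzR).mono hsubρ) hΛ h0 (by linarith)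
  have havg : Real.circleAverage Φ 0 r = - Real.circleAverage (fun z => φ s (pz z)) 0 r := by
    have := Real.circleAverage_fun_smul (a := (-1 : ℝ)) (f := fun z => φ s (pz z)) (c := 0) (R := r)
    simp only [smul_eq_mul, neg_mul, one_mul] at this
    exact this
  rw [havg] at key
  have hco : (fun k => deriv (fun z => pz z k) 0) = fun k => deriv pz 0 k :=
    funext fun k => s5d_deriv_coord (hpz.differentiableAt (Metric.isOpen_ball.mem_nhds h00)) k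
  rw [hco]
  have hΦ0 : Φ 0 = - φ s (pz 0) := rfl
  have hQ0 : Q (s, pz 0, deriv pz 0) = qf (levi (φ s) (pz 0)) (fun k => deriv pz 0 k) := rfl
  rw [hΦ0, hQ0] at key
  nlinarith [key]

/-- `S5-D2`.  The test function at the centre (no geometry: a holomorphic curve in a compact subset of `ℂ^{2n}`, a smooth
function; `lap1 (φ ∘ pz) = qf (levi φ) pz'`, Cauchy estimates for `pz`). -/
theorem defo_center (hφ : ContDiff ℝ ∞ (fun a : ℝ × CE (Fin n ⊕ Fin n) => X.φ a.1 a.2)) {r₀ : ℝ}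
    (hr₀ : 0 < r₀) :
    ∃ C' : ℝ, ∀ (s : ℝ) (pz : ℂ → CE (Fin n ⊕ Fin n)), s ∈ Set.Icc (X.s₀ - X.rc) (X.s₀ + X.rc) →
      DifferentiableOn ℂ pz (Metric.ball 0 r₀) →
      (∀ z ∈ Metric.ball (0 : ℂ) r₀, pz z ∈ Metric.closedBall X.p₀ X.rc) →
      ∀ r : ℝ, 0 < r → r ≤ r₀ / 2 →
        CircleIntegrable (fun z => X.φ s (pz z)) 0 r ∧
        X.φ s (pz 0) + r ^ 2 * qf (levi (X.φ s) (pz 0)) (fun k => deriv (fun z => pz z k) 0)
          - C' * r ^ 3 ≤ Real.circleAverage (fun z => X.φ s (pz z)) 0 r :=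
  s5d_center_core hφ _ _ _ _ hr₀

/-- the derivative of the centre: `pz'(0) = S0 · (coefficients of the field in the frame)`. -/
theorem deform_center_deriv (h : Std5 X 𝔚 D 𝒴 err A1 A2) {c : Config V n} {hh : ℂ → ℂ}
    {Vh : ℂ → Fin X.q → ℂ} {F : ℂ → ℂ → CotAmb V} {pz : ℂ → CE (Fin n ⊕ Fin n)} {r₀ M : ℝ}
    (hr₀ : 0 < r₀) (hD : IsDeform X 𝔚 𝒴 c hh Vh F pz r₀ M)
    {S0 : Matrix (Fin n ⊕ Fin n) (Fin n ⊕ Fin n) ℂ} {v : Fin n ⊕ Fin n → ℂ}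
    (hV : Vh 0 = (jac (X.G ∘ cotParam X.Φ) c.p * S0) *ᵥ v) :
    (fun k => deriv (fun z => pz z k) 0) = S0 *ᵥ v := by
  have hΨ : 𝒴.IsHol (cotParam X.Φ) (cotDom X.U) := h.cot.isHol h.valid.isHol
  have h00 : (0 : ℂ) ∈ Metric.ball (0 : ℂ) r₀ := by simpa using hr₀
  have hp : c.p ∈ cotDom X.U := by
    have h2 : pz 0 ∈ Metric.closedBall X.p₀ X.rc := (hD.adm 0 h00).p_mem
    rw [hD.pz_zero] at h2
    exact h.valid.ball h2
  have hG := h.valid.imm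
  have hPJ := pinvJ_mul_jac hG hΨ hp
  have hpz : DifferentiableAt ℂ pz 0 :=
    hD.pz_hol.differentiableAt (Metric.isOpen_ball.mem_nhds h00)
  have hGd : DifferentiableAt ℂ (X.G ∘ cotParam X.Φ) (pz 0) := by
    rw [hD.pz_zero]
    exact amb_differentiableAt_G hG hΨ hp
  have h1 : ∀ k, deriv (fun z => X.G (F z 0) k) 0 =
      (jac (X.G ∘ cotParam X.Φ) c.p *ᵥ fun j => deriv pz 0 j) k := by
    intro k
    have hev : (fun z => X.G (F z 0) k) =ᶠ[𝓝 0]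
        (EuclideanSpace.proj k : CE (Fin X.q) →L[ℂ] ℂ) ∘ ((X.G ∘ cotParam X.Φ) ∘ pz) := by
      filter_upwards [Metric.isOpen_ball.mem_nhds h00] with z hz
      have : F z 0 = cotParam X.Φ (pz z) := (hD.adm z hz).f_zero
      simp [this]
    have hd := (EuclideanSpace.proj k : CE (Fin X.q) →L[ℂ] ℂ).hasFDerivAt.comp_hasDerivAt 0
      (hGd.hasFDerivAt.comp_hasDerivAt 0 hpz.hasDerivAt)
    rw [hev.deriv_eq, hd.deriv, jac_mulVec, ← hD.pz_zero]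
    rfl
  have h2 : jac (X.G ∘ cotParam X.Φ) c.p *ᵥ (fun j => deriv pz 0 j) =
      jac (X.G ∘ cotParam X.Φ) c.p *ᵥ (S0 *ᵥ v) := by
    rw [Matrix.mulVec_mulVec, ← hV]
    funext k
    rw [← h1 k, hD.first 0 (by simp [uDiscC]) k]
  have h3 : ∀ w : Fin n ⊕ Fin n → ℂ,
      pinvJ X.G (cotParam X.Φ) c.p *ᵥ (jac (X.G ∘ cotParam X.Φ) c.p *ᵥ w) = w := fun w => by
    rw [Matrix.mulVec_mulVec, hPJ, Matrix.one_mulVec]
  have hco : (fun k => deriv (fun z => pz z k) 0) = fun k => deriv pz 0 k :=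
    funext fun k => s5d_deriv_coord hpz k
  rw [hco, ← h3 (fun k => deriv pz 0 k), h2, h3]

/-- `S5-D4`.  The Euclidean energy: Parseval in `z` (`avg_Dsq_le` for each component). -/
theorem defo_eucl (h : Std5 X 𝔚 D 𝒴 err A1 A2) {r₀ : ℝ} (hr₀ : 0 < r₀) (M : ℝ)
    {c : Config V n} {hh : ℂ → ℂ} {Vh : ℂ → Fin X.q → ℂ} {F : ℂ → ℂ → CotAmb V}
    {pz : ℂ → CE (Fin n ⊕ Fin n)} (hc : IsAdm X 𝔚 𝒴 c) (hD : IsDeform X 𝔚 𝒴 c hh Vh F pz r₀ M)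
    {r : ℝ} (h0 : 0 < r) (h1 : r ≤ r₀ / 2) :
    CircleIntegrable (fun z => DsqV (fun ζ => (X.G (F z ζ) : Fin X.q → ℂ))) 0 r ∧
    Real.circleAverage (fun z => DsqV (fun ζ => (X.G (F z ζ) : Fin X.q → ℂ))) 0 r ≤
      DsqV (fun ζ => (X.G (c.f ζ) : Fin X.q → ℂ)) + r ^ 2 * DsqV Vh + 2 * X.q * M * r ^ 4 / r₀ ^ 4 := by
  have hG := h.valid.imm
  have hF := hD.isFam
  have hsub : uCirc ⊆ uDiscC := Metric.sphere_subset_closedBall
  have key : ∀ k : Fin X.q,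
      CircleIntegrable (fun z => Dsq fun ζ => X.G (F z ζ) k) 0 r ∧
      Real.circleAverage (fun z => Dsq fun ζ => X.G (F z ζ) k) 0 r ≤
        Dsq (fun ζ => X.G (F 0 ζ) k) + r ^ 2 * Dsq (fun ζ => famV X.G F 0 ζ k) +
          2 * M * r ^ 4 / r₀ ^ 4 := fun k =>
    avg_Dsq_le (X := fun z ζ => X.G (F z ζ) k) hr₀
      (fun ζ hζ => hF.G_holz hG (hsub hζ) k)
      ((hF.G_smooth hG k).continuousOn.mono (Set.prod_mono le_rfl hsub))
      (fun z hz => ((hF.isSmDisc hz).holSm_G hG k).circSm.circLip)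
      (hF.holSm_V hG (Metric.mem_ball_self hr₀) k).circSm.circLip
      (fun z hz => (s5fam_Dsq_le_DsqV (fun ζ => (X.G (F z ζ) : Fin X.q → ℂ)) k).trans
        (hD.D_X z hz)) h0 h1
  have e0 : DsqV (fun ζ => (X.G (F 0 ζ) : Fin X.q → ℂ)) =
      DsqV (fun ζ => (X.G (c.f ζ) : Fin X.q → ℂ)) :=
    s5fam_DsqV_congr fun ζ hζ => by rw [hD.F_zero ζ (hsub hζ)]
  have e1 : DsqV (fun ζ => famV X.G F 0 ζ) = DsqV Vh :=
    s5fam_DsqV_congr fun ζ hζ => hD.famV_zero (hsub hζ)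
  have e2 : (fun z => DsqV (fun ζ => (X.G (F z ζ) : Fin X.q → ℂ))) =
      fun z => ∑ k : Fin X.q, Dsq fun ζ => X.G (F z ζ) k := rfl
  have e3 : (fun z => ∑ k : Fin X.q, Dsq fun ζ => X.G (F z ζ) k) =
      ∑ k : Fin X.q, fun z => Dsq fun ζ => X.G (F z ζ) k := by
    ext z
    rw [Finset.sum_apply]
  refine ⟨?_, ?_⟩
  · rw [e2, e3]
    exact CircleIntegrable.sum Finset.univ fun k _ => (key k).1
  · rw [e2, Real.circleAverage_fun_sum fun k _ => (key k).1]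
    refine (Finset.sum_le_sum fun k _ => (key k).2).trans (le_of_eq ?_)
    rw [Finset.sum_add_distrib, Finset.sum_add_distrib, ← Finset.mul_sum, Finset.sum_const,
      Finset.card_univ, Fintype.card_fin, nsmul_eq_mul, ← e0, ← e1]
    unfold DsqV
    ring

/-- the unimodular part of a nonvanishing smooth function is smooth on the circle. -/
theorem s5d_circSm_phase {hh : ℂ → ℂ} (hh1 : CircSm hh) (h0 : ∀ ζ ∈ uCirc, hh ζ ≠ 0) :
    CircSm fun ζ => hh ζ / (‖hh ζ‖ : ℂ) := by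
  have h1 : CircSm fun ζ => ((‖hh ζ‖ ^ 2 : ℝ) : ℂ) := by
    have := hh1.mul hh1.conj
    refine this.congr fun ζ _ => ?_
    show hh ζ * (starRingEnd ℂ) (hh ζ) = ((‖hh ζ‖ ^ 2 : ℝ) : ℂ)
    rw [Complex.mul_conj, Complex.normSq_eq_norm_sq]
  have h2 : CircSm fun ζ => ((Real.sqrt (‖hh ζ‖ ^ 2) : ℝ) : ℂ) :=
    h1.comp_real isOpen_Ioi
      (fun x hx => (Real.contDiffAt_sqrt (ne_of_gt hx)).contDiffWithinAt)
      (fun ζ hζ => by
        have := norm_pos_iff.2 (h0 ζ hζ)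
        show 0 < ‖hh ζ‖ ^ 2
        positivity)
  have h3 : CircSm fun ζ => (‖hh ζ‖ : ℂ) := by
    refine h2.congr fun ζ _ => ?_
    show ((Real.sqrt (‖hh ζ‖ ^ 2) : ℝ) : ℂ) = (‖hh ζ‖ : ℂ)
    rw [Real.sqrt_sq (norm_nonneg _)]
  have h4 := hh1.mul (h3.inv fun ζ hζ => by
    have := norm_pos_iff.2 (h0 ζ hζ)
    exact_mod_cast this.ne')
  exact h4

/-- boundary calculus for `α β U l`. -/
theorem s5d_field_core {q : ℕ} {κ : Type} [Fintype κ] [DecidableEq κ] {L : ℝ} (hL : 0 ≤ L)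
    {α β : ℂ → ℂ} {U : ℂ → Matrix (Fin q) κ ℂ} {l : ℂ → κ → ℂ} {Dq : ℝ}
    (hα : CircLip α) (hα1 : ∀ ζ ∈ uCirc, ‖α ζ‖ ≤ 1) (hαD : Dsq α ≤ 1)
    (hβ : CircLip β) (hβ1 : ∀ ζ ∈ uCirc, ‖β ζ‖ ≤ 1) (hβD : Dsq β ≤ Dq)
    (hU : ∀ i j, CircLip fun ζ => U ζ i j)
    (hU1 : ∀ ζ ∈ uCirc, ∀ v : κ → ℂ, ∑ i, ‖(U ζ *ᵥ v) i‖ ^ 2 ≤ ∑ i, ‖v i‖ ^ 2)
    (hl : ∀ i, CircLip fun ζ => l ζ i) (hl1 : ∀ ζ ∈ uCirc, ∑ i, ‖l ζ i‖ ^ 2 ≤ L) :
    DsqV (fun ζ k => α ζ * (β ζ * (U ζ *ᵥ l ζ) k)) ≤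
      (8 * Fintype.card κ * q + 8 * Fintype.card κ * L + 4 * L * q + 2 * L * q) *
        (1 + Dq + DsqM U + DsqV l) := by
  set N : ℝ := (Fintype.card κ : ℝ) with hN
  have hN0 : 0 ≤ N := Nat.cast_nonneg _
  have hsL : Real.sqrt L ^ 2 = L := Real.sq_sqrt hL
  have hUe : ∀ ζ ∈ uCirc, ∀ k j, ‖U ζ k j‖ ≤ 1 := by
    intro ζ hζ k j
    have h1 := hU1 ζ hζ (Pi.single j 1)
    have h2 : ∑ i, ‖(Pi.single j (1 : ℂ) : κ → ℂ) i‖ ^ 2 = 1 := by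
      rw [Finset.sum_eq_single j]
      · simp
      · intro b _ hb
        simp [Pi.single_eq_of_ne hb]
      · simp
    rw [h2] at h1
    have h3 : ‖U ζ k j‖ ^ 2 ≤ ∑ i, ‖(U ζ *ᵥ Pi.single j 1) i‖ ^ 2 := by
      have := Finset.single_le_sum (f := fun i => ‖(U ζ *ᵥ Pi.single j 1) i‖ ^ 2)
        (fun i _ => sq_nonneg _) (Finset.mem_univ k)
      simpa using this
    have h4 : ‖U ζ k j‖ ^ 2 ≤ 1 := h3.trans h1
    by_contra hcon
    push Not at hcon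
    nlinarith
  have hle : ∀ ζ ∈ uCirc, ∀ j, ‖l ζ j‖ ≤ Real.sqrt L := by
    intro ζ hζ j
    refine Real.le_sqrt_of_sq_le ?_
    exact (Finset.single_le_sum (f := fun i => ‖l ζ i‖ ^ 2) (fun i _ => sq_nonneg _)
      (Finset.mem_univ j)).trans (hl1 ζ hζ)
  have hUl : ∀ ζ ∈ uCirc, ∀ k, ‖(U ζ *ᵥ l ζ) k‖ ≤ Real.sqrt L := by
    intro ζ hζ k
    refine Real.le_sqrt_of_sq_le ?_
    exact (Finset.single_le_sum (f := fun i => ‖(U ζ *ᵥ l ζ) i‖ ^ 2) (fun i _ => sq_nonneg _)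
      (Finset.mem_univ k)).trans ((hU1 ζ hζ (l ζ)).trans (hl1 ζ hζ))
  have hprod : ∀ k j, CircLip fun ζ => U ζ k j * l ζ j := fun k j => (hU k j).mul (hl j)
  have hUlLip : ∀ k, CircLip fun ζ => (U ζ *ᵥ l ζ) k := fun k => by
    simp only [Matrix.mulVec, dotProduct]
    exact CircLip.sum _ fun j _ => hprod k j
  have hDUl : ∀ k, Dsq (fun ζ => (U ζ *ᵥ l ζ) k) ≤
      N * (2 * DsqV l + 2 * L * ∑ j, Dsq fun ζ => U ζ k j) := by
    intro k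
    simp only [Matrix.mulVec, dotProduct]
    refine (Dsq_sum_le fun j => hprod k j).trans ?_
    refine mul_le_mul_of_nonneg_left ?_ hN0
    calc ∑ j, Dsq (fun ζ => U ζ k j * l ζ j)
        ≤ ∑ j, (2 * Dsq (fun ζ => l ζ j) + 2 * L * Dsq fun ζ => U ζ k j) := by
          refine Finset.sum_le_sum fun j _ => ?_
          have := Dsq_mul_le (hU k j) (hl j) (fun ζ hζ => hUe ζ hζ k j) (fun ζ hζ => hle ζ hζ j)
          rw [hsL] at this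
          linarith
      _ = 2 * DsqV l + 2 * L * ∑ j, Dsq fun ζ => U ζ k j := by
          rw [Finset.sum_add_distrib, ← Finset.mul_sum, ← Finset.mul_sum]
          rfl
  have hk : ∀ k, Dsq (fun ζ => α ζ * (β ζ * (U ζ *ᵥ l ζ) k)) ≤
      8 * N * DsqV l + 8 * N * L * (∑ j, Dsq fun ζ => U ζ k j) + 4 * L * Dq + 2 * L := by
    intro k
    have h1 := Dsq_mul_le hβ (hUlLip k) hβ1 (fun ζ hζ => hUl ζ hζ k)
    rw [hsL] at h1
    have hb : ∀ ζ ∈ uCirc, ‖β ζ * (U ζ *ᵥ l ζ) k‖ ≤ Real.sqrt L := by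
      intro ζ hζ
      rw [norm_mul]
      calc ‖β ζ‖ * ‖(U ζ *ᵥ l ζ) k‖ ≤ 1 * Real.sqrt L :=
            mul_le_mul (hβ1 ζ hζ) (hUl ζ hζ k) (norm_nonneg _) zero_le_one
        _ = Real.sqrt L := one_mul _
    have h2 := Dsq_mul_le hα (hβ.mul (hUlLip k)) hα1 hb
    rw [hsL] at h2
    have h3 := hDUl k
    have h4 := mul_le_mul_of_nonneg_left hβD hL
    have h5 := mul_le_mul_of_nonneg_left hαD hL
    nlinarith
  have hDq : 0 ≤ Dq := (Dsq_nonneg β).trans hβD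
  have hV := DsqV_nonneg l
  have hM := DsqM_nonneg U
  calc DsqV (fun ζ k => α ζ * (β ζ * (U ζ *ᵥ l ζ) k))
      ≤ ∑ k : Fin q, (8 * N * DsqV l + 8 * N * L * (∑ j, Dsq fun ζ => U ζ k j) + 4 * L * Dq
          + 2 * L) := Finset.sum_le_sum fun k _ => hk k
    _ = 8 * N * q * DsqV l + 8 * N * L * DsqM U + 4 * L * q * Dq + 2 * L * q := by
        simp only [Finset.sum_add_distrib, Finset.sum_const, Finset.card_univ, Fintype.card_fin,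
          nsmul_eq_mul, ← Finset.mul_sum]
        unfold DsqM
        ring
    _ ≤ _ := by
        have hq : (0 : ℝ) ≤ q := Nat.cast_nonneg _
        have p1 : 0 ≤ 8 * N * q := by positivity
        have p2 : 0 ≤ 8 * N * L := by positivity
        have p3 : 0 ≤ 4 * L * q := by positivity
        have p4 : 0 ≤ 2 * L * q := by positivity
        nlinarith [mul_nonneg p1 hDq, mul_nonneg p1 hM, mul_nonneg p2 hDq, mul_nonneg p2 hV,
          mul_nonneg p3 hM, mul_nonneg p3 hV, mul_nonneg p4 hDq, mul_nonneg p4 hM,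
          mul_nonneg p4 hV]

/-- `S5-D6`.  (5.17): boundary calculus for the first field `α hh U l` (circle analysis only). -/
theorem field_bounds {q : ℕ} {κ : Type} [Fintype κ] [DecidableEq κ] (L : ℝ) (hL : 0 ≤ L) :
    ∃ C : ℝ, ∀ (α hh : ℂ → ℂ) (U : ℂ → Matrix (Fin q) κ ℂ) (l : ℂ → κ → ℂ) (η Dq : ℝ),
      IsLoss α η → HolSm hh → (∀ ζ ∈ uDiscC, hh ζ ≠ 0) → (∀ ζ ∈ uDiscC, ‖hh ζ‖ ≤ 1) →
      Dsq hh ≤ Dq → Dsq (fun ζ => hh ζ / (‖hh ζ‖ : ℂ)) ≤ Dq →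
      (∀ i j, HolSm fun ζ => U ζ i j) →
      (∀ ζ ∈ uCirc, ∀ v : κ → ℂ, ∑ i, ‖(U ζ *ᵥ v) i‖ ^ 2 ≤ ∑ i, ‖v i‖ ^ 2) →
      (∀ i, HolSm fun ζ => l ζ i) → (∀ ζ ∈ uCirc, ∑ i, ‖l ζ i‖ ^ 2 ≤ L) →
      (∀ ζ ∈ uCirc, ∑ k, ‖(α ζ * hh ζ) • (U ζ *ᵥ l ζ) k‖ ^ 2 ≤ L * ‖hh ζ‖ ^ 2) ∧
      DsqV (fun ζ => (α ζ * hh ζ) • (U ζ *ᵥ l ζ)) ≤ C * (1 + Dq + DsqM U + DsqV l) ∧
      DsqV (fun ζ k => ((α ζ * hh ζ) • (U ζ *ᵥ l ζ)) k / (‖hh ζ‖ : ℂ)) ≤
        C * (1 + Dq + DsqM U + DsqV l) := by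
  refine ⟨8 * Fintype.card κ * q + 8 * Fintype.card κ * L + 4 * L * q + 2 * L * q,
    fun α hh U l η Dq hα hh1 hh0 hhle hD1 hD2 hU hU1 hl hl1 => ?_⟩
  have hsub : ∀ ζ ∈ uCirc, ζ ∈ uDiscC := fun ζ hζ => Metric.sphere_subset_closedBall hζ
  have hαL := hα.hol.circSm.circLip
  have hα1 : ∀ ζ ∈ uCirc, ‖α ζ‖ ≤ 1 := fun ζ hζ => hα.le_one ζ (hsub ζ hζ)
  have hUL : ∀ i j, CircLip fun ζ => U ζ i j := fun i j => (hU i j).circSm.circLip
  have hlL : ∀ i, CircLip fun ζ => l ζ i := fun i => (hl i).circSm.circLip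
  refine ⟨fun ζ hζ => ?_, ?_, ?_⟩
  · have h1 : ∀ k, ‖(α ζ * hh ζ) • (U ζ *ᵥ l ζ) k‖ ^ 2 ≤ ‖hh ζ‖ ^ 2 * ‖(U ζ *ᵥ l ζ) k‖ ^ 2 := by
      intro k
      rw [smul_eq_mul, norm_mul, norm_mul, mul_pow, mul_pow]
      have a1 : ‖α ζ‖ ^ 2 ≤ 1 := pow_le_one₀ (norm_nonneg _) (hα1 ζ hζ)
      have a2 : 0 ≤ ‖hh ζ‖ ^ 2 * ‖(U ζ *ᵥ l ζ) k‖ ^ 2 := by positivity
      nlinarith
    calc ∑ k, ‖(α ζ * hh ζ) • (U ζ *ᵥ l ζ) k‖ ^ 2
        ≤ ∑ k, ‖hh ζ‖ ^ 2 * ‖(U ζ *ᵥ l ζ) k‖ ^ 2 := Finset.sum_le_sum fun k _ => h1 k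
      _ = ‖hh ζ‖ ^ 2 * ∑ k, ‖(U ζ *ᵥ l ζ) k‖ ^ 2 := by rw [Finset.mul_sum]
      _ ≤ ‖hh ζ‖ ^ 2 * L := by
          have := (hU1 ζ hζ (l ζ)).trans (hl1 ζ hζ)
          gcongr
      _ = L * ‖hh ζ‖ ^ 2 := mul_comm _ _
  · have h := s5d_field_core hL hαL hα1 hα.D_le hh1.circSm.circLip
      (fun ζ hζ => hhle ζ (hsub ζ hζ)) hD1 hUL hU1 hlL hl1
    have e : (fun ζ => (α ζ * hh ζ) • (U ζ *ᵥ l ζ)) =
        fun ζ k => α ζ * (hh ζ * (U ζ *ᵥ l ζ) k) := by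
      funext ζ k
      simp [mul_assoc]
    rw [e]
    exact h
  · have hph := s5d_circSm_phase hh1.circSm fun ζ hζ => hh0 ζ (hsub ζ hζ)
    have hph1 : ∀ ζ ∈ uCirc, ‖hh ζ / (‖hh ζ‖ : ℂ)‖ ≤ 1 := by
      intro ζ hζ
      have := norm_pos_iff.2 (hh0 ζ (hsub ζ hζ))
      rw [norm_div, Complex.norm_real, norm_norm, div_self this.ne']
    have h := s5d_field_core hL hαL hα1 hα.D_le hph.circLip hph1 hD2 hUL hU1 hlL hl1
    have e : (fun ζ k => ((α ζ * hh ζ) • (U ζ *ᵥ l ζ)) k / (‖hh ζ‖ : ℂ)) =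
        fun ζ k => α ζ * (hh ζ / (‖hh ζ‖ : ℂ) * (U ζ *ᵥ l ζ) k) := by
      funext ζ k
      simp only [Pi.smul_apply, smul_eq_mul]
      ring
    rw [e]
    exact h

/-! ### glue for `defo5` (proved) -/

section Glue

variable {κ κ' : Type} [Fintype κ] [Fintype κ'] [DecidableEq κ]

omit [DecidableEq κ] in
theorem sum_normSq_mulVec_le (A : Matrix κ' κ ℂ) (v : κ → ℂ) :
    ∑ i, ‖(A *ᵥ v) i‖ ^ 2 ≤ frobSq A * ∑ k, ‖v k‖ ^ 2 := by
  unfold frobSq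
  rw [Finset.sum_mul]
  refine Finset.sum_le_sum fun i _ => ?_
  have h1 : ‖(A *ᵥ v) i‖ ≤ ∑ k, ‖A i k‖ * ‖v k‖ := by
    simp only [Matrix.mulVec, dotProduct]
    refine (norm_sum_le _ _).trans (Finset.sum_le_sum fun k _ => ?_)
    rw [norm_mul]
  have h2 : (∑ k, ‖A i k‖ * ‖v k‖) ^ 2 ≤ (∑ k, ‖A i k‖ ^ 2) * ∑ k, ‖v k‖ ^ 2 :=
    Finset.sum_mul_sq_le_sq_mul_sq _ _ _
  exact (pow_le_pow_left₀ (norm_nonneg _) h1 2).trans h2

theorem abs_qf_le_sqrt_frobSq (A : Matrix κ κ ℂ) (v : κ → ℂ) :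
    |qf A v| ≤ Real.sqrt (frobSq A) * ∑ k, ‖v k‖ ^ 2 := by
  have h0 : |qf A v| ≤ ∑ k, ‖v k‖ * ‖(A *ᵥ v) k‖ := by
    rw [qf_def]
    refine (Complex.abs_re_le_norm _).trans ?_
    simp only [dotProduct]
    refine (norm_sum_le _ _).trans (Finset.sum_le_sum fun k _ => ?_)
    rw [norm_mul]
    simp
  have h1 : ∑ k, ‖v k‖ * ‖(A *ᵥ v) k‖ ≤
      Real.sqrt (∑ k, ‖v k‖ ^ 2) * Real.sqrt (∑ k, ‖(A *ᵥ v) k‖ ^ 2) :=
    Real.sum_mul_le_sqrt_mul_sqrt _ _ _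
  have h2 := sum_normSq_mulVec_le A v
  have hs : 0 ≤ ∑ k, ‖v k‖ ^ 2 := Finset.sum_nonneg fun _ _ => by positivity
  have h3 : Real.sqrt (∑ k, ‖(A *ᵥ v) k‖ ^ 2) ≤
      Real.sqrt (frobSq A) * Real.sqrt (∑ k, ‖v k‖ ^ 2) := by
    rw [← Real.sqrt_mul (frobSq_nonneg A)]
    exact Real.sqrt_le_sqrt h2
  calc |qf A v| ≤ Real.sqrt (∑ k, ‖v k‖ ^ 2) * Real.sqrt (∑ k, ‖(A *ᵥ v) k‖ ^ 2) := h0.trans h1
    _ ≤ Real.sqrt (∑ k, ‖v k‖ ^ 2) * (Real.sqrt (frobSq A) * Real.sqrt (∑ k, ‖v k‖ ^ 2)) :=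
        mul_le_mul_of_nonneg_left h3 (Real.sqrt_nonneg _)
    _ = Real.sqrt (frobSq A) * (Real.sqrt (∑ k, ‖v k‖ ^ 2) * Real.sqrt (∑ k, ‖v k‖ ^ 2)) := by ring
    _ = Real.sqrt (frobSq A) * ∑ k, ‖v k‖ ^ 2 := by rw [Real.mul_self_sqrt hs]

theorem continuousOn_qf {A : ℂ → Matrix κ κ ℂ} {v : ℂ → κ → ℂ} {S : Set ℂ}
    (hA : ∀ i j, ContinuousOn (fun ζ => A ζ i j) S) (hv : ∀ i, ContinuousOn (fun ζ => v ζ i) S) :
    ContinuousOn (fun ζ => qf (A ζ) (v ζ)) S := by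
  simp only [qf_eq_sum]
  refine Complex.continuous_re.comp_continuousOn ?_
  refine continuousOn_finsetSum _ fun j _ => continuousOn_finsetSum _ fun k _ => ?_
  exact ((Complex.continuous_conj.comp_continuousOn (hv j)).mul (hA j k)).mul (hv k)

/-- removal of the loss factor under the average. -/
theorem loss_remove {α : ℂ → ℂ} {η K : ℝ} (hα : IsLoss α η) {Φ : ℂ → ℝ}
    (hΦ : ContinuousOn Φ uCirc) (hK : ∀ ζ ∈ uCirc, |Φ ζ| ≤ K) :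
    cA Φ - K * η ≤ cA (fun ζ => ‖α ζ‖ ^ 2 * Φ ζ) := by
  have hαc : ContinuousOn α uCirc := hα.hol.circSm.circLip.continuousOn
  have hn : ContinuousOn (fun ζ => ‖α ζ‖ ^ 2) uCirc := (hαc.norm).pow 2
  have i1 : CircleIntegrable Φ 0 1 := by
    apply ContinuousOn.circleIntegrable zero_le_one hΦ
  have i2 : CircleIntegrable (fun ζ => ‖α ζ‖ ^ 2 * Φ ζ) 0 1 :=
    ContinuousOn.circleIntegrable zero_le_one (hn.mul hΦ)
  have i3 : CircleIntegrable (fun ζ => K * (1 - ‖α ζ‖ ^ 2)) 0 1 :=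
    ContinuousOn.circleIntegrable zero_le_one (continuousOn_const.mul (continuousOn_const.sub hn))
  have hK0 : 0 ≤ K := (abs_nonneg _).trans (hK 1 (by simp))
  have h1 : cA (fun ζ => Φ ζ - ‖α ζ‖ ^ 2 * Φ ζ) ≤ cA (fun ζ => K * (1 - ‖α ζ‖ ^ 2)) := by
    refine Real.circleAverage_mono (i1.sub i2) i3 fun ζ hζ => ?_
    rw [abs_one] at hζ
    have a1 := hα.le_one ζ (Metric.sphere_subset_closedBall hζ)
    have a2 : 0 ≤ 1 - ‖α ζ‖ ^ 2 := by nlinarith [norm_nonneg (α ζ)]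
    have a3 := (le_abs_self _).trans (hK ζ hζ)
    calc Φ ζ - ‖α ζ‖ ^ 2 * Φ ζ = Φ ζ * (1 - ‖α ζ‖ ^ 2) := by ring
      _ ≤ K * (1 - ‖α ζ‖ ^ 2) := mul_le_mul_of_nonneg_right a3 a2
  have h2 : cA (fun ζ => Φ ζ - ‖α ζ‖ ^ 2 * Φ ζ) = cA Φ - cA (fun ζ => ‖α ζ‖ ^ 2 * Φ ζ) :=
    Real.circleAverage_fun_sub i1 i2
  have h3 : cA (fun ζ => K * (1 - ‖α ζ‖ ^ 2)) = K * cA (fun ζ => 1 - ‖α ζ‖ ^ 2) := by
    have := Real.circleAverage_fun_smul (a := K) (f := fun ζ => 1 - ‖α ζ‖ ^ 2) (c := 0) (R := 1)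
    simpa [smul_eq_mul, cA] using this
  have h4 := mul_le_mul_of_nonneg_left hα.avg hK0
  linarith

theorem defo_arith1 {μ η ε r B0 A0 E0 W0 Q0 φ0 aB aA aE aQ aΦ T0 T1 SA SE SQ C1 C2 C3 C4 C5 : ℝ}
    (hε : 0 ≤ ε) (hr : 0 < r) (hr1 : r ≤ 1)
    (h1 : aB ≤ B0 + r ^ 2 * T1 + C1 * r ^ 3) (h3 : aA ≤ A0 + r ^ 2 * SA + C3 * r ^ 3)
    (h4 : aE ≤ E0 + r ^ 2 * SE + C4 * r ^ 4) (h5 : aQ ≤ Q0 + r ^ 2 * SQ + C5 * r ^ 3)
    (h2 : φ0 + r ^ 2 * T0 - C2 * r ^ 3 ≤ aΦ) (hμ : μ ≤ aB + ε * (aA + aE + W0 + aQ) - aΦ)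
    (hF : B0 + ε * (A0 + E0 + W0 + Q0) - φ0 ≤ μ + η) :
    T0 - T1 - ε * (SA + SE + SQ) ≤
      η / r ^ 2 + (|C1| + |C2| + ε * (|C3| + |C4| + |C5|)) * r := by
  have hr2 : 0 < r ^ 2 := by positivity
  have hr3 : 0 < r ^ 3 := by positivity
  have e4 : C4 * r ^ 4 ≤ |C4| * r ^ 3 := by
    have : r ^ 4 ≤ r ^ 3 := pow_le_pow_of_le_one hr.le hr1 (by norm_num)
    calc C4 * r ^ 4 ≤ |C4| * r ^ 4 := mul_le_mul_of_nonneg_right (le_abs_self _) (by positivity)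
      _ ≤ |C4| * r ^ 3 := mul_le_mul_of_nonneg_left this (abs_nonneg _)
  have e1 : C1 * r ^ 3 ≤ |C1| * r ^ 3 := mul_le_mul_of_nonneg_right (le_abs_self _) hr3.le
  have e2 : C2 * r ^ 3 ≤ |C2| * r ^ 3 := mul_le_mul_of_nonneg_right (le_abs_self _) hr3.le
  have e3 : C3 * r ^ 3 ≤ |C3| * r ^ 3 := mul_le_mul_of_nonneg_right (le_abs_self _) hr3.le
  have e5 : C5 * r ^ 3 ≤ |C5| * r ^ 3 := mul_le_mul_of_nonneg_right (le_abs_self _) hr3.le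
  have s1 : aA + aE + W0 + aQ ≤ (A0 + E0 + W0 + Q0) + r ^ 2 * (SA + SE + SQ) +
      (|C3| + |C4| + |C5|) * r ^ 3 := by nlinarith
  have s2 := mul_le_mul_of_nonneg_left s1 hε
  have key : r ^ 2 * (T0 - T1 - ε * (SA + SE + SQ)) ≤
      η + (|C1| + |C2| + ε * (|C3| + |C4| + |C5|)) * r ^ 3 := by nlinarith
  have : T0 - T1 - ε * (SA + SE + SQ) ≤
      (η + (|C1| + |C2| + ε * (|C3| + |C4| + |C5|)) * r ^ 3) / r ^ 2 := by
    rw [le_div_iff₀ hr2]; linarith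
  refine this.trans (le_of_eq ?_)
  field_simp

end Glue

section Glue2

theorem loss_remove' {α : ℂ → ℂ} {η K : ℝ} (hα : IsLoss α η) {Φ : ℂ → ℝ}
    (hΦ : ContinuousOn Φ uCirc) (hK : ∀ ζ ∈ uCirc, |Φ ζ| ≤ K) :
    cA (fun ζ => ‖α ζ‖ ^ 2 * Φ ζ) ≤ cA Φ + K * η := by
  have h1 := loss_remove hα (Φ := fun ζ => - Φ ζ) hΦ.neg (fun ζ hζ => by rw [abs_neg]; exact hK ζ hζ)
  have h2 : cA (fun ζ => - Φ ζ) = - cA Φ := by
    have := Real.circleAverage_fun_smul (a := (-1 : ℝ)) (f := Φ) (c := 0) (R := 1)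
    simpa [cA] using this
  have h3 : cA (fun ζ => ‖α ζ‖ ^ 2 * - Φ ζ) = - cA (fun ζ => ‖α ζ‖ ^ 2 * Φ ζ) := by
    have := Real.circleAverage_fun_smul (a := (-1 : ℝ)) (f := fun ζ => ‖α ζ‖ ^ 2 * Φ ζ) (c := 0) (R := 1)
    simpa [cA] using this
  rw [h2, h3] at h1
  linarith

theorem avg_combo {B A E Q Φ : ℂ → ℝ} {r ε W μ : ℝ} (iB : CircleIntegrable B 0 r)
    (iA : CircleIntegrable A 0 r) (iE : CircleIntegrable E 0 r) (iQ : CircleIntegrable Q 0 r)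
    (iΦ : CircleIntegrable Φ 0 r)
    (hle : ∀ z ∈ Metric.sphere (0 : ℂ) |r|, μ ≤ B z + ε * (A z + E z + W + Q z) - Φ z) :
    μ ≤ Real.circleAverage B 0 r + ε * (Real.circleAverage A 0 r + Real.circleAverage E 0 r + W +
      Real.circleAverage Q 0 r) - Real.circleAverage Φ 0 r := by
  have iW : CircleIntegrable (fun _ : ℂ => W) 0 r := circleIntegrable_const W 0 r
  have i1 : CircleIntegrable (fun z => A z + E z) 0 r := iA.add iE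
  have i2 : CircleIntegrable (fun z => A z + E z + W) 0 r := i1.add iW
  have i3 : CircleIntegrable (fun z => A z + E z + W + Q z) 0 r := i2.add iQ
  have i4 : CircleIntegrable (fun z => ε * (A z + E z + W + Q z)) 0 r := by
    exact i3.const_smul (a := ε)
  have i5 : CircleIntegrable (fun z => B z + ε * (A z + E z + W + Q z)) 0 r := iB.add i4
  have h1 : Real.circleAverage (fun _ : ℂ => μ) 0 r ≤
      Real.circleAverage (fun z => B z + ε * (A z + E z + W + Q z) - Φ z) 0 r :=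
    Real.circleAverage_mono (circleIntegrable_const μ 0 r) (i5.sub iΦ) hle
  rw [Real.circleAverage_const, Real.circleAverage_fun_sub i5 iΦ, Real.circleAverage_fun_add iB i4]
    at h1
  have h2 : Real.circleAverage (fun z => ε * (A z + E z + W + Q z)) 0 r =
      ε * Real.circleAverage (fun z => A z + E z + W + Q z) 0 r := by
    have := Real.circleAverage_fun_smul (a := ε) (f := fun z => A z + E z + W + Q z) (c := 0) (R := r)
    simpa [smul_eq_mul] using this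
  rw [h2, Real.circleAverage_fun_add i2 iQ, Real.circleAverage_fun_add i1 iW,
    Real.circleAverage_fun_add iA iE, Real.circleAverage_const] at h1
  exact h1

theorem defo_arith2 {Cb1 Cb2 Cf CF a2 E0 Q0 En DV DZ DU Dl : ℝ} (ha2 : 0 ≤ a2) (hE0 : 0 ≤ E0)
    (hQ0 : 0 ≤ Q0) (hE : E0 ≤ En) (hQ : Q0 ≤ En) (hDV0 : 0 ≤ DV) (hDZ0 : 0 ≤ DZ) (hDU0 : 0 ≤ DU)
    (hDl : 0 ≤ Dl) (hDV : DV ≤ Cf * (1 + a2 * Q0 + DU + Dl)) (hDZ : DZ ≤ Cf * (1 + a2 * Q0 + DU + Dl))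
    (hDU : DU ≤ CF * (1 + E0)) :
    Cb1 * (E0 + DV) + DV + Cb2 * (1 + Q0 + E0 + DZ) ≤
      (|Cb1| * (1 + |Cf| * (1 + a2 + |CF|)) + |Cf| * (1 + a2 + |CF|) +
        |Cb2| * (2 + |Cf| * (1 + a2 + |CF|))) * (1 + En + Dl) := by
  set K1 : ℝ := |Cf| * (1 + a2 + |CF|) with hK1
  set Xx : ℝ := 1 + En + Dl with hX
  have hEn : 0 ≤ En := hE0.trans hE
  have hX1 : 1 ≤ Xx := by rw [hX]; linarith
  have hY0 : 0 ≤ 1 + a2 * Q0 + DU + Dl := by positivity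
  have hDU' : DU ≤ |CF| * (1 + En) := by
    refine hDU.trans ?_
    calc CF * (1 + E0) ≤ |CF| * (1 + E0) := mul_le_mul_of_nonneg_right (le_abs_self _) (by linarith)
      _ ≤ |CF| * (1 + En) := mul_le_mul_of_nonneg_left (by linarith) (abs_nonneg _)
  have hY : 1 + a2 * Q0 + DU + Dl ≤ (1 + a2 + |CF|) * Xx := by
    have e1 : a2 * Q0 ≤ a2 * Xx := mul_le_mul_of_nonneg_left (by rw [hX]; linarith) ha2
    have e2 : |CF| * (1 + En) ≤ |CF| * Xx := mul_le_mul_of_nonneg_left (by rw [hX]; linarith) (abs_nonneg _)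
    have e3 : 1 + Dl ≤ Xx := by rw [hX]; linarith
    nlinarith
  have hCY : Cf * (1 + a2 * Q0 + DU + Dl) ≤ K1 * Xx := by
    calc Cf * (1 + a2 * Q0 + DU + Dl) ≤ |Cf| * (1 + a2 * Q0 + DU + Dl) :=
          mul_le_mul_of_nonneg_right (le_abs_self _) hY0
      _ ≤ |Cf| * ((1 + a2 + |CF|) * Xx) := mul_le_mul_of_nonneg_left hY (abs_nonneg _)
      _ = K1 * Xx := by rw [hK1]; ring
  have hV := hDV.trans hCY
  have hZ := hDZ.trans hCY
  have t1 : Cb1 * (E0 + DV) ≤ |Cb1| * ((1 + K1) * Xx) := by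
    calc Cb1 * (E0 + DV) ≤ |Cb1| * (E0 + DV) := mul_le_mul_of_nonneg_right (le_abs_self _) (by linarith)
      _ ≤ |Cb1| * ((1 + K1) * Xx) := mul_le_mul_of_nonneg_left (by rw [hX] at hV ⊢; nlinarith) (abs_nonneg _)
  have t2 : Cb2 * (1 + Q0 + E0 + DZ) ≤ |Cb2| * ((2 + K1) * Xx) := by
    calc Cb2 * (1 + Q0 + E0 + DZ) ≤ |Cb2| * (1 + Q0 + E0 + DZ) :=
          mul_le_mul_of_nonneg_right (le_abs_self _) (by linarith)
      _ ≤ |Cb2| * ((2 + K1) * Xx) := mul_le_mul_of_nonneg_left (by rw [hX] at hZ ⊢; nlinarith) (abs_nonneg _)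
  nlinarith

end Glue2

set_option maxHeartbeats 1000000 in
/-- `S5-D9`.  **Lemma 5.2**, the field `defo` of `FixedJ` (assembly: energy bound from `center_close`, outer function `exists_outer_le_one` for
`u = a log p ∘ f`, `realization`, the five mean value inequalities, `field_bounds`, `FrameBd.U_D`, `mu5_le` for the deformed configurations,
`deform_center_deriv`; removal of `α`: `|⟨(1 - |α|²) qf T_b l⟩| ≤ C L ηα`, `(1 - |α(0)|²) h0² |qf(S0ᴴ Wc S0) l(0)| ≤ C ηα` by `Tb_ok`, `frame_center`;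
choose `ηα`, then `r`, then `η`). -/
theorem defo5 (h : Std5 X 𝔚 D 𝒴 err A1 A2) (Pd : PrelimData 𝓜 g o)
    (hmu : mu5 X 𝔚 D 𝒴 0 < (X.rc / 2) ^ 4) (CF : ℝ) (L : ℝ) :
    ∃ CL : ℝ, ∀ᶠ ε in 𝓝[>] (0 : ℝ), ∀ D₀ τ : ℝ, 0 < τ →
    ∀ᶠ η in 𝓝[>] (0 : ℝ), ∀ P, Adm5 X 𝔚 D 𝒴 CF ε η P → ∀ l : ℂ → Fin n ⊕ Fin n → ℂ,
      (∀ i, HolSm fun ζ => l ζ i) → (∀ ζ ∈ uCirc, ∑ i, ‖l ζ i‖ ^ 2 ≤ L) → DsqV l ≤ D₀ →
      P.h0 ^ 2 * qf ((P.S0)ᴴ * P.Wc * P.S0) (l 0) - cA (fun ζ => qf (P.Tb ζ) (l ζ))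
        - CL * ε * (1 + P.En + DsqV l) ≤ τ := by
  set L' : ℝ := max L 0 with hL'def
  have hL' : 0 ≤ L' := le_max_right _ _
  obtain ⟨Cb1, hCb1⟩ := defo_area h L'
  obtain ⟨Cb2, hCb2⟩ := defo_logwall h L'
  obtain ⟨Cf, hCf⟩ := field_bounds (q := X.q) (κ := Fin n ⊕ Fin n) L' hL'
  obtain ⟨CT, hCT⟩ := Tb_ok h CF
  obtain ⟨Cc, hCc⟩ := frame_center h.cot h.valid.imm h.valid.isHol
    (isCompact_closedBall X.p₀ X.rc) h.valid.ball CF
  obtain ⟨MW, hMW⟩ := levi_bound (X := X) h.valid.smooth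
  set a2 : ℝ := 4 * (𝔚.a : ℝ) ^ 2 with ha2
  have ha2n : 0 ≤ a2 := by positivity
  set τ₀ : ℝ := ((X.rc / 2) ^ 4 - mu5 X 𝔚 D 𝒴 0) / 2 with hτ₀def
  have hτ₀ : 0 < τ₀ := by rw [hτ₀def]; linarith
  refine ⟨|Cb1| * (1 + |Cf| * (1 + a2 + |CF|)) + |Cf| * (1 + a2 + |CF|) +
        |Cb2| * (2 + |Cf| * (1 + a2 + |CF|)), ?_⟩
  filter_upwards [center_close h τ₀ hτ₀, self_mem_nhdsWithin] with ε h1 hε0 D₀ τ hτ
  have hε : 0 < ε := hε0
  set E₀ : ℝ := τ₀ / ε with hE₀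
  set D₁ : ℝ := max D₀ (a2 * E₀) with hD₁
  set KQ : ℝ := Real.sqrt MW * (|Cc| * L') with hKQ
  set KT : ℝ := Real.sqrt CT * L' with hKT
  have hKQ0 : 0 ≤ KQ := by positivity
  have hKT0 : 0 ≤ KT := by positivity
  set ηα : ℝ := τ / (3 * (KQ + KT + 1)) with hηα
  have hηα0 : 0 < ηα := by positivity
  have hηα1 : ηα * (KQ + KT) ≤ τ / 3 := by
    rw [hηα, div_mul_eq_mul_div, div_le_div_iff₀ (by positivity) (by norm_num)]
    nlinarith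
  obtain ⟨r₀, M, hr₀, hreal⟩ := realization h Pd CF E₀ L' D₁ ηα hηα0
  obtain ⟨C1, r1, hr1, hr1', hB⟩ := defo_bdry h hr₀ M
  obtain ⟨C2, hC⟩ := defo_center (X := X) h.valid.smooth hr₀
  obtain ⟨C3, r3, hr3, hr3', hA⟩ := hCb1 r₀ hr₀ M
  obtain ⟨C5, r5, hr5, hr5', hQ⟩ := hCb2 r₀ hr₀ M
  set C4 : ℝ := 2 * X.q * M / r₀ ^ 4 with hC4
  set Ct : ℝ := |C1| + |C2| + ε * (|C3| + |C4| + |C5|) with hCt
  have hCt0 : 0 ≤ Ct := by positivity
  set r : ℝ := min (min r1 (min r3 r5)) (min 1 (τ / (3 * (Ct + 1)))) with hrdef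
  have hr : 0 < r := by
    rw [hrdef]
    refine lt_min (lt_min hr1 (lt_min hr3 hr5)) (lt_min one_pos (by positivity))
  have hrr1 : r ≤ r1 := (min_le_left _ _).trans (min_le_left _ _)
  have hrr3 : r ≤ r3 := (min_le_left _ _).trans ((min_le_right _ _).trans (min_le_left _ _))
  have hrr5 : r ≤ r5 := (min_le_left _ _).trans ((min_le_right _ _).trans (min_le_right _ _))
  have hrone : r ≤ 1 := (min_le_right _ _).trans (min_le_left _ _)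
  have hrτ : r ≤ τ / (3 * (Ct + 1)) := (min_le_right _ _).trans (min_le_right _ _)
  have hrr0 : r ≤ r₀ / 2 := hrr1.trans hr1'
  have hCtr : Ct * r ≤ τ / 3 := by
    have e1 : Ct * r ≤ Ct * (τ / (3 * (Ct + 1))) := mul_le_mul_of_nonneg_left hrτ hCt0
    refine e1.trans ?_
    rw [mul_div_assoc', div_le_div_iff₀ (by positivity) (by norm_num)]
    nlinarith
  have hηr : 0 < τ * r ^ 2 / 3 := by positivity
  filter_upwards [h1, Ioo_mem_nhdsGT hηr] with η h2 hη P hP l hl1 hl2 hl3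
  obtain ⟨c, U, JE, S0, hc, hfun, hF, hFB, hS0, rfl⟩ := hP
  have hadm := hc.1
  obtain ⟨hcen, -, -, hen⟩ := h2 c hadm hfun
  have hl2' : ∀ ζ ∈ uCirc, ∑ i, ‖l ζ i‖ ^ 2 ≤ L' := fun ζ hζ => (hl2 ζ hζ).trans (le_max_left _ _)
  -- the parts of the energy
  set A0 : ℝ := areaG 𝓜 g c.f with hA0
  set E0 : ℝ := DsqV (fun ζ => (X.G (c.f ζ) : Fin X.q → ℂ)) with hE0
  set W0 : ℝ := Dsq c.w with hW0
  set Q0 : ℝ := DsqR (fun ζ => Real.log (𝔚.pw (c.f ζ))) with hQ0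
  set En : ℝ := energy5 X 𝔚 𝓜 g c with hEn
  have hEnEq : En = A0 + E0 + W0 + Q0 := rfl
  have nA0 : 0 ≤ A0 := areaG_nonneg h hadm
  have nE0 : 0 ≤ E0 := DsqV_nonneg _
  have nW0 : 0 ≤ W0 := Dsq_nonneg _
  have nQ0 : 0 ≤ Q0 := DsqR_nonneg _
  have hE0En : E0 ≤ En := by rw [hEnEq]; linarith
  have hQ0En : Q0 ≤ En := by rw [hEnEq]; linarith
  have hEnE₀ : En ≤ E₀ := by
    rw [hE₀, le_div_iff₀ hε]
    have e1 : ε * (1 + En) = En * ε + ε := by ring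
    linarith
  have hcp : ‖c.p - X.p₀‖ ≤ X.rc / 2 := by
    have e1 : ‖c.p - X.p₀‖ ^ 4 < (X.rc / 2) ^ 4 := by
      have : 0 ≤ (c.s - X.s₀) ^ 4 := by positivity
      rw [hτ₀def] at hcen
      linarith
    exact (lt_of_pow_lt_pow_left₀ 4 (by have := h.valid.rc_pos; positivity) e1).le
  -- the outer function
  set u : ℂ → ℝ := fun ζ => (𝔚.a : ℝ) * Real.log (𝔚.pw (c.f ζ)) with hu
  have huS : CircSm fun ζ => (u ζ : ℂ) := by
    have := (circSm_const (𝔚.a : ℂ)).mul (circSm_log_pw h hadm)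
    refine this.congr fun ζ _ => ?_
    simp [hu]
  have hu0 : ∀ ζ ∈ uCirc, u ζ ≤ 0 := fun ζ hζ => by
    obtain ⟨p1, p2⟩ := pw_mem h (hadm.bdry ζ hζ)
    exact mul_nonpos_of_nonneg_of_nonpos (Nat.cast_nonneg _) (Real.log_nonpos p1.le p2)
  have hDu : DsqR u = (𝔚.a : ℝ) ^ 2 * Q0 := by
    have e1 : DsqR u = Dsq (fun ζ => (𝔚.a : ℂ) * ((Real.log (𝔚.pw (c.f ζ)) : ℝ) : ℂ)) := by
      unfold DsqR
      congr 1
      funext ζ
      simp [hu]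
    rw [e1, Dsq_const_mul]
    simp [hQ0, DsqR]
  obtain ⟨hh, hh1, hh2, hh3, hh4, hh5, hh6, hh7⟩ := exists_outer_le_one huS hu0
  have hmod : ∀ ζ ∈ uCirc, ‖hh ζ‖ = c.mw 𝔚 ζ := fun ζ hζ => by
    obtain ⟨p1, -⟩ := pw_mem h (hadm.bdry ζ hζ)
    rw [hh3 ζ hζ, hu]
    simp only
    rw [Real.exp_nat_mul, Real.exp_log p1]
    rfl
  have hDh1 : Dsq hh ≤ a2 * Q0 := by rw [hDu] at hh7; rw [ha2]; linarith
  have hDh2 : Dsq (fun ζ => hh ζ / (‖hh ζ‖ : ℂ)) ≤ a2 * Q0 := by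
    rw [hDu] at hh6
    rw [ha2]
    have : 0 ≤ (𝔚.a : ℝ) ^ 2 * Q0 := by positivity
    linarith
  have ha2D : a2 * Q0 ≤ D₁ :=
    (mul_le_mul_of_nonneg_left (hQ0En.trans hEnE₀) ha2n).trans (le_max_right _ _)
  obtain ⟨α, F, pz, hα, hD⟩ := hreal c U JE hh l hadm hEnE₀ hcp hF hFB hh1 hmod hh5
    (hDh1.trans ha2D) (hDh2.trans ha2D) hl1 hl2' (hl3.trans (le_max_left _ _))
  set Vh : ℂ → Fin X.q → ℂ := fun ζ => (α ζ * hh ζ) • (U ζ *ᵥ l ζ) with hVh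
  obtain ⟨fb1, fb2, fb3⟩ := hCf α hh U l ηα (a2 * Q0) hα hh1 hh2 hh5 hDh1 hDh2 hF.U_hol hFB.U_le
    hl1 hl2'
  have fb1' : ∀ ζ ∈ uCirc, ∑ k, ‖Vh ζ k‖ ^ 2 ≤ L' := fun ζ hζ => by
    refine (fb1 ζ hζ).trans ?_
    have e1 := hh5 ζ (Metric.sphere_subset_closedBall hζ)
    have e2 : ‖hh ζ‖ ^ 2 ≤ 1 := pow_le_one₀ (norm_nonneg _) e1
    exact (mul_le_mul_of_nonneg_left e2 hL').trans (mul_one _).le
  obtain ⟨iB, eB⟩ := hB c hh Vh F pz hadm hmod hD r hr hrr1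
  obtain ⟨iΦ, eΦ⟩ := hC c.s pz hadm.s_mem hD.pz_hol (fun z hz => (hD.adm z hz).p_mem) r hr hrr0
  obtain ⟨iA, eA⟩ := hA c hh Vh F pz hadm hmod hD fb1' r hr hrr3
  obtain ⟨iE, eE⟩ := defo_eucl h hr₀ M hadm hD hr hrr0
  obtain ⟨iQ, eQ⟩ := hQ c hh Vh F pz hadm hmod hD fb1 r hr hrr5
  have hμ := avg_combo (W := W0) (ε := ε) (μ := mu5 X 𝔚 D 𝒴 ε) iB iA iE iQ iΦ (fun z hz => by
    have hz' : z ∈ Metric.ball (0 : ℂ) r₀ := by
      rw [abs_of_pos hr] at hz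
      rw [mem_ball_zero_iff]
      rw [mem_sphere_zero_iff_norm] at hz
      linarith
    exact mu5_le h (hD.adm z hz') hε.le)
  -- the two main terms
  set Wc : Matrix (Fin n ⊕ Fin n) (Fin n ⊕ Fin n) ℂ := levi (X.φ c.s) c.p with hWc
  set Qc : ℝ := qf (S0ᴴ * Wc * S0) (l 0) with hQc
  set h0 : ℝ := Real.exp (cA fun ζ => Real.log (c.mw 𝔚 ζ)) with hh0
  set Tq : ℂ → ℝ := fun ζ => qf (c.Tb X 𝔚 D 𝒴 U ζ) (l ζ) with hTq
  have hh0eq : ‖hh 0‖ = h0 := by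
    rw [hh4, Complex.norm_real, Real.norm_eq_abs, abs_of_pos (Real.exp_pos _), hh0]
    congr 2
    funext ζ
    simp only [hu, Config.mw]
    rw [Real.log_pow]
  have hT0 : qf (levi (X.φ c.s) (pz 0)) (fun k => deriv (fun z => pz z k) 0) =
      ‖α 0‖ ^ 2 * h0 ^ 2 * Qc := by
    have hV : Vh 0 = (jac (X.G ∘ cotParam X.Φ) c.p * S0) *ᵥ ((α 0 * hh 0) • l 0) := by
      rw [hVh]
      simp only
      rw [hS0, Matrix.mulVec_smul]
    rw [deform_center_deriv h hr₀ hD hV, hD.pz_zero, Matrix.mulVec_smul, qf_smul_vec, ← qf_conj,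
      norm_mul, hh0eq, mul_pow]
  have hT1 : cA (fun ζ => qf (𝔚.symb D 𝒴 X.G (c.f ζ) (c.time ζ))
      (fun k => Vh ζ k / (‖hh ζ‖ : ℂ))) = cA (fun ζ => ‖α ζ‖ ^ 2 * Tq ζ) := by
    refine cA_congr fun ζ hζ => ?_
    have hne : hh ζ ≠ 0 := hh2 ζ (Metric.sphere_subset_closedBall hζ)
    have hne' : (‖hh ζ‖ : ℂ) ≠ 0 := by
      rw [Ne, Complex.ofReal_eq_zero, norm_eq_zero]; exact hne
    have e1 : (fun k => Vh ζ k / (‖hh ζ‖ : ℂ)) =
        (α ζ * (hh ζ / (‖hh ζ‖ : ℂ))) • (U ζ *ᵥ l ζ) := by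
      funext k
      simp only [hVh, Pi.smul_apply, smul_eq_mul]
      ring
    have e2 : ‖α ζ * (hh ζ / (‖hh ζ‖ : ℂ))‖ = ‖α ζ‖ := by
      rw [norm_mul, norm_div, Complex.norm_real, norm_norm, div_self (norm_ne_zero_iff.2 hne),
        mul_one]
    simp only [hTq]
    rw [e1, qf_smul_vec, e2, Config.Tb, qf_conj]
  obtain ⟨t1, t2, t3, t4⟩ := hCT c U JE hadm hF hFB
  obtain ⟨s1, s2, s3, s4⟩ := hCc c.f U JE S0 c.p hF hFB hadm.p_mem hadm.f_zero hS0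
  have hTqc : ContinuousOn Tq uCirc :=
    continuousOn_qf (fun i j => (t1 i j).continuousOn) (fun i => (hl1 i).circSm.circLip.continuousOn)
  have hTqK : ∀ ζ ∈ uCirc, |Tq ζ| ≤ KT := fun ζ hζ => by
    refine (abs_qf_le_sqrt_frobSq _ _).trans ?_
    exact mul_le_mul (Real.sqrt_le_sqrt (t3 ζ hζ)) (hl2' ζ hζ)
      (Finset.sum_nonneg fun _ _ => by positivity) (Real.sqrt_nonneg _)
  have hT1' := loss_remove' hα hTqc hTqK
  have hl0 : ∑ i, ‖l 0 i‖ ^ 2 ≤ L' := HolSm.sum_normSq_le hl1 hl2' 0 (by simp)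
  have hQcK : |Qc| ≤ KQ := by
    rw [hQc, qf_conj]
    refine (abs_qf_le_sqrt_frobSq _ _).trans ?_
    refine mul_le_mul (Real.sqrt_le_sqrt (hMW c.s hadm.s_mem c.p hadm.p_mem)) ?_
      (Finset.sum_nonneg fun _ _ => by positivity) (Real.sqrt_nonneg _)
    refine (sum_normSq_mulVec_le _ _).trans ?_
    exact mul_le_mul (s3.trans (le_abs_self _)) hl0 (Finset.sum_nonneg fun _ _ => by positivity)
      (abs_nonneg _)
  -- arithmetic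
  rw [hT1] at eB
  rw [hT0, hD.pz_zero] at eΦ
  have eE' : Real.circleAverage (fun z => DsqV (fun ζ => (X.G (F z ζ) : Fin X.q → ℂ))) 0 r ≤
      E0 + r ^ 2 * DsqV Vh + C4 * r ^ 4 := by
    refine eE.trans (le_of_eq ?_)
    rw [hC4]; ring
  have main := defo_arith1 hε.le hr hrone eB eA eE' eQ eΦ hμ hfun
  have ar2 := defo_arith2 (Cb1 := Cb1) (Cb2 := Cb2) ha2n nE0 nQ0 hE0En hQ0En (DsqV_nonneg Vh)
    (DsqV_nonneg _) (DsqM_nonneg U) (DsqV_nonneg l) fb2 fb3 hFB.U_D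
  have ar3 := mul_le_mul_of_nonneg_left ar2 hε.le
  have hα0 : 0 ≤ 1 - ‖α 0‖ ^ 2 := by
    have := pow_le_one₀ (n := 2) (norm_nonneg _) (hα.le_one 0 (by simp))
    linarith
  have hα1 : 1 - ‖α 0‖ ^ 2 ≤ ηα := by have := hα.zero; linarith
  have hh01 : h0 ^ 2 ≤ 1 := by
    rw [← hh0eq]
    exact pow_le_one₀ (norm_nonneg _) (hh5 0 (by simp))
  have hiii : h0 ^ 2 * Qc - ‖α 0‖ ^ 2 * h0 ^ 2 * Qc ≤ ηα * KQ := by
    have e1 : h0 ^ 2 * Qc - ‖α 0‖ ^ 2 * h0 ^ 2 * Qc = ((1 - ‖α 0‖ ^ 2) * h0 ^ 2) * Qc := by ring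
    have e2 : (1 - ‖α 0‖ ^ 2) * h0 ^ 2 ≤ ηα * 1 :=
      mul_le_mul hα1 hh01 (by positivity) hηα0.le
    have e3 : 0 ≤ (1 - ‖α 0‖ ^ 2) * h0 ^ 2 := mul_nonneg hα0 (by positivity)
    rw [e1]
    calc ((1 - ‖α 0‖ ^ 2) * h0 ^ 2) * Qc ≤ ((1 - ‖α 0‖ ^ 2) * h0 ^ 2) * KQ :=
          mul_le_mul_of_nonneg_left ((le_abs_self _).trans hQcK) e3
      _ ≤ (ηα * 1) * KQ := mul_le_mul_of_nonneg_right e2 hKQ0
      _ = ηα * KQ := by ring
  have hv : η / r ^ 2 ≤ τ / 3 := by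
    rw [div_le_iff₀ (by positivity)]
    have := hη.2
    linarith
  show h0 ^ 2 * Qc - cA Tq - _ * ε * (1 + En + DsqV l) ≤ τ
  have e5 : ηα * (KQ + KT) = ηα * KQ + KT * ηα := by ring
  rw [e5] at hηα1
  have e6 : ∀ CL : ℝ, CL * ε * (1 + En + DsqV l) = ε * (CL * (1 + En + DsqV l)) := fun CL => by ring
  rw [e6]
  linarith

end Claimed.Agent.R316
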