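import Claimed.Agent.R316.S5.Circle

/-!
# Row 316, Section 5.2: families of circle functions depending smoothly on a parameter `z ∈ Ω ⊆ ℂ`

Abstract analysis (MATHLIB + `S5/Circle.lean`, no geometry).  Used by `S5/Bdry.lean` (`S5-D1`), `S5/Area.lean` (`S5-D3`), `S5/LogWall.lean` (`S5-D5`).

* `FamSm Ω u` : `(z, θ) ↦ u z e^{iθ}` is `C^∞` on `Ω × ℝ`.  Closure lemmas (proved).
* `S5-P1` partial derivatives: `FamSm.d1`, `FamSm.dbar1`, `FamSm.dth`, `d1_dth_comm`, `dbar1_conj`, product rules for `d1`, `dbar1` of one variable.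
* `S5-P2` differentiation under the circle average: `FamSm.contDiffOn_cA`, `d1_cA`, `dbar1_cA`, `lap1_cA`.
  (smoothness and the derivative of parametric interval integrals: `sv_contDiffOn_integral`, `sv_fderiv_integral` in `Base/SV/Var.lean` for real and imaginary parts.)
* `S5-P3` the mean value test: `avg_le_of_lap1_le'`, `avg_cA_le`, `lap1_of_d1`.
* `S5-P4` `Dsq_le_of_lip`, `FamSm.continuousOn_Dsq`, `Dsq_sub_le` (Cauchy estimate in the seminorm `D`).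
-/

set_option autoImplicit false
open scoped ContDiff ComplexOrder Topology
open MeasureTheory Filter

namespace Claimed.Agent.R316

/-- `u z ζ` is jointly smooth for `z ∈ Ω`, `ζ` on the unit circle. -/
def FamSm (Ω : Set ℂ) (u : ℂ → ℂ → ℂ) : Prop :=
  ContDiffOn ℝ ∞ (fun a : ℂ × ℝ => u a.1 (circleMap 0 1 a.2)) (Ω ×ˢ Set.univ)

section Closure

variable {Ω : Set ℂ} {u v : ℂ → ℂ → ℂ}

theorem FamSm.congr (hu : FamSm Ω u) (h : ∀ z ∈ Ω, ∀ ζ ∈ uCirc, v z ζ = u z ζ) : FamSm Ω v :=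
  ContDiffOn.congr hu fun a ha => h a.1 ha.1 _ (circleMap_mem_uCirc a.2)

theorem FamSm.mono {Ω' : Set ℂ} (hu : FamSm Ω u) (h : Ω' ⊆ Ω) : FamSm Ω' u :=
  ContDiffOn.mono hu (Set.prod_mono h le_rfl)

theorem famSm_const (c : ℂ) : FamSm Ω fun _ _ => c := contDiffOn_const

theorem famSm_of_circSm {a : ℂ → ℂ} (ha : CircSm a) : FamSm Ω fun _ => a :=
  (ContDiff.comp ha contDiff_snd).contDiffOn

theorem famSm_of_contDiffOn {b : ℂ → ℂ} (hb : ContDiffOn ℝ ∞ b Ω) : FamSm Ω fun z _ => b z :=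
  hb.comp contDiff_fst.contDiffOn fun _ ha => ha.1

theorem FamSm.add (hu : FamSm Ω u) (hv : FamSm Ω v) : FamSm Ω fun z ζ => u z ζ + v z ζ :=
  ContDiffOn.add hu hv

theorem FamSm.sub (hu : FamSm Ω u) (hv : FamSm Ω v) : FamSm Ω fun z ζ => u z ζ - v z ζ :=
  ContDiffOn.sub hu hv

theorem FamSm.neg (hu : FamSm Ω u) : FamSm Ω fun z ζ => - u z ζ := ContDiffOn.neg hu

theorem FamSm.mul (hu : FamSm Ω u) (hv : FamSm Ω v) : FamSm Ω fun z ζ => u z ζ * v z ζ :=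
  ContDiffOn.mul hu hv

theorem FamSm.conj (hu : FamSm Ω u) : FamSm Ω fun z ζ => (starRingEnd ℂ) (u z ζ) :=
  Complex.conjCLE.contDiff.comp_contDiffOn hu

theorem FamSm.re (hu : FamSm Ω u) : FamSm Ω fun z ζ => ((u z ζ).re : ℂ) :=
  (Complex.ofRealCLM.contDiff.comp Complex.reCLM.contDiff).comp_contDiffOn hu

theorem FamSm.im (hu : FamSm Ω u) : FamSm Ω fun z ζ => ((u z ζ).im : ℂ) :=
  (Complex.ofRealCLM.contDiff.comp Complex.imCLM.contDiff).comp_contDiffOn hu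

theorem FamSm.sum {J : Type} (s : Finset J) {f : J → ℂ → ℂ → ℂ} (h : ∀ j ∈ s, FamSm Ω (f j)) :
    FamSm Ω fun z ζ => ∑ j ∈ s, f j z ζ :=
  ContDiffOn.sum h

theorem FamSm.inv (hu : FamSm Ω u) (h0 : ∀ z ∈ Ω, ∀ ζ ∈ uCirc, u z ζ ≠ 0) :
    FamSm Ω fun z ζ => (u z ζ)⁻¹ :=
  ContDiffOn.inv hu fun a ha => h0 a.1 ha.1 _ (circleMap_mem_uCirc a.2)

/-- composition of a real family with a function smooth on an open set containing its range. -/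
theorem FamSm.comp_real {w : ℂ → ℂ → ℝ} (hw : FamSm Ω fun z ζ => (w z ζ : ℂ)) {χ : ℝ → ℝ}
    {O : Set ℝ} (hχ : ContDiffOn ℝ ∞ χ O) (hr : ∀ z ∈ Ω, ∀ ζ ∈ uCirc, w z ζ ∈ O) :
    FamSm Ω fun z ζ => (χ (w z ζ) : ℂ) := by
  have h1 : ContDiffOn ℝ ∞ (fun a : ℂ × ℝ => w a.1 (circleMap 0 1 a.2)) (Ω ×ˢ Set.univ) := by
    have := Complex.reCLM.contDiff.comp_contDiffOn hw
    exact this
  have h2 := hχ.comp h1 fun a ha => hr a.1 ha.1 _ (circleMap_mem_uCirc a.2)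
  exact Complex.ofRealCLM.contDiff.comp_contDiffOn h2

theorem FamSm.circSm (hu : FamSm Ω u) {z : ℂ} (hz : z ∈ Ω) : CircSm (u z) := by
  have h1 : ContDiff ℝ ∞ fun θ : ℝ => ((z, θ) : ℂ × ℝ) := contDiff_const.prodMk contDiff_id
  have h2 := ContDiffOn.comp (s := Set.univ) hu h1.contDiffOn fun θ _ => ⟨hz, Set.mem_univ _⟩
  exact contDiffOn_univ.1 h2

theorem FamSm.contDiffOn_z (hu : FamSm Ω u) {ζ : ℂ} (hζ : ζ ∈ uCirc) :
    ContDiffOn ℝ ∞ (fun z => u z ζ) Ω := by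
  obtain ⟨θ, rfl⟩ := mem_uCirc_iff.1 hζ
  have h1 : ContDiff ℝ ∞ fun z : ℂ => ((z, θ) : ℂ × ℝ) := contDiff_id.prodMk contDiff_const
  exact ContDiffOn.comp hu h1.contDiffOn fun z hz => ⟨hz, Set.mem_univ _⟩

end Closure

/-! ## `S5-P1`: partial derivatives -/

section Partial

variable {Ω : Set ℂ} {u v : ℂ → ℂ → ℂ}

/-- the joint function of a family. -/
noncomputable def s5p_U (u : ℂ → ℂ → ℂ) (a : ℂ × ℝ) : ℂ := u a.1 (circleMap 0 1 a.2)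

theorem s5p_isOpen (hΩ : IsOpen Ω) : IsOpen (Ω ×ˢ (Set.univ : Set ℝ)) := hΩ.prod isOpen_univ

theorem s5p_contDiffAt_U (hΩ : IsOpen Ω) (hu : FamSm Ω u) {z : ℂ} (hz : z ∈ Ω) (θ : ℝ) :
    ContDiffAt ℝ ∞ (s5p_U u) (z, θ) :=
  ContDiffOn.contDiffAt hu ((s5p_isOpen hΩ).mem_nhds ⟨hz, Set.mem_univ _⟩)

theorem s5p_hasFDerivAt_U (hΩ : IsOpen Ω) (hu : FamSm Ω u) {z : ℂ} (hz : z ∈ Ω) (θ : ℝ) :
    HasFDerivAt (s5p_U u) (fderiv ℝ (s5p_U u) (z, θ)) (z, θ) :=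
  ((s5p_contDiffAt_U hΩ hu hz θ).differentiableAt (by simp)).hasFDerivAt

theorem s5p_contDiffOn_fderiv_U (hΩ : IsOpen Ω) (hu : FamSm Ω u) (p : ℂ × ℝ) :
    ContDiffOn ℝ ∞ (fun a => fderiv ℝ (s5p_U u) a p) (Ω ×ˢ Set.univ) := by
  have h : ContDiffOn ℝ ∞ (fderiv ℝ (s5p_U u)) (Ω ×ˢ Set.univ) :=
    ContDiffOn.fderiv_of_isOpen hu (s5p_isOpen hΩ) (by simp)
  exact h.clm_apply contDiffOn_const

theorem s5p_fderiv_z (hΩ : IsOpen Ω) (hu : FamSm Ω u) {z : ℂ} (hz : z ∈ Ω) (θ : ℝ) (w : ℂ) :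
    fderiv ℝ (fun y => u y (circleMap 0 1 θ)) z w = fderiv ℝ (s5p_U u) (z, θ) (w, 0) := by
  have h2 : HasFDerivAt (fun y : ℂ => ((y, θ) : ℂ × ℝ)) (ContinuousLinearMap.inl ℝ ℂ ℝ) z :=
    hasFDerivAt_prodMk_left z θ
  have h3 := (s5p_hasFDerivAt_U hΩ hu hz θ).comp z h2
  have e : (fun y => u y (circleMap 0 1 θ)) = s5p_U u ∘ fun y : ℂ => ((y, θ) : ℂ × ℝ) := rfl
  rw [e, h3.fderiv]
  simp

theorem s5p_dth_eq (hΩ : IsOpen Ω) (hu : FamSm Ω u) {z : ℂ} (hz : z ∈ Ω) (θ : ℝ) :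
    dth (u z) (circleMap 0 1 θ) = fderiv ℝ (s5p_U u) (z, θ) (0, 1) := by
  rw [dth_circleMap]
  have h2 : HasFDerivAt (fun t : ℝ => ((z, t) : ℂ × ℝ)) (ContinuousLinearMap.inr ℝ ℂ ℝ) θ :=
    hasFDerivAt_prodMk_right z θ
  have h3 := (s5p_hasFDerivAt_U hΩ hu hz θ).comp θ h2
  have e : B14.bd (u z) = s5p_U u ∘ fun t : ℝ => ((z, t) : ℂ × ℝ) := rfl
  show fderiv ℝ (B14.bd (u z)) θ 1 = _
  rw [e, h3.fderiv]
  simp

theorem s5p_d1_eq (hΩ : IsOpen Ω) (hu : FamSm Ω u) {z : ℂ} (hz : z ∈ Ω) (θ : ℝ) :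
    d1 (fun y => u y (circleMap 0 1 θ)) z = (1 / 2 : ℂ) * (fderiv ℝ (s5p_U u) (z, θ) (1, 0) -
      Complex.I * fderiv ℝ (s5p_U u) (z, θ) (Complex.I, 0)) := by
  unfold d1
  rw [s5p_fderiv_z hΩ hu hz, s5p_fderiv_z hΩ hu hz]

theorem s5p_dbar1_eq (hΩ : IsOpen Ω) (hu : FamSm Ω u) {z : ℂ} (hz : z ∈ Ω) (θ : ℝ) :
    dbar1 (fun y => u y (circleMap 0 1 θ)) z = (1 / 2 : ℂ) * (fderiv ℝ (s5p_U u) (z, θ) (1, 0) +
      Complex.I * fderiv ℝ (s5p_U u) (z, θ) (Complex.I, 0)) := by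
  unfold dbar1
  rw [s5p_fderiv_z hΩ hu hz, s5p_fderiv_z hΩ hu hz]

theorem s5p_fderiv_fderiv (hΩ : IsOpen Ω) (hu : FamSm Ω u) {z : ℂ} (hz : z ∈ Ω) (θ : ℝ)
    (p q : ℂ × ℝ) :
    fderiv ℝ (fun a => fderiv ℝ (s5p_U u) a p) (z, θ) q =
      fderiv ℝ (fderiv ℝ (s5p_U u)) (z, θ) q p := by
  have h1 : DifferentiableAt ℝ (fderiv ℝ (s5p_U u)) (z, θ) :=
    ((s5p_contDiffAt_U hΩ hu hz θ).fderiv_right (m := ∞) (by simp)).differentiableAt (by simp)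
  have h2 := h1.hasFDerivAt.clm_apply (hasFDerivAt_const p (z, θ))
  rw [h2.fderiv]
  simp

theorem s5p_fderiv_symm (hΩ : IsOpen Ω) (hu : FamSm Ω u) {z : ℂ} (hz : z ∈ Ω) (θ : ℝ)
    (p q : ℂ × ℝ) :
    fderiv ℝ (fun a => fderiv ℝ (s5p_U u) a p) (z, θ) q =
      fderiv ℝ (fun a => fderiv ℝ (s5p_U u) a q) (z, θ) p := by
  rw [s5p_fderiv_fderiv hΩ hu hz, s5p_fderiv_fderiv hΩ hu hz]
  exact (s5p_contDiffAt_U hΩ hu hz θ).isSymmSndFDerivAt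
    (by simp only [minSmoothness_of_isRCLikeNormedField]; norm_cast) q p

theorem s5p_differentiableAt_fderiv_U (hΩ : IsOpen Ω) (hu : FamSm Ω u) {z : ℂ} (hz : z ∈ Ω)
    (θ : ℝ) (p : ℂ × ℝ) : DifferentiableAt ℝ (fun a => fderiv ℝ (s5p_U u) a p) (z, θ) :=
  ((s5p_contDiffOn_fderiv_U hΩ hu p).contDiffAt
    ((s5p_isOpen hΩ).mem_nhds ⟨hz, Set.mem_univ _⟩)).differentiableAt (by simp)

theorem FamSm.d1 (hΩ : IsOpen Ω) (hu : FamSm Ω u) : FamSm Ω fun z ζ => d1 (fun y => u y ζ) z := by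
  have h := (contDiffOn_const (c := (1 / 2 : ℂ))).mul ((s5p_contDiffOn_fderiv_U hΩ hu (1, 0)).sub
    ((contDiffOn_const (c := Complex.I)).mul (s5p_contDiffOn_fderiv_U hΩ hu (Complex.I, 0))))
  exact h.congr fun a ha => s5p_d1_eq hΩ hu ha.1 a.2

theorem FamSm.dbar1 (hΩ : IsOpen Ω) (hu : FamSm Ω u) :
    FamSm Ω fun z ζ => dbar1 (fun y => u y ζ) z := by
  have h := (contDiffOn_const (c := (1 / 2 : ℂ))).mul ((s5p_contDiffOn_fderiv_U hΩ hu (1, 0)).add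
    ((contDiffOn_const (c := Complex.I)).mul (s5p_contDiffOn_fderiv_U hΩ hu (Complex.I, 0))))
  exact h.congr fun a ha => s5p_dbar1_eq hΩ hu ha.1 a.2

theorem FamSm.dth (hΩ : IsOpen Ω) (hu : FamSm Ω u) : FamSm Ω fun z => dth (u z) := by
  exact (s5p_contDiffOn_fderiv_U hΩ hu (0, 1)).congr fun a ha => s5p_dth_eq hΩ hu ha.1 a.2

theorem s5p_U_dth_eventuallyEq (hΩ : IsOpen Ω) (hu : FamSm Ω u) {z : ℂ} (hz : z ∈ Ω) (θ : ℝ) :
    s5p_U (fun y => dth (u y)) =ᶠ[𝓝 (z, θ)] fun a => fderiv ℝ (s5p_U u) a (0, 1) := by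
  filter_upwards [(s5p_isOpen hΩ).mem_nhds (⟨hz, Set.mem_univ _⟩ : (z, θ) ∈ Ω ×ˢ Set.univ)]
    with a ha
  exact s5p_dth_eq hΩ hu ha.1 a.2

theorem s5p_U_d1_eventuallyEq (hΩ : IsOpen Ω) (hu : FamSm Ω u) {z : ℂ} (hz : z ∈ Ω) (θ : ℝ) :
    s5p_U (fun y ξ => d1 (fun x => u x ξ) y) =ᶠ[𝓝 (z, θ)] fun a =>
      (1 / 2 : ℂ) * (fderiv ℝ (s5p_U u) a (1, 0) -
        Complex.I * fderiv ℝ (s5p_U u) a (Complex.I, 0)) := by
  filter_upwards [(s5p_isOpen hΩ).mem_nhds (⟨hz, Set.mem_univ _⟩ : (z, θ) ∈ Ω ×ˢ Set.univ)]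
    with a ha
  exact s5p_d1_eq hΩ hu ha.1 a.2

theorem s5p_U_dbar1_eventuallyEq (hΩ : IsOpen Ω) (hu : FamSm Ω u) {z : ℂ} (hz : z ∈ Ω) (θ : ℝ) :
    s5p_U (fun y ξ => dbar1 (fun x => u x ξ) y) =ᶠ[𝓝 (z, θ)] fun a =>
      (1 / 2 : ℂ) * (fderiv ℝ (s5p_U u) a (1, 0) +
        Complex.I * fderiv ℝ (s5p_U u) a (Complex.I, 0)) := by
  filter_upwards [(s5p_isOpen hΩ).mem_nhds (⟨hz, Set.mem_univ _⟩ : (z, θ) ∈ Ω ×ˢ Set.univ)]
    with a ha
  exact s5p_dbar1_eq hΩ hu ha.1 a.2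

/-- `∂_z ∂_θ = ∂_θ ∂_z`. -/
theorem d1_dth_comm (hΩ : IsOpen Ω) (hu : FamSm Ω u) {z ζ : ℂ} (hz : z ∈ Ω) (hζ : ζ ∈ uCirc) :
    d1 (fun y => dth (u y) ζ) z = dth (fun ξ => d1 (fun y => u y ξ) z) ζ := by
  obtain ⟨θ, rfl⟩ := mem_uCirc_iff.1 hζ
  rw [s5p_d1_eq hΩ (hu.dth hΩ) hz θ, (s5p_U_dth_eventuallyEq hΩ hu hz θ).fderiv_eq,
    s5p_dth_eq hΩ (hu.d1 hΩ) hz θ, (s5p_U_d1_eventuallyEq hΩ hu hz θ).fderiv_eq]
  have h1 := s5p_differentiableAt_fderiv_U hΩ hu hz θ (1, 0)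
  have h2 := s5p_differentiableAt_fderiv_U hΩ hu hz θ (Complex.I, 0)
  have h3 : DifferentiableAt ℝ (fun a => Complex.I * fderiv ℝ (s5p_U u) a (Complex.I, 0)) (z, θ) :=
    h2.const_mul Complex.I
  have h4 : DifferentiableAt ℝ (fun a => fderiv ℝ (s5p_U u) a (1, 0) -
      Complex.I * fderiv ℝ (s5p_U u) a (Complex.I, 0)) (z, θ) := h1.sub h3
  rw [fderiv_const_mul h4, fderiv_fun_sub h1 h3, fderiv_const_mul h2]
  simp only [_root_.smul_apply, _root_.sub_apply, smul_eq_mul]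
  rw [s5p_fderiv_symm hΩ hu hz θ (0, 1) (1, 0), s5p_fderiv_symm hΩ hu hz θ (0, 1) (Complex.I, 0)]

theorem dbar1_dth_comm (hΩ : IsOpen Ω) (hu : FamSm Ω u) {z ζ : ℂ} (hz : z ∈ Ω) (hζ : ζ ∈ uCirc) :
    dbar1 (fun y => dth (u y) ζ) z = dth (fun ξ => dbar1 (fun y => u y ξ) z) ζ := by
  obtain ⟨θ, rfl⟩ := mem_uCirc_iff.1 hζ
  rw [s5p_dbar1_eq hΩ (hu.dth hΩ) hz θ, (s5p_U_dth_eventuallyEq hΩ hu hz θ).fderiv_eq,
    s5p_dth_eq hΩ (hu.dbar1 hΩ) hz θ, (s5p_U_dbar1_eventuallyEq hΩ hu hz θ).fderiv_eq]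
  have h1 := s5p_differentiableAt_fderiv_U hΩ hu hz θ (1, 0)
  have h2 := s5p_differentiableAt_fderiv_U hΩ hu hz θ (Complex.I, 0)
  have h3 : DifferentiableAt ℝ (fun a => Complex.I * fderiv ℝ (s5p_U u) a (Complex.I, 0)) (z, θ) :=
    h2.const_mul Complex.I
  have h4 : DifferentiableAt ℝ (fun a => fderiv ℝ (s5p_U u) a (1, 0) +
      Complex.I * fderiv ℝ (s5p_U u) a (Complex.I, 0)) (z, θ) := h1.add h3
  rw [fderiv_const_mul h4, fderiv_fun_add h1 h3, fderiv_const_mul h2]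
  simp only [_root_.smul_apply, _root_.add_apply, smul_eq_mul]
  rw [s5p_fderiv_symm hΩ hu hz θ (0, 1) (1, 0), s5p_fderiv_symm hΩ hu hz θ (0, 1) (Complex.I, 0)]

variable {a b : ℂ → ℂ} {z : ℂ}

theorem d1_add (ha : DifferentiableAt ℝ a z) (hb : DifferentiableAt ℝ b z) :
    d1 (fun y => a y + b y) z = d1 a z + d1 b z := by
  unfold d1
  rw [fderiv_fun_add ha hb]
  simp only [_root_.add_apply]
  ring

theorem dbar1_add (ha : DifferentiableAt ℝ a z) (hb : DifferentiableAt ℝ b z) :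
    dbar1 (fun y => a y + b y) z = dbar1 a z + dbar1 b z := by
  exact B14.dbarC_add ha hb

theorem d1_sum {J : Type} (s : Finset J) {f : J → ℂ → ℂ} (h : ∀ j ∈ s, DifferentiableAt ℝ (f j) z) :
    d1 (fun y => ∑ j ∈ s, f j y) z = ∑ j ∈ s, d1 (f j) z := by
  unfold d1
  rw [fderiv_fun_sum h]
  simp only [_root_.sum_apply, Finset.mul_sum, ← Finset.sum_sub_distrib, mul_sub]

theorem dbar1_sum {J : Type} (s : Finset J) {f : J → ℂ → ℂ}
    (h : ∀ j ∈ s, DifferentiableAt ℝ (f j) z) :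
    dbar1 (fun y => ∑ j ∈ s, f j y) z = ∑ j ∈ s, dbar1 (f j) z := by
  exact B14.dbarC_sum s h

theorem d1_mul (ha : DifferentiableAt ℝ a z) (hb : DifferentiableAt ℝ b z) :
    d1 (fun y => a y * b y) z = d1 a z * b z + a z * d1 b z := by
  unfold d1
  rw [fderiv_fun_mul ha hb]
  simp only [_root_.add_apply, _root_.smul_apply, smul_eq_mul]
  ring

theorem dbar1_mul (ha : DifferentiableAt ℝ a z) (hb : DifferentiableAt ℝ b z) :
    dbar1 (fun y => a y * b y) z = dbar1 a z * b z + a z * dbar1 b z := by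
  exact B14.dbarC_mul ha hb

theorem d1_conj (a : ℂ → ℂ) (z : ℂ) :
    d1 (fun y => (starRingEnd ℂ) (a y)) z = (starRingEnd ℂ) (dbar1 a z) := by
  rw [s5c_d1_eq_conj]
  simp only [Complex.conj_conj]

theorem dbar1_conj (a : ℂ → ℂ) (z : ℂ) :
    dbar1 (fun y => (starRingEnd ℂ) (a y)) z = (starRingEnd ℂ) (d1 a z) := by
  rw [s5c_d1_eq_conj, Complex.conj_conj]

theorem d1_of_differentiableAt (ha : DifferentiableAt ℂ a z) : d1 a z = deriv a z := by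
  unfold d1
  rw [B14.fderiv_real_apply_of_differentiableAt ha, B14.fderiv_real_apply_of_differentiableAt ha]
  have := Complex.I_mul_I
  linear_combination (-(1 / 2 : ℂ)) * deriv a z * this

theorem dbar1_of_differentiableAt (ha : DifferentiableAt ℂ a z) : dbar1 a z = 0 := by
  exact B14.dbarC_eq_zero_of_differentiableAt ha

theorem d1_const (c : ℂ) (z : ℂ) : d1 (fun _ => c) z = 0 := by
  simp [d1]

theorem dbar1_const (c : ℂ) (z : ℂ) : dbar1 (fun _ => c) z = 0 := by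
  simp [dbar1]

/-- the real derivative in terms of `d1`, `dbar1`. -/
theorem fderiv_eq_d1_dbar1 (a : ℂ → ℂ) (z w : ℂ) :
    fderiv ℝ a z w = d1 a z * w + dbar1 a z * (starRingEnd ℂ) w := by
  have hw : w = (w.re : ℝ) • (1 : ℂ) + (w.im : ℝ) • Complex.I := by
    simp only [Complex.real_smul, mul_one]
    exact (Complex.re_add_im w).symm
  have hc : (starRingEnd ℂ) w = (w.re : ℂ) - (w.im : ℂ) * Complex.I := by
    apply Complex.ext <;> simp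
  have e : fderiv ℝ a z w = (w.re : ℂ) * fderiv ℝ a z 1 + (w.im : ℂ) * fderiv ℝ a z Complex.I := by
    conv_lhs => rw [hw, map_add, map_smul, map_smul]
    simp only [Complex.real_smul]
  rw [e, hc]
  unfold d1 dbar1
  have hw' := Complex.re_add_im w
  have hI := Complex.I_mul_I
  rw [← hw']
  simp only [Complex.add_re, Complex.ofReal_re, Complex.mul_re, Complex.I_re, mul_zero,
    Complex.ofReal_im, Complex.I_im, mul_one, sub_self, add_zero, Complex.add_im, Complex.mul_im,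
    zero_add]
  linear_combination ((w.im : ℂ) * fderiv ℝ a z Complex.I) * hI

end Partial

/-! ## `S5-P2`: differentiation under the circle average -/

section Average

variable {Ω : Set ℂ} {u : ℂ → ℂ → ℂ}

theorem s5p_famSm_fderiv (hΩ : IsOpen Ω) (hu : FamSm Ω u) (q : ℂ) :
    FamSm Ω fun z ζ => fderiv ℝ (fun y => u y ζ) z q :=
  (s5p_contDiffOn_fderiv_U hΩ hu (q, 0)).congr fun a ha => s5p_fderiv_z hΩ hu ha.1 a.2 q

theorem s5p_continuousOn_fderiv_U (hΩ : IsOpen Ω) (hu : FamSm Ω u) :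
    ContinuousOn (fun a => (fderiv ℝ (s5p_U u) a).comp (ContinuousLinearMap.inl ℝ ℂ ℝ))
      (Ω ×ˢ Set.univ) := by
  have h : ContDiffOn ℝ ∞ (fderiv ℝ (s5p_U u)) (Ω ×ˢ Set.univ) :=
    ContDiffOn.fderiv_of_isOpen hu (s5p_isOpen hΩ) (by simp)
  exact h.continuousOn.clm_comp continuousOn_const

theorem s5p_hasFDerivAt_cA (hΩ : IsOpen Ω) (hu : FamSm Ω u) {z : ℂ} (hz : z ∈ Ω) :
    HasFDerivAt (fun y => cA (u y)) ((2 * Real.pi)⁻¹ • ∫ θ in (0 : ℝ)..2 * Real.pi,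
      (fderiv ℝ (s5p_U u) (z, θ)).comp (ContinuousLinearMap.inl ℝ ℂ ℝ)) z := by
  obtain ⟨ε, hε, hsub⟩ := Metric.nhds_basis_closedBall.mem_iff.1 (hΩ.mem_nhds hz)
  have hc := s5p_continuousOn_fderiv_U hΩ hu
  have hK : IsCompact (Metric.closedBall z ε ×ˢ Set.Icc (0 : ℝ) (2 * Real.pi)) :=
    (isCompact_closedBall z ε).prod isCompact_Icc
  obtain ⟨C, hC⟩ := hK.exists_bound_of_continuousOn
    (hc.mono (Set.prod_mono hsub (Set.subset_univ _)))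
  have hcz : Continuous fun θ : ℝ =>
      (fderiv ℝ (s5p_U u) (z, θ)).comp (ContinuousLinearMap.inl ℝ ℂ ℝ) :=
    hc.comp_continuous (continuous_const.prodMk continuous_id) fun θ => ⟨hz, Set.mem_univ _⟩
  have key := intervalIntegral.hasFDerivAt_integral_of_dominated_of_fderiv_le (𝕜 := ℝ)
    (μ := volume) (a := (0 : ℝ)) (b := 2 * Real.pi) (F := fun y θ => s5p_U u (y, θ))
    (F' := fun y θ => (fderiv ℝ (s5p_U u) (y, θ)).comp (ContinuousLinearMap.inl ℝ ℂ ℝ))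
    (x₀ := z) (s := Metric.closedBall z ε) (bound := fun _ => C)
    (Metric.closedBall_mem_nhds z hε)
    (by
      filter_upwards [hΩ.mem_nhds hz] with y hy
      exact (hu.circSm hy).continuous.aestronglyMeasurable)
    ((hu.circSm hz).continuous.intervalIntegrable _ _)
    hcz.aestronglyMeasurable
    (Eventually.of_forall fun t ht y hy => by
      rw [Set.uIoc_of_le Real.two_pi_pos.le] at ht
      exact hC (y, t) ⟨hy, ⟨ht.1.le, ht.2⟩⟩)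
    intervalIntegrable_const
    (Eventually.of_forall fun t _ y hy => by
      have h := (s5p_hasFDerivAt_U hΩ hu (hsub hy) t).comp y
        (hasFDerivAt_prodMk_left (𝕜 := ℝ) y t)
      exact h)
  exact key.const_smul (2 * Real.pi)⁻¹

theorem s5p_fderiv_cA (hΩ : IsOpen Ω) (hu : FamSm Ω u) {z : ℂ} (hz : z ∈ Ω) (q : ℂ) :
    fderiv ℝ (fun y => cA (u y)) z q = cA fun ζ => fderiv ℝ (fun y => u y ζ) z q := by
  have hcz : Continuous fun θ : ℝ =>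
      (fderiv ℝ (s5p_U u) (z, θ)).comp (ContinuousLinearMap.inl ℝ ℂ ℝ) :=
    (s5p_continuousOn_fderiv_U hΩ hu).comp_continuous
      (continuous_const.prodMk continuous_id) fun θ => ⟨hz, Set.mem_univ _⟩
  rw [(s5p_hasFDerivAt_cA hΩ hu hz).fderiv, _root_.smul_apply,
    ContinuousLinearMap.intervalIntegral_apply (hcz.intervalIntegrable _ _)]
  show _ = (2 * Real.pi)⁻¹ • ∫ θ in (0 : ℝ)..2 * Real.pi,
    fderiv ℝ (fun y => u y (circleMap 0 1 θ)) z q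
  congr 1
  refine intervalIntegral.integral_congr fun θ _ => ?_
  show _ = fderiv ℝ (fun y => u y (circleMap 0 1 θ)) z q
  rw [s5p_fderiv_z hΩ hu hz]
  simp

theorem s5p_contDiffOn_cA_nat (hΩ : IsOpen Ω) (n : ℕ) :
    ∀ u : ℂ → ℂ → ℂ, FamSm Ω u → ContDiffOn ℝ n (fun z => cA (u z)) Ω := by
  induction n with
  | zero =>
    intro u hu
    rw [Nat.cast_zero, contDiffOn_zero]
    exact fun z hz => (s5p_hasFDerivAt_cA hΩ hu hz).continuousAt.continuousWithinAt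
  | succ n ih =>
    intro u hu
    rw [Nat.cast_succ, contDiffOn_succ_iff_fderiv_of_isOpen hΩ]
    refine ⟨fun z hz => (s5p_hasFDerivAt_cA hΩ hu hz).differentiableAt.differentiableWithinAt,
      by simp, ?_⟩
    rw [contDiffOn_clm_apply]
    intro q
    exact (ih _ (s5p_famSm_fderiv hΩ hu q)).congr fun z hz => s5p_fderiv_cA hΩ hu hz q

theorem FamSm.contDiffOn_cA (hΩ : IsOpen Ω) (hu : FamSm Ω u) :
    ContDiffOn ℝ ∞ (fun z => cA (u z)) Ω := by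
  exact contDiffOn_infty.2 fun n => s5p_contDiffOn_cA_nat hΩ n u hu

theorem d1_cA (hΩ : IsOpen Ω) (hu : FamSm Ω u) {z : ℂ} (hz : z ∈ Ω) :
    d1 (fun y => cA (u y)) z = cA fun ζ => d1 (fun y => u y ζ) z := by
  have h1 : Continuous (B14.bd fun ζ => fderiv ℝ (fun y => u y ζ) z 1) :=
    ((s5p_famSm_fderiv hΩ hu 1).circSm hz).continuous
  have h2 : Continuous (B14.bd fun ζ => fderiv ℝ (fun y => u y ζ) z Complex.I) :=
    ((s5p_famSm_fderiv hΩ hu Complex.I).circSm hz).continuous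
  have h3 : Continuous fun θ : ℝ =>
      Complex.I * B14.bd (fun ζ => fderiv ℝ (fun y => u y ζ) z Complex.I) θ :=
    continuous_const.mul h2
  unfold d1
  rw [s5p_fderiv_cA hΩ hu hz, s5p_fderiv_cA hΩ hu hz]
  simp only [cA_eq_pavg]
  rw [← B14.pavg_const_mul, ← B14.pavg_sub h1 h3, ← B14.pavg_const_mul]
  rfl

theorem dbar1_cA (hΩ : IsOpen Ω) (hu : FamSm Ω u) {z : ℂ} (hz : z ∈ Ω) :
    dbar1 (fun y => cA (u y)) z = cA fun ζ => dbar1 (fun y => u y ζ) z := by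
  have h1 : Continuous (B14.bd fun ζ => fderiv ℝ (fun y => u y ζ) z 1) :=
    ((s5p_famSm_fderiv hΩ hu 1).circSm hz).continuous
  have h2 : Continuous (B14.bd fun ζ => fderiv ℝ (fun y => u y ζ) z Complex.I) :=
    ((s5p_famSm_fderiv hΩ hu Complex.I).circSm hz).continuous
  have h3 : Continuous fun θ : ℝ =>
      Complex.I * B14.bd (fun ζ => fderiv ℝ (fun y => u y ζ) z Complex.I) θ :=
    continuous_const.mul h2
  unfold dbar1
  rw [s5p_fderiv_cA hΩ hu hz, s5p_fderiv_cA hΩ hu hz]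
  simp only [cA_eq_pavg]
  rw [← B14.pavg_const_mul, ← B14.pavg_add h1 h3, ← B14.pavg_const_mul]
  rfl

variable {w : ℂ → ℂ → ℝ}

theorem s5p_cA_ofReal (f : ℂ → ℝ) : cA (fun ζ => ((f ζ : ℝ) : ℂ)) = ((cA f : ℝ) : ℂ) :=
  B14.pavg_ofReal _

theorem FamSm.contDiffOn_cA_real (hΩ : IsOpen Ω) (hw : FamSm Ω fun z ζ => (w z ζ : ℂ)) :
    ContDiffOn ℝ ∞ (fun z => cA (w z)) Ω := by
  have h := Complex.reCLM.contDiff.comp_contDiffOn (hw.contDiffOn_cA hΩ)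
  refine h.congr fun z _ => ?_
  show _ = (cA fun ζ => ((w z ζ : ℝ) : ℂ)).re
  rw [s5p_cA_ofReal, Complex.ofReal_re]

theorem lap1_cA (hΩ : IsOpen Ω) (hw : FamSm Ω fun z ζ => (w z ζ : ℂ)) {z : ℂ} (hz : z ∈ Ω) :
    lap1 (fun y => cA (w y)) z = cA fun ζ => lap1 (fun y => w y ζ) z := by
  have e1 : (fun y => d1 (fun x => ((cA (w x) : ℝ) : ℂ)) y) =ᶠ[𝓝 z]
      fun y => cA fun ζ => d1 (fun x => ((w x ζ : ℝ) : ℂ)) y := by
    filter_upwards [hΩ.mem_nhds hz] with y hy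
    simp only [← s5p_cA_ofReal]
    exact d1_cA hΩ hw hy
  have e2 : dbar1 (fun y => d1 (fun x => ((cA (w x) : ℝ) : ℂ)) y) z =
      dbar1 (fun y => cA fun ζ => d1 (fun x => ((w x ζ : ℝ) : ℂ)) y) z := B14.dbarC_congr e1
  have hc : Continuous (B14.bd fun ζ => dbar1 (fun y => d1 (fun x => ((w x ζ : ℝ) : ℂ)) y) z) :=
    (((hw.d1 hΩ).dbar1 hΩ).circSm hz).continuous
  unfold lap1
  rw [e2, dbar1_cA hΩ (hw.d1 hΩ) hz, cA_eq_pavg, B14.pavg_re hc]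
  rfl

/-- `ζ ↦ lap1 (w · ζ) z` is smooth on the circle. -/
theorem FamSm.lap1 (hΩ : IsOpen Ω) (hw : FamSm Ω fun z ζ => (w z ζ : ℂ)) :
    FamSm Ω fun z ζ => (lap1 (fun y => w y ζ) z : ℂ) := by
  exact ((hw.d1 hΩ).dbar1 hΩ).re

end Average

/-! ## `S5-P3`: the mean value test -/

section MeanValue

/-- `lap1 Φ ≤ Λ₀ + C' |z|` on `B(0, r₁)` implies `avg_{|z| = r} Φ ≤ Φ(0) + r² Λ₀ + 2 C' r³` for `2 r ≤ r₁`
(`circleAverage_le_of_lap1_le` on `B(0, 2r)`). -/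
theorem avg_le_of_lap1_le' {Φ : ℂ → ℝ} {r₁ Λ₀ C' : ℝ} (hΦ : ContDiffOn ℝ 2 Φ (Metric.ball 0 r₁))
    (hC' : 0 ≤ C') (h : ∀ z ∈ Metric.ball (0 : ℂ) r₁, lap1 Φ z ≤ Λ₀ + C' * ‖z‖) {r : ℝ}
    (h0 : 0 < r) (h1 : 2 * r ≤ r₁) :
    CircleIntegrable Φ 0 r ∧ Real.circleAverage Φ 0 r ≤ Φ 0 + r ^ 2 * Λ₀ + 2 * C' * r ^ 3 := by
  have hsub : Metric.ball (0 : ℂ) (2 * r) ⊆ Metric.ball 0 r₁ := Metric.ball_subset_ball h1
  refine ⟨?_, ?_⟩
  · refine ContinuousOn.circleIntegrable h0.le (hΦ.continuousOn.mono fun z hz => ?_)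
    rw [mem_sphere_zero_iff_norm] at hz
    rw [mem_ball_zero_iff]
    linarith
  · have h2 := circleAverage_le_of_lap1_le (Φ := Φ) (r₀ := 2 * r) (Λ := Λ₀ + C' * (2 * r))
      (hΦ.mono hsub) (fun z hz => (h z (hsub hz)).trans (by
        rw [mem_ball_zero_iff] at hz
        have := mul_le_mul_of_nonneg_left hz.le hC'
        linarith)) h0 (by linarith)
    refine h2.trans (le_of_eq ?_)
    ring

/-- the same for a circle average of a smooth family, with a pointwise bound of the Laplacian. -/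
theorem avg_cA_le {w : ℂ → ℂ → ℝ} {r₁ C' : ℝ} {Λ : ℂ → ℝ}
    (hw : FamSm (Metric.ball 0 r₁) fun z ζ => (w z ζ : ℂ)) (hΛ : ContinuousOn Λ uCirc)
    (hC' : 0 ≤ C')
    (h : ∀ z ∈ Metric.ball (0 : ℂ) r₁, ∀ ζ ∈ uCirc, lap1 (fun y => w y ζ) z ≤ Λ ζ + C' * ‖z‖)
    {r : ℝ} (h0 : 0 < r) (h1 : 2 * r ≤ r₁) :
    CircleIntegrable (fun z => cA (w z)) 0 r ∧
    Real.circleAverage (fun z => cA (w z)) 0 r ≤ cA (w 0) + r ^ 2 * cA Λ + 2 * C' * r ^ 3 := by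
  have hΩ : IsOpen (Metric.ball (0 : ℂ) r₁) := Metric.isOpen_ball
  have hΛc : Continuous fun θ : ℝ => Λ (circleMap 0 1 θ) :=
    hΛ.comp_continuous (continuous_circleMap 0 1) circleMap_mem_uCirc
  refine avg_le_of_lap1_le' (Φ := fun z => cA (w z)) (Λ₀ := cA Λ)
    ((hw.contDiffOn_cA_real hΩ).of_le (by norm_cast)) hC' (fun z hz => ?_) h0 h1
  rw [lap1_cA hΩ hw hz]
  have hc1 : Continuous fun θ : ℝ => lap1 (fun y => w y (circleMap 0 1 θ)) z := by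
    have := Complex.continuous_re.comp ((hw.lap1 hΩ).circSm hz).continuous
    exact this
  have hc2 : Continuous fun θ : ℝ => Λ (circleMap 0 1 θ) + C' * ‖z‖ := hΛc.add continuous_const
  have h2 : cA (fun ζ => lap1 (fun y => w y ζ) z) ≤
      B14.pavg fun θ : ℝ => Λ (circleMap 0 1 θ) + C' * ‖z‖ :=
    B14.pavg_mono hc1 hc2 fun θ => h z hz _ (circleMap_mem_uCirc θ)
  rw [B14.pavg_add hΛc continuous_const, B14.pavg_const] at h2
  exact h2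

/-- a real function whose `∂_z`-derivative is a smooth function `B` is `C²`, with `lap1 Φ = Re ∂_{\bar z} B`. -/
theorem lap1_of_d1 {Φ : ℂ → ℝ} {B : ℂ → ℂ} {Ω : Set ℂ} (hΩ : IsOpen Ω)
    (hd : DifferentiableOn ℝ Φ Ω) (h1 : ∀ z ∈ Ω, d1 (fun x => (Φ x : ℂ)) z = B z)
    (hB : ContDiffOn ℝ ∞ B Ω) :
    ContDiffOn ℝ 2 Φ Ω ∧ ∀ z ∈ Ω, lap1 Φ z = (dbar1 B z).re := by
  have hfd : ∀ z ∈ Ω, ∀ q : ℂ, fderiv ℝ Φ z q = 2 * (B z * q).re := by
    intro z hz q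
    have hdz : DifferentiableAt ℝ Φ z := (hd z hz).differentiableAt (hΩ.mem_nhds hz)
    have e1 : fderiv ℝ (fun x => ((Φ x : ℝ) : ℂ)) z = Complex.ofRealCLM.comp (fderiv ℝ Φ z) :=
      (Complex.ofRealCLM.hasFDerivAt.comp z hdz.hasFDerivAt).fderiv
    have e2 : dbar1 (fun x => ((Φ x : ℝ) : ℂ)) z = (starRingEnd ℂ) (B z) := by
      rw [← h1 z hz, ← dbar1_conj]
      simp only [Complex.conj_ofReal]
    have e3 := fderiv_eq_d1_dbar1 (fun x => ((Φ x : ℝ) : ℂ)) z q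
    rw [e1, h1 z hz, e2] at e3
    have e4 := congrArg Complex.re e3
    simp only [ContinuousLinearMap.comp_apply, Complex.ofRealCLM_apply, Complex.ofReal_re,
      Complex.add_re] at e4
    rw [e4, ← map_mul, Complex.conj_re]
    ring
  refine ⟨?_, fun z hz => ?_⟩
  · rw [← one_add_one_eq_two, contDiffOn_succ_iff_fderiv_of_isOpen hΩ]
    refine ⟨hd, by simp, ?_⟩
    rw [contDiffOn_clm_apply]
    intro q
    have h2 : ContDiffOn ℝ 1 (fun z => 2 * (B z * q).re) Ω :=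
      contDiffOn_const.mul (Complex.reCLM.contDiff.comp_contDiffOn
        ((hB.of_le (by norm_cast)).mul contDiffOn_const))
    exact h2.congr fun z hz => hfd z hz q
  · have e1 : (fun y => d1 (fun x => ((Φ x : ℝ) : ℂ)) y) =ᶠ[𝓝 z] B := by
      filter_upwards [hΩ.mem_nhds hz] with y hy
      exact h1 y hy
    have e2 : dbar1 (fun y => d1 (fun x => ((Φ x : ℝ) : ℂ)) y) z = dbar1 B z := B14.dbarC_congr e1
    unfold lap1
    rw [e2]

end MeanValue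

/-! ## `S5-P4`: the seminorm `D` along a family -/

section DFam

theorem s5p_Dsq_id : Dsq (fun ζ => ζ) = 1 := by
  rw [Dsq_eq_hsq]
  have e : B14.bd (fun ζ : ℂ => ζ) = B14.ech 1 := by
    funext θ
    simp [B14.bd, B14.ech_eq_zpow]
  rw [e, B14.hsq_ech]
  simp

/-- `D(a) ≤ Lip(a)` (`Dsq_le_of_diff` with `g = id`, `D(id)² = 1`). -/
theorem Dsq_le_of_lip {a : ℂ → ℂ} {C : ℝ}
    (h : ∀ ζ ∈ uCirc, ∀ ξ ∈ uCirc, ‖a ζ - a ξ‖ ≤ C * ‖ζ - ξ‖) : Dsq a ≤ C ^ 2 := by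
  have h1 := Dsq_le_of_diff (a := a) (J := Unit) (g := fun _ ζ => ζ) (c := fun _ => C ^ 2)
    (fun _ => circSm_id.circLip) (fun _ => sq_nonneg C) (fun ζ hζ ξ hξ => by
      simp only [Finset.univ_unique, Finset.sum_const, Finset.card_singleton, one_smul]
      rw [← mul_pow]
      exact pow_le_pow_left₀ (norm_nonneg _) (h ζ hζ ξ hξ) 2)
  simpa [s5p_Dsq_id] using h1

theorem s5p_sqrt_Dsq_le_add {a b : ℂ → ℂ} (ha : CircLip a) (hb : CircLip b) :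
    Real.sqrt (Dsq a) ≤ Real.sqrt (Dsq b) + Real.sqrt (Dsq fun ζ => a ζ - b ζ) := by
  have h := sqrt_Dsq_add_le hb (ha.sub hb)
  have e : (fun ζ => b ζ + (a ζ - b ζ)) = a := by
    funext ζ
    ring
  rwa [e] at h

theorem s5p_Dsq_sub_comm (a b : ℂ → ℂ) : Dsq (fun ζ => a ζ - b ζ) = Dsq fun ζ => b ζ - a ζ := by
  rw [← Dsq_neg]
  simp only [neg_sub]

theorem s5p_abs_sqrt_Dsq_sub_le {a b : ℂ → ℂ} (ha : CircLip a) (hb : CircLip b) :
    |Real.sqrt (Dsq a) - Real.sqrt (Dsq b)| ≤ Real.sqrt (Dsq fun ζ => a ζ - b ζ) := by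
  have h1 := s5p_sqrt_Dsq_le_add ha hb
  have h2 := s5p_sqrt_Dsq_le_add hb ha
  rw [s5p_Dsq_sub_comm b a] at h2
  rw [abs_le]
  constructor <;> linarith

theorem s5p_Dsq_le_cA_dth {a : ℂ → ℂ} (ha : CircSm a) : Dsq a ≤ cA fun ζ => ‖dth a ζ‖ ^ 2 := by
  rw [Dsq_eq_hsq, cA_eq_pavg]
  refine (B14.hsq_le_pavg_deriv (circSm_iff.1 ha)).trans (le_of_eq ?_)
  congr 1
  funext θ
  show _ = ‖dth a (circleMap 0 1 θ)‖ ^ 2
  rw [dth_circleMap]

theorem s5p_dth_zero (ζ : ℂ) : dth (fun _ => 0) ζ = 0 := by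
  unfold dth
  simp

/-- `|D(u_z) - D(u_{z'})| ≤ D(u_z - u_{z'}) ≤ (π/2) sup |∂_θ (u_z - u_{z'})|`, uniform continuity on compacts. -/
theorem FamSm.continuousOn_Dsq {Ω : Set ℂ} {u : ℂ → ℂ → ℂ} (hΩ : IsOpen Ω) (hu : FamSm Ω u) :
    ContinuousOn (fun z => Dsq (u z)) Ω := by
  intro z₀ hz₀
  refine ContinuousAt.continuousWithinAt ?_
  have hd : FamSm Ω fun z ζ => u z ζ - u z₀ ζ := hu.sub (famSm_of_circSm (hu.circSm hz₀))
  have hN : FamSm Ω fun z ζ => Claimed.Agent.R316.dth (fun ξ => u z ξ - u z₀ ξ) ζ *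
      (starRingEnd ℂ) (Claimed.Agent.R316.dth (fun ξ => u z ξ - u z₀ ξ) ζ) :=
    (hd.dth hΩ).mul (hd.dth hΩ).conj
  have hE : ContinuousAt (fun z => cA fun ζ =>
      Claimed.Agent.R316.dth (fun ξ => u z ξ - u z₀ ξ) ζ *
      (starRingEnd ℂ) (Claimed.Agent.R316.dth (fun ξ => u z ξ - u z₀ ξ) ζ)) z₀ :=
    (hN.contDiffOn_cA hΩ).continuousOn.continuousAt (hΩ.mem_nhds hz₀)
  have hEe : ∀ z, (cA fun ζ => Claimed.Agent.R316.dth (fun ξ => u z ξ - u z₀ ξ) ζ *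
      (starRingEnd ℂ) (Claimed.Agent.R316.dth (fun ξ => u z ξ - u z₀ ξ) ζ)) =
      ((cA fun ζ => ‖Claimed.Agent.R316.dth (fun ξ => u z ξ - u z₀ ξ) ζ‖ ^ 2 : ℝ) : ℂ) := by
    intro z
    rw [← s5p_cA_ofReal]
    congr 1
    funext ζ
    rw [Complex.mul_conj, Complex.normSq_eq_norm_sq]
  simp only [hEe] at hE
  have hE' : ContinuousAt (fun z => Real.sqrt (cA fun ζ =>
      ‖Claimed.Agent.R316.dth (fun ξ => u z ξ - u z₀ ξ) ζ‖ ^ 2)) z₀ := by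
    have := (Complex.continuous_re.continuousAt.comp hE).sqrt
    exact this
  have hE0 : Real.sqrt (cA fun ζ =>
      ‖Claimed.Agent.R316.dth (fun ξ => u z₀ ξ - u z₀ ξ) ζ‖ ^ 2) = 0 := by
    simp only [sub_self, s5p_dth_zero]
    rw [cA_eq_pavg]
    have e : (B14.bd fun _ : ℂ => ‖(0 : ℂ)‖ ^ 2) = fun _ => (0 : ℝ) := by
      funext θ
      simp [B14.bd]
    rw [e, B14.pavg_const, Real.sqrt_zero]
  have hs : ContinuousAt (fun z => Real.sqrt (Dsq (u z))) z₀ := by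
    unfold ContinuousAt
    rw [tendsto_iff_norm_sub_tendsto_zero]
    have hg : Tendsto (fun z => Real.sqrt (cA fun ζ =>
        ‖Claimed.Agent.R316.dth (fun ξ => u z ξ - u z₀ ξ) ζ‖ ^ 2)) (𝓝 z₀) (𝓝 0) := by
      have := hE'.tendsto
      rwa [hE0] at this
    refine squeeze_zero' (Eventually.of_forall fun z => norm_nonneg _) ?_ hg
    filter_upwards [hΩ.mem_nhds hz₀] with z hz
    rw [Real.norm_eq_abs]
    refine (s5p_abs_sqrt_Dsq_sub_le (hu.circSm hz).circLip (hu.circSm hz₀).circLip).trans ?_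
    exact Real.sqrt_le_sqrt (s5p_Dsq_le_cA_dth (hd.circSm hz))
  have h2 : ContinuousAt (fun z => Real.sqrt (Dsq (u z)) ^ 2) z₀ := hs.pow 2
  have e : (fun z => Real.sqrt (Dsq (u z)) ^ 2) = fun z => Dsq (u z) :=
    funext fun z => Real.sq_sqrt (Dsq_nonneg _)
  rwa [e] at h2

theorem s5p_differentiableOn_fco {X : ℂ → ℂ → ℂ} {Ω : Set ℂ} (hΩ : IsOpen Ω)
    (hhol : ∀ ζ ∈ uCirc, DifferentiableOn ℂ (fun z => X z ζ) Ω) (hX : FamSm Ω X) (k : ℤ) :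
    DifferentiableOn ℂ (fun z => fco (X z) k) Ω := by
  intro z hz
  refine DifferentiableAt.differentiableWithinAt ?_
  have hF : FamSm Ω fun z ζ => ζ ^ (-k) * X z ζ := (famSm_of_circSm (circSm_zpow (-k))).mul hX
  have h1 : DifferentiableAt ℝ (fun y => fco (X y) k) z :=
    (s5p_hasFDerivAt_cA hΩ hF hz).differentiableAt
  have h2 : dbar1 (fun y => fco (X y) k) z = 0 := by
    unfold fco
    rw [dbar1_cA hΩ hF hz]
    have h3 : ∀ ζ ∈ uCirc, dbar1 (fun y => ζ ^ (-k) * X y ζ) z = 0 := fun ζ hζ =>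
      dbar1_of_differentiableAt (((hhol ζ hζ).differentiableAt (hΩ.mem_nhds hz)).const_mul _)
    rw [cA_eq_pavg]
    have e : (B14.bd fun ζ => dbar1 (fun y => ζ ^ (-k) * X y ζ) z) = fun _ => (0 : ℂ) :=
      funext fun θ => h3 _ (circleMap_mem_uCirc θ)
    rw [e, B14.pavg_const]
  rw [differentiableAt_complex_iff_differentiableAt_real]
  refine ⟨h1, ?_⟩
  unfold dbar1 at h2
  rw [smul_eq_mul]
  linear_combination (-2 * Complex.I) * h2 +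
    (fderiv ℝ (fun y => fco (X y) k) z Complex.I) * Complex.I_mul_I

theorem s5p_fco_sub {a b : ℂ → ℂ} (ha : CircLip a) (hb : CircLip b) (k : ℤ) :
    fco (fun ζ => a ζ - b ζ) k = fco a k - fco b k := by
  simp only [fco_eq_fc]
  exact B14.fc_sub (circLip_iff.1 ha).continuous (circLip_iff.1 hb).continuous k

/-- the weighted finite column of Fourier coefficients. -/
noncomputable def s5p_col (S : Finset ℤ) (a : ℂ → ℂ) : EuclideanSpace ℂ S :=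
  WithLp.toLp 2 fun k : S => ((Real.sqrt |((k : ℤ) : ℝ)| : ℝ) : ℂ) * fco a k

theorem s5p_norm_sq_col (S : Finset ℤ) (a : ℂ → ℂ) :
    ‖s5p_col S a‖ ^ 2 = ∑ k ∈ S, |(k : ℝ)| * ‖fco a k‖ ^ 2 := by
  rw [EuclideanSpace.norm_sq_eq, ← Finset.sum_coe_sort S]
  refine Finset.sum_congr rfl fun k _ => ?_
  show ‖((Real.sqrt |((k : ℤ) : ℝ)| : ℝ) : ℂ) * fco a k‖ ^ 2 = _
  rw [norm_mul, mul_pow, Complex.norm_real, Real.norm_eq_abs, sq_abs, Real.sq_sqrt (abs_nonneg _)]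

theorem s5p_col_sub (S : Finset ℤ) {a b : ℂ → ℂ} (ha : CircLip a) (hb : CircLip b) :
    s5p_col S (fun ζ => a ζ - b ζ) = s5p_col S a - s5p_col S b := by
  ext k
  show ((Real.sqrt |((k : ℤ) : ℝ)| : ℝ) : ℂ) * fco (fun ζ => a ζ - b ζ) k =
    ((Real.sqrt |((k : ℤ) : ℝ)| : ℝ) : ℂ) * fco a k - ((Real.sqrt |((k : ℤ) : ℝ)| : ℝ) : ℂ) * fco b k
  rw [s5p_fco_sub ha hb]
  ring

theorem s5p_norm_col_le (S : Finset ℤ) {a : ℂ → ℂ} (ha : CircLip a) {M : ℝ} (hM : Dsq a ≤ M) :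
    ‖s5p_col S a‖ ≤ Real.sqrt M := by
  refine Real.le_sqrt_of_sq_le ?_
  rw [s5p_norm_sq_col]
  exact (ha.summable_Dsq.sum_le_tsum S fun k _ => by positivity).trans hM

theorem s5p_differentiableOn_col {X : ℂ → ℂ → ℂ} {Ω : Set ℂ} (hΩ : IsOpen Ω)
    (hhol : ∀ ζ ∈ uCirc, DifferentiableOn ℂ (fun z => X z ζ) Ω) (hX : FamSm Ω X) (S : Finset ℤ) :
    DifferentiableOn ℂ (fun z => s5p_col S (X z)) Ω := by
  rw [differentiableOn_euclidean]
  intro k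
  exact (s5p_differentiableOn_fco hΩ hhol hX k).const_mul _

/-- Schwarz lemma in the seminorm `D` (same hypotheses and proof as `Dsq_deriv_le`):
`X_z - X_0 = ∑_{n ≥ 1} z^n X^{(n)}`, `D(X^{(n)}) ≤ √M r₀^{-n}`. -/
theorem Dsq_sub_le {X : ℂ → ℂ → ℂ} {r₀ M : ℝ} (hr : 0 < r₀)
    (hhol : ∀ ζ ∈ uCirc, DifferentiableOn ℂ (fun z => X z ζ) (Metric.ball 0 r₀))
    (hX : FamSm (Metric.ball 0 r₀) X) (hM : ∀ z ∈ Metric.ball (0 : ℂ) r₀, Dsq (X z) ≤ M) :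
    ∀ z : ℂ, ‖z‖ ≤ r₀ / 2 → Dsq (fun ζ => X z ζ - X 0 ζ) ≤ 4 * M * ‖z‖ ^ 2 / r₀ ^ 2 := by
  intro z hz
  have hΩ : IsOpen (Metric.ball (0 : ℂ) r₀) := Metric.isOpen_ball
  have hzB : z ∈ Metric.ball (0 : ℂ) r₀ := by
    rw [mem_ball_zero_iff]
    linarith
  have h0B : (0 : ℂ) ∈ Metric.ball (0 : ℂ) r₀ := Metric.mem_ball_self hr
  have hM0 : 0 ≤ M := (Dsq_nonneg _).trans (hM 0 h0B)
  have hL : ∀ y ∈ Metric.ball (0 : ℂ) r₀, CircLip (X y) := fun y hy => (hX.circSm hy).circLip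
  unfold Dsq
  refine tsum_le_of_sum_le' (by positivity) fun S => ?_
  rw [← s5p_norm_sq_col, s5p_col_sub S (hL z hzB) (hL 0 h0B)]
  have hmaps : Set.MapsTo (fun y => s5p_col S (X y)) (Metric.ball 0 r₀)
      (Metric.closedBall (s5p_col S (X 0)) (2 * Real.sqrt M)) := by
    intro y hy
    rw [mem_closedBall_iff_norm]
    have h1 := s5p_norm_col_le S (hL y hy) (hM y hy)
    have h2 := s5p_norm_col_le S (hL 0 h0B) (hM 0 h0B)
    have h3 := norm_sub_le (s5p_col S (X y)) (s5p_col S (X 0))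
    linarith
  have h := Complex.dist_le_div_mul_dist_of_mapsTo_ball
    (s5p_differentiableOn_col hΩ hhol hX S) hmaps hzB
  rw [dist_eq_norm, dist_zero_right] at h
  have h2 := pow_le_pow_left₀ (norm_nonneg _) h 2
  refine h2.trans (le_of_eq ?_)
  rw [mul_pow, div_pow, mul_pow, Real.sq_sqrt hM0]
  ring

theorem s5p_circleMap_arg {ζ : ℂ} (hζ : ζ ∈ uCirc) : circleMap 0 1 (Complex.arg ζ) = ζ := by
  have h1 : ‖ζ‖ = 1 := by simpa using hζ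
  have h2 := Complex.norm_mul_exp_arg_mul_I ζ
  rw [h1] at h2
  simpa [circleMap] using h2

theorem s5p_circleMap_arg_neg {ζ : ℂ} (hζ : ζ ∈ uCirc) :
    circleMap 0 1 (Complex.arg (-ζ) + Real.pi) = ζ := by
  have h1 : -ζ ∈ uCirc := by simpa using hζ
  have h2 := s5p_circleMap_arg h1
  simp only [circleMap, zero_add, Complex.ofReal_one, one_mul] at h2 ⊢
  rw [Complex.ofReal_add, add_mul, Complex.exp_add, h2, Complex.exp_pi_mul_I]
  ring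

/-- joint continuity in `(z, ζ)`. -/
theorem FamSm.continuousOn_joint {Ω : Set ℂ} {u : ℂ → ℂ → ℂ} (hu : FamSm Ω u) :
    ContinuousOn (fun p : ℂ × ℂ => u p.1 p.2) (Ω ×ˢ uCirc) := by
  have hU : ContinuousOn (fun a : ℂ × ℝ => u a.1 (circleMap 0 1 a.2)) (Ω ×ˢ Set.univ) :=
    ContDiffOn.continuousOn hu
  rintro ⟨z₀, ζ₀⟩ ⟨hz₀, hζ₀⟩
  by_cases hs : ζ₀ ∈ Complex.slitPlane
  · have ha : ContinuousAt (fun p : ℂ × ℂ => Complex.arg p.2) (z₀, ζ₀) :=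
      ContinuousAt.comp (g := Complex.arg) (f := fun p : ℂ × ℂ => p.2) (x := (z₀, ζ₀))
        (Complex.continuousAt_arg hs) continuousAt_snd
    have h1 : ContinuousWithinAt (fun p : ℂ × ℂ => ((p.1, Complex.arg p.2) : ℂ × ℝ))
        (Ω ×ˢ uCirc) (z₀, ζ₀) := (continuousAt_fst.prodMk ha).continuousWithinAt
    have h2 := ContinuousWithinAt.comp (g := fun a : ℂ × ℝ => u a.1 (circleMap 0 1 a.2))
      (f := fun p : ℂ × ℂ => ((p.1, Complex.arg p.2) : ℂ × ℝ)) (x := (z₀, ζ₀))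
      (t := Ω ×ˢ Set.univ) (hU (z₀, Complex.arg ζ₀) ⟨hz₀, Set.mem_univ _⟩) h1
      (fun p hp => ⟨hp.1, Set.mem_univ _⟩)
    refine h2.congr (fun p hp => ?_) ?_
    · show u p.1 p.2 = u p.1 (circleMap 0 1 (Complex.arg p.2))
      rw [s5p_circleMap_arg hp.2]
    · show u z₀ ζ₀ = u z₀ (circleMap 0 1 (Complex.arg ζ₀))
      rw [s5p_circleMap_arg hζ₀]
  · have hs' : -ζ₀ ∈ Complex.slitPlane := by
      rw [Complex.mem_slitPlane_iff] at hs ⊢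
      push Not at hs
      have h1 : ‖ζ₀‖ = 1 := by simpa using hζ₀
      left
      rw [Complex.neg_re]
      have h2 : ζ₀.re ≠ 0 := by
        intro h0
        have : ζ₀ = 0 := Complex.ext h0 hs.2
        rw [this] at h1
        simp at h1
      have := lt_of_le_of_ne hs.1 h2
      linarith
    have ha : ContinuousAt (fun p : ℂ × ℂ => Complex.arg (-p.2)) (z₀, ζ₀) :=
      ContinuousAt.comp (g := Complex.arg) (f := fun p : ℂ × ℂ => -p.2) (x := (z₀, ζ₀))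
        (Complex.continuousAt_arg hs') continuousAt_snd.neg
    have h1 : ContinuousWithinAt (fun p : ℂ × ℂ => ((p.1, Complex.arg (-p.2) + Real.pi) : ℂ × ℝ))
        (Ω ×ˢ uCirc) (z₀, ζ₀) :=
      (continuousAt_fst.prodMk (ha.add continuousAt_const)).continuousWithinAt
    have h2 := ContinuousWithinAt.comp (g := fun a : ℂ × ℝ => u a.1 (circleMap 0 1 a.2))
      (f := fun p : ℂ × ℂ => ((p.1, Complex.arg (-p.2) + Real.pi) : ℂ × ℝ)) (x := (z₀, ζ₀))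
      (t := Ω ×ˢ Set.univ) (hU (z₀, Complex.arg (-ζ₀) + Real.pi) ⟨hz₀, Set.mem_univ _⟩) h1
      (fun p hp => ⟨hp.1, Set.mem_univ _⟩)
    refine h2.congr (fun p hp => ?_) ?_
    · show u p.1 p.2 = u p.1 (circleMap 0 1 (Complex.arg (-p.2) + Real.pi))
      rw [s5p_circleMap_arg_neg hp.2]
    · show u z₀ ζ₀ = u z₀ (circleMap 0 1 (Complex.arg (-ζ₀) + Real.pi))
      rw [s5p_circleMap_arg_neg hζ₀]

/-- `Dsq_deriv_le` for smooth families. -/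
theorem FamSm.Dsq_deriv_le {X : ℂ → ℂ → ℂ} {r₀ M : ℝ} (hr : 0 < r₀)
    (hhol : ∀ ζ ∈ uCirc, DifferentiableOn ℂ (fun z => X z ζ) (Metric.ball 0 r₀))
    (hX : FamSm (Metric.ball 0 r₀) X) (hM : ∀ z ∈ Metric.ball (0 : ℂ) r₀, Dsq (X z) ≤ M) :
    Dsq (fun ζ => deriv (fun y => X y ζ) 0) ≤ M / r₀ ^ 2 ∧
    ∀ z : ℂ, ‖z‖ ≤ r₀ / 2 →
      Dsq (fun ζ => deriv (fun y => X y ζ) z - deriv (fun y => X y ζ) 0) ≤
        64 * M * ‖z‖ ^ 2 / r₀ ^ 4 := by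
  have hΩ : IsOpen (Metric.ball (0 : ℂ) r₀) := Metric.isOpen_ball
  refine Claimed.Agent.R316.Dsq_deriv_le hr hhol hX.continuousOn_joint
    (fun z hz => (hX.circSm hz).circLip) (fun z hz => ?_) hM
  refine ((hX.d1 hΩ).circSm hz).circLip.congr fun ζ hζ => ?_
  exact d1_of_differentiableAt ((hhol ζ hζ).differentiableAt (hΩ.mem_nhds hz))

/-- consequence: `D(a + b)² ≤ D(a)² + 2 D(a) D(b) + D(b)²`, in the form used for the remainders. -/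
theorem Dsq_le_add_of_sub {a b : ℂ → ℂ} (ha : CircLip a) (hb : CircLip b) {A E : ℝ}
    (hA : Dsq b ≤ A) (hE : Dsq (fun ζ => a ζ - b ζ) ≤ E) :
    Dsq a ≤ Dsq b + 2 * Real.sqrt A * Real.sqrt E + E := by
  have h := s5p_sqrt_Dsq_le_add ha hb
  have h1 := Real.sq_sqrt (Dsq_nonneg a)
  have h2 := Real.sq_sqrt (Dsq_nonneg b)
  have h3 := Real.sq_sqrt (Dsq_nonneg fun ζ => a ζ - b ζ)
  have h4 := Real.sqrt_le_sqrt hA
  have h5 := Real.sqrt_le_sqrt hE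
  have h6 := Real.sqrt_nonneg (Dsq a)
  have h7 := Real.sqrt_nonneg (Dsq b)
  have h8 := Real.sqrt_nonneg (Dsq fun ζ => a ζ - b ζ)
  have h9 : Dsq a ≤ (Real.sqrt (Dsq b) + Real.sqrt (Dsq fun ζ => a ζ - b ζ)) ^ 2 := by
    rw [← h1]
    exact pow_le_pow_left₀ h6 h 2
  have h10 : Real.sqrt (Dsq b) * Real.sqrt (Dsq fun ζ => a ζ - b ζ) ≤
      Real.sqrt A * Real.sqrt E := mul_le_mul h4 h5 h8 (Real.sqrt_nonneg _)
  nlinarith

end DFam

end Claimed.Agent.R316
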