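import Claimed.Agent.R316.S5.FromS4
import Claimed.Agent.R316.S5.Amb
import Claimed.Agent.R316.S5.ParamInt

/-!
# Row 316, Section 5.1, `S5-L3`: dilations of admissible configurations

`c_r = (p, s, f(r ·), w(r ·))`, `r ↑ 1`.  The dilated configuration extends holomorphically past the circle, it is admissible for `r` close to `1` (collar of the
circle on which `pw ∘ f > 0`), the area and the `D²` of the holomorphic data decrease, the boundary average and `D²(log pw ∘ f_r)` converge.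

The file does not use `Std5` (it is imported by `S5/Local.lean`).  Result: `s5dil_main`.
-/

set_option autoImplicit false
set_option linter.unusedSectionVars false
set_option maxSynthPendingDepth 3
open scoped ContDiff ComplexOrder Topology Matrix
open MeasureTheory Filter

namespace Claimed.Agent.R316

/-! ### analysis on a collar of the circle -/

/-- the half open collar `δ < |ζ| ≤ 1`. -/
def s5dilCol (δ : ℝ) : Set ℂ := {ζ : ℂ | δ < ‖ζ‖ ∧ ‖ζ‖ ≤ 1}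

theorem s5dilCol_def (δ : ℝ) : s5dilCol δ = {ζ : ℂ | δ < ‖ζ‖ ∧ ‖ζ‖ ≤ 1} := s5dilCol.eq_1 δ

theorem s5dil_norm_mul {r : ℝ} (hr : 0 ≤ r) (ζ : ℂ) : ‖(r : ℂ) * ζ‖ = r * ‖ζ‖ := by
  rw [norm_mul, Complex.norm_real, Real.norm_eq_abs, abs_of_nonneg hr]

theorem s5dil_mem_col {δ r : ℝ} (h0 : 0 ≤ δ) (hδ : δ < r) (hr : r ≤ 1) {ζ : ℂ} (hζ : ζ ∈ uCirc) :
    (r : ℂ) * ζ ∈ s5dilCol δ := by
  have h1 : ‖ζ‖ = 1 := mem_sphere_zero_iff_norm.1 hζ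
  have h2 : ‖(r : ℂ) * ζ‖ = r := by rw [s5dil_norm_mul (h0.trans hδ.le), h1, mul_one]
  exact ⟨by rw [h2]; exact hδ, by rw [h2]; exact hr⟩

/-- a function which is continuous on the closed disc and positive on the circle is positive on a collar. -/
theorem s5dil_exists_collar {P : ℂ → ℝ} (hP : ContinuousOn P uDiscC) (hpos : ∀ ζ ∈ uCirc, 0 < P ζ) :
    ∃ δ : ℝ, 0 ≤ δ ∧ δ < 1 ∧ ∀ ζ ∈ s5dilCol δ, 0 < P ζ := by
  set C : Set ℂ := uDiscC ∩ P ⁻¹' (Set.Iic 0) with hC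
  have hCc : IsCompact C :=
    (isCompact_closedBall 0 1).of_isClosed_subset
      (hP.preimage_isClosed_of_isClosed Metric.isClosed_closedBall isClosed_Iic) Set.inter_subset_left
  rcases C.eq_empty_or_nonempty with he | hne
  · refine ⟨0, le_rfl, one_pos, fun ζ hζ => ?_⟩
    by_contra h
    have : ζ ∈ C := ⟨mem_closedBall_zero_iff.2 hζ.2, not_lt.1 h⟩
    rw [he] at this
    exact this
  · obtain ⟨ζ₁, hζ₁, hmax⟩ := hCc.exists_isMaxOn hne continuous_norm.continuousOn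
    refine ⟨‖ζ₁‖, norm_nonneg _, ?_, fun ζ hζ => ?_⟩
    · have h1 : ‖ζ₁‖ ≤ 1 := mem_closedBall_zero_iff.1 hζ₁.1
      refine lt_of_le_of_ne h1 fun h => ?_
      exact absurd (hpos ζ₁ (mem_sphere_zero_iff_norm.2 h)) (not_lt.2 hζ₁.2)
    · by_contra h
      have h2 : ‖ζ‖ ≤ ‖ζ₁‖ := isMaxOn_iff.1 hmax ζ ⟨mem_closedBall_zero_iff.2 hζ.2, not_lt.1 h⟩
      exact absurd hζ.1 (not_lt.2 h2)

/-- uniform convergence of the dilations on the circle. -/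
theorem s5dil_unif {E : Type} [NormedAddCommGroup E] {F : ℂ → E} {δ : ℝ} (h0 : 0 ≤ δ) (hδ : δ < 1)
    (hF : ContinuousOn F (s5dilCol δ)) {ε : ℝ} (hε : 0 < ε) :
    ∀ᶠ r : ℝ in 𝓝[<] 1, ∀ ζ ∈ uCirc, ‖F ((r : ℂ) * ζ) - F ζ‖ ≤ ε := by
  set δ' : ℝ := (δ + 1) / 2 with hδ'
  have hd1 : δ < δ' := by rw [hδ']; linarith
  have hd2 : δ' < 1 := by rw [hδ']; linarith
  set K : Set ℂ := Metric.closedBall (0 : ℂ) 1 ∩ {ζ : ℂ | δ' ≤ ‖ζ‖} with hK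
  have hKc : IsCompact K :=
    (isCompact_closedBall 0 1).inter_right (isClosed_le continuous_const continuous_norm)
  have hKS : K ⊆ s5dilCol δ := fun ζ hζ =>
    ⟨lt_of_lt_of_le hd1 hζ.2, mem_closedBall_zero_iff.1 hζ.1⟩
  have hu : UniformContinuousOn F K := hKc.uniformContinuousOn_of_continuous (hF.mono hKS)
  obtain ⟨τ, hτ, hτ'⟩ := Metric.uniformContinuousOn_iff.1 hu ε hε
  have hev : Set.Ioo (max δ' (1 - τ)) 1 ∈ 𝓝[<] (1 : ℝ) :=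
    Ioo_mem_nhdsLT (max_lt hd2 (by linarith))
  filter_upwards [hev] with r hr ζ hζ
  have hr1 : δ' < r := lt_of_le_of_lt (le_max_left _ _) hr.1
  have hr2 : 1 - τ < r := lt_of_le_of_lt (le_max_right _ _) hr.1
  have hr0 : 0 ≤ r := by linarith
  have h1 : ‖ζ‖ = 1 := mem_sphere_zero_iff_norm.1 hζ
  have h2 : ‖(r : ℂ) * ζ‖ = r := by rw [s5dil_norm_mul hr0, h1, mul_one]
  have m1 : (r : ℂ) * ζ ∈ K :=
    ⟨mem_closedBall_zero_iff.2 (by rw [h2]; exact hr.2.le), by show δ' ≤ _; rw [h2]; exact hr1.le⟩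
  have m2 : ζ ∈ K := ⟨mem_closedBall_zero_iff.2 h1.le, by show δ' ≤ _; rw [h1]; exact hd2.le⟩
  have hd : dist ((r : ℂ) * ζ) ζ < τ := by
    have e : (r : ℂ) * ζ - ζ = ((r - 1 : ℝ) : ℂ) * ζ := by push_cast; ring
    rw [dist_eq_norm, e, norm_mul, Complex.norm_real, h1, mul_one, Real.norm_eq_abs,
      abs_of_nonpos (by linarith [hr.2])]
    linarith
  have := hτ' _ m1 _ m2 hd
  rw [dist_eq_norm] at this
  exact this.le

theorem s5dil_continuous_bd {E : Type} [TopologicalSpace E] {F : ℂ → E} {δ r : ℝ} (h0 : 0 ≤ δ)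
    (hF : ContinuousOn F (s5dilCol δ)) (hδ : δ < r) (hr : r ≤ 1) :
    Continuous fun θ : ℝ => F ((r : ℂ) * circleMap 0 1 θ) :=
  hF.comp_continuous (continuous_const.mul (continuous_circleMap 0 1))
    fun θ => s5dil_mem_col h0 hδ hr (circleMap_mem_uCirc θ)

/-- the circle averages of the dilations converge. -/
theorem s5dil_tendsto_cA {F : ℂ → ℝ} {δ : ℝ} (h0 : 0 ≤ δ) (hδ : δ < 1)
    (hF : ContinuousOn F (s5dilCol δ)) :
    Tendsto (fun r : ℝ => cA fun ζ => F ((r : ℂ) * ζ)) (𝓝[<] 1) (𝓝 (cA F)) := by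
  rw [Metric.tendsto_nhds]
  intro ε hε
  have hev : Set.Ioo δ 1 ∈ 𝓝[<] (1 : ℝ) := Ioo_mem_nhdsLT hδ
  filter_upwards [s5dil_unif h0 hδ hF (half_pos hε), hev] with r hr hr'
  have c1 : Continuous fun θ : ℝ => F ((r : ℂ) * circleMap 0 1 θ) :=
    s5dil_continuous_bd h0 hF hr'.1 hr'.2.le
  have c2 : Continuous fun θ : ℝ => F (circleMap 0 1 θ) := by
    have := s5dil_continuous_bd h0 hF hδ le_rfl
    simpa using this
  rw [dist_eq_norm, cA_eq_pavg, cA_eq_pavg]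
  have e : B14.pavg (B14.bd fun ζ => F ((r : ℂ) * ζ)) - B14.pavg (B14.bd F) =
      B14.pavg fun θ => F ((r : ℂ) * circleMap 0 1 θ) - F (circleMap 0 1 θ) :=
    (B14.pavg_sub c1 c2).symm
  rw [e]
  refine lt_of_le_of_lt (B14.norm_pavg_le fun θ => hr _ (circleMap_mem_uCirc θ)) (by linarith)

/-- the angular derivative on the collar. -/
noncomputable def s5dilT (δ : ℝ) (u : ℂ → ℝ) (ζ : ℂ) : ℝ :=
  fderivWithin ℝ u (s5dilCol δ) ζ (Complex.I * ζ)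

theorem s5dilT_def (δ : ℝ) (u : ℂ → ℝ) (ζ : ℂ) :
    s5dilT δ u ζ = fderivWithin ℝ u (s5dilCol δ) ζ (Complex.I * ζ) := s5dilT.eq_1 δ u ζ

theorem s5dil_uniqueDiffOn (δ : ℝ) : UniqueDiffOn ℝ (s5dilCol δ) := by
  have e : s5dilCol δ = uDiscC ∩ {ζ : ℂ | δ < ‖ζ‖} := by
    ext ζ
    simp only [s5dilCol, Set.mem_ofPred_eq, Set.mem_inter_iff, mem_closedBall_zero_iff]
    exact and_comm
  rw [e]
  exact s5c_uniqueDiffOn.inter (isOpen_lt continuous_const continuous_norm)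

theorem s5dil_continuousOn_T {δ : ℝ} {u : ℂ → ℝ} (hu : ContDiffOn ℝ ∞ u (s5dilCol δ)) :
    ContinuousOn (s5dilT δ u) (s5dilCol δ) :=
  (hu.continuousOn_fderivWithin (s5dil_uniqueDiffOn δ) (by simp)).clm_apply
    (continuous_const.mul continuous_id).continuousOn

theorem s5dil_hasDerivAt {δ r : ℝ} {u : ℂ → ℝ} (h0 : 0 ≤ δ) (hu : ContDiffOn ℝ ∞ u (s5dilCol δ))
    (hδ : δ < r) (hr : r ≤ 1) (θ : ℝ) :
    HasDerivAt (fun θ : ℝ => u ((r : ℂ) * circleMap 0 1 θ))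
      (s5dilT δ u ((r : ℂ) * circleMap 0 1 θ)) θ := by
  have hm : ∀ θ : ℝ, (r : ℂ) * circleMap 0 1 θ ∈ s5dilCol δ := fun θ =>
    s5dil_mem_col h0 hδ hr (circleMap_mem_uCirc θ)
  have h1 : HasFDerivWithinAt u (fderivWithin ℝ u (s5dilCol δ) ((r : ℂ) * circleMap 0 1 θ))
      (s5dilCol δ) ((r : ℂ) * circleMap 0 1 θ) :=
    ((hu.differentiableOn (by simp)) _ (hm θ)).hasFDerivWithinAt
  have h2 : HasDerivAt (fun θ : ℝ => (r : ℂ) * circleMap 0 1 θ)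
      ((r : ℂ) * (circleMap 0 1 θ * Complex.I)) θ := (hasDerivAt_circleMap 0 1 θ).const_mul _
  have h3 := h1.comp_hasDerivAt θ h2 (Eventually.of_forall hm)
  have e : Complex.I * ((r : ℂ) * circleMap 0 1 θ) = (r : ℂ) * (circleMap 0 1 θ * Complex.I) := by
    ring
  unfold s5dilT
  rw [e]
  exact h3

theorem s5dil_circSm {δ r : ℝ} {u : ℂ → ℝ} (h0 : 0 ≤ δ) (hu : ContDiffOn ℝ ∞ u (s5dilCol δ))
    (hδ : δ < r) (hr : r ≤ 1) : CircSm fun ζ => ((u ((r : ℂ) * ζ) : ℝ) : ℂ) := by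
  unfold CircSm
  exact Complex.ofRealCLM.contDiff.comp
    (hu.comp_contDiff (contDiff_const.mul (contDiff_circleMap 0 1))
      fun θ => s5dil_mem_col h0 hδ hr (circleMap_mem_uCirc θ))

theorem s5dil_circSm_one {δ : ℝ} {u : ℂ → ℝ} (h0 : 0 ≤ δ) (hδ : δ < 1)
    (hu : ContDiffOn ℝ ∞ u (s5dilCol δ)) : CircSm fun ζ => ((u ζ : ℝ) : ℂ) := by
  have := s5dil_circSm h0 hu hδ le_rfl
  simpa using this

theorem s5dil_Dsq_sub_le {δ : ℝ} {u : ℂ → ℝ} (h0 : 0 ≤ δ) (hδ : δ < 1)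
    (hu : ContDiffOn ℝ ∞ u (s5dilCol δ)) {ε : ℝ} (hε : 0 < ε) :
    ∀ᶠ r : ℝ in 𝓝[<] 1,
      Dsq (fun ζ => ((u ((r : ℂ) * ζ) : ℝ) : ℂ) - ((u ζ : ℝ) : ℂ)) ≤ ε ^ 2 := by
  have hev : Set.Ioo δ 1 ∈ 𝓝[<] (1 : ℝ) := Ioo_mem_nhdsLT hδ
  filter_upwards [s5dil_unif h0 hδ (s5dil_continuousOn_T hu) hε, hev] with r hr hr'
  have s1 := s5dil_circSm h0 hu hr'.1 hr'.2.le
  have s2 := s5dil_circSm_one h0 hδ hu
  refine (s5p_Dsq_le_cA_dth (s1.sub s2)).trans ?_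
  rw [cA_eq_pavg]
  refine (le_abs_self _).trans ?_
  rw [← Real.norm_eq_abs]
  refine B14.norm_pavg_le fun θ => ?_
  show ‖‖dth (fun ζ => ((u ((r : ℂ) * ζ) : ℝ) : ℂ) - ((u ζ : ℝ) : ℂ)) (circleMap 0 1 θ)‖ ^ 2‖ ≤ _
  rw [dth_circleMap]
  have d1 := (s5dil_hasDerivAt h0 hu hr'.1 hr'.2.le θ).ofReal_comp
  have d2 := (s5dil_hasDerivAt h0 hu hδ le_rfl θ).ofReal_comp
  simp only [Complex.ofReal_one, one_mul] at d2
  have d3 : HasDerivAt (B14.bd fun ζ => ((u ((r : ℂ) * ζ) : ℝ) : ℂ) - ((u ζ : ℝ) : ℂ))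
      (((s5dilT δ u ((r : ℂ) * circleMap 0 1 θ) : ℝ) : ℂ) - ((s5dilT δ u (circleMap 0 1 θ) : ℝ) : ℂ))
      θ := d1.sub d2
  rw [d3.deriv, ← Complex.ofReal_sub, Complex.norm_real, Real.norm_eq_abs, Real.norm_eq_abs,
    sq_abs, abs_of_nonneg (sq_nonneg _)]
  have := hr _ (circleMap_mem_uCirc θ)
  rw [Real.norm_eq_abs] at this
  rw [← sq_abs]
  exact pow_le_pow_left₀ (abs_nonneg _) this 2

/-- `D²` of the dilations of a function which is smooth on a collar converges. -/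
theorem s5dil_tendsto_DsqR {δ : ℝ} {u : ℂ → ℝ} (h0 : 0 ≤ δ) (hδ : δ < 1)
    (hu : ContDiffOn ℝ ∞ u (s5dilCol δ)) :
    Tendsto (fun r : ℝ => DsqR fun ζ => u ((r : ℂ) * ζ)) (𝓝[<] 1) (𝓝 (DsqR u)) := by
  have h1 : Tendsto (fun r : ℝ => Real.sqrt (DsqR fun ζ => u ((r : ℂ) * ζ))) (𝓝[<] 1)
      (𝓝 (Real.sqrt (DsqR u))) := by
    rw [Metric.tendsto_nhds]
    intro ε hε
    have hev : Set.Ioo δ 1 ∈ 𝓝[<] (1 : ℝ) := Ioo_mem_nhdsLT hδ
    filter_upwards [s5dil_Dsq_sub_le h0 hδ hu (half_pos hε), hev] with r hr hr'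
    have s1 := (s5dil_circSm h0 hu hr'.1 hr'.2.le).circLip
    have s2 := (s5dil_circSm_one h0 hδ hu).circLip
    have h2 := s5p_abs_sqrt_Dsq_sub_le s1 s2
    have h3 : Real.sqrt (Dsq fun ζ => ((u ((r : ℂ) * ζ) : ℝ) : ℂ) - ((u ζ : ℝ) : ℂ)) ≤ ε / 2 :=
      Real.sqrt_le_iff.2 ⟨(half_pos hε).le, hr⟩
    rw [Real.dist_eq]
    exact lt_of_le_of_lt (h2.trans h3) (by linarith)
  have h2 := h1.pow 2
  simp only [Real.sq_sqrt (DsqR_nonneg _)] at h2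
  exact h2

/-! ### dilations of smooth discs -/

section Geo

variable {V' : Type} [NormedAddCommGroup V'] [NormedSpace ℝ V'] [FiniteDimensional ℝ V']
variable {κ : Type} [Fintype κ] [DecidableEq κ] {𝓧 : CMfd V' κ}

/-- a smooth function along a disc which is smooth on the closed disc. -/
theorem s5dil_contDiffOn_comp {f : ℂ → V'} (hf : IsSmDisc 𝓧 f) {v : V' → ℝ} (hv : 𝓧.Smooth v) :
    ContDiffOn ℝ ∞ (fun ζ => v (f ζ)) uDiscC := by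
  intro ζ hζ
  obtain ⟨Ψ, W, hΨ, hmem⟩ := 𝓧.cover _ (hf.2.2 ζ hζ)
  have hc : ContDiffWithinAt ℝ ∞ (Function.invFunOn Ψ W ∘ f) uDiscC ζ :=
    (𝓧.isParam hΨ).contDiffWithinAt_invFunOn_comp le_rfl (hf.2.1 ζ hζ) hf.2.2 hζ hmem
  have hvΨ : ContDiffAt ℝ ∞ (v ∘ Ψ) ((Function.invFunOn Ψ W ∘ f) ζ) :=
    (hv Ψ W hΨ _ (Function.invFunOn_mem hmem)).contDiffAt
      ((CMfd.isOpen_dom hΨ).mem_nhds (Function.invFunOn_mem hmem))
  have h1 := hvΨ.comp_contDiffWithinAt ζ hc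
  refine h1.congr_of_eventuallyEq ?_ ?_
  · filter_upwards [amb_eventually_mem_image (hf.2.1 ζ hζ).continuousWithinAt hf.2.2 hΨ hmem]
      with y hy
    show v (f y) = v (Ψ (Function.invFunOn Ψ W (f y)))
    rw [Function.invFunOn_eq hy]
  · show v (f ζ) = v (Ψ (Function.invFunOn Ψ W (f ζ)))
    rw [Function.invFunOn_eq hmem]

theorem s5dil_mapsTo_ball {r : ℝ} (h0 : 0 < r) :
    Set.MapsTo (fun ζ : ℂ => (r : ℂ) * ζ) (Metric.ball 0 (1 / r)) (Metric.ball 0 1) := by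
  intro ζ hζ
  rw [mem_ball_zero_iff] at hζ ⊢
  rw [s5dil_norm_mul h0.le]
  rw [lt_div_iff₀ h0] at hζ
  linarith

theorem s5dil_mapsTo_closedBall {r : ℝ} (h0 : 0 ≤ r) (h1 : r ≤ 1) :
    Set.MapsTo (fun ζ : ℂ => (r : ℂ) * ζ) uDiscC uDiscC := by
  intro ζ hζ
  rw [mem_closedBall_zero_iff] at hζ ⊢
  rw [s5dil_norm_mul h0]
  exact (mul_le_of_le_one_left (norm_nonneg _) h1).trans hζ

theorem s5dil_isHolDisc {f : ℂ → V'} (hf : IsSmDisc 𝓧 f) {r : ℝ} (h0 : 0 < r) :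
    IsHolDisc 𝓧 (fun ζ => f ((r : ℂ) * ζ)) (1 / r) :=
  S4.HolCurve.comp Metric.isOpen_ball hf.1 Metric.isOpen_ball
    ((differentiable_const _).mul differentiable_id).differentiableOn (s5dil_mapsTo_ball h0)

theorem s5dil_isSmDisc {f : ℂ → V'} (hf : IsSmDisc 𝓧 f) {r : ℝ} (h0 : 0 < r) (h1 : r ≤ 1) :
    IsSmDisc 𝓧 (fun ζ => f ((r : ℂ) * ζ)) := by
  refine ⟨?_, ?_, fun ζ hζ => hf.2.2 _ (s5dil_mapsTo_closedBall h0.le h1 hζ)⟩
  · exact S4.HolCurve.mono (s5dil_isHolDisc hf h0)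
      (Metric.ball_subset_ball (by rw [le_div_iff₀ h0]; linarith))
  · exact hf.2.1.comp (contDiff_const.mul contDiff_id).contDiffOn
      (s5dil_mapsTo_closedBall h0.le h1)

end Geo

/-! ### dilations of configurations -/

section Flow

variable {V : Type} [NormedAddCommGroup V] [InnerProductSpace ℝ V] [FiniteDimensional ℝ V]
variable [MeasurableSpace V] [BorelSpace V]
variable {n : ℕ} {𝓜 : CMfd V (Fin n)} {g : HFam V (Fin n)} {o : V}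
variable {D : FlowData 𝓜 g o} {𝒴 : CMfd (CotAmb V) (Fin n ⊕ Fin n)}
variable {X : S5Ctx V n} {𝔚 : Walls V} {T err A1 A2 : ℝ} {c : Config V n}

/-- the dilated configuration. -/
def s5dilCfg (c : Config V n) (r : ℝ) : Config V n :=
  ⟨c.p, c.s, fun ζ => c.f ((r : ℂ) * ζ), fun ζ => c.w ((r : ℂ) * ζ)⟩

theorem s5dilCfg_def (c : Config V n) (r : ℝ) : s5dilCfg c r =
    ⟨c.p, c.s, fun ζ => c.f ((r : ℂ) * ζ), fun ζ => c.w ((r : ℂ) * ζ)⟩ := s5dilCfg.eq_1 c r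

theorem s5dil_contDiffOn_pw (hY : IsCotangent 𝓜 𝒴) (hW : IsWalls 𝔚 D 𝒴 T err A1 A2)
    {f : ℂ → CotAmb V} (hf : IsSmDisc 𝒴 f) : ContDiffOn ℝ ∞ (fun ζ => 𝔚.pw (f ζ)) uDiscC :=
  (s5dil_contDiffOn_comp (S4.isSmDisc_base hY hf) hW.δ1_smooth).mul
    (s5dil_contDiffOn_comp hf hW.δ2_smooth)

theorem s5dil_col_subset (δ : ℝ) : s5dilCol δ ⊆ uDiscC := fun _ hζ =>
  mem_closedBall_zero_iff.2 hζ.2

theorem s5dil_area (I : InitialData 𝓜 g) (hY : IsCotangent 𝓜 𝒴) {f : ℂ → CotAmb V}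
    (hf : IsSmDisc 𝒴 f) :
    ∀ᶠ r : ℝ in 𝓝[<] 1, areaG 𝓜 g (fun ζ => f ((r : ℂ) * ζ)) ≤ areaG 𝓜 g f := by
  have h := S4.inClass_dilate (K := Set.univ) (A₀ := S4.darea 𝓜 g (fun ζ => (f ζ).1))
    I.kahler.toIsMetric (S4.isSmDisc_base hY hf) (fun _ _ => trivial) le_rfl isOpen_univ
    (Set.subset_univ _)
  filter_upwards [h] with r hr
  have := hr.area
  simp only [Complex.real_smul] at this
  exact this

theorem s5dil_DsqV {q : ℕ} {G : CotAmb V → CE (Fin q)} (hG : GImm 𝒴 G) {f : ℂ → CotAmb V}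
    (hf : IsSmDisc 𝒴 f) {r : ℝ} (h0 : 0 ≤ r) (h1 : r ≤ 1) :
    DsqV (fun ζ => (G (f ((r : ℂ) * ζ)) : Fin q → ℂ)) ≤ DsqV (fun ζ => (G (f ζ) : Fin q → ℂ)) :=
  Finset.sum_le_sum fun i _ => (hf.holSm_G hG i).Dsq_dilate_le h0 h1

theorem s5dil_continuousOn_time (hc : IsAdm X 𝔚 𝒴 c) : ContinuousOn c.time uDiscC := by
  unfold Config.time
  exact continuousOn_const.mul (Real.continuous_exp.comp_continuousOn
    (continuousOn_const.mul (Complex.continuous_re.comp_continuousOn hc.w_hol.2.continuousOn)))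

theorem s5dil_time_mem (hX : X.Valid D 𝒴) (hc : IsAdm X 𝔚 𝒴 c) {ζ : ℂ} (hζ : ζ ∈ uDiscC) :
    c.time ζ ∈ Set.Icc 0 X.T := by
  refine ⟨?_, (hc.time_lt ζ hζ).le⟩
  have h1 : 0 < c.s := lt_of_lt_of_le hX.s_lo hc.s_mem.1
  exact (mul_pos h1 (Real.exp_pos _)).le

/-- the boundary integrand is continuous on a collar on which `pw ∘ f > 0`. -/
theorem s5dil_continuousOn_cost (I : InitialData 𝓜 g) (hY : IsCotangent 𝓜 𝒴) (hX : X.Valid D 𝒴)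
    (hW : IsWalls 𝔚 D 𝒴 X.T err A1 A2) (hc : IsAdm X 𝔚 𝒴 c) {δ : ℝ}
    (hpos : ∀ ζ ∈ s5dilCol δ, 0 < 𝔚.pw (c.f ζ)) :
    ContinuousOn (fun ζ => 𝔚.cost D (c.f ζ) (c.time ζ)) (s5dilCol δ) := by
  have hsub := s5dil_col_subset δ
  have hf : ContinuousOn c.f uDiscC := hc.disc.2.1.continuousOn
  have hf1 : ContinuousOn (fun ζ => (c.f ζ).1) uDiscC := continuous_fst.comp_continuousOn hf
  have ht := s5dil_continuousOn_time hc
  have hbase : ∀ ζ ∈ uDiscC, (c.f ζ).1 ∈ 𝓜.carrier := (S4.isSmDisc_base hY hc.disc).2.2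
  have hN : ContinuousOn (fun ζ => D.N (c.f ζ) (c.time ζ)) uDiscC :=
    (S6.s6f_N_smoothST D I.kahler.toIsMetric hY).continuousOn.comp
      (f := fun ζ => ((c.time ζ, c.f ζ) : ℝ × CotAmb V)) (ht.prodMk hf)
      fun ζ hζ => ⟨(s5dil_time_mem hX hc hζ).1, hc.disc.2.2 ζ hζ⟩
  have hd0 : ContinuousOn (fun ζ => 𝔚.d0 (c.time ζ) (c.f ζ).1) uDiscC :=
    hW.d0_smooth.continuousOn.comp
      (f := fun ζ => ((c.time ζ, (c.f ζ).1) : ℝ × V)) (ht.prodMk hf1)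
      fun ζ hζ => ⟨s5dil_time_mem hX hc hζ, hbase ζ hζ⟩
  have h1 : ContinuousOn (fun ζ => 𝔚.δ1 (c.f ζ).1) uDiscC :=
    hW.δ1_smooth.continuousOn.comp hf1 hbase
  have h2 : ContinuousOn (fun ζ => 𝔚.δ2 (c.f ζ)) uDiscC :=
    hW.δ2_smooth.continuousOn.comp hf hc.disc.2.2
  have n1 : ∀ ζ ∈ s5dilCol δ, 𝔚.δ1 (c.f ζ).1 ≠ 0 := fun ζ hζ =>
    left_ne_zero_of_mul (hpos ζ hζ).ne'
  have n2 : ∀ ζ ∈ s5dilCol δ, 𝔚.δ2 (c.f ζ) ≠ 0 := fun ζ hζ =>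
    right_ne_zero_of_mul (hpos ζ hζ).ne'
  unfold Walls.cost Walls.dc Walls.kw
  exact (hN.mono hsub).add ((hd0.mono hsub).add
    ((((h1.mono hsub).inv₀ n1).sub continuousOn_const).add
      (((h2.mono hsub).inv₀ n2).sub continuousOn_const)))

theorem s5dil_contDiffOn_log (hY : IsCotangent 𝓜 𝒴) (hW : IsWalls 𝔚 D 𝒴 T err A1 A2)
    {f : ℂ → CotAmb V} (hf : IsSmDisc 𝒴 f) {δ : ℝ} (hpos : ∀ ζ ∈ s5dilCol δ, 0 < 𝔚.pw (f ζ)) :
    ContDiffOn ℝ ∞ (fun ζ => Real.log (𝔚.pw (f ζ))) (s5dilCol δ) :=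
  ((s5dil_contDiffOn_pw hY hW hf).mono (s5dil_col_subset δ)).log fun ζ hζ => (hpos ζ hζ).ne'

/-- the dilated configurations are admissible and extend past the circle. -/
theorem s5dil_isAdmX (hc : IsAdm X 𝔚 𝒴 c) {δ r : ℝ} (h0 : 0 ≤ δ)
    (hpos : ∀ ζ ∈ s5dilCol δ, 0 < 𝔚.pw (c.f ζ)) (hδ : δ < r) (hr : r < 1) :
    IsAdmX X 𝔚 𝒴 (s5dilCfg c r) := by
  have hr0 : 0 < r := lt_of_le_of_lt h0 hδ
  have hm := s5dil_mapsTo_closedBall hr0.le hr.le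
  refine ⟨⟨hc.p_mem, hc.s_mem, s5dil_isSmDisc hc.disc hr0 hr.le, hc.w_hol.dilate hr0.le hr.le,
    ?_, ?_, fun ζ hζ => hc.time_lt _ (hm hζ), fun ζ hζ => ?_⟩, 1 / r, ?_,
    s5dil_isHolDisc hc.disc hr0, ?_⟩
  · show c.f ((r : ℂ) * 0) = _
    rw [mul_zero]
    exact hc.f_zero
  · show c.w ((r : ℂ) * 0) = _
    rw [mul_zero]
    exact hc.w_zero
  · exact ⟨hc.disc.2.2 _ (hm (Metric.sphere_subset_closedBall hζ)),
      hpos _ (s5dil_mem_col h0 hδ hr.le hζ)⟩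
  · rw [lt_div_iff₀ hr0]
    linarith
  · exact hc.w_hol.1.comp ((differentiable_const _).mul differentiable_id).differentiableOn
      (s5dil_mapsTo_ball hr0)

/-- **dilation**: an admissible configuration is approximated, in the functional, by admissible
configurations which extend holomorphically past the circle. -/
theorem s5dil_main (I : InitialData 𝓜 g) (hY : IsCotangent 𝓜 𝒴) (hX : X.Valid D 𝒴)
    (hW : IsWalls 𝔚 D 𝒴 X.T err A1 A2) (hc : IsAdm X 𝔚 𝒴 c) {ε η : ℝ} (hε : 0 ≤ ε) (hη : 0 < η) :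
    ∃ c' : Config V n, IsAdmX X 𝔚 𝒴 c' ∧ fun5 X 𝔚 D ε c' ≤ fun5 X 𝔚 D ε c + η := by
  obtain ⟨δ, h0, hδ, hpos⟩ := s5dil_exists_collar
    (s5dil_contDiffOn_pw hY hW hc.disc).continuousOn fun ζ hζ => (hc.bdry ζ hζ).2
  have t1 := s5dil_tendsto_cA h0 hδ (s5dil_continuousOn_cost I hY hX hW hc hpos)
  have t2 := (s5dil_tendsto_DsqR h0 hδ (s5dil_contDiffOn_log hY hW hc.disc hpos)).const_mul ε
  have e1 := (tendsto_order.1 t1).2 _ (lt_add_of_pos_right _ (half_pos hη))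
  have e2 := (tendsto_order.1 t2).2 _ (lt_add_of_pos_right _ (half_pos hη))
  have hev : Set.Ioo δ 1 ∈ 𝓝[<] (1 : ℝ) := Ioo_mem_nhdsLT hδ
  obtain ⟨r, hr1, hr2, hr3, hr4⟩ := (e1.and (e2.and ((s5dil_area I hY hc.disc).and hev))).exists
  have hr0 : 0 ≤ r := h0.trans hr4.1.le
  refine ⟨s5dilCfg c r, s5dil_isAdmX hc h0 hpos hr4.1 hr4.2, ?_⟩
  have a1 := s5dil_DsqV hX.imm hc.disc hr0 hr4.2.le
  have a2 := hc.w_hol.Dsq_dilate_le hr0 hr4.2.le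
  have b1 : bdry5 𝔚 D (s5dilCfg c r) < bdry5 𝔚 D c + η / 2 := hr1
  have b2 : energy5 X 𝔚 𝓜 g (s5dilCfg c r) =
      areaG 𝓜 g (fun ζ => c.f ((r : ℂ) * ζ)) +
        DsqV (fun ζ => (X.G (c.f ((r : ℂ) * ζ)) : Fin X.q → ℂ)) + Dsq (fun ζ => c.w ((r : ℂ) * ζ)) +
        DsqR (fun ζ => Real.log (𝔚.pw (c.f ((r : ℂ) * ζ)))) := rfl
  have b3 : X.φ (s5dilCfg c r).s (s5dilCfg c r).p = X.φ c.s c.p := rfl
  unfold fun5
  rw [b2, b3]
  unfold energy5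
  have m1 := mul_le_mul_of_nonneg_left hr3 hε
  have m2 := mul_le_mul_of_nonneg_left a1 hε
  have m3 := mul_le_mul_of_nonneg_left a2 hε
  simp only [mul_add]
  linarith

end Flow

end Claimed.Agent.R316
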