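import Claimed.Agent.R316.S5.Factor
import Claimed.Agent.R316.S5.SympAlg

/-!
# Row 316, Section 5, auxiliary lemmas for `S5-E1`, `S5-E2` (`S5/Endgame.lean`): matrices and circle means
-/

set_option autoImplicit false
set_option linter.unusedSectionVars false
open scoped ContDiff ComplexOrder Topology Matrix
open MeasureTheory Filter

namespace Claimed.Agent.R316

section EndAux

variable {κ : Type} [Fintype κ] [DecidableEq κ]

theorem s5n_abs_qf_le (A : Matrix κ κ ℂ) (v : κ → ℂ) :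
    |qf A v| ≤ Real.sqrt (frobSq A) * ∑ k, ‖v k‖ ^ 2 := by
  have h1 : |qf A v| ≤ ‖star v ⬝ᵥ (A *ᵥ v)‖ := by
    rw [qf_def]
    exact Complex.abs_re_le_norm _
  have h2 := B14.norm_dotProduct_le v (A *ᵥ v)
  have h3 : Real.sqrt (B14.nsq (A *ᵥ v)) ≤ Real.sqrt (frobSq A) * Real.sqrt (B14.nsq v) := by
    rw [← Real.sqrt_mul (frobSq_nonneg A)]
    exact Real.sqrt_le_sqrt (B14.nsq_mulVec_le A v)
  have h4 : Real.sqrt (B14.nsq v) * Real.sqrt (B14.nsq v) = ∑ k, ‖v k‖ ^ 2 :=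
    Real.mul_self_sqrt (B14.nsq_nonneg v)
  calc |qf A v| ≤ Real.sqrt (B14.nsq v) * Real.sqrt (B14.nsq (A *ᵥ v)) := h1.trans h2
    _ ≤ Real.sqrt (B14.nsq v) * (Real.sqrt (frobSq A) * Real.sqrt (B14.nsq v)) := by gcongr
    _ = Real.sqrt (frobSq A) * (Real.sqrt (B14.nsq v) * Real.sqrt (B14.nsq v)) := by ring
    _ = Real.sqrt (frobSq A) * ∑ k, ‖v k‖ ^ 2 := by rw [h4]

theorem s5n_frobSq_le_of_entries {A : Matrix κ κ ℂ} {c : ℝ} (h : ∀ i j, ‖A i j‖ ≤ c) :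
    frobSq A ≤ ((Fintype.card κ : ℝ) * c) ^ 2 := by
  unfold frobSq
  calc ∑ j, ∑ k, ‖A j k‖ ^ 2 ≤ ∑ _j : κ, ∑ _k : κ, c ^ 2 :=
        Finset.sum_le_sum fun j _ => Finset.sum_le_sum fun k _ =>
          pow_le_pow_left₀ (norm_nonneg _) (h j k) 2
    _ = ((Fintype.card κ : ℝ) * c) ^ 2 := by
        simp only [Finset.sum_const, Finset.card_univ, nsmul_eq_mul]
        ring

theorem s5n_sqrt_frobSq_le_of_entries {A : Matrix κ κ ℂ} {c : ℝ} (hc : 0 ≤ c)
    (h : ∀ i j, ‖A i j‖ ≤ c) : Real.sqrt (frobSq A) ≤ (Fintype.card κ : ℝ) * c :=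
  Real.sqrt_le_iff.2 ⟨by positivity, s5n_frobSq_le_of_entries h⟩

theorem s5n_norm_entry_le (A : Matrix κ κ ℂ) (i j : κ) : ‖A i j‖ ≤ Real.sqrt (frobSq A) :=
  Real.le_sqrt_of_sq_le (norm_entry_sq_le_frobSq A i j)

theorem s5n_frobSq_smul_one (c : ℝ) :
    frobSq (((c : ℝ) : ℂ) • (1 : Matrix κ κ ℂ)) = (Fintype.card κ : ℝ) * c ^ 2 := by
  rw [B14.frobSq_smul]
  have h1 : frobSq (1 : Matrix κ κ ℂ) = Fintype.card κ := by
    rw [frobSq_eq_trace]
    simp
  rw [h1, Complex.norm_real, Real.norm_eq_abs, sq_abs]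
  ring

theorem s5n_sqrt_frobSq_smul_one_le {c : ℝ} (hc : 0 ≤ c) :
    Real.sqrt (frobSq (((c : ℝ) : ℂ) • (1 : Matrix κ κ ℂ))) ≤ (Fintype.card κ : ℝ) * c := by
  refine Real.sqrt_le_iff.2 ⟨by positivity, ?_⟩
  rw [s5n_frobSq_smul_one, mul_pow]
  have h1 : (Fintype.card κ : ℝ) ≤ (Fintype.card κ : ℝ) ^ 2 := by
    have : (Fintype.card κ : ℕ) ≤ (Fintype.card κ) ^ 2 := Nat.le_self_pow two_ne_zero _
    exact_mod_cast this
  have h2 : 0 ≤ c ^ 2 := by positivity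
  exact mul_le_mul_of_nonneg_right h1 h2

theorem s5n_trace_conj_eq_sum (A B : Matrix κ κ ℂ) :
    (Bᴴ * A * B).trace.re = ∑ i, qf A fun k => B k i := by
  rw [trace_re_eq_sum_qf]
  refine Finset.sum_congr rfl fun i _ => ?_
  rw [qf_conj]
  congr 1
  funext k
  simp [Matrix.mulVec_single_one]

/-- `tr S² ≤ n t² + tr S³ / t` for positive semidefinite `S`. -/
theorem s5n_frobSq_le_cube {S : Matrix κ κ ℂ} (hS : S.PosSemidef) {t : ℝ} (ht : 0 < t) :
    frobSq S ≤ (Fintype.card κ : ℝ) * t ^ 2 + (S * S * S).trace.re / t := by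
  obtain ⟨U, d, h1, h2, h3⟩ := exists_unitary_diag hS.1
  set D : Matrix κ κ ℂ := Matrix.diagonal fun i => ((d i : ℝ) : ℂ) with hD
  have hSe : S = U * D * Uᴴ := eq_of_unitary_diag h2 h3
  have hd : ∀ i, 0 ≤ d i := by
    intro i
    have h4 : (Uᴴ * S * U).PosSemidef := hS.conjTranspose_mul_mul_same U
    rw [h3] at h4
    have := posSemidef_diag_re_nonneg h4 i
    simpa [hD] using this
  have e2 : S * S = U * (D * D) * Uᴴ := by
    calc S * S = U * D * (Uᴴ * U) * D * Uᴴ := by rw [hSe]; simp only [Matrix.mul_assoc]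
      _ = U * (D * D) * Uᴴ := by rw [h1]; simp only [Matrix.mul_one, Matrix.mul_assoc]
  have e3 : S * S * S = U * (D * D * D) * Uᴴ := by
    calc S * S * S = U * (D * D) * (Uᴴ * U) * D * Uᴴ := by
          rw [e2]
          conv_lhs => rw [hSe]
          simp only [Matrix.mul_assoc]
      _ = U * (D * D * D) * Uᴴ := by rw [h1]; simp only [Matrix.mul_one, Matrix.mul_assoc]
  have tr : ∀ X : Matrix κ κ ℂ, (U * X * Uᴴ).trace = X.trace := by
    intro X
    rw [Matrix.trace_mul_comm, ← Matrix.mul_assoc, h1, Matrix.one_mul]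
  have t2 : frobSq S = ∑ i, d i ^ 2 := by
    rw [frobSq_of_isHermitian hS.1, e2, tr, hD, Matrix.diagonal_mul_diagonal, Matrix.trace_diagonal]
    rw [Complex.re_sum]
    refine Finset.sum_congr rfl fun i _ => ?_
    rw [← Complex.ofReal_mul, Complex.ofReal_re]
    ring
  have t3 : (S * S * S).trace.re = ∑ i, d i ^ 3 := by
    rw [e3, tr, hD, Matrix.diagonal_mul_diagonal, Matrix.diagonal_mul_diagonal,
      Matrix.trace_diagonal, Complex.re_sum]
    refine Finset.sum_congr rfl fun i _ => ?_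
    rw [← Complex.ofReal_mul, ← Complex.ofReal_mul, Complex.ofReal_re]
    ring
  rw [t2, t3, Finset.sum_div]
  have h5 : ∀ i, d i ^ 2 ≤ t ^ 2 + d i ^ 3 / t := by
    intro i
    have hx := hd i
    rcases le_total (d i) t with h | h
    · have : d i ^ 2 ≤ t ^ 2 := pow_le_pow_left₀ hx h 2
      have h6 : 0 ≤ d i ^ 3 / t := by positivity
      linarith
    · have h6 : d i ^ 2 ≤ d i ^ 3 / t := by
        rw [le_div_iff₀ ht]
        have : d i ^ 2 * t ≤ d i ^ 2 * d i := by gcongr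
        nlinarith
      have : 0 ≤ t ^ 2 := by positivity
      linarith
  calc ∑ i, d i ^ 2 ≤ ∑ i, (t ^ 2 + d i ^ 3 / t) := Finset.sum_le_sum fun i _ => h5 i
    _ = (Fintype.card κ : ℝ) * t ^ 2 + ∑ i, d i ^ 3 / t := by
        rw [Finset.sum_add_distrib]
        simp

/-- Jensen: `⟨f⟩² ≤ ⟨f²⟩`. -/
theorem s5n_pavg_sq_le {f : ℝ → ℝ} (hf : Continuous f) :
    B14.pavg f ^ 2 ≤ B14.pavg fun θ => f θ ^ 2 := by
  set m := B14.pavg f with hm
  have h0 : 0 ≤ B14.pavg fun θ => (f θ - m) ^ 2 := B14.pavg_nonneg fun θ => sq_nonneg _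
  have e : (fun θ => (f θ - m) ^ 2) = fun θ => (f θ ^ 2 + (-(2 * m)) * f θ) + m ^ 2 := by
    funext θ
    ring
  have c1 : Continuous fun θ => f θ ^ 2 := hf.pow 2
  have c2 : Continuous fun θ => (-(2 * m)) * f θ := continuous_const.mul hf
  have c3 : Continuous fun θ => f θ ^ 2 + (-(2 * m)) * f θ := c1.add c2
  rw [e, B14.pavg_add c3 continuous_const, B14.pavg_add c1 c2, B14.pavg_const_mul_real,
    B14.pavg_const, ← hm] at h0
  nlinarith

theorem s5n_pavg_le_sqrt {f : ℝ → ℝ} (hf : Continuous f) :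
    B14.pavg f ≤ Real.sqrt (B14.pavg fun θ => f θ ^ 2) :=
  Real.le_sqrt_of_sq_le (s5n_pavg_sq_le hf)

end EndAux

end Claimed.Agent.R316
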