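import Claimed.Agent.R316.Pack007
import Claimed.Agent.R316.S5.Circle

/-!
# Row 316, Section 5, package `S5-F`: boundary factorisation (Lemma 4.4, Wiener-Masani) and the
corona problem with loss (proof of Lemma 5.2, "Realization of the first field")

## Factorisation: PROVED here from `B14/WM*.lean` (`B14.wm_factor`, `wm_sup_H`, `wm_sup_Hi`, `wm_hsq_H`, `wm_hsq_Hi`) through the dictionary of `Circle.lean`.
-/

set_option autoImplicit false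
open scoped ContDiff ComplexOrder Topology Matrix
open MeasureTheory Filter

namespace Claimed.Agent.R316

section Factor

variable {ι : Type} [Fintype ι] [DecidableEq ι]

/-- spectral bounds `m I ≤ L ≤ M I` on the circle, `L` Hermitian. -/
structure SpecBd (L : ℂ → Matrix ι ι ℂ) (m M : ℝ) : Prop where
  herm : ∀ ζ ∈ uCirc, (L ζ).IsHermitian
  lower : ∀ ζ ∈ uCirc, ∀ v : ι → ℂ, m * ∑ i, ‖v i‖ ^ 2 ≤ qf (L ζ) v
  upper : ∀ ζ ∈ uCirc, ∀ v : ι → ℂ, qf (L ζ) v ≤ M * ∑ i, ‖v i‖ ^ 2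

/-- `H`, `Hi` is a holomorphic factorisation of `L`. -/
structure IsFactor (L H Hi : ℂ → Matrix ι ι ℂ) : Prop where
  H_hol : ∀ i j, HolSm fun ζ => H ζ i j
  Hi_hol : ∀ i j, HolSm fun ζ => Hi ζ i j
  inv : ∀ ζ ∈ uDiscC, H ζ * Hi ζ = 1
  eq : ∀ ζ ∈ uCirc, L ζ = (H ζ)ᴴ * H ζ

theorem SpecBd.lower_psd {L : ℂ → Matrix ι ι ℂ} {m M : ℝ} (hS : SpecBd L m M) (θ : ℝ) :
    (B14.bd L θ - ((m : ℝ) : ℂ) • (1 : Matrix ι ι ℂ)).PosSemidef := by
  have hθ := circleMap_mem_uCirc θ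
  have h1 : (((m : ℝ) : ℂ) • (1 : Matrix ι ι ℂ)).IsHermitian := by
    simp [Matrix.IsHermitian, Matrix.conjTranspose_smul]
  refine (posSemidef_sub_iff_qf h1 (hS.herm _ hθ)).2 fun v => ?_
  rw [qf_smul, qf_one]
  exact hS.lower _ hθ v

theorem SpecBd.upper_psd {L : ℂ → Matrix ι ι ℂ} {m M : ℝ} (hS : SpecBd L m M) (θ : ℝ) :
    (((M : ℝ) : ℂ) • (1 : Matrix ι ι ℂ) - B14.bd L θ).PosSemidef := by
  have hθ := circleMap_mem_uCirc θ
  have h1 : (((M : ℝ) : ℂ) • (1 : Matrix ι ι ℂ)).IsHermitian := by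
    simp [Matrix.IsHermitian, Matrix.conjTranspose_smul]
  refine (posSemidef_sub_iff_qf (hS.herm _ hθ) h1).2 fun v => ?_
  rw [qf_smul, qf_one]
  exact hS.upper _ hθ v

theorem IsFactor.inv' {L H Hi : ℂ → Matrix ι ι ℂ} (hF : IsFactor L H Hi) :
    ∀ ζ ∈ uDiscC, Hi ζ * H ζ = 1 := fun ζ hζ => mul_eq_one_comm.1 (hF.inv ζ hζ)

theorem IsFactor.bd_eq {L H Hi : ℂ → Matrix ι ι ℂ} (hF : IsFactor L H Hi) (θ : ℝ) :
    (B14.bd H θ)ᴴ * B14.bd H θ = B14.bd L θ := (hF.eq _ (circleMap_mem_uCirc θ)).symm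

/-- existence of the factorisation (`B14.wm_factor`). -/
theorem exists_factor {L : ℂ → Matrix ι ι ℂ} {m M : ℝ} (hm : 0 < m)
    (hL : ∀ i j, CircSm fun ζ => L ζ i j) (hS : SpecBd L m M) :
    ∃ H Hi : ℂ → Matrix ι ι ℂ, IsFactor L H Hi := by
  obtain ⟨H, Hi, h1, h2, h3, _, h5⟩ := B14.wm_factor (L := B14.bd L) hm
    (fun i j => circSm_iff.1 (hL i j)) (fun θ => hS.herm _ (circleMap_mem_uCirc θ)) hS.lower_psd
  refine ⟨H, Hi, fun i j => holSm_of_b14 (h1 i j), fun i j => holSm_of_b14 (h2 i j), h3, ?_⟩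
  exact forall_uCirc_iff.2 fun θ => (h5 θ).symm

/-- (4.9). -/
theorem factor_sup_le {L H Hi : ℂ → Matrix ι ι ℂ} {m M : ℝ} (hm : 0 < m) (hS : SpecBd L m M)
    (hF : IsFactor L H Hi) :
    (∀ ζ ∈ uDiscC, ∀ v : ι → ℂ, ∑ i, ‖(H ζ *ᵥ v) i‖ ^ 2 ≤ M * ∑ i, ‖v i‖ ^ 2) ∧
    (∀ ζ ∈ uDiscC, ∀ v : ι → ℂ, ∑ i, ‖(Hi ζ *ᵥ v) i‖ ^ 2 ≤ m⁻¹ * ∑ i, ‖v i‖ ^ 2) := by
  constructor
  · intro ζ hζ v
    have h := B14.wm_sup_H (fun a b => (hF.H_hol a b).toB14) hF.bd_eq hS.upper_psd hζ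
    have h2 := B14.qf_le_of_loewner h v
    rwa [B14.qf_conjTranspose_mul_self] at h2
  · intro ζ hζ v
    have h := B14.wm_sup_Hi hm (fun a b => (hF.Hi_hol a b).toB14) hF.inv hF.bd_eq hS.lower_psd hζ
    have h2 := B14.qf_le_of_loewner h v
    rwa [B14.qf_conjTranspose_mul_self] at h2

/-- (4.10). -/
theorem factor_Dsq_le {L H Hi : ℂ → Matrix ι ι ℂ} {m M : ℝ} (hm : 0 < m)
    (hS : SpecBd L m M) (hF : IsFactor L H Hi) :
    DsqM H ≤ M / (2 * m ^ 2) * DsqM L ∧ DsqM Hi ≤ 1 / (2 * m ^ 3) * DsqM L := by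
  rw [DsqM_eq_hsqM, DsqM_eq_hsqM, DsqM_eq_hsqM]
  exact ⟨B14.wm_hsq_H hm (fun a b => (hF.H_hol a b).toB14) (fun a b => (hF.Hi_hol a b).toB14)
      hF.inv hF.inv' hF.bd_eq hS.lower_psd hS.upper_psd,
    B14.wm_hsq_Hi hm (fun a b => (hF.H_hol a b).toB14) (fun a b => (hF.Hi_hol a b).toB14)
      hF.inv hF.inv' hF.bd_eq hS.lower_psd⟩

/-- **Lemma 4.4**. -/
theorem wiener_masani {L : ℂ → Matrix ι ι ℂ} {m M : ℝ} (hm : 0 < m)
    (hL : ∀ i j, CircSm fun ζ => L ζ i j) (hS : SpecBd L m M) :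
    ∃ H Hi : ℂ → Matrix ι ι ℂ, IsFactor L H Hi ∧
      (∀ ζ ∈ uDiscC, ∀ v : ι → ℂ, ∑ i, ‖(H ζ *ᵥ v) i‖ ^ 2 ≤ M * ∑ i, ‖v i‖ ^ 2) ∧
      (∀ ζ ∈ uDiscC, ∀ v : ι → ℂ, ∑ i, ‖(Hi ζ *ᵥ v) i‖ ^ 2 ≤ m⁻¹ * ∑ i, ‖v i‖ ^ 2) ∧
      DsqM H ≤ M / (2 * m ^ 2) * DsqM L ∧ DsqM Hi ≤ 1 / (2 * m ^ 3) * DsqM L := by
  obtain ⟨H, Hi, hF⟩ := exists_factor hm hL hS
  exact ⟨H, Hi, hF, (factor_sup_le hm hS hF).1, (factor_sup_le hm hS hF).2,
    (factor_Dsq_le hm hS hF).1, (factor_Dsq_le hm hS hF).2⟩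

end Factor

/-!
## Corona with loss

* `S5-F4` `dbar_trace`: the boundary trace of the Cauchy transform, built from its Fourier
  coefficients `Q_{-k-1} = π⁻¹ ∫_Δ b ζ^k` (`moments_decay`, `exists_circSm_of_decay`, `bessel_disc`); the
  pairing identity by expanding the holomorphic test function in its power series.
* `S5-F5` `corona_loss`: `σ_i = conj a_i / |a|²`, `b_{ik} = σ_i ∂̄σ_k - σ_k ∂̄σ_i`
  (`∫|b|² ≤ C(c₀) ∑ D(a_k)²` by `HolSm.Dsq_eq_integral`), `Q_{ik}` from `dbar_trace` (take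
  `Q_{ki} = - Q_{ik}`), `g_i = σ_i + ∑ Q_{ik} a_k` on the circle has no negative frequency
  (`integral_dbar1` for `ζ^k σ_i` and the pairing identity, `∂̄σ_i + ∑_k b_{ik} a_k = 0`), `∑ g_i a_i = 1`;
  `α` outer with modulus `(1 + |Q|²/P)⁻¹` (`exists_outer_le_one`), `γ_i = α g_i`; estimates as in the
  paper with `Dsq_le_of_diff`.
* `S5-F6` `cauchy_binet_sum`, `left_inverse_loss` (minors + adjugates).
-/

section Corona

/-- the index map `k ↦ -(k+1)`. -/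
theorem s5f_neg_injective : Function.Injective fun k : ℕ => -((k : ℤ) + 1) := by
  intro a b h
  simp only at h
  omega

theorem s5f_not_range {j : ℤ} (hj : j ∉ Set.range fun k : ℕ => -((k : ℤ) + 1)) : 0 ≤ j := by
  by_contra h
  exact hj ⟨(-j - 1).toNat, by simp only; omega⟩

/-- the Fourier coefficients of the trace. -/
noncomputable def s5f_c (β : ℕ → ℂ) (j : ℤ) : ℂ := if j < 0 then β (-j - 1).toNat else 0

theorem s5f_c_neg (β : ℕ → ℂ) (k : ℕ) : s5f_c β (-((k : ℤ) + 1)) = β k := by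
  unfold s5f_c
  rw [if_pos (by omega)]
  congr 1
  omega

theorem s5f_c_nonneg (β : ℕ → ℂ) {j : ℤ} (hj : 0 ≤ j) : s5f_c β j = 0 := by
  unfold s5f_c
  rw [if_neg (by omega)]

theorem s5f_c_decay {β : ℕ → ℂ} (hβ : ∀ N : ℕ, ∃ C : ℝ, ∀ k : ℕ, ‖β k‖ * (1 + (k : ℝ)) ^ N ≤ C)
    (N : ℕ) : ∃ C : ℝ, ∀ j : ℤ, ‖s5f_c β j‖ * (1 + |(j : ℝ)|) ^ N ≤ C := by
  obtain ⟨C, hC⟩ := hβ N
  have hC0 : 0 ≤ C := le_trans (by positivity) (hC 0)
  refine ⟨2 ^ N * C, fun j => ?_⟩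
  by_cases hj : 0 ≤ j
  · rw [s5f_c_nonneg β hj, norm_zero, zero_mul]
    positivity
  · obtain ⟨k, rfl⟩ : ∃ k : ℕ, j = -((k : ℤ) + 1) := ⟨(-j - 1).toNat, by omega⟩
    rw [s5f_c_neg]
    have e : |((-((k : ℤ) + 1) : ℤ) : ℝ)| = (k : ℝ) + 1 := by
      push_cast
      rw [abs_neg, abs_of_nonneg (by positivity)]
    rw [e]
    have h1 : (1 + ((k : ℝ) + 1)) ^ N ≤ (2 * (1 + (k : ℝ))) ^ N :=
      pow_le_pow_left₀ (by positivity) (by linarith [(Nat.cast_nonneg k : (0 : ℝ) ≤ k)]) N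
    calc ‖β k‖ * (1 + ((k : ℝ) + 1)) ^ N ≤ ‖β k‖ * (2 * (1 + (k : ℝ))) ^ N :=
          mul_le_mul_of_nonneg_left h1 (norm_nonneg _)
      _ = 2 ^ N * (‖β k‖ * (1 + (k : ℝ)) ^ N) := by rw [mul_pow]; ring
      _ ≤ 2 ^ N * C := mul_le_mul_of_nonneg_left (hC k) (by positivity)

/-- expansion of the area pairing with a holomorphic test function. -/
theorem s5f_hasSum_pairing {b e : ℂ → ℂ} (hb : ContinuousOn b uDiscC) (he : HolSm e) :
    HasSum (fun n : ℕ => fco e n * ∫ ζ in uDisc, b ζ * ζ ^ n) (∫ ζ in uDisc, b ζ * e ζ) := by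
  obtain ⟨B, hB⟩ := (isCompact_closedBall (0 : ℂ) 1).exists_bound_of_continuousOn hb
  have hB0 : 0 ≤ B := (norm_nonneg _).trans (hB 0 (by simp))
  have hs : Summable fun n : ℕ => ‖fco e n‖ := by
    have := he.toB14.rapidN.summable_norm
    simpa only [← fco_eq_fc] using this
  have hfin : IsFiniteMeasure (volume.restrict uDisc) :=
    ⟨by rw [Measure.restrict_apply_univ]; exact measure_ball_lt_top⟩
  have hle1 : ∀ ζ ∈ uDisc, ‖ζ‖ ≤ 1 := fun ζ hζ => by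
    rw [mem_ball_zero_iff] at hζ
    exact hζ.le
  have h := hasSum_integral_of_dominated_convergence (μ := volume.restrict uDisc)
    (F := fun (n : ℕ) ζ => b ζ * (fco e n * ζ ^ n)) (f := fun ζ => b ζ * e ζ)
    (fun n _ => B * ‖fco e n‖) (fun n => ?_) (fun n => ?_) ?_ ?_ ?_
  · have e1 : (fun n : ℕ => fco e n * ∫ ζ in uDisc, b ζ * ζ ^ n) =
        fun n : ℕ => ∫ ζ in uDisc, b ζ * (fco e n * ζ ^ n) := by
      funext n
      rw [← integral_const_mul]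
      congr 1
      funext ζ
      ring
    rw [e1]
    exact h
  · refine ContinuousOn.aestronglyMeasurable ?_ measurableSet_ball
    exact (hb.mono Metric.ball_subset_closedBall).mul
      (continuous_const.mul (continuous_pow n)).continuousOn
  · refine (ae_restrict_iff' measurableSet_ball).2 (Eventually.of_forall fun ζ hζ => ?_)
    rw [norm_mul, norm_mul, norm_pow]
    have h1 : ‖fco e n‖ * ‖ζ‖ ^ n ≤ ‖fco e n‖ :=
      mul_le_of_le_one_right (norm_nonneg _) (pow_le_one₀ (norm_nonneg _) (hle1 ζ hζ))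
    exact mul_le_mul (hB ζ (Metric.ball_subset_closedBall hζ)) h1 (by positivity) hB0
  · exact Eventually.of_forall fun _ => hs.mul_left B
  · exact integrable_const _
  · refine (ae_restrict_iff' measurableSet_ball).2 (Eventually.of_forall fun ζ hζ => ?_)
    exact (he.hasSum_fco (Metric.ball_subset_closedBall hζ)).mul_left (b ζ)

/-- trace of a solution of `∂̄ Q = b`. -/
theorem dbar_trace {b : ℂ → ℂ} (hb : ContDiffOn ℝ ∞ b uDiscC) :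
    ∃ Q : ℂ → ℂ, CircSm Q ∧
      (∀ e : ℂ → ℂ, HolSm e → cA (fun ζ => ζ * e ζ * Q ζ) =
        (Real.pi⁻¹ : ℂ) * ∫ ζ in uDisc, b ζ * e ζ) ∧
      Dsq Q ≤ Real.pi⁻¹ * ∫ ζ in uDisc, ‖b ζ‖ ^ 2 ∧
      cA (fun ζ => ‖Q ζ‖ ^ 2) ≤ Real.pi⁻¹ * ∫ ζ in uDisc, ‖b ζ‖ ^ 2 := by
  set β : ℕ → ℂ := fun k => (Real.pi⁻¹ : ℂ) * ∫ ζ in uDisc, b ζ * ζ ^ k with hβ
  have hπ : (0 : ℝ) < Real.pi⁻¹ := inv_pos.2 Real.pi_pos
  have hdec : ∀ N : ℕ, ∃ C : ℝ, ∀ k : ℕ, ‖β k‖ * (1 + (k : ℝ)) ^ N ≤ C := by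
    intro N
    obtain ⟨C, hC⟩ := moments_decay hb N
    refine ⟨Real.pi⁻¹ * C, fun k => ?_⟩
    have e : ‖β k‖ = Real.pi⁻¹ * ‖∫ ζ in uDisc, b ζ * ζ ^ k‖ := by
      rw [hβ, norm_mul, norm_inv, Complex.norm_real, Real.norm_eq_abs, abs_of_pos Real.pi_pos]
    rw [e, mul_assoc]
    exact mul_le_mul_of_nonneg_left (hC k) hπ.le
  obtain ⟨Q, hQ, hQc⟩ := exists_circSm_of_decay (s5f_c β) (s5f_c_decay hdec)
  obtain ⟨hbs, hbl⟩ := bessel_disc hb.continuousOn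
  have hQcont : ContinuousOn Q uCirc := hQ.circLip.continuousOn
  refine ⟨Q, hQ, fun e he => ?_, ?_, ?_⟩
  · -- the pairing
    have hc1 : Continuous (B14.bd fun ζ => ζ * e ζ) := (circSm_id.mul he.circSm).continuous
    have hc2 : Continuous (B14.bd Q) := hQ.continuous
    have h1 := B14.hasSum_fc_mul_fc_neg hc1 hc2
    simp only [← fco_eq_fc, hQc] at h1
    have hinj : Function.Injective fun n : ℕ => ((n : ℤ) + 1) := by
      intro a b h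
      have h' : (a : ℤ) + 1 = (b : ℤ) + 1 := h
      omega
    have h2 : HasSum ((fun k : ℤ => fco (fun ζ => ζ * e ζ) k * s5f_c β (-k)) ∘
        fun n : ℕ => ((n : ℤ) + 1)) (B14.pavg fun θ => B14.bd (fun ζ => ζ * e ζ) θ * B14.bd Q θ) := by
      refine (hinj.hasSum_iff fun k hk => ?_).2 h1
      have hk' : k ≤ 0 := by
        by_contra hh
        exact hk ⟨(k - 1).toNat, by show (((k - 1).toNat : ℕ) : ℤ) + 1 = k; omega⟩
      rw [s5f_c_nonneg β (by omega), mul_zero]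
    have h3 := (s5f_hasSum_pairing hb.continuousOn he).mul_left (Real.pi⁻¹ : ℂ)
    refine h2.unique ?_
    have e0 : ((fun k : ℤ => fco (fun ζ => ζ * e ζ) k * s5f_c β (-k)) ∘
        fun n : ℕ => ((n : ℤ) + 1)) =
        fun n : ℕ => (Real.pi⁻¹ : ℂ) * (fco e n * ∫ ζ in uDisc, b ζ * ζ ^ n) := by
      funext n
      have e1 : fco (fun ζ => ζ * e ζ) ((n : ℤ) + 1) = fco e n := by
        have := fco_zpow_mul e 1 ((n : ℤ) + 1)
        simp only [zpow_one, add_sub_cancel_right] at this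
        exact this
      show fco (fun ζ => ζ * e ζ) ((n : ℤ) + 1) * s5f_c β (-((n : ℤ) + 1)) = _
      rw [e1, s5f_c_neg, hβ]
      ring
    rw [e0]
    exact h3
  · -- the seminorm
    unfold Dsq
    simp only [hQc]
    rw [← s5f_neg_injective.tsum_eq (f := fun k : ℤ => |(k : ℝ)| * ‖s5f_c β k‖ ^ 2) (by
      intro j hj
      by_contra hr
      exact hj (by simp only [s5f_c_nonneg β (s5f_not_range hr)]; simp))]
    refine le_trans (le_of_eq ?_) hbl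
    refine tsum_congr fun k => ?_
    rw [s5f_c_neg]
    congr 1
    push_cast
    rw [abs_neg, abs_of_nonneg (by positivity)]
  · -- the `L²` norm
    have h1 := (hasSum_normSq_fco hQcont).tsum_eq
    simp only [hQc] at h1
    rw [← h1, ← s5f_neg_injective.tsum_eq (f := fun k : ℤ => ‖s5f_c β k‖ ^ 2) (by
      intro j hj
      by_contra hr
      exact hj (by simp only [s5f_c_nonneg β (s5f_not_range hr)]; simp))]
    refine le_trans ?_ hbl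
    simp only [s5f_c_neg]
    have hbs' : Summable fun k : ℕ => ((k : ℝ) + 1) * ‖β k‖ ^ 2 := by
      simpa only [hβ, Complex.ofReal_inv] using hbs
    have hle : ∀ k : ℕ, ‖β k‖ ^ 2 ≤ ((k : ℝ) + 1) * ‖β k‖ ^ 2 := fun k => by
      have : (0 : ℝ) ≤ (k : ℝ) := Nat.cast_nonneg k
      nlinarith [sq_nonneg ‖β k‖]
    exact Summable.tsum_le_tsum hle
      (Summable.of_nonneg_of_le (fun k => sq_nonneg _) hle hbs') hbs'

/-- properties of the loss factor `α`. -/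
structure IsLoss (α : ℂ → ℂ) (η : ℝ) : Prop where
  hol : HolSm α
  le_one : ∀ ζ ∈ uDiscC, ‖α ζ‖ ≤ 1
  D_le : Dsq α ≤ 1
  avg : cA (fun ζ => 1 - ‖α ζ‖ ^ 2) ≤ η
  zero : 1 - η ≤ ‖α 0‖ ^ 2

section CoronaAlg

variable {J : Type} [Fintype J]

/-- `S = ∑ |x_k|²`. -/
noncomputable def s5f_S (x : J → ℂ) : ℂ := ∑ k, x k * (starRingEnd ℂ) (x k)

/-- `σ_i = conj x_i / S`. -/
noncomputable def s5f_sig (x : J → ℂ) (i : J) : ℂ := (starRingEnd ℂ) (x i) / s5f_S x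

/-- `∂̄ S`. -/
noncomputable def s5f_T (x y : J → ℂ) : ℂ := ∑ k, x k * (starRingEnd ℂ) (y k)

/-- `∂̄ σ_i`. -/
noncomputable def s5f_tau (x y : J → ℂ) (i : J) : ℂ :=
  (starRingEnd ℂ) (y i) / s5f_S x - (starRingEnd ℂ) (x i) * s5f_T x y / s5f_S x ^ 2

/-- the Koszul coefficients. -/
noncomputable def s5f_b (x y : J → ℂ) (i k : J) : ℂ :=
  s5f_sig x i * s5f_tau x y k - s5f_sig x k * s5f_tau x y i

theorem s5f_S_eq (x : J → ℂ) : s5f_S x = ((∑ k, ‖x k‖ ^ 2 : ℝ) : ℂ) := by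
  unfold s5f_S
  push_cast
  refine Finset.sum_congr rfl fun k _ => ?_
  rw [Complex.mul_conj, Complex.normSq_eq_norm_sq]
  push_cast
  rfl

theorem s5f_norm_S (x : J → ℂ) : ‖s5f_S x‖ = ∑ k, ‖x k‖ ^ 2 := by
  rw [s5f_S_eq, Complex.norm_real, Real.norm_eq_abs,
    abs_of_nonneg (Finset.sum_nonneg fun _ _ => sq_nonneg _)]

theorem s5f_S_ne_zero {x : J → ℂ} {c₀ : ℝ} (hc : 0 < c₀) (h : c₀ ≤ ∑ k, ‖x k‖ ^ 2) :
    s5f_S x ≠ 0 := by
  rw [← norm_pos_iff, s5f_norm_S]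
  exact lt_of_lt_of_le hc h

theorem s5f_sum_sig {x : J → ℂ} (hS : s5f_S x ≠ 0) : ∑ k, x k * s5f_sig x k = 1 := by
  unfold s5f_sig
  simp only [← mul_div_assoc, ← Finset.sum_div]
  exact div_self hS

theorem s5f_sum_tau {x : J → ℂ} (hS : s5f_S x ≠ 0) (y : J → ℂ) :
    ∑ k, x k * s5f_tau x y k = 0 := by
  unfold s5f_tau
  simp only [mul_sub, Finset.sum_sub_distrib, ← mul_div_assoc, ← Finset.sum_div, ← mul_assoc,
    ← Finset.sum_mul]
  have e1 : ∑ k, x k * (starRingEnd ℂ) (y k) = s5f_T x y := rfl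
  have e2 : ∑ k, x k * (starRingEnd ℂ) (x k) = s5f_S x := rfl
  rw [e1, e2]
  field_simp
  ring

theorem s5f_sum_b {x : J → ℂ} (hS : s5f_S x ≠ 0) (y : J → ℂ) (i : J) :
    ∑ k, s5f_b x y i k * x k = - s5f_tau x y i := by
  unfold s5f_b
  have e : ∀ k, (s5f_sig x i * s5f_tau x y k - s5f_sig x k * s5f_tau x y i) * x k =
      s5f_sig x i * (x k * s5f_tau x y k) - s5f_tau x y i * (x k * s5f_sig x k) := fun k => by ring
  simp only [e, Finset.sum_sub_distrib, ← Finset.mul_sum, s5f_sum_tau hS, s5f_sum_sig hS]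
  ring

theorem s5f_b_skew (x y : J → ℂ) (i k : J) : s5f_b x y k i = - s5f_b x y i k := by
  unfold s5f_b
  ring

variable {x x' y : J → ℂ} {c₀ : ℝ}

theorem s5f_norm_sig_le (hc : 0 < c₀) (h : c₀ ≤ ∑ k, ‖x k‖ ^ 2) (h1 : ∀ k, ‖x k‖ ≤ 1) (i : J) :
    ‖s5f_sig x i‖ ≤ 1 / c₀ := by
  unfold s5f_sig
  rw [norm_div, RCLike.norm_conj, s5f_norm_S]
  exact div_le_div₀ zero_le_one (h1 i) hc h

theorem s5f_norm_T_le (h1 : ∀ k, ‖x k‖ ≤ 1) (y : J → ℂ) : ‖s5f_T x y‖ ≤ ∑ k, ‖y k‖ := by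
  unfold s5f_T
  refine (norm_sum_le _ _).trans (Finset.sum_le_sum fun k _ => ?_)
  rw [norm_mul, RCLike.norm_conj]
  exact mul_le_of_le_one_left (norm_nonneg _) (h1 k)

theorem s5f_norm_tau_le (hc : 0 < c₀) (h : c₀ ≤ ∑ k, ‖x k‖ ^ 2) (h1 : ∀ k, ‖x k‖ ≤ 1)
    (y : J → ℂ) (i : J) : ‖s5f_tau x y i‖ ≤ (1 / c₀ + 1 / c₀ ^ 2) * ∑ k, ‖y k‖ := by
  unfold s5f_tau
  have hY : 0 ≤ ∑ k, ‖y k‖ := Finset.sum_nonneg fun _ _ => norm_nonneg _
  have hyi : ‖y i‖ ≤ ∑ k, ‖y k‖ :=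
    Finset.single_le_sum (f := fun k => ‖y k‖) (fun _ _ => norm_nonneg _) (Finset.mem_univ i)
  have e1 : ‖(starRingEnd ℂ) (y i) / s5f_S x‖ ≤ (∑ k, ‖y k‖) / c₀ := by
    rw [norm_div, RCLike.norm_conj, s5f_norm_S]
    exact div_le_div₀ hY hyi hc h
  have e2 : ‖(starRingEnd ℂ) (x i) * s5f_T x y / s5f_S x ^ 2‖ ≤ (∑ k, ‖y k‖) / c₀ ^ 2 := by
    rw [norm_div, norm_mul, RCLike.norm_conj, norm_pow, s5f_norm_S]
    refine div_le_div₀ hY ?_ (by positivity) (pow_le_pow_left₀ hc.le h 2)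
    calc ‖x i‖ * ‖s5f_T x y‖ ≤ 1 * ∑ k, ‖y k‖ :=
          mul_le_mul (h1 i) (s5f_norm_T_le h1 y) (norm_nonneg _) zero_le_one
      _ = _ := one_mul _
  calc _ ≤ ‖(starRingEnd ℂ) (y i) / s5f_S x‖ +
        ‖(starRingEnd ℂ) (x i) * s5f_T x y / s5f_S x ^ 2‖ := norm_sub_le _ _
    _ ≤ (∑ k, ‖y k‖) / c₀ + (∑ k, ‖y k‖) / c₀ ^ 2 := add_le_add e1 e2
    _ = _ := by ring

/-- the constant in the bound of the Koszul coefficients. -/
noncomputable def s5f_Kb (J : Type) [Fintype J] (c₀ : ℝ) : ℝ :=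
  (2 * (1 / c₀) * (1 / c₀ + 1 / c₀ ^ 2)) ^ 2 * Fintype.card J

theorem s5f_normSq_b_le (hc : 0 < c₀) (h : c₀ ≤ ∑ k, ‖x k‖ ^ 2) (h1 : ∀ k, ‖x k‖ ≤ 1)
    (y : J → ℂ) (i k : J) : ‖s5f_b x y i k‖ ^ 2 ≤ s5f_Kb J c₀ * ∑ l, ‖y l‖ ^ 2 := by
  have hY : 0 ≤ ∑ k, ‖y k‖ := Finset.sum_nonneg fun _ _ => norm_nonneg _
  have hK : 0 ≤ (1 / c₀ + 1 / c₀ ^ 2) * ∑ k, ‖y k‖ := by positivity
  have hm : ∀ i k : J, ‖s5f_sig x i * s5f_tau x y k‖ ≤
      1 / c₀ * ((1 / c₀ + 1 / c₀ ^ 2) * ∑ k, ‖y k‖) := fun i k => by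
    rw [norm_mul]
    exact mul_le_mul (s5f_norm_sig_le hc h h1 i) (s5f_norm_tau_le hc h h1 y k) (norm_nonneg _)
      (by positivity)
  have h2 : ‖s5f_b x y i k‖ ≤ 2 * (1 / c₀) * (1 / c₀ + 1 / c₀ ^ 2) * ∑ k, ‖y k‖ := by
    unfold s5f_b
    calc _ ≤ ‖s5f_sig x i * s5f_tau x y k‖ + ‖s5f_sig x k * s5f_tau x y i‖ := norm_sub_le _ _
      _ ≤ _ := add_le_add (hm i k) (hm k i)
      _ = _ := by ring
  have h3 := pow_le_pow_left₀ (norm_nonneg _) h2 2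
  have h4 : (∑ k, ‖y k‖) ^ 2 ≤ Fintype.card J * ∑ k, ‖y k‖ ^ 2 := by
    have := sq_sum_le_card_mul_sum_sq (s := (Finset.univ : Finset J)) (f := fun k => ‖y k‖)
    simpa using this
  calc _ ≤ (2 * (1 / c₀) * (1 / c₀ + 1 / c₀ ^ 2) * ∑ k, ‖y k‖) ^ 2 := h3
    _ = (2 * (1 / c₀) * (1 / c₀ + 1 / c₀ ^ 2)) ^ 2 * (∑ k, ‖y k‖) ^ 2 := by ring
    _ ≤ (2 * (1 / c₀) * (1 / c₀ + 1 / c₀ ^ 2)) ^ 2 * (Fintype.card J * ∑ k, ‖y k‖ ^ 2) :=
        mul_le_mul_of_nonneg_left h4 (sq_nonneg _)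
    _ = _ := by unfold s5f_Kb; ring

theorem s5f_norm_S_sub_le (h1 : ∀ k, ‖x k‖ ≤ 1) (h1' : ∀ k, ‖x' k‖ ≤ 1) :
    ‖s5f_S x' - s5f_S x‖ ≤ 2 * ∑ k, ‖x k - x' k‖ := by
  unfold s5f_S
  rw [← Finset.sum_sub_distrib, Finset.mul_sum]
  refine (norm_sum_le _ _).trans (Finset.sum_le_sum fun k _ => ?_)
  have e : x' k * (starRingEnd ℂ) (x' k) - x k * (starRingEnd ℂ) (x k) =
      (x' k - x k) * (starRingEnd ℂ) (x' k) + x k * (starRingEnd ℂ) (x' k - x k) := by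
    rw [map_sub]
    ring
  rw [e]
  refine (norm_add_le _ _).trans ?_
  rw [norm_mul, norm_mul, RCLike.norm_conj, RCLike.norm_conj, norm_sub_rev (x' k) (x k)]
  have := norm_nonneg (x k - x' k)
  nlinarith [h1 k, h1' k]

/-- the Lipschitz constant of `σ`. -/
noncomputable def s5f_Ks (J : Type) [Fintype J] (c₀ : ℝ) : ℝ :=
  (1 / c₀ + 2 / c₀ ^ 2) ^ 2 * Fintype.card J

theorem s5f_normSq_sig_sub_le (hc : 0 < c₀) (h : c₀ ≤ ∑ k, ‖x k‖ ^ 2)
    (h' : c₀ ≤ ∑ k, ‖x' k‖ ^ 2) (h1 : ∀ k, ‖x k‖ ≤ 1) (h1' : ∀ k, ‖x' k‖ ≤ 1) (i : J) :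
    ‖s5f_sig x i - s5f_sig x' i‖ ^ 2 ≤ s5f_Ks J c₀ * ∑ k, ‖x k - x' k‖ ^ 2 := by
  have hS := s5f_S_ne_zero hc h
  have hS' := s5f_S_ne_zero hc h'
  have hY : 0 ≤ ∑ k, ‖x k - x' k‖ := Finset.sum_nonneg fun _ _ => norm_nonneg _
  have hyi : ‖x i - x' i‖ ≤ ∑ k, ‖x k - x' k‖ :=
    Finset.single_le_sum (f := fun k => ‖x k - x' k‖) (fun _ _ => norm_nonneg _)
      (Finset.mem_univ i)
  have e : s5f_sig x i - s5f_sig x' i = (starRingEnd ℂ) (x i - x' i) / s5f_S x +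
      (starRingEnd ℂ) (x' i) * (s5f_S x' - s5f_S x) / (s5f_S x * s5f_S x') := by
    unfold s5f_sig
    rw [map_sub]
    field_simp
    ring
  have e1 : ‖(starRingEnd ℂ) (x i - x' i) / s5f_S x‖ ≤ (∑ k, ‖x k - x' k‖) / c₀ := by
    rw [norm_div, RCLike.norm_conj, s5f_norm_S]
    exact div_le_div₀ hY hyi hc h
  have e2 : ‖(starRingEnd ℂ) (x' i) * (s5f_S x' - s5f_S x) / (s5f_S x * s5f_S x')‖ ≤
      (2 * ∑ k, ‖x k - x' k‖) / (c₀ * c₀) := by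
    rw [norm_div, norm_mul, norm_mul, RCLike.norm_conj, s5f_norm_S, s5f_norm_S]
    refine div_le_div₀ (by positivity) ?_ (by positivity) (mul_le_mul h h' hc.le (hc.le.trans h))
    calc ‖x' i‖ * ‖s5f_S x' - s5f_S x‖ ≤ 1 * (2 * ∑ k, ‖x k - x' k‖) :=
          mul_le_mul (h1' i) (s5f_norm_S_sub_le h1 h1') (norm_nonneg _) zero_le_one
      _ = _ := one_mul _
  have h2 : ‖s5f_sig x i - s5f_sig x' i‖ ≤ (1 / c₀ + 2 / c₀ ^ 2) * ∑ k, ‖x k - x' k‖ := by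
    rw [e]
    calc _ ≤ _ := norm_add_le _ _
      _ ≤ (∑ k, ‖x k - x' k‖) / c₀ + (2 * ∑ k, ‖x k - x' k‖) / (c₀ * c₀) := add_le_add e1 e2
      _ = _ := by ring
  have h3 := pow_le_pow_left₀ (norm_nonneg _) h2 2
  have h4 : (∑ k, ‖x k - x' k‖) ^ 2 ≤ Fintype.card J * ∑ k, ‖x k - x' k‖ ^ 2 := by
    have := sq_sum_le_card_mul_sum_sq (s := (Finset.univ : Finset J))
      (f := fun k => ‖x k - x' k‖)
    simpa using this
  calc _ ≤ ((1 / c₀ + 2 / c₀ ^ 2) * ∑ k, ‖x k - x' k‖) ^ 2 := h3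
    _ = (1 / c₀ + 2 / c₀ ^ 2) ^ 2 * (∑ k, ‖x k - x' k‖) ^ 2 := by ring
    _ ≤ (1 / c₀ + 2 / c₀ ^ 2) ^ 2 * (Fintype.card J * ∑ k, ‖x k - x' k‖ ^ 2) :=
        mul_le_mul_of_nonneg_left h4 (sq_nonneg _)
    _ = _ := by unfold s5f_Ks; ring

end CoronaAlg

section CoronaFun

variable {J : Type} [Fintype J] {a a₁ : J → ℂ → ℂ} {c₀ : ℝ}

/-- the data of the corona problem, with the derivatives. -/
structure s5f_Data (a a₁ : J → ℂ → ℂ) (c₀ : ℝ) : Prop where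
  pos : 0 < c₀
  hol : ∀ j, HolSm (a j)
  hol₁ : ∀ j, HolSm (a₁ j)
  der : ∀ j, ∀ ζ ∈ uDisc, deriv (a j) ζ = a₁ j ζ
  le_one : ∀ j, ∀ ζ ∈ uDiscC, ‖a j ζ‖ ≤ 1
  lower : ∀ ζ ∈ uDiscC, c₀ ≤ ∑ j, ‖a j ζ‖ ^ 2

namespace s5f_Data

variable (D : s5f_Data a a₁ c₀)
include D

theorem S_ne {ζ : ℂ} (hζ : ζ ∈ uDiscC) : s5f_S (fun j => a j ζ) ≠ 0 :=
  s5f_S_ne_zero D.pos (D.lower ζ hζ)

theorem smooth_conj (j : J) : ContDiffOn ℝ ∞ (fun ζ => (starRingEnd ℂ) (a j ζ)) uDiscC :=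
  Complex.conjCLE.contDiff.comp_contDiffOn (D.hol j).2

theorem smooth_conj₁ (j : J) : ContDiffOn ℝ ∞ (fun ζ => (starRingEnd ℂ) (a₁ j ζ)) uDiscC :=
  Complex.conjCLE.contDiff.comp_contDiffOn (D.hol₁ j).2

theorem smooth_S : ContDiffOn ℝ ∞ (fun ζ => s5f_S fun j => a j ζ) uDiscC := by
  unfold s5f_S
  exact ContDiffOn.sum fun k _ => (D.hol k).2.mul (D.smooth_conj k)

theorem smooth_T : ContDiffOn ℝ ∞ (fun ζ => s5f_T (fun j => a j ζ) fun j => a₁ j ζ) uDiscC := by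
  unfold s5f_T
  exact ContDiffOn.sum fun k _ => (D.hol k).2.mul (D.smooth_conj₁ k)

theorem smooth_sig (i : J) : ContDiffOn ℝ ∞ (fun ζ => s5f_sig (fun j => a j ζ) i) uDiscC := by
  unfold s5f_sig
  simp only [div_eq_mul_inv]
  exact (D.smooth_conj i).mul (D.smooth_S.inv fun ζ hζ => D.S_ne hζ)

theorem smooth_tau (i : J) :
    ContDiffOn ℝ ∞ (fun ζ => s5f_tau (fun j => a j ζ) (fun j => a₁ j ζ) i) uDiscC := by
  unfold s5f_tau
  simp only [div_eq_mul_inv]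
  exact ((D.smooth_conj₁ i).mul (D.smooth_S.inv fun ζ hζ => D.S_ne hζ)).sub
    (((D.smooth_conj i).mul D.smooth_T).mul ((D.smooth_S.pow 2).inv
      fun ζ hζ => pow_ne_zero 2 (D.S_ne hζ)))

theorem smooth_b (i k : J) :
    ContDiffOn ℝ ∞ (fun ζ => s5f_b (fun j => a j ζ) (fun j => a₁ j ζ) i k) uDiscC := by
  unfold s5f_b
  exact ((D.smooth_sig i).mul (D.smooth_tau k)).sub ((D.smooth_sig k).mul (D.smooth_tau i))

theorem dbar_sig (i : J) {z : ℂ} (hz : z ∈ uDisc) :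
    B14.dbarC (fun ζ => s5f_sig (fun j => a j ζ) i) z =
      s5f_tau (fun j => a j z) (fun j => a₁ j z) i := by
  have hzC : z ∈ uDiscC := Metric.ball_subset_closedBall hz
  have hd : ∀ k, DifferentiableAt ℂ (a k) z := fun k =>
    (D.hol k).1.differentiableAt (Metric.isOpen_ball.mem_nhds hz)
  have hdr : ∀ k, DifferentiableAt ℝ (a k) z := fun k => (hd k).restrictScalars ℝ
  have hdc : ∀ k, DifferentiableAt ℝ (fun ζ => (starRingEnd ℂ) (a k ζ)) z := fun k =>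
    ((D.smooth_conj k).contDiffAt (s5c_mem_nhds hz)).differentiableAt (by simp)
  have hc : ∀ k, B14.dbarC (fun ζ => (starRingEnd ℂ) (a k ζ)) z = (starRingEnd ℂ) (a₁ k z) :=
    fun k => by rw [B14.dbarC_conj (hd k), D.der k z hz]
  have hS : B14.dbarC (fun ζ => s5f_S fun j => a j ζ) z =
      s5f_T (fun j => a j z) fun j => a₁ j z := by
    show B14.dbarC (fun ζ => ∑ k, a k ζ * (starRingEnd ℂ) (a k ζ)) z =
      ∑ k, a k z * (starRingEnd ℂ) (a₁ k z)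
    rw [B14.dbarC_sum Finset.univ (f := fun k ζ => a k ζ * (starRingEnd ℂ) (a k ζ))
      fun k _ => (hdr k).mul (hdc k)]
    refine Finset.sum_congr rfl fun k _ => ?_
    rw [B14.dbarC_mul (hdr k) (hdc k), B14.dbarC_eq_zero_of_differentiableAt (hd k), hc k]
    ring
  have hσ : DifferentiableAt ℝ (fun ζ => s5f_sig (fun j => a j ζ) i) z :=
    ((D.smooth_sig i).contDiffAt (s5c_mem_nhds hz)).differentiableAt (by simp)
  have hSd : DifferentiableAt ℝ (fun ζ => s5f_S fun j => a j ζ) z :=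
    (D.smooth_S.contDiffAt (s5c_mem_nhds hz)).differentiableAt (by simp)
  have hev : (fun ζ => s5f_sig (fun j => a j ζ) i * s5f_S fun j => a j ζ) =ᶠ[𝓝 z]
      fun ζ => (starRingEnd ℂ) (a i ζ) := by
    filter_upwards [s5c_mem_nhds hz] with ζ hζ
    unfold s5f_sig
    exact div_mul_cancel₀ _ (D.S_ne hζ)
  have h1 := B14.dbarC_congr hev
  rw [B14.dbarC_mul hσ hSd, hS, hc i] at h1
  have hne := D.S_ne hzC
  unfold s5f_tau
  have h2 : B14.dbarC (fun ζ => s5f_sig (fun j => a j ζ) i) z =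
      ((starRingEnd ℂ) (a₁ i z) - s5f_sig (fun j => a j z) i *
        s5f_T (fun j => a j z) fun j => a₁ j z) / s5f_S fun j => a j z := by
    rw [eq_div_iff hne, ← h1]
    ring
  rw [h2]
  unfold s5f_sig
  field_simp

theorem dbar_pow_sig (i : J) (m : ℕ) {z : ℂ} (hz : z ∈ uDisc) :
    dbar1 (fun ζ => ζ ^ m * s5f_sig (fun j => a j ζ) i) z =
      z ^ m * s5f_tau (fun j => a j z) (fun j => a₁ j z) i := by
  have hσ : DifferentiableAt ℝ (fun ζ => s5f_sig (fun j => a j ζ) i) z :=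
    ((D.smooth_sig i).contDiffAt (s5c_mem_nhds hz)).differentiableAt (by simp)
  have hp : DifferentiableAt ℂ (fun ζ : ℂ => ζ ^ m) z := (differentiable_id.pow m) z
  show B14.dbarC (fun ζ => ζ ^ m * s5f_sig (fun j => a j ζ) i) z = _
  rw [B14.dbarC_mul (hp.restrictScalars ℝ) hσ, B14.dbarC_eq_zero_of_differentiableAt hp,
    D.dbar_sig i hz]
  ring

theorem integral_b_le (i k : J) :
    Real.pi⁻¹ * ∫ ζ in uDisc, ‖s5f_b (fun j => a j ζ) (fun j => a₁ j ζ) i k‖ ^ 2 ≤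
      s5f_Kb J c₀ * ∑ l, Dsq (a l) := by
  have hi1 : IntegrableOn (fun ζ => ‖s5f_b (fun j => a j ζ) (fun j => a₁ j ζ) i k‖ ^ 2) uDisc :=
    B14.integrableOn_ball_of_continuousOn ((D.smooth_b i k).continuousOn.norm.pow 2)
  have hil : ∀ l, IntegrableOn (fun ζ => ‖a₁ l ζ‖ ^ 2) uDisc := fun l =>
    B14.integrableOn_ball_of_continuousOn ((D.hol₁ l).2.continuousOn.norm.pow 2)
  have hi2 : IntegrableOn (fun ζ => s5f_Kb J c₀ * ∑ l, ‖a₁ l ζ‖ ^ 2) uDisc :=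
    (integrable_finsetSum _ fun l _ => hil l).const_mul _
  have h1 := setIntegral_mono_on hi1 hi2 measurableSet_ball fun ζ hζ =>
    s5f_normSq_b_le D.pos (D.lower ζ (Metric.ball_subset_closedBall hζ))
      (fun k => D.le_one k ζ (Metric.ball_subset_closedBall hζ)) (fun j => a₁ j ζ) i k
  rw [integral_const_mul, integral_finsetSum _ fun l _ => hil l] at h1
  have h2 : ∀ l, ∫ ζ in uDisc, ‖a₁ l ζ‖ ^ 2 = Real.pi * Dsq (a l) := fun l => by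
    rw [(D.hol l).Dsq_eq_integral, ← mul_assoc, mul_inv_cancel₀ Real.pi_ne_zero, one_mul]
    exact setIntegral_congr_fun measurableSet_ball fun ζ hζ => by
      simp only [D.der l ζ hζ]
  simp only [h2, ← Finset.mul_sum] at h1
  calc _ ≤ Real.pi⁻¹ * (s5f_Kb J c₀ * (Real.pi * ∑ l, Dsq (a l))) :=
        mul_le_mul_of_nonneg_left h1 (inv_nonneg.2 Real.pi_pos.le)
    _ = _ := by
        field_simp

theorem exists_Q : ∃ Q : J → J → ℂ → ℂ, (∀ i k, CircSm (Q i k)) ∧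
    (∀ i k ζ, Q k i ζ = - Q i k ζ) ∧
    (∀ i k (e : ℂ → ℂ), HolSm e → cA (fun ζ => ζ * e ζ * Q i k ζ) =
        (Real.pi⁻¹ : ℂ) * ∫ ζ in uDisc, s5f_b (fun j => a j ζ) (fun j => a₁ j ζ) i k * e ζ) ∧
    (∀ i k, Dsq (Q i k) ≤ s5f_Kb J c₀ * ∑ l, Dsq (a l)) ∧
    (∀ i k, cA (fun ζ => ‖Q i k ζ‖ ^ 2) ≤ s5f_Kb J c₀ * ∑ l, Dsq (a l)) := by
  choose Q₀ hQs hQp hQD hQL using fun i k => dbar_trace (D.smooth_b i k)
  refine ⟨fun i k ζ => (1 / 2 : ℂ) * (Q₀ i k ζ - Q₀ k i ζ), fun i k => ?_, fun i k ζ => by ring,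
    fun i k e he => ?_, fun i k => ?_, fun i k => ?_⟩
  · exact (circSm_const _).mul ((hQs i k).sub (hQs k i))
  · have hc : ∀ i k, Continuous (B14.bd fun ζ => ζ * e ζ * Q₀ i k ζ) := fun i k =>
      ((circSm_id.mul he.circSm).mul (hQs i k)).continuous
    have e2 : cA (fun ζ => ζ * e ζ * ((1 / 2 : ℂ) * (Q₀ i k ζ - Q₀ k i ζ))) =
        (1 / 2 : ℂ) * (cA (fun ζ => ζ * e ζ * Q₀ i k ζ) - cA (fun ζ => ζ * e ζ * Q₀ k i ζ)) := by
      rw [cA_eq_pavg, cA_eq_pavg, cA_eq_pavg, ← B14.pavg_sub (hc i k) (hc k i),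
        ← B14.pavg_const_mul]
      congr 1
      funext θ
      simp only [B14.bd]
      ring
    have e3 : ∫ ζ in uDisc, s5f_b (fun j => a j ζ) (fun j => a₁ j ζ) k i * e ζ =
        - ∫ ζ in uDisc, s5f_b (fun j => a j ζ) (fun j => a₁ j ζ) i k * e ζ := by
      rw [← integral_neg]
      congr 1
      funext ζ
      rw [s5f_b_skew]
      ring
    rw [e2, hQp i k e he, hQp k i e he, e3]
    ring
  · rw [Dsq_const_mul]
    have h1 := Dsq_add_le (hQs i k).circLip (hQs k i).neg.circLip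
    rw [Dsq_neg] at h1
    simp only [← sub_eq_add_neg] at h1
    have h2 := (hQD i k).trans (D.integral_b_le i k)
    have h3 := (hQD k i).trans (D.integral_b_le k i)
    have e : ‖(1 / 2 : ℂ)‖ ^ 2 = 1 / 4 := by norm_num
    rw [e]
    linarith
  · have hc : ∀ i k, Continuous fun θ => ‖B14.bd (Q₀ i k) θ‖ ^ 2 := fun i k =>
      (hQs i k).continuous.norm.pow 2
    have h1 : cA (fun ζ => ‖(1 / 2 : ℂ) * (Q₀ i k ζ - Q₀ k i ζ)‖ ^ 2) ≤
        B14.pavg fun θ => 1 / 2 * ‖B14.bd (Q₀ i k) θ‖ ^ 2 + 1 / 2 * ‖B14.bd (Q₀ k i) θ‖ ^ 2 := by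
      refine B14.pavg_mono ?_ ((continuous_const.mul (hc i k)).add (continuous_const.mul (hc k i)))
        fun θ => ?_
      · exact (((circSm_const (1 / 2 : ℂ)).mul ((hQs i k).sub (hQs k i))).continuous.norm.pow 2)
      · show ‖(1 / 2 : ℂ) * (B14.bd (Q₀ i k) θ - B14.bd (Q₀ k i) θ)‖ ^ 2 ≤ _
        rw [norm_mul, mul_pow]
        have e : ‖(1 / 2 : ℂ)‖ ^ 2 = 1 / 4 := by norm_num
        rw [e]
        have h2 := norm_sub_le (B14.bd (Q₀ i k) θ) (B14.bd (Q₀ k i) θ)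
        have h3 := pow_le_pow_left₀ (norm_nonneg _) h2 2
        nlinarith [sq_nonneg (‖B14.bd (Q₀ i k) θ‖ - ‖B14.bd (Q₀ k i) θ‖)]
    rw [B14.pavg_add (a := fun θ => 1 / 2 * ‖B14.bd (Q₀ i k) θ‖ ^ 2)
      (b := fun θ => 1 / 2 * ‖B14.bd (Q₀ k i) θ‖ ^ 2) (continuous_const.mul (hc i k))
      (continuous_const.mul (hc k i)), B14.pavg_const_mul_real, B14.pavg_const_mul_real] at h1
    have h2 : B14.pavg (fun θ => ‖B14.bd (Q₀ i k) θ‖ ^ 2) ≤ _ :=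
      (hQL i k).trans (D.integral_b_le i k)
    have h3 : B14.pavg (fun θ => ‖B14.bd (Q₀ k i) θ‖ ^ 2) ≤ _ :=
      (hQL k i).trans (D.integral_b_le k i)
    linarith

theorem circSm_sig (i : J) : CircSm fun ζ => s5f_sig (fun j => a j ζ) i :=
  (D.smooth_sig i).comp_contDiff (contDiff_circleMap 0 1) B14.circleMap_mem_closedBall

theorem exists_G {Q : J → J → ℂ → ℂ} (hQs : ∀ i k, CircSm (Q i k))
    (hQk : ∀ i k ζ, Q k i ζ = - Q i k ζ)
    (hQp : ∀ i k (e : ℂ → ℂ), HolSm e → cA (fun ζ => ζ * e ζ * Q i k ζ) =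
        (Real.pi⁻¹ : ℂ) * ∫ ζ in uDisc, s5f_b (fun j => a j ζ) (fun j => a₁ j ζ) i k * e ζ) :
    ∃ G : J → ℂ → ℂ, (∀ i, HolSm (G i)) ∧
      (∀ i, ∀ ζ ∈ uCirc, G i ζ = s5f_sig (fun j => a j ζ) i + ∑ k, Q i k ζ * a k ζ) ∧
      ∀ ζ ∈ uDiscC, ∑ i, G i ζ * a i ζ = 1 := by
  have hg : ∀ i, CircSm fun ζ => s5f_sig (fun j => a j ζ) i + ∑ k, Q i k ζ * a k ζ := fun i =>
    (D.circSm_sig i).add (CircSm.sum _ fun k _ => (hQs i k).mul (D.hol k).circSm)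
  have hneg : ∀ i, ∀ j : ℤ, j < 0 →
      fco (fun ζ => s5f_sig (fun j => a j ζ) i + ∑ k, Q i k ζ * a k ζ) j = 0 := by
    intro i j hj
    obtain ⟨m, rfl⟩ : ∃ m : ℕ, j = -((m : ℤ) + 1) := ⟨(-j - 1).toNat, by omega⟩
    have hpow : HolSm fun ζ : ℂ => ζ ^ m := holSm_id.pow m
    have hu : ContDiffOn ℝ ∞ (fun ζ => ζ ^ m * s5f_sig (fun j => a j ζ) i) uDiscC :=
      hpow.2.mul (D.smooth_sig i)
    have h1 := integral_dbar1 hu
    have h1' : ∫ ζ in uDisc, dbar1 (fun ζ => ζ ^ m * s5f_sig (fun j => a j ζ) i) ζ =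
        ∫ ζ in uDisc, ζ ^ m * s5f_tau (fun j => a j ζ) (fun j => a₁ j ζ) i :=
      setIntegral_congr_fun measurableSet_ball fun z hz => D.dbar_pow_sig i m hz
    rw [h1'] at h1
    have hπ : (Real.pi : ℂ) ≠ 0 := by exact_mod_cast Real.pi_ne_zero
    have h2 : cA (fun ζ => ζ * (ζ ^ m * s5f_sig (fun j => a j ζ) i)) =
        (Real.pi⁻¹ : ℂ) * ∫ ζ in uDisc, ζ ^ m * s5f_tau (fun j => a j ζ) (fun j => a₁ j ζ) i := by
      rw [h1, ← mul_assoc, inv_mul_cancel₀ hπ, one_mul]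
    have h3 : ∀ k, cA (fun ζ => ζ * (ζ ^ m * a k ζ) * Q i k ζ) = (Real.pi⁻¹ : ℂ) *
        ∫ ζ in uDisc, s5f_b (fun j => a j ζ) (fun j => a₁ j ζ) i k * (ζ ^ m * a k ζ) := fun k =>
      hQp i k _ (hpow.mul (D.hol k))
    have hc0 : Continuous (B14.bd fun ζ => ζ * (ζ ^ m * s5f_sig (fun j => a j ζ) i)) :=
      (circSm_id.mul (hpow.circSm.mul (D.circSm_sig i))).continuous
    have hck : ∀ k, Continuous (B14.bd fun ζ => ζ * (ζ ^ m * a k ζ) * Q i k ζ) := fun k =>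
      ((circSm_id.mul (hpow.circSm.mul (D.hol k).circSm)).mul (hQs i k)).continuous
    have e1 : fco (fun ζ => s5f_sig (fun j => a j ζ) i + ∑ k, Q i k ζ * a k ζ)
        (-((m : ℤ) + 1)) = cA (fun ζ => ζ * (ζ ^ m * s5f_sig (fun j => a j ζ) i)) +
          ∑ k, cA (fun ζ => ζ * (ζ ^ m * a k ζ) * Q i k ζ) := by
      unfold fco
      rw [cA_eq_pavg, cA_eq_pavg]
      simp only [cA_eq_pavg]
      rw [← B14.pavg_sum Finset.univ _ fun k _ => hck k,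
        ← B14.pavg_add hc0 (continuous_finsetSum _ fun k _ => hck k)]
      congr 1
      funext θ
      simp only [B14.bd, neg_neg]
      have e : circleMap 0 1 θ ^ ((m : ℤ) + 1) = circleMap 0 1 θ * circleMap 0 1 θ ^ m := by
        have : ((m : ℤ) + 1) = ((m + 1 : ℕ) : ℤ) := by push_cast; rfl
        rw [this, zpow_natCast, pow_succ]
        ring
      rw [e, mul_add, Finset.mul_sum]
      congr 1
      · ring
      · exact Finset.sum_congr rfl fun k _ => by ring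
    have hi0 : IntegrableOn (fun ζ => ζ ^ m * s5f_tau (fun j => a j ζ) (fun j => a₁ j ζ) i)
        uDisc := B14.integrableOn_ball_of_continuousOn (hpow.2.mul (D.smooth_tau i)).continuousOn
    have hik : ∀ k, IntegrableOn (fun ζ => s5f_b (fun j => a j ζ) (fun j => a₁ j ζ) i k *
        (ζ ^ m * a k ζ)) uDisc := fun k => B14.integrableOn_ball_of_continuousOn
      ((D.smooth_b i k).mul (hpow.2.mul (D.hol k).2)).continuousOn
    rw [e1, h2]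
    simp only [h3]
    rw [← Finset.mul_sum, ← mul_add, ← integral_finsetSum _ fun k _ => hik k,
      ← integral_add hi0 (integrable_finsetSum _ fun k _ => hik k)]
    have hz : ∀ ζ ∈ uDisc, ζ ^ m * s5f_tau (fun j => a j ζ) (fun j => a₁ j ζ) i +
        ∑ k, s5f_b (fun j => a j ζ) (fun j => a₁ j ζ) i k * (ζ ^ m * a k ζ) = 0 := by
      intro ζ hζ
      have h5 := s5f_sum_b (D.S_ne (Metric.ball_subset_closedBall hζ)) (fun j => a₁ j ζ) i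
      have e5 : ∑ k, s5f_b (fun j => a j ζ) (fun j => a₁ j ζ) i k * (ζ ^ m * a k ζ) =
          ζ ^ m * ∑ k, s5f_b (fun j => a j ζ) (fun j => a₁ j ζ) i k * a k ζ := by
        rw [Finset.mul_sum]
        exact Finset.sum_congr rfl fun k _ => by ring
      rw [e5, h5]
      ring
    rw [setIntegral_congr_fun measurableSet_ball hz]
    simp
  choose G hG hGe using fun i => exists_holSm_of_fco_neg (hg i) (hneg i)
  refine ⟨G, hG, fun i ζ hζ => hGe i hζ, ?_⟩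
  have hsum : HolSm fun ζ => ∑ i, G i ζ * a i ζ := HolSm.sum _ fun i _ => (hG i).mul (D.hol i)
  refine hsum.eq_of_eqOn_circle (holSm_const 1) fun ζ hζ => ?_
  have hζC : ζ ∈ uDiscC := Metric.sphere_subset_closedBall hζ
  show ∑ i, G i ζ * a i ζ = 1
  have e1 : ∀ i, G i ζ * a i ζ = a i ζ * s5f_sig (fun j => a j ζ) i +
      ∑ k, Q i k ζ * a k ζ * a i ζ := fun i => by
    rw [hGe i hζ, add_mul, Finset.sum_mul]
    ring
  simp only [e1, Finset.sum_add_distrib]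
  rw [s5f_sum_sig (D.S_ne hζC)]
  have hX : ∑ i, ∑ k, Q i k ζ * a k ζ * a i ζ = - ∑ i, ∑ k, Q i k ζ * a k ζ * a i ζ := by
    conv_lhs => rw [Finset.sum_comm]
    rw [← Finset.sum_neg_distrib]
    refine Finset.sum_congr rfl fun i _ => ?_
    rw [← Finset.sum_neg_distrib]
    refine Finset.sum_congr rfl fun k _ => ?_
    rw [hQk i k ζ]
    ring
  have hX0 : ∑ i, ∑ k, Q i k ζ * a k ζ * a i ζ = 0 := by
    have : (2 : ℂ) * ∑ i, ∑ k, Q i k ζ * a k ζ * a i ζ = 0 := by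
      linear_combination hX
    simpa using this
  rw [hX0, add_zero]


theorem Dsq_sig_le (i : J) :
    Dsq (fun ζ => s5f_sig (fun j => a j ζ) i) ≤ s5f_Ks J c₀ * ∑ k, Dsq (a k) := by
  have hK : 0 ≤ s5f_Ks J c₀ := by unfold s5f_Ks; positivity
  have h := Dsq_le_of_diff (a := fun ζ => s5f_sig (fun j => a j ζ) i) (g := a)
    (c := fun _ => s5f_Ks J c₀) (fun j => (D.hol j).circSm.circLip) (fun _ => hK)
    fun ζ hζ ξ hξ => by
      have hζC : ζ ∈ uDiscC := Metric.sphere_subset_closedBall hζ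
      have hξC : ξ ∈ uDiscC := Metric.sphere_subset_closedBall hξ
      rw [← Finset.mul_sum]
      exact s5f_normSq_sig_sub_le D.pos (D.lower ζ hζC) (D.lower ξ hξC)
        (fun k => D.le_one k ζ hζC) (fun k => D.le_one k ξ hξC) i
  rwa [← Finset.mul_sum] at h

end s5f_Data

end CoronaFun

section CoronaLoss

/-- the loss factor `α` attached to a finite family of smooth boundary functions. -/
theorem s5f_exists_loss {ι : Type} [Fintype ι] {B η : ℝ} (hB : 0 ≤ B) (hη : 0 < η)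
    {Q : ι → ℂ → ℂ} (hQs : ∀ p, CircSm (Q p)) (hD : ∑ p, Dsq (Q p) ≤ B)
    (hL : ∑ p, cA (fun ζ => ‖Q p ζ‖ ^ 2) ≤ B) :
    ∃ α : ℂ → ℂ, IsLoss α η ∧
      (∀ p, ∀ ζ ∈ uCirc, ‖α ζ * Q p ζ‖ ≤ Real.sqrt ((1 + 4 * B + 2 * B / η) / 4)) ∧
      ∀ p, Dsq (fun ζ => α ζ * Q p ζ) ≤ 9 * B := by
  set P : ℝ := 1 + 4 * B + 2 * B / η with hPdef
  have hP : 0 < P := by positivity
  set Qv : ℝ → ι → ℂ := fun θ p => B14.bd (Q p) θ with hQv
  have hQ : ∀ p, B14.CSm fun θ => Qv θ p := fun p => circSm_iff.1 (hQs p)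
  have hsV : B14.hsqV Qv ≤ B := by
    unfold B14.hsqV
    simp only [Dsq_eq_hsq] at hD
    exact hD
  have hnV : B14.pavg (fun θ => B14.nsq (Qv θ)) ≤ B := by
    unfold B14.nsq
    rw [B14.pavg_sum Finset.univ (fun p θ => ‖Qv θ p‖ ^ 2)
      fun p _ => (hQ p).continuous.norm.pow 2]
    exact hL
  have hBP : 2 * B / P ≤ η := by
    rw [div_le_iff₀ hP, hPdef]
    have : η * (2 * B / η) = 2 * B := by field_simp
    nlinarith [mul_nonneg hη.le hB]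
  have hBP4 : 4 * B / P ≤ 1 := by
    rw [div_le_one hP, hPdef]
    have : 0 ≤ 2 * B / η := by positivity
    linarith
  refine ⟨B14.outer (B14.alphaU P Qv), ⟨holSm_of_b14 (B14.holSm_outer (B14.cSm_alphaU hP hQ)),
    fun ζ hζ => B14.norm_alpha_le_one hP hQ hζ, ?_, ?_, ?_⟩, fun p => ?_, fun p => ?_⟩
  · rw [Dsq_eq_hsq, ← B14.hD_sq]
    have h1 := B14.hD_bd_alpha_le hP hQ
    have h2 := pow_le_pow_left₀ (B14.hD_nonneg _) h1 2
    refine h2.trans ?_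
    rw [div_pow, mul_pow, B14.hDV_sq, Real.sq_sqrt hP.le]
    refine le_trans ?_ hBP4
    have e : (2 : ℝ) ^ 2 * B14.hsqV Qv ≤ 4 * B := by linarith
    exact div_le_div_of_nonneg_right e hP.le
  · have h1 := B14.pavg_one_sub_alpha_sq_le hP hQ
    refine le_trans h1 (le_trans ?_ hBP)
    gcongr
  · rw [B14.alpha_center, Complex.norm_real, Real.norm_eq_abs, sq_abs, ← Real.exp_nat_mul]
    have h1 := B14.neg_pavg_alphaU_le hP hQ
    have h2 := Real.add_one_le_exp (((2 : ℕ) : ℝ) * B14.pavg (B14.alphaU P Qv))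
    have e2 : ((2 : ℕ) : ℝ) * B14.pavg (B14.alphaU P Qv) + 1 =
        2 * B14.pavg (B14.alphaU P Qv) + 1 := by norm_num
    rw [e2] at h2
    have h3 : B14.pavg (fun θ => B14.nsq (Qv θ)) / P ≤ B / P := by gcongr
    have e : 2 * B / P = 2 * (B / P) := by ring
    linarith
  · refine forall_uCirc_iff.2 fun θ => ?_
    refine Real.le_sqrt_of_sq_le ?_
    have h1 := B14.nsq_alpha_smul_le hP hQ θ
    refine le_trans ?_ h1
    exact Finset.single_le_sum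
      (f := fun p => ‖(B14.bd (B14.outer (B14.alphaU P Qv)) θ • Qv θ) p‖ ^ 2)
      (fun _ _ => sq_nonneg _) (Finset.mem_univ p)
  · rw [Dsq_eq_hsq]
    have h1 := B14.hsq_le_hsqV (fun θ => B14.bd (B14.outer (B14.alphaU P Qv)) θ • Qv θ) p
    refine le_trans h1 ?_
    rw [← B14.hDV_sq]
    have h2 := pow_le_pow_left₀ (Real.sqrt_nonneg _) (B14.hDV_alpha_smul_le hP hQ) 2
    refine h2.trans ?_
    rw [mul_pow, B14.hDV_sq]
    nlinarith

end CoronaLoss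

theorem corona_loss (J : Type) [Fintype J] {c₀ D₀ η : ℝ} (hc : 0 < c₀) (hη : 0 < η) :
    ∃ C : ℝ, ∀ a : J → ℂ → ℂ, (∀ j, HolSm (a j)) → (∀ j, ∀ ζ ∈ uDiscC, ‖a j ζ‖ ≤ 1) →
      (∀ ζ ∈ uDiscC, c₀ ≤ ∑ j, ‖a j ζ‖ ^ 2) → (∀ j, Dsq (a j) ≤ D₀) →
      ∃ (α : ℂ → ℂ) (γ : J → ℂ → ℂ), IsLoss α η ∧ (∀ j, HolSm (γ j)) ∧
        (∀ ζ ∈ uDiscC, ∑ j, γ j ζ * a j ζ = α ζ) ∧
        (∀ j, ∀ ζ ∈ uDiscC, ‖γ j ζ‖ ≤ C) ∧ ∀ j, Dsq (γ j) ≤ C := by
  set n : ℝ := (Fintype.card J : ℝ) with hn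
  have hn0 : 0 ≤ n := Nat.cast_nonneg _
  set D₁ : ℝ := |D₀| with hD₁
  have hD1 : 0 ≤ D₁ := abs_nonneg _
  have hKb : 0 ≤ s5f_Kb J c₀ := by unfold s5f_Kb; positivity
  have hKs : 0 ≤ s5f_Ks J c₀ := by unfold s5f_Ks; positivity
  set B₁ : ℝ := s5f_Kb J c₀ * (n * D₁) with hB₁
  set B : ℝ := n * n * B₁ with hBdef
  have hB : 0 ≤ B := by positivity
  set A : ℝ := Real.sqrt ((1 + 4 * B + 2 * B / η) / 4) with hAdef
  have hA : 0 ≤ A := Real.sqrt_nonneg _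
  set C₁ : ℝ := 1 / c₀ + n * A with hC₁
  set C₂ : ℝ := 2 * (2 * 1 ^ 2 * (s5f_Ks J c₀ * (n * D₁)) + 2 * (1 / c₀) ^ 2 * 1) +
    2 * (n * (n * (2 * A ^ 2 * D₁ + 2 * 1 ^ 2 * (9 * B)))) with hC₂
  refine ⟨max C₁ C₂, fun a ha h1 hlow hDa => ?_⟩
  choose a₁ ha₁ hder _ using fun j => (ha j).exists_deriv
  have D : s5f_Data a a₁ c₀ := ⟨hc, ha, ha₁, hder, h1, hlow⟩
  have hDa' : ∀ l, Dsq (a l) ≤ D₁ := fun l => (hDa l).trans (le_abs_self _)
  have hsum : ∑ l, Dsq (a l) ≤ n * D₁ := by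
    calc ∑ l, Dsq (a l) ≤ ∑ _l : J, D₁ := Finset.sum_le_sum fun l _ => hDa' l
      _ = n * D₁ := by simp [hn]
  obtain ⟨Q, hQs, hQk, hQp, hQD, hQL⟩ := D.exists_Q
  obtain ⟨G, hG, hGe, hG1⟩ := D.exists_G hQs hQk hQp
  have hcard : ∀ f : J × J → ℝ, (∀ p, f p ≤ B₁) → ∑ p, f p ≤ B := by
    intro f hf
    calc ∑ p, f p ≤ ∑ _p : J × J, B₁ := Finset.sum_le_sum fun p _ => hf p
      _ = B := by simp [hn, hBdef]
  have hKsum : s5f_Kb J c₀ * ∑ l, Dsq (a l) ≤ B₁ := mul_le_mul_of_nonneg_left hsum hKb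
  obtain ⟨α, hα, hαs, hαD⟩ := s5f_exists_loss (ι := J × J) hB hη (Q := fun p => Q p.1 p.2)
    (fun p => hQs p.1 p.2) (hcard _ fun p => (hQD p.1 p.2).trans hKsum)
    (hcard _ fun p => (hQL p.1 p.2).trans hKsum)
  have hrep : ∀ i, ∀ ζ ∈ uCirc, α ζ * G i ζ = α ζ * s5f_sig (fun j => a j ζ) i +
      ∑ k, α ζ * Q i k ζ * a k ζ := by
    intro i ζ hζ
    rw [hGe i ζ hζ, mul_add, Finset.mul_sum]
    congr 1
    exact Finset.sum_congr rfl fun k _ => by ring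
  have hα1 : ∀ ζ ∈ uCirc, ‖α ζ‖ ≤ 1 := fun ζ hζ =>
    hα.le_one ζ (Metric.sphere_subset_closedBall hζ)
  have hσ1 : ∀ i, ∀ ζ ∈ uCirc, ‖s5f_sig (fun j => a j ζ) i‖ ≤ 1 / c₀ := fun i ζ hζ =>
    s5f_norm_sig_le hc (hlow ζ (Metric.sphere_subset_closedBall hζ))
      (fun k => h1 k ζ (Metric.sphere_subset_closedBall hζ)) i
  have ha1 : ∀ k, ∀ ζ ∈ uCirc, ‖a k ζ‖ ≤ 1 := fun k ζ hζ =>
    h1 k ζ (Metric.sphere_subset_closedBall hζ)
  refine ⟨α, fun i ζ => α ζ * G i ζ, hα, fun i => hα.hol.mul (hG i), fun ζ hζ => ?_,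
    fun i => ?_, fun i => ?_⟩
  · have e : ∀ j, α ζ * G j ζ * a j ζ = α ζ * (G j ζ * a j ζ) := fun j => by ring
    simp only [e]
    rw [← Finset.mul_sum, hG1 ζ hζ, mul_one]
  · refine (hα.hol.mul (hG i)).norm_le fun ζ hζ => le_trans ?_ (le_max_left _ _)
    rw [hrep i ζ hζ]
    refine (norm_add_le _ _).trans (add_le_add ?_ ?_)
    · rw [norm_mul]
      calc ‖α ζ‖ * ‖s5f_sig (fun j => a j ζ) i‖ ≤ 1 * (1 / c₀) :=
            mul_le_mul (hα1 ζ hζ) (hσ1 i ζ hζ) (norm_nonneg _) zero_le_one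
        _ = 1 / c₀ := one_mul _
    · refine (norm_sum_le _ _).trans ?_
      calc ∑ k, ‖α ζ * Q i k ζ * a k ζ‖ ≤ ∑ _k : J, A := Finset.sum_le_sum fun k _ => by
            rw [norm_mul]
            calc ‖α ζ * Q i k ζ‖ * ‖a k ζ‖ ≤ A * 1 :=
                  mul_le_mul (hαs (i, k) ζ hζ) (ha1 k ζ hζ) (norm_nonneg _) hA
              _ = A := mul_one _
        _ = n * A := by simp [hn]
  · refine le_trans ?_ (le_max_right _ _)
    have hαL : CircLip α := hα.hol.circSm.circLip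
    have hσL : CircLip fun ζ => s5f_sig (fun j => a j ζ) i := (D.circSm_sig i).circLip
    have hQL' : ∀ k, CircLip fun ζ => α ζ * Q i k ζ := fun k =>
      (hα.hol.circSm.mul (hQs i k)).circLip
    have haL : ∀ k, CircLip (a k) := fun k => (ha k).circSm.circLip
    have hL1 : CircLip fun ζ => α ζ * s5f_sig (fun j => a j ζ) i :=
      (hα.hol.circSm.mul (D.circSm_sig i)).circLip
    have hLk : ∀ k, CircLip fun ζ => α ζ * Q i k ζ * a k ζ := fun k =>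
      ((hα.hol.circSm.mul (hQs i k)).mul (ha k).circSm).circLip
    have hL2 : CircLip fun ζ => ∑ k, α ζ * Q i k ζ * a k ζ :=
      (CircSm.sum _ fun k _ => (hα.hol.circSm.mul (hQs i k)).mul (ha k).circSm).circLip
    rw [Dsq_congr (hrep i)]
    refine (Dsq_add_le hL1 hL2).trans ?_
    have b1 : Dsq (fun ζ => α ζ * s5f_sig (fun j => a j ζ) i) ≤
        2 * 1 ^ 2 * (s5f_Ks J c₀ * (n * D₁)) + 2 * (1 / c₀) ^ 2 * 1 := by
      refine (Dsq_mul_le hαL hσL hα1 (hσ1 i)).trans ?_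
      have h2 : Dsq (fun ζ => s5f_sig (fun j => a j ζ) i) ≤ s5f_Ks J c₀ * (n * D₁) :=
        (D.Dsq_sig_le i).trans (mul_le_mul_of_nonneg_left hsum hKs)
      have h3 := hα.D_le
      gcongr
    have b2 : Dsq (fun ζ => ∑ k, α ζ * Q i k ζ * a k ζ) ≤
        n * (n * (2 * A ^ 2 * D₁ + 2 * 1 ^ 2 * (9 * B))) := by
      refine (Dsq_sum_le hLk).trans ?_
      refine mul_le_mul_of_nonneg_left ?_ hn0
      calc ∑ k, Dsq (fun ζ => α ζ * Q i k ζ * a k ζ) ≤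
            ∑ _k : J, (2 * A ^ 2 * D₁ + 2 * 1 ^ 2 * (9 * B)) := Finset.sum_le_sum fun k _ => by
              refine (Dsq_mul_le (hQL' k) (haL k) (hαs (i, k)) (ha1 k)).trans ?_
              have h2 := hDa' k
              have h3 := hαD (i, k)
              gcongr
        _ = _ := by rw [Finset.sum_const, Finset.card_univ, nsmul_eq_mul]
    linarith

theorem s5f_det_mul_eq_sum {Q κ : Type} [Fintype Q] [DecidableEq Q] [Fintype κ] [DecidableEq κ]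
    (A : Matrix κ Q ℂ) (B : Matrix Q κ ℂ) :
    (A * B).det = ∑ I : κ → Q, (A.submatrix id I).det * ∏ i, B (I i) i := by
  rw [Matrix.det_apply]
  simp only [Matrix.mul_apply, Finset.prod_univ_sum, Fintype.piFinset_univ]
  simp only [Matrix.det_apply, Finset.smul_sum, Finset.sum_mul]
  rw [Finset.sum_comm]
  refine Finset.sum_congr rfl fun I _ => Finset.sum_congr rfl fun σ _ => ?_
  simp only [Matrix.submatrix_apply, id_eq, Finset.prod_mul_distrib, smul_mul_assoc]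

/-- Cauchy-Binet, summed over all index maps. -/
theorem cauchy_binet_sum {Q κ : Type} [Fintype Q] [DecidableEq Q] [Fintype κ] [DecidableEq κ]
    (A : Matrix κ Q ℂ) (B : Matrix Q κ ℂ) :
    ((Fintype.card κ).factorial : ℂ) * (A * B).det =
      ∑ I : κ → Q, (A.submatrix id I).det * (B.submatrix I id).det := by
  have h1 : ∀ τ : Equiv.Perm κ, (A * B).det
      = ∑ I : κ → Q, (A.submatrix id I).det * ((Equiv.Perm.sign τ : ℤ) : ℂ) * ∏ i, B (I (τ i)) i := by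
    intro τ
    rw [s5f_det_mul_eq_sum, ← Equiv.sum_comp ((τ.symm).arrowCongr (Equiv.refl Q))]
    refine Finset.sum_congr rfl fun I _ => ?_
    have e1 : ((τ.symm).arrowCongr (Equiv.refl Q)) I = I ∘ τ := by
      funext i
      simp [Equiv.arrowCongr]
    have e2 : A.submatrix id (I ∘ τ) = (A.submatrix id I).submatrix id τ := by
      ext i j
      rfl
    rw [e1, e2, Matrix.det_permute']
    simp only [Function.comp_apply]
    ring
  have h2 : ((Fintype.card κ).factorial : ℂ) * (A * B).det = ∑ _τ : Equiv.Perm κ, (A * B).det := by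
    rw [Finset.sum_const, Finset.card_univ, Fintype.card_perm, nsmul_eq_mul]
  rw [h2, Finset.sum_congr rfl fun τ _ => h1 τ, Finset.sum_comm]
  refine Finset.sum_congr rfl fun I _ => ?_
  rw [Matrix.det_apply' (B.submatrix I id), Finset.mul_sum]
  refine Finset.sum_congr rfl fun τ _ => ?_
  simp only [Matrix.submatrix_apply, id_eq]
  ring

/-- controlled holomorphic functions: sup norm `≤ B`, `D² ≤ D`. -/
def S5Ctl (B D : ℝ) (f : ℂ → ℂ) : Prop := HolSm f ∧ (∀ ζ ∈ uDiscC, ‖f ζ‖ ≤ B) ∧ Dsq f ≤ D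

theorem S5Ctl.circLip {B D : ℝ} {f : ℂ → ℂ} (h : S5Ctl B D f) : CircLip f := h.1.circSm.circLip

theorem S5Ctl.bd_circ {B D : ℝ} {f : ℂ → ℂ} (h : S5Ctl B D f) : ∀ ζ ∈ uCirc, ‖f ζ‖ ≤ B :=
  fun ζ hζ => h.2.1 ζ (Metric.sphere_subset_closedBall hζ)

theorem S5Ctl.mono {B D B' D' : ℝ} {f : ℂ → ℂ} (h : S5Ctl B D f) (hB : B ≤ B') (hD : D ≤ D') :
    S5Ctl B' D' f := ⟨h.1, fun ζ hζ => (h.2.1 ζ hζ).trans hB, h.2.2.trans hD⟩

theorem s5Ctl_const (c : ℂ) {B D : ℝ} (hB : ‖c‖ ≤ B) (hD : 0 ≤ D) : S5Ctl B D fun _ => c :=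
  ⟨holSm_const c, fun _ _ => hB, by rw [Dsq_const]; exact hD⟩

theorem S5Ctl.mul {B D B' D' : ℝ} {f g : ℂ → ℂ} (hf : S5Ctl B D f) (hg : S5Ctl B' D' g) :
    S5Ctl (B * B') (2 * B ^ 2 * D' + 2 * B' ^ 2 * D) fun ζ => f ζ * g ζ := by
  refine ⟨hf.1.mul hg.1, fun ζ hζ => ?_, ?_⟩
  · rw [norm_mul]
    exact mul_le_mul (hf.2.1 ζ hζ) (hg.2.1 ζ hζ) (norm_nonneg _)
      ((norm_nonneg _).trans (hf.2.1 ζ hζ))
  · refine (Dsq_mul_le hf.circLip hg.circLip hf.bd_circ hg.bd_circ).trans ?_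
    have h1 := mul_le_mul_of_nonneg_left hg.2.2 (by positivity : (0 : ℝ) ≤ 2 * B ^ 2)
    have h2 := mul_le_mul_of_nonneg_left hf.2.2 (by positivity : (0 : ℝ) ≤ 2 * B' ^ 2)
    linarith

theorem S5Ctl.sum {J : Type} [Fintype J] {B D : ℝ} {f : J → ℂ → ℂ} (h : ∀ j, S5Ctl B D (f j)) :
    S5Ctl (Fintype.card J * B) (Fintype.card J * (Fintype.card J * D)) fun ζ => ∑ j, f j ζ := by
  refine ⟨HolSm.sum _ fun j _ => (h j).1, fun ζ hζ => ?_, ?_⟩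
  · calc ‖∑ j, f j ζ‖ ≤ ∑ j, ‖f j ζ‖ := norm_sum_le _ _
      _ ≤ ∑ _j : J, B := Finset.sum_le_sum fun j _ => (h j).2.1 ζ hζ
      _ = Fintype.card J * B := by simp
  · refine (Dsq_sum_le fun j => (h j).circLip).trans ?_
    refine mul_le_mul_of_nonneg_left ?_ (Nat.cast_nonneg _)
    calc ∑ j, Dsq (f j) ≤ ∑ _j : J, D := Finset.sum_le_sum fun j _ => (h j).2.2
      _ = Fintype.card J * D := by simp

theorem S5Ctl.prod {J : Type} [DecidableEq J] (s : Finset J) {D : ℝ} (hD : 0 ≤ D) {f : J → ℂ → ℂ}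
    (h : ∀ j ∈ s, S5Ctl 1 D (f j)) :
    S5Ctl 1 (2 ^ s.card * (s.card * D)) fun ζ => ∏ j ∈ s, f j ζ := by
  induction s using Finset.induction_on with
  | empty =>
    simp only [Finset.prod_empty]
    exact s5Ctl_const 1 (by simp) (by simp)
  | insert a s ha ih =>
    have h1 := (h a (Finset.mem_insert_self a s)).mul
      (ih fun j hj => h j (Finset.mem_insert_of_mem hj))
    simp only [Finset.prod_insert ha]
    refine h1.mono (by norm_num) ?_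
    rw [Finset.card_insert_of_notMem ha]
    have h2 : (1 : ℝ) ≤ 2 ^ s.card := one_le_pow₀ (by norm_num)
    have h4 : D ≤ (2 : ℝ) ^ s.card * D := by nlinarith
    have e : (2 : ℝ) ^ (s.card + 1) * (((s.card + 1 : ℕ) : ℝ) * D)
        - (2 * 1 ^ 2 * (2 ^ s.card * (s.card * D)) + 2 * 1 ^ 2 * D)
        = 2 * ((2 : ℝ) ^ s.card * D - D) := by
      push_cast
      ring
    linarith

theorem s5Ctl_det {κ : Type} [Fintype κ] [DecidableEq κ] {D : ℝ} (hD : 0 ≤ D) :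
    ∃ D' : ℝ, ∀ A : ℂ → Matrix κ κ ℂ, (∀ i j, S5Ctl 1 D fun ζ => A ζ i j) →
      S5Ctl ((Fintype.card κ).factorial : ℝ) D' fun ζ => (A ζ).det := by
  refine ⟨?D', fun A hA => ?main⟩
  case main =>
    have h1 : ∀ σ : Equiv.Perm κ, S5Ctl _ _ fun ζ =>
        ((Equiv.Perm.sign σ : ℤ) : ℂ) * ∏ i, A ζ (σ i) i := fun σ =>
      (s5Ctl_const (B := 1) (D := 0) ((Equiv.Perm.sign σ : ℤ) : ℂ)
        (by rcases Int.units_eq_one_or (Equiv.Perm.sign σ) with h | h <;> simp [h]) le_rfl).mul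
        (S5Ctl.prod Finset.univ hD fun i _ => hA (σ i) i)
    have h2 := S5Ctl.sum h1
    simp only [Matrix.det_apply']
    rw [Fintype.card_perm, mul_one, mul_one] at h2
    exact h2

theorem s5f_adj_ctl {Q κ : Type} [Fintype Q] [DecidableEq Q] [Fintype κ] [DecidableEq κ]
    {D Dd F : ℝ} (hD : 0 ≤ D)
    (hDd : ∀ A : ℂ → Matrix κ κ ℂ, (∀ i j, S5Ctl 1 D fun ζ => A ζ i j) →
      S5Ctl F Dd fun ζ => (A ζ).det)
    {U : ℂ → Matrix Q κ ℂ} (hU : ∀ i j, S5Ctl 1 D fun ζ => U ζ i j) (I : κ → Q) (k k' : κ) :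
    S5Ctl F Dd fun ζ => ((U ζ).submatrix I id).adjugate k k' := by
  simp only [Matrix.adjugate_apply]
  refine hDd (fun ζ => ((U ζ).submatrix I id).updateRow k' (Pi.single k 1)) fun i j => ?_
  simp only [Matrix.updateRow_apply, Matrix.submatrix_apply, id_eq]
  by_cases h : i = k'
  · simp only [h, if_true]
    refine s5Ctl_const _ ?_ hD
    rw [Pi.single_apply]
    split_ifs <;> simp
  · simp only [h, if_false]
    exact hU (I i) j

theorem s5f_entry_ctl (J κ : Type) [Fintype J] [Fintype κ] (C₁ F Dd : ℝ) (c : ℂ) (hc : ‖c‖ ≤ 1) :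
    ∃ BG DG : ℝ, ∀ (γ : J → ℂ → ℂ) (R : J → κ → ℂ → ℂ) (p : J → κ → ℂ),
      (∀ I, S5Ctl C₁ C₁ (γ I)) → (∀ I k', S5Ctl F Dd (R I k')) → (∀ I k', ‖p I k'‖ ≤ 1) →
      S5Ctl BG DG fun ζ => ∑ I, γ I ζ * c * ∑ k', R I k' ζ * p I k' := by
  refine ⟨?B, ?D, fun γ R p hγ hR hp => ?main⟩
  case main =>
    exact S5Ctl.sum fun I => ((hγ I).mul (s5Ctl_const (B := 1) (D := 0) c hc le_rfl)).mul
      (S5Ctl.sum fun k' => (hR I k').mul (s5Ctl_const (B := 1) (D := 0) (p I k') (hp I k') le_rfl))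

/-- holomorphic left inverse, up to the loss factor, of a holomorphic matrix with a lower bound on
its Gram determinant. -/
theorem left_inverse_loss (Q κ : Type) [Fintype Q] [DecidableEq Q] [Fintype κ] [DecidableEq κ]
    {c₀ D₀ η : ℝ} (hc : 0 < c₀) (hη : 0 < η) :
    ∃ C : ℝ, ∀ U : ℂ → Matrix Q κ ℂ, (∀ i j, HolSm fun ζ => U ζ i j) →
      (∀ i j, ∀ ζ ∈ uDiscC, ‖U ζ i j‖ ≤ 1) → (∀ ζ ∈ uDiscC, c₀ ≤ ((U ζ)ᴴ * U ζ).det.re) →
      DsqM U ≤ D₀ →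
      ∃ (α : ℂ → ℂ) (G : ℂ → Matrix κ Q ℂ), IsLoss α η ∧ (∀ i j, HolSm fun ζ => G ζ i j) ∧
        (∀ ζ ∈ uDiscC, G ζ * U ζ = α ζ • (1 : Matrix κ κ ℂ)) ∧
        (∀ i j, ∀ ζ ∈ uDiscC, ‖G ζ i j‖ ≤ C) ∧ DsqM G ≤ C := by
  set D : ℝ := max D₀ 0 with hDdef
  have hD : 0 ≤ D := le_max_right _ _
  obtain ⟨Dd, hDd⟩ := s5Ctl_det (κ := κ) hD
  set F : ℝ := ((Fintype.card κ).factorial : ℝ) with hF
  have hFpos : 0 < F := Nat.cast_pos.2 (Nat.factorial_pos _)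
  have hF1 : 1 ≤ F := by
    rw [hF]
    exact_mod_cast Nat.succ_le_of_lt (Nat.factorial_pos (Fintype.card κ))
  obtain ⟨C₁, hC₁⟩ := corona_loss (κ → Q) (c₀ := c₀ / F)
    (D₀ := 2 * F⁻¹ ^ 2 * Dd + 2 * F ^ 2 * 0) (η := η) (div_pos hc hFpos) hη
  set c : ℂ := ((F⁻¹ : ℝ) : ℂ) with hcdef
  have hcn : ‖c‖ = F⁻¹ := by
    rw [hcdef, Complex.norm_real, Real.norm_eq_abs, abs_of_pos (inv_pos.2 hFpos)]
  have hc1 : ‖c‖ ≤ 1 := by
    rw [hcn]
    exact inv_le_one_of_one_le₀ hF1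
  obtain ⟨BG, DG, hG⟩ := s5f_entry_ctl (κ → Q) κ C₁ F Dd c hc1
  refine ⟨max BG (Fintype.card κ * (Fintype.card Q * DG)), fun U hU hU1 hdet hDU => ?_⟩
  have hctl : ∀ i j, S5Ctl 1 D fun ζ => U ζ i j := fun i j => by
    refine ⟨hU i j, hU1 i j, ?_⟩
    have h1 : Dsq (fun ζ => U ζ i j) ≤ ∑ j', Dsq fun ζ => U ζ i j' :=
      Finset.single_le_sum (f := fun j' => Dsq fun ζ => U ζ i j') (fun j' _ => Dsq_nonneg _)
        (Finset.mem_univ j)
    have h2 : (∑ j', Dsq fun ζ => U ζ i j') ≤ DsqM U :=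
      Finset.single_le_sum (f := fun i' => ∑ j', Dsq fun ζ => U ζ i' j')
        (fun i' _ => Finset.sum_nonneg fun j' _ => Dsq_nonneg _) (Finset.mem_univ i)
    exact h1.trans (h2.trans (hDU.trans (le_max_left _ _)))
  have hdetI : ∀ I : κ → Q, S5Ctl F Dd fun ζ => ((U ζ).submatrix I id).det := fun I =>
    hDd _ fun i j => hctl (I i) j
  have ha : ∀ I : κ → Q, S5Ctl (F⁻¹ * F) (2 * F⁻¹ ^ 2 * Dd + 2 * F ^ 2 * 0) fun ζ =>
      c * ((U ζ).submatrix I id).det := fun I =>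
    (s5Ctl_const (B := F⁻¹) (D := 0) c hcn.le le_rfl).mul (hdetI I)
  have hsumsq : ∀ ζ ∈ uDiscC, c₀ / F ≤ ∑ I : κ → Q, ‖c * ((U ζ).submatrix I id).det‖ ^ 2 := by
    intro ζ hζ
    have hcb := cauchy_binet_sum (U ζ)ᴴ (U ζ)
    have e : ∀ I : κ → Q, ((U ζ)ᴴ.submatrix id I).det * ((U ζ).submatrix I id).det
        = ((‖((U ζ).submatrix I id).det‖ ^ 2 : ℝ) : ℂ) := by
      intro I
      have e1 : (U ζ)ᴴ.submatrix id I = ((U ζ).submatrix I id)ᴴ := by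
        ext i j
        rfl
      rw [e1, Matrix.det_conjTranspose, Complex.star_def, ← Complex.normSq_eq_conj_mul_self,
        Complex.normSq_eq_norm_sq]
    have hre : F * ((U ζ)ᴴ * U ζ).det.re = ∑ I : κ → Q, ‖((U ζ).submatrix I id).det‖ ^ 2 := by
      have h1 := congrArg Complex.re hcb
      rw [Finset.sum_congr rfl fun I _ => e I, ← Complex.ofReal_sum, Complex.ofReal_re,
        ← Complex.ofReal_natCast, Complex.re_ofReal_mul] at h1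
      exact h1
    calc c₀ / F ≤ ((U ζ)ᴴ * U ζ).det.re / F := by
          gcongr
          exact hdet ζ hζ
      _ = ∑ I : κ → Q, ‖c * ((U ζ).submatrix I id).det‖ ^ 2 := by
          simp only [norm_mul, mul_pow, hcn]
          rw [← Finset.mul_sum, ← hre]
          field_simp
  obtain ⟨α, γ, hα, hγ, hsum, hγb, hγD⟩ := hC₁ (fun I ζ => c * ((U ζ).submatrix I id).det)
    (fun I => (ha I).1)
    (fun I ζ hζ => by
      have := (ha I).2.1 ζ hζ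
      rwa [inv_mul_cancel₀ hFpos.ne'] at this)
    hsumsq (fun I => (ha I).2.2)
  set G : ℂ → Matrix κ Q ℂ := fun ζ => ∑ I : κ → Q, (γ I ζ * c) •
    (((U ζ).submatrix I id).adjugate * (1 : Matrix Q Q ℂ).submatrix I id) with hGdef
  have hGentry : ∀ ζ k q, G ζ k q = ∑ I : κ → Q, γ I ζ * c *
      ∑ k', ((U ζ).submatrix I id).adjugate k k' * (1 : Matrix Q Q ℂ) (I k') q := by
    intro ζ k q
    simp only [hGdef, Matrix.sum_apply, Matrix.smul_apply, Matrix.mul_apply, smul_eq_mul,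
      Matrix.submatrix_apply]
    rfl
  have hGctl : ∀ k q, S5Ctl BG DG fun ζ => G ζ k q := by
    intro k q
    simp only [hGentry]
    exact hG γ (fun I k' ζ => ((U ζ).submatrix I id).adjugate k k')
      (fun I k' => (1 : Matrix Q Q ℂ) (I k') q) (fun I => ⟨hγ I, hγb I, hγD I⟩)
      (fun I k' => s5f_adj_ctl hD hDd hctl I k k')
      (fun I k' => by
        rw [Matrix.one_apply]
        split_ifs <;> simp)
  refine ⟨α, G, hα, fun i j => (hGctl i j).1, ?_,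
    fun i j ζ hζ => ((hGctl i j).2.1 ζ hζ).trans (le_max_left _ _), ?_⟩
  · intro ζ hζ
    have e1 : ∀ I : κ → Q, (1 : Matrix Q Q ℂ).submatrix I id * U ζ = (U ζ).submatrix I id := by
      intro I
      ext i j
      simp [Matrix.mul_apply, Matrix.one_apply]
    rw [← hsum ζ hζ, hGdef]
    simp only [Matrix.sum_mul, Matrix.smul_mul, Matrix.mul_assoc, e1, Matrix.adjugate_mul,
      smul_smul, ← Finset.sum_smul]
    congr 1
    exact Finset.sum_congr rfl fun I _ => by ring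
  · refine le_trans ?_ (le_max_right _ _)
    calc DsqM G ≤ ∑ _i : κ, ∑ _j : Q, DG :=
          Finset.sum_le_sum fun i _ => Finset.sum_le_sum fun j _ => (hGctl i j).2.2
      _ = Fintype.card κ * (Fintype.card Q * DG) := by simp

end Corona

end Claimed.Agent.R316
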