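import Claimed.Agent.R316.S5.Symbol
import Claimed.Agent.R316.S5.ParamInt

/-!
# Row 316, Section 5.2: holomorphic families of discs (common calculus for `S5-D1`, `S5-D3`, `S5-D5`)

* `IsFam 𝓧 x r₀` : `x z ζ`, `|z| < r₀`, `|ζ| ≤ 1`, is a family of discs in the complex manifold `𝓧`, smooth on `B(0, r₀) × \bar Δ`, holomorphic in `(z, ζ)`.
* `S5-FA1` smooth compositions (`contDiffOn_comp_smooth`, `contDiffOn_comp_smoothT`: locally `β ∘ γ = (β ∘ Ψ) ∘ (Ψ⁻¹ ∘ γ)` and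
  `IsParam.contDiffWithinAt_invFunOn_comp` in `CM/Param.lean`), `GImm.smoothOnC`, `IsFam.comp_smooth`, `IsFam.famSm_comp`, `IsFam.famSm_compT`.
* `S5-FA2` the ambient family `X z ζ = G (x z ζ)` and its field `V z ζ = ∂_z X`: `IsFam.G_*`, `IsFam.V_*`, `IsFam.isSmDisc`.
* `S5-FA3` Cauchy estimates for `X`, `V` (sup norm and seminorm `D`): `IsFam.cauchy`.
* `S5-FA4` the family of a deformation: `IsDeform.isFam`, `IsFam.base`, `exists_open_reg`, `wall_ratio`, `IsDeform.Z_bounds`.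
-/

set_option autoImplicit false
set_option maxSynthPendingDepth 3
open scoped ContDiff ComplexOrder Topology Matrix
open MeasureTheory Filter

namespace Claimed.Agent.R316

section Gen

variable {V' : Type} [NormedAddCommGroup V'] [NormedSpace ℝ V'] [FiniteDimensional ℝ V']
variable {κ : Type} [Fintype κ] [DecidableEq κ] {q : ℕ}
variable {𝓧 : CMfd V' κ} {G : V' → CE (Fin q)}

/-- a family of discs in `𝓧`, holomorphic in `(z, ζ)`, smooth up to `|ζ| = 1`. -/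
structure IsFam (𝓧 : CMfd V' κ) (x : ℂ → ℂ → V') (r₀ : ℝ) : Prop where
  mem : ∀ z ∈ Metric.ball (0 : ℂ) r₀, ∀ ζ ∈ uDiscC, x z ζ ∈ 𝓧.carrier
  smooth : ContDiffOn ℝ ∞ (fun a : ℂ × ℂ => x a.1 a.2) (Metric.ball 0 r₀ ×ˢ uDiscC)
  hol2 : ∀ (Ψ : CE κ → V') (W : Set (CE κ)), 𝓧.IsHol Ψ W →
    DifferentiableOn ℂ (fun a : ℂ × ℂ => Function.invFunOn Ψ W (x a.1 a.2))
      ((Metric.ball 0 r₀ ×ˢ uDisc) ∩ {a | x a.1 a.2 ∈ Ψ '' W})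
  holz : ∀ ζ ∈ uDiscC, IsHolCurve 𝓧 (fun z => x z ζ) (Metric.ball 0 r₀)

/-! ### `S5-FA1` -/

theorem GImm.smoothOnC (hG : GImm 𝓧 G) (k : Fin q) : SmoothOnC 𝓧 Set.univ fun y => G y k := by
  intro Ψ W hΨ
  have h1 : ContDiffOn ℝ ∞ (G ∘ Ψ) W := hol_contDiffOn_real (CMfd.isOpen_dom hΨ) (hG.hol Ψ W hΨ)
  have h2 := (((EuclideanSpace.proj k : CE (Fin q) →L[ℂ] ℂ).restrictScalars ℝ).contDiff).comp_contDiffOn h1
  exact h2.mono Set.inter_subset_left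

/-- a smooth function on (a relatively open part of) `𝓧` composed with a smooth map into `𝓧`. -/
theorem contDiffOn_comp_smooth {E : Type} [NormedAddCommGroup E] [NormedSpace ℝ E] {γ : E → V'}
    {s : Set E} (hγ : ContDiffOn ℝ ∞ γ s) (hM : ∀ e ∈ s, γ e ∈ 𝓧.carrier) {O : Set V'}
    (hO : IsOpen O) {β : V' → ℂ} (hβ : SmoothOnC 𝓧 O β) (hγO : ∀ e ∈ s, γ e ∈ O) :
    ContDiffOn ℝ ∞ (fun e => β (γ e)) s := by
  intro e he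
  obtain ⟨Ψ, W, hΨ, hmem⟩ := 𝓧.cover _ (hM e he)
  have hc : ContDiffWithinAt ℝ ∞ (Function.invFunOn Ψ W ∘ γ) s e :=
    (𝓧.isParam hΨ).contDiffWithinAt_invFunOn_comp le_rfl (hγ e he) hM he hmem
  have hpO : Ψ ((Function.invFunOn Ψ W ∘ γ) e) ∈ O := by
    show Ψ (Function.invFunOn Ψ W (γ e)) ∈ O
    rw [Function.invFunOn_eq hmem]
    exact hγO e he
  have hB : ContDiffAt ℝ ∞ (β ∘ Ψ) ((Function.invFunOn Ψ W ∘ γ) e) :=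
    hβ.contDiffAt hO hΨ (Function.invFunOn_mem hmem) hpO
  have h1 := hB.comp_contDiffWithinAt e hc
  refine h1.congr_of_eventuallyEq ?_ ?_
  · filter_upwards [amb_eventually_mem_image (hγ e he).continuousWithinAt hM hΨ hmem] with y hy
    show β (γ y) = β (Ψ (Function.invFunOn Ψ W (γ y)))
    rw [Function.invFunOn_eq hy]
  · show β (γ e) = β (Ψ (Function.invFunOn Ψ W (γ e)))
    rw [Function.invFunOn_eq hmem]

/-- the same with a real parameter. -/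
theorem contDiffOn_comp_smoothT {E : Type} [NormedAddCommGroup E] [NormedSpace ℝ E] {γ : E → V'}
    {t : E → ℝ} {s : Set E} (hγ : ContDiffOn ℝ ∞ γ s) (ht : ContDiffOn ℝ ∞ t s)
    (hM : ∀ e ∈ s, γ e ∈ 𝓧.carrier) {O : Set V'} (hO : IsOpen O) {I : Set ℝ} {β : V' → ℝ → ℂ}
    (hβ : ∀ (Ψ : CE κ → V') (W : Set (CE κ)), 𝓧.IsHol Ψ W →
      ContDiffOn ℝ ∞ (fun a : ℝ × CE κ => β (Ψ a.2) a.1) (I ×ˢ (W ∩ Ψ ⁻¹' O)))
    (hγO : ∀ e ∈ s, γ e ∈ O) (htI : ∀ e ∈ s, t e ∈ I) :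
    ContDiffOn ℝ ∞ (fun e => β (γ e) (t e)) s := by
  intro e he
  obtain ⟨Ψ, W, hΨ, hmem⟩ := 𝓧.cover _ (hM e he)
  have hc : ContDiffWithinAt ℝ ∞ (Function.invFunOn Ψ W ∘ γ) s e :=
    (𝓧.isParam hΨ).contDiffWithinAt_invFunOn_comp le_rfl (hγ e he) hM he hmem
  have hev := amb_eventually_mem_image (hγ e he).continuousWithinAt hM hΨ hmem
  have hin : ∀ y ∈ s, γ y ∈ Ψ '' W →
      (t y, (Function.invFunOn Ψ W ∘ γ) y) ∈ I ×ˢ (W ∩ Ψ ⁻¹' O) := by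
    intro y hy hyW
    refine ⟨htI y hy, Function.invFunOn_mem hyW, ?_⟩
    show Ψ (Function.invFunOn Ψ W (γ y)) ∈ O
    rw [Function.invFunOn_eq hyW]
    exact hγO y hy
  have hB := hβ Ψ W hΨ _ (hin e he hmem)
  have h1 := ContDiffWithinAt.comp_of_preimage_mem_nhdsWithin
    (f := fun y => (t y, (Function.invFunOn Ψ W ∘ γ) y)) e hB ((ht e he).prodMk hc) (by
      filter_upwards [hev, self_mem_nhdsWithin] with y hy hys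
      exact hin y hys hy)
  refine h1.congr_of_eventuallyEq ?_ ?_
  · filter_upwards [hev] with y hy
    show β (γ y) (t y) = β (Ψ (Function.invFunOn Ψ W (γ y))) (t y)
    rw [Function.invFunOn_eq hy]
  · show β (γ e) (t e) = β (Ψ (Function.invFunOn Ψ W (γ e))) (t e)
    rw [Function.invFunOn_eq hmem]

variable {x : ℂ → ℂ → V'} {r₀ : ℝ}

theorem IsFam.mono (hx : IsFam 𝓧 x r₀) {r : ℝ} (hr : r ≤ r₀) : IsFam 𝓧 x r := by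
  have hsub : Metric.ball (0 : ℂ) r ⊆ Metric.ball 0 r₀ := Metric.ball_subset_ball hr
  refine ⟨fun z hz => hx.mem z (hsub hz), hx.smooth.mono (Set.prod_mono hsub le_rfl),
    fun Ψ W hΨ => (hx.hol2 Ψ W hΨ).mono
      (Set.inter_subset_inter_left _ (Set.prod_mono hsub le_rfl)), fun ζ hζ => ?_⟩
  obtain ⟨_, h2, h3, h4⟩ := hx.holz ζ hζ
  exact ⟨Metric.isOpen_ball, fun z hz => h2 z (hsub hz), h3.mono hsub,
    fun Ψ W hΨ => (h4 Ψ W hΨ).mono (Set.inter_subset_inter_left _ hsub)⟩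

theorem IsFam.comp_smooth (hx : IsFam 𝓧 x r₀) {O : Set V'} (hO : IsOpen O) {β : V' → ℂ}
    (hβ : SmoothOnC 𝓧 O β) (hxO : ∀ z ∈ Metric.ball (0 : ℂ) r₀, ∀ ζ ∈ uDiscC, x z ζ ∈ O) :
    ContDiffOn ℝ ∞ (fun a : ℂ × ℂ => β (x a.1 a.2)) (Metric.ball 0 r₀ ×ˢ uDiscC) := by
  exact contDiffOn_comp_smooth hx.smooth (fun a ha => hx.mem a.1 ha.1 a.2 ha.2) hO hβ
    fun a ha => hxO a.1 ha.1 a.2 ha.2

theorem IsFam.contDiffOn_circle (hx : IsFam 𝓧 x r₀) :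
    ContDiffOn ℝ ∞ (fun a : ℂ × ℝ => x a.1 (circleMap 0 1 a.2))
      (Metric.ball 0 r₀ ×ˢ (Set.univ : Set ℝ)) := by
  have h1 : ContDiff ℝ ∞ fun a : ℂ × ℝ => ((a.1, circleMap 0 1 a.2) : ℂ × ℂ) :=
    contDiff_fst.prodMk ((contDiff_circleMap 0 1).comp contDiff_snd)
  exact hx.smooth.comp h1.contDiffOn fun a ha =>
    ⟨ha.1, Metric.sphere_subset_closedBall (circleMap_mem_uCirc a.2)⟩

theorem IsFam.famSm_comp (hx : IsFam 𝓧 x r₀) {O : Set V'} (hO : IsOpen O) {β : V' → ℂ}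
    (hβ : SmoothOnC 𝓧 O β) (hxO : ∀ z ∈ Metric.ball (0 : ℂ) r₀, ∀ ζ ∈ uCirc, x z ζ ∈ O) :
    FamSm (Metric.ball 0 r₀) fun z ζ => β (x z ζ) := by
  exact contDiffOn_comp_smooth hx.contDiffOn_circle
    (fun a ha => hx.mem a.1 ha.1 _ (Metric.sphere_subset_closedBall (circleMap_mem_uCirc a.2)))
    hO hβ fun a ha => hxO a.1 ha.1 _ (circleMap_mem_uCirc a.2)

theorem IsFam.famSm_compT (hx : IsFam 𝓧 x r₀) {O : Set V'} (hO : IsOpen O) {I : Set ℝ}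
    {β : V' → ℝ → ℂ}
    (hβ : ∀ (Ψ : CE κ → V') (W : Set (CE κ)), 𝓧.IsHol Ψ W →
      ContDiffOn ℝ ∞ (fun a : ℝ × CE κ => β (Ψ a.2) a.1) (I ×ˢ (W ∩ Ψ ⁻¹' O)))
    (hxO : ∀ z ∈ Metric.ball (0 : ℂ) r₀, ∀ ζ ∈ uCirc, x z ζ ∈ O) {t : ℂ → ℝ}
    (ht : CircSm fun ζ => (t ζ : ℂ)) (htI : ∀ ζ ∈ uCirc, t ζ ∈ I) :
    FamSm (Metric.ball 0 r₀) fun z ζ => β (x z ζ) (t ζ) := by
  have ht' : ContDiffOn ℝ ∞ (fun a : ℂ × ℝ => t (circleMap 0 1 a.2))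
      (Metric.ball 0 r₀ ×ˢ (Set.univ : Set ℝ)) := by
    have h1 : ContDiff ℝ ∞ fun θ : ℝ => t (circleMap 0 1 θ) := Complex.reCLM.contDiff.comp ht
    exact (h1.comp contDiff_snd).contDiffOn
  exact contDiffOn_comp_smoothT hx.contDiffOn_circle ht'
    (fun a ha => hx.mem a.1 ha.1 _ (Metric.sphere_subset_closedBall (circleMap_mem_uCirc a.2)))
    hO hβ (fun a ha => hxO a.1 ha.1 _ (circleMap_mem_uCirc a.2))
    fun a _ => htI _ (circleMap_mem_uCirc a.2)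

/-! ### `S5-FA2` -/

theorem IsFam.isSmDisc (hx : IsFam 𝓧 x r₀) {z : ℂ} (hz : z ∈ Metric.ball (0 : ℂ) r₀) :
    IsSmDisc 𝓧 (x z) := by
  have hmk : ContDiff ℝ ∞ fun ζ : ℂ => ((z, ζ) : ℂ × ℂ) := contDiff_const.prodMk contDiff_id
  have hsm : ContDiffOn ℝ ∞ (x z) uDiscC := hx.smooth.comp hmk.contDiffOn fun ζ hζ => ⟨hz, hζ⟩
  refine ⟨⟨fun ζ hζ => hx.mem z hz ζ (Metric.ball_subset_closedBall hζ),
    hsm.continuousOn.mono Metric.ball_subset_closedBall, fun Ψ W hΨ => ?_⟩, hsm, hx.mem z hz⟩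
  have h1 : DifferentiableOn ℂ (fun ζ : ℂ => ((z, ζ) : ℂ × ℂ))
      (Metric.ball (0 : ℂ) 1 ∩ x z ⁻¹' (Ψ '' W)) :=
    ((differentiable_const z).prodMk differentiable_id).differentiableOn
  exact (hx.hol2 Ψ W hΨ).comp h1 fun ζ hζ => ⟨⟨hz, hζ.1⟩, hζ.2⟩

theorem IsFam.G_smooth (hG : GImm 𝓧 G) (hx : IsFam 𝓧 x r₀) (k : Fin q) :
    ContDiffOn ℝ ∞ (fun a : ℂ × ℂ => G (x a.1 a.2) k) (Metric.ball 0 r₀ ×ˢ uDiscC) := by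
  exact hx.comp_smooth isOpen_univ (hG.smoothOnC k) fun _ _ _ _ => Set.mem_univ _

theorem IsFam.isOpen_chart (hx : IsFam 𝓧 x r₀) {Ψ : CE κ → V'} {W : Set (CE κ)}
    (hΨ : 𝓧.IsHol Ψ W) :
    IsOpen ((Metric.ball 0 r₀ ×ˢ uDisc) ∩ {a : ℂ × ℂ | x a.1 a.2 ∈ Ψ '' W}) := by
  obtain ⟨O, hO, hOeq⟩ := (𝓧.isParam hΨ).image
  have hU : IsOpen (Metric.ball (0 : ℂ) r₀ ×ˢ uDisc) := Metric.isOpen_ball.prod Metric.isOpen_ball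
  have hc : ContinuousOn (fun a : ℂ × ℂ => x a.1 a.2) (Metric.ball 0 r₀ ×ˢ uDisc) :=
    hx.smooth.continuousOn.mono (Set.prod_mono le_rfl Metric.ball_subset_closedBall)
  have h : (Metric.ball 0 r₀ ×ˢ uDisc) ∩ {a : ℂ × ℂ | x a.1 a.2 ∈ Ψ '' W} =
      (Metric.ball 0 r₀ ×ˢ uDisc) ∩ (fun a : ℂ × ℂ => x a.1 a.2) ⁻¹' O := by
    ext a
    constructor
    · rintro ⟨ha, ha'⟩
      exact ⟨ha, (hOeq ▸ ha' : x a.1 a.2 ∈ 𝓧.carrier ∩ O).2⟩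
    · rintro ⟨ha, ha'⟩
      refine ⟨ha, ?_⟩
      show x a.1 a.2 ∈ Ψ '' W
      rw [hOeq]
      exact ⟨hx.mem a.1 ha.1 a.2 (Metric.ball_subset_closedBall ha.2), ha'⟩
  rw [h]
  exact hc.isOpen_inter_preimage hU hO

theorem IsFam.G_hol2 (hG : GImm 𝓧 G) (hx : IsFam 𝓧 x r₀) (k : Fin q) :
    DifferentiableOn ℂ (fun a : ℂ × ℂ => G (x a.1 a.2) k) (Metric.ball 0 r₀ ×ˢ uDisc) := by
  intro a ha
  obtain ⟨Ψ, W, hΨ, hmem⟩ := 𝓧.cover _ (hx.mem a.1 ha.1 a.2 (Metric.ball_subset_closedBall ha.2))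
  have ho := hx.isOpen_chart hΨ
  have haS : a ∈ (Metric.ball 0 r₀ ×ˢ uDisc) ∩ {a : ℂ × ℂ | x a.1 a.2 ∈ Ψ '' W} := ⟨ha, hmem⟩
  have hc : DifferentiableAt ℂ (fun a : ℂ × ℂ => Function.invFunOn Ψ W (x a.1 a.2)) a :=
    (hx.hol2 Ψ W hΨ a haS).differentiableAt (ho.mem_nhds haS)
  have hg : DifferentiableAt ℂ (G ∘ Ψ) (Function.invFunOn Ψ W (x a.1 a.2)) :=
    amb_differentiableAt_G hG hΨ (Function.invFunOn_mem hmem)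
  have h1 := ((EuclideanSpace.proj k : CE (Fin q) →L[ℂ] ℂ).differentiableAt).comp a (hg.comp a hc)
  refine (h1.congr_of_eventuallyEq ?_).differentiableWithinAt
  filter_upwards [ho.mem_nhds haS] with b hb
  show G (x b.1 b.2) k = G (Ψ (Function.invFunOn Ψ W (x b.1 b.2))) k
  rw [Function.invFunOn_eq hb.2]

theorem IsFam.G_holz (hG : GImm 𝓧 G) (hx : IsFam 𝓧 x r₀) {ζ : ℂ} (hζ : ζ ∈ uDiscC) (k : Fin q) :
    DifferentiableOn ℂ (fun z => G (x z ζ) k) (Metric.ball 0 r₀) := by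
  intro z hz
  exact ((EuclideanSpace.proj k : CE (Fin q) →L[ℂ] ℂ).differentiableAt).comp_differentiableWithinAt
    z ((hx.holz ζ hζ).differentiableOn_G hG z hz)

theorem IsFam.famSm_G (hG : GImm 𝓧 G) (hx : IsFam 𝓧 x r₀) (k : Fin q) :
    FamSm (Metric.ball 0 r₀) fun z ζ => G (x z ζ) k := by
  exact hx.famSm_comp isOpen_univ (hG.smoothOnC k) fun _ _ _ _ => Set.mem_univ _

/-- the field `V z ζ = ∂_z G (x z ζ)`. -/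
noncomputable def famV (G : V' → CE (Fin q)) (x : ℂ → ℂ → V') (z ζ : ℂ) : Fin q → ℂ :=
  fun k => deriv (fun y => G (x y ζ) k) z

theorem IsFam.famV_eq_fderivWithin (hG : GImm 𝓧 G) (hx : IsFam 𝓧 x r₀) (k : Fin q) {z ζ : ℂ}
    (hz : z ∈ Metric.ball (0 : ℂ) r₀) (hζ : ζ ∈ uDiscC) :
    famV G x z ζ k = fderivWithin ℝ (fun a : ℂ × ℂ => G (x a.1 a.2) k)
      (Metric.ball 0 r₀ ×ˢ uDiscC) (z, ζ) (1, 0) := by
  have hd : HasFDerivWithinAt (fun a : ℂ × ℂ => G (x a.1 a.2) k)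
      (fderivWithin ℝ (fun a : ℂ × ℂ => G (x a.1 a.2) k) (Metric.ball 0 r₀ ×ˢ uDiscC) (z, ζ))
      (Metric.ball 0 r₀ ×ˢ uDiscC) (z, ζ) :=
    ((hx.G_smooth hG k (z, ζ) ⟨hz, hζ⟩).differentiableWithinAt (by simp)).hasFDerivWithinAt
  have h2 : HasFDerivWithinAt (fun y : ℂ => ((y, ζ) : ℂ × ℂ)) (ContinuousLinearMap.inl ℝ ℂ ℂ)
      (Metric.ball 0 r₀) z := (hasFDerivAt_prodMk_left z ζ).hasFDerivWithinAt
  have hmaps : Set.MapsTo (fun y : ℂ => ((y, ζ) : ℂ × ℂ)) (Metric.ball 0 r₀)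
      (Metric.ball 0 r₀ ×ˢ uDiscC) := fun y hy => ⟨hy, hζ⟩
  have h3 := hd.comp z h2 hmaps
  have h4 := h3.hasFDerivAt (Metric.isOpen_ball.mem_nhds hz)
  have h5 : DifferentiableAt ℂ (fun y => G (x y ζ) k) z :=
    (hx.G_holz hG hζ k z hz).differentiableAt (Metric.isOpen_ball.mem_nhds hz)
  have h6 := B14.fderiv_real_apply_of_differentiableAt h5 1
  rw [one_mul] at h6
  have e : (fun y => G (x y ζ) k) =
      (fun a : ℂ × ℂ => G (x a.1 a.2) k) ∘ fun y : ℂ => ((y, ζ) : ℂ × ℂ) := rfl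
  unfold famV
  rw [← h6, e, h4.fderiv]
  simp

theorem IsFam.V_smooth (hG : GImm 𝓧 G) (hx : IsFam 𝓧 x r₀) (k : Fin q) :
    ContDiffOn ℝ ∞ (fun a : ℂ × ℂ => famV G x a.1 a.2 k) (Metric.ball 0 r₀ ×ˢ uDiscC) := by
  have hS : UniqueDiffOn ℝ (Metric.ball (0 : ℂ) r₀ ×ˢ uDiscC) :=
    Metric.isOpen_ball.uniqueDiffOn.prod s5c_uniqueDiffOn
  have h1 := (hx.G_smooth hG k).fderivWithin hS (m := ∞) (by simp)
  have h2 : ContDiffOn ℝ ∞ (fun a => fderivWithin ℝ (fun a : ℂ × ℂ => G (x a.1 a.2) k)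
      (Metric.ball 0 r₀ ×ˢ uDiscC) a ((1 : ℂ), (0 : ℂ))) (Metric.ball 0 r₀ ×ˢ uDiscC) :=
    h1.clm_apply contDiffOn_const
  exact h2.congr fun a ha => hx.famV_eq_fderivWithin hG k ha.1 ha.2

theorem IsFam.V_hol2 (hG : GImm 𝓧 G) (hx : IsFam 𝓧 x r₀) (k : Fin q) :
    DifferentiableOn ℂ (fun a : ℂ × ℂ => famV G x a.1 a.2 k) (Metric.ball 0 r₀ ×ˢ uDisc) := by
  have hU : IsOpen (Metric.ball (0 : ℂ) r₀ ×ˢ uDisc) := Metric.isOpen_ball.prod Metric.isOpen_ball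
  have hF := hx.G_hol2 hG k
  intro a ha
  have h1 := hs_differentiableAt_fderiv_apply hU hF ha ((1 : ℂ), (0 : ℂ))
  refine (h1.congr_of_eventuallyEq ?_).differentiableWithinAt
  filter_upwards [hU.mem_nhds ha] with b hb
  have hd : HasFDerivAt (fun a : ℂ × ℂ => G (x a.1 a.2) k)
      (fderiv ℂ (fun a : ℂ × ℂ => G (x a.1 a.2) k) b) (b.1, b.2) :=
    ((hF b hb).differentiableAt (hU.mem_nhds hb)).hasFDerivAt
  have h2 : HasFDerivAt (fun y : ℂ => ((y, b.2) : ℂ × ℂ)) (ContinuousLinearMap.inl ℂ ℂ ℂ) b.1 :=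
    hasFDerivAt_prodMk_left b.1 b.2
  have h4 := (hd.comp b.1 h2).hasDerivAt
  have h5 : famV G x b.1 b.2 k = _ := h4.deriv
  rw [h5]
  simp

theorem IsFam.V_holz (hG : GImm 𝓧 G) (hx : IsFam 𝓧 x r₀) {ζ : ℂ} (hζ : ζ ∈ uDiscC) (k : Fin q) :
    DifferentiableOn ℂ (fun z => famV G x z ζ k) (Metric.ball 0 r₀) := by
  exact (hx.G_holz hG hζ k).deriv Metric.isOpen_ball

theorem IsFam.holSm_V (hG : GImm 𝓧 G) (hx : IsFam 𝓧 x r₀) {z : ℂ}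
    (hz : z ∈ Metric.ball (0 : ℂ) r₀) (k : Fin q) : HolSm fun ζ => famV G x z ζ k := by
  constructor
  · have h1 : DifferentiableOn ℂ (fun ζ : ℂ => ((z, ζ) : ℂ × ℂ)) uDisc :=
      ((differentiable_const z).prodMk differentiable_id).differentiableOn
    exact (hx.V_hol2 hG k).comp h1 fun ζ hζ => ⟨hz, hζ⟩
  · have hmk : ContDiff ℝ ∞ fun ζ : ℂ => ((z, ζ) : ℂ × ℂ) := contDiff_const.prodMk contDiff_id
    exact (hx.V_smooth hG k).comp hmk.contDiffOn fun ζ hζ => ⟨hz, hζ⟩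

theorem IsFam.famSm_V (hG : GImm 𝓧 G) (hx : IsFam 𝓧 x r₀) (k : Fin q) :
    FamSm (Metric.ball 0 r₀) fun z ζ => famV G x z ζ k := by
  have h1 : ContDiff ℝ ∞ fun a : ℂ × ℝ => ((a.1, circleMap 0 1 a.2) : ℂ × ℂ) :=
    contDiff_fst.prodMk ((contDiff_circleMap 0 1).comp contDiff_snd)
  exact (hx.V_smooth hG k).comp h1.contDiffOn fun a ha =>
    ⟨ha.1, Metric.sphere_subset_closedBall (circleMap_mem_uCirc a.2)⟩

/-- chain rules along the curves `z ↦ x z ζ` (`d1_comp_curve`, `lap1_comp_curve`). -/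
theorem IsFam.d1_comp (hG : GImm 𝓧 G) (hx : IsFam 𝓧 x r₀) {O : Set V'} (hO : IsOpen O)
    {β : V' → ℂ} (hβ : SmoothOnC 𝓧 O β) {z ζ : ℂ} (hz : z ∈ Metric.ball (0 : ℂ) r₀)
    (hζ : ζ ∈ uDiscC) (hzO : x z ζ ∈ O) :
    d1 (fun y => β (x y ζ)) z = ∑ r, gDz 𝓧 G β (x z ζ) r * famV G x z ζ r ∧
    dbar1 (fun y => β (x y ζ)) z = ∑ r, gDzb 𝓧 G β (x z ζ) r * star (famV G x z ζ r) :=
  d1_comp_curve hG (hx.holz ζ hζ) hO hβ hz hzO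

theorem IsFam.lap1_comp (hG : GImm 𝓧 G) (hx : IsFam 𝓧 x r₀) {O : Set V'} (hO : IsOpen O)
    {β : V' → ℝ} (hβ : SmoothOnC 𝓧 O fun y => (β y : ℂ)) {z ζ : ℂ}
    (hz : z ∈ Metric.ball (0 : ℂ) r₀) (hζ : ζ ∈ uDiscC) (hzO : x z ζ ∈ O) :
    lap1 (fun y => β (x y ζ)) z = qf (ambM 𝓧 G (ddc β) (x z ζ)) (famV G x z ζ) :=
  lap1_comp_curve hG (hx.holz ζ hζ) hO hβ hz hzO

/-! ### `S5-FA3` -/

theorem s5fam_Dsq_le_DsqV {ι : Type} [Fintype ι] (a : ℂ → ι → ℂ) (i : ι) :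
    Dsq (fun ζ => a ζ i) ≤ DsqV a :=
  Finset.single_le_sum (f := fun i => Dsq fun ζ => a ζ i) (fun _ _ => Dsq_nonneg _)
    (Finset.mem_univ i)

/-- Cauchy estimates.  `m` is a weight on the circle (`m = 1` or `m = |hh|`). -/
theorem IsFam.cauchy (hG : GImm 𝓧 G) (hx : IsFam 𝓧 x r₀) (hr₀ : 0 < r₀) {M : ℝ} {m : ℂ → ℝ}
    (hm : ∀ ζ ∈ uCirc, 0 < m ζ) (hmS : CircSm fun ζ => (m ζ : ℂ))
    (hdisp : ∀ z ∈ Metric.ball (0 : ℂ) r₀, ∀ ζ ∈ uCirc, ‖G (x z ζ) - G (x 0 ζ)‖ ≤ M * ‖z‖ * m ζ)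
    (hD : ∀ z ∈ Metric.ball (0 : ℂ) r₀,
      DsqV (fun ζ k => (G (x z ζ) k - G (x 0 ζ) k) / (m ζ : ℂ)) ≤ M) :
    (∀ z : ℂ, ‖z‖ ≤ r₀ / 2 → ∀ ζ ∈ uCirc, ∀ k,
      ‖famV G x z ζ k - famV G x 0 ζ k‖ ≤ 8 * M * ‖z‖ / r₀ * m ζ) ∧
    (∀ z : ℂ, ‖z‖ ≤ r₀ / 2 →
      DsqV (fun ζ k => (famV G x z ζ k - famV G x 0 ζ k) / (m ζ : ℂ)) ≤
        64 * q * M * ‖z‖ ^ 2 / r₀ ^ 4) := by
  have h0B : (0 : ℂ) ∈ Metric.ball (0 : ℂ) r₀ := Metric.mem_ball_self hr₀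
  have hM0 : 0 ≤ M := (DsqV_nonneg _).trans (hD 0 h0B)
  have hC : ∀ ζ ∈ uCirc, ζ ∈ uDiscC := fun ζ hζ => Metric.sphere_subset_closedBall hζ
  refine ⟨fun z hz ζ hζ k => ?_, fun z hz => ?_⟩
  · have h1 := (norm_deriv_sub_le (F := fun y => G (x y ζ) k - G (x 0 ζ) k) (M := M * r₀ * m ζ)
      hr₀ ((hx.G_holz hG (hC ζ hζ) k).sub_const _) (fun y hy => by
        have hy' : ‖y‖ ≤ r₀ := (mem_ball_zero_iff.1 hy).le
        have hmζ := (hm ζ hζ).le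
        calc ‖G (x y ζ) k - G (x 0 ζ) k‖ = ‖(G (x y ζ) - G (x 0 ζ)) k‖ := rfl
          _ ≤ ‖G (x y ζ) - G (x 0 ζ)‖ := PiLp.norm_apply_le _ _
          _ ≤ M * ‖y‖ * m ζ := hdisp y hy ζ hζ
          _ ≤ M * r₀ * m ζ := by gcongr)).2 z hz
    rw [deriv_sub_const, deriv_sub_const] at h1
    refine h1.trans (le_of_eq ?_)
    field_simp
  · have key : ∀ k, Dsq (fun ζ => (famV G x z ζ k - famV G x 0 ζ k) / (m ζ : ℂ)) ≤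
        64 * M * ‖z‖ ^ 2 / r₀ ^ 4 := by
      intro k
      have hmi : CircSm fun ζ => ((m ζ : ℝ) : ℂ)⁻¹ := hmS.inv fun ζ hζ => by
        exact_mod_cast (hm ζ hζ).ne'
      have hX : FamSm (Metric.ball 0 r₀) fun y ζ => (G (x y ζ) k - G (x 0 ζ) k) / (m ζ : ℂ) := by
        have h := ((hx.famSm_G hG k).sub (famSm_of_circSm ((hx.famSm_G hG k).circSm h0B))).mul
          (famSm_of_circSm (Ω := Metric.ball 0 r₀) hmi)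
        exact h.congr fun y _ ζ _ => div_eq_mul_inv _ _
      have h2 := (FamSm.Dsq_deriv_le hr₀
        (fun ζ hζ => ((hx.G_holz hG (hC ζ hζ) k).sub_const _).div_const _) hX
        (fun y hy => (s5fam_Dsq_le_DsqV
          (fun ζ k => (G (x y ζ) k - G (x 0 ζ) k) / (m ζ : ℂ)) k).trans (hD y hy))).2 z hz
      refine le_trans (le_of_eq (Dsq_congr fun ζ _ => ?_)) h2
      show _ = deriv (fun y => (G (x y ζ) k - G (x 0 ζ) k) / (m ζ : ℂ)) z -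
        deriv (fun y => (G (x y ζ) k - G (x 0 ζ) k) / (m ζ : ℂ)) 0
      rw [deriv_div_const, deriv_div_const, deriv_sub_const, deriv_sub_const]
      unfold famV
      ring
    unfold DsqV
    calc ∑ k, Dsq (fun ζ => (famV G x z ζ k - famV G x 0 ζ k) / (m ζ : ℂ))
        ≤ ∑ _k : Fin q, 64 * M * ‖z‖ ^ 2 / r₀ ^ 4 := Finset.sum_le_sum fun k _ => key k
      _ = 64 * q * M * ‖z‖ ^ 2 / r₀ ^ 4 := by
        rw [Finset.sum_const, Finset.card_univ, Fintype.card_fin, nsmul_eq_mul]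
        ring

theorem IsFam.cauchy_X (hG : GImm 𝓧 G) (hx : IsFam 𝓧 x r₀) (hr₀ : 0 < r₀) {M : ℝ}
    (hD : ∀ z ∈ Metric.ball (0 : ℂ) r₀, DsqV (fun ζ => (G (x z ζ) : Fin q → ℂ)) ≤ M) :
    (∀ z : ℂ, ‖z‖ ≤ r₀ / 2 →
      DsqV (fun ζ k => G (x z ζ) k - G (x 0 ζ) k) ≤ 4 * q * M * ‖z‖ ^ 2 / r₀ ^ 2) ∧
    (∀ z : ℂ, ‖z‖ ≤ r₀ / 2 →
      DsqV (fun ζ k => famV G x z ζ k - famV G x 0 ζ k) ≤ 64 * q * M * ‖z‖ ^ 2 / r₀ ^ 4) := by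
  have hC : ∀ ζ ∈ uCirc, ζ ∈ uDiscC := fun ζ hζ => Metric.sphere_subset_closedBall hζ
  have hDk : ∀ k, ∀ y ∈ Metric.ball (0 : ℂ) r₀, Dsq (fun ζ => G (x y ζ) k) ≤ M := fun k y hy =>
    (s5fam_Dsq_le_DsqV (fun ζ => (G (x y ζ) : Fin q → ℂ)) k).trans (hD y hy)
  refine ⟨fun z hz => ?_, fun z hz => ?_⟩
  · unfold DsqV
    calc ∑ k, Dsq (fun ζ => G (x z ζ) k - G (x 0 ζ) k)
        ≤ ∑ _k : Fin q, 4 * M * ‖z‖ ^ 2 / r₀ ^ 2 := Finset.sum_le_sum fun k _ =>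
          Dsq_sub_le hr₀ (fun ζ hζ => hx.G_holz hG (hC ζ hζ) k) (hx.famSm_G hG k) (hDk k) z hz
      _ = 4 * q * M * ‖z‖ ^ 2 / r₀ ^ 2 := by
        rw [Finset.sum_const, Finset.card_univ, Fintype.card_fin, nsmul_eq_mul]
        ring
  · unfold DsqV
    calc ∑ k, Dsq (fun ζ => famV G x z ζ k - famV G x 0 ζ k)
        ≤ ∑ _k : Fin q, 64 * M * ‖z‖ ^ 2 / r₀ ^ 4 := Finset.sum_le_sum fun k _ =>
          (FamSm.Dsq_deriv_le hr₀ (fun ζ hζ => hx.G_holz hG (hC ζ hζ) k) (hx.famSm_G hG k)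
            (hDk k)).2 z hz
      _ = 64 * q * M * ‖z‖ ^ 2 / r₀ ^ 4 := by
        rw [Finset.sum_const, Finset.card_univ, Fintype.card_fin, nsmul_eq_mul]
        ring

end Gen

section Deform

set_option linter.unusedSectionVars false

variable {V : Type} [NormedAddCommGroup V] [InnerProductSpace ℝ V] [FiniteDimensional ℝ V]
variable [MeasurableSpace V] [BorelSpace V]
variable {n : ℕ} {𝓜 : CMfd V (Fin n)} {g : HFam V (Fin n)} {o : V}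
variable {D : FlowData 𝓜 g o} {𝒴 : CMfd (CotAmb V) (Fin n ⊕ Fin n)}
variable {X : S5Ctx V n} {𝔚 : Walls V} {err A1 A2 : ℝ}

/-- the deformed configuration. -/
def Config.deform (c : Config V n) (F : ℂ → ℂ → CotAmb V) (pz : ℂ → CE (Fin n ⊕ Fin n)) (z : ℂ) :
    Config V n := ⟨pz z, c.s, F z, c.w⟩

/-- `F` is a holomorphic deformation of `c`, for `|z| < r₀`, with first field `Vh` (in ambient form), displacement
`≤ M |z| |hh|` on the circle and bounded seminorms. -/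
structure IsDeform (X : S5Ctx V n) (𝔚 : Walls V) (𝒴 : CMfd (CotAmb V) (Fin n ⊕ Fin n))
    (c : Config V n) (hh : ℂ → ℂ) (Vh : ℂ → Fin X.q → ℂ) (F : ℂ → ℂ → CotAmb V)
    (pz : ℂ → CE (Fin n ⊕ Fin n)) (r₀ M : ℝ) : Prop where
  adm : ∀ z ∈ Metric.ball (0 : ℂ) r₀, IsAdm X 𝔚 𝒴 (c.deform F pz z)
  F_zero : ∀ ζ ∈ uDiscC, F 0 ζ = c.f ζ
  pz_zero : pz 0 = c.p
  pz_hol : DifferentiableOn ℂ pz (Metric.ball 0 r₀)
  smooth : ContDiffOn ℝ ∞ (fun a : ℂ × ℂ => F a.1 a.2) (Metric.ball 0 r₀ ×ˢ uDiscC)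
  hol2 : ∀ (Ψ : CE (Fin n ⊕ Fin n) → CotAmb V) (W : Set (CE (Fin n ⊕ Fin n))), 𝒴.IsHol Ψ W →
    DifferentiableOn ℂ (fun a : ℂ × ℂ => Function.invFunOn Ψ W (F a.1 a.2))
      ((Metric.ball 0 r₀ ×ˢ uDisc) ∩ {a | F a.1 a.2 ∈ Ψ '' W})
  holz : ∀ ζ ∈ uDiscC, IsHolCurve 𝒴 (fun z => F z ζ) (Metric.ball 0 r₀)
  first : ∀ ζ ∈ uDiscC, ∀ k, deriv (fun z => X.G (F z ζ) k) 0 = Vh ζ k
  disp : ∀ z ∈ Metric.ball (0 : ℂ) r₀, ∀ ζ ∈ uCirc, ‖X.G (F z ζ) - X.G (c.f ζ)‖ ≤ M * ‖z‖ * ‖hh ζ‖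
  D_X : ∀ z ∈ Metric.ball (0 : ℂ) r₀, DsqV (fun ζ => (X.G (F z ζ) : Fin X.q → ℂ)) ≤ M
  D_Z : ∀ z ∈ Metric.ball (0 : ℂ) r₀,
    DsqV (fun ζ k => (X.G (F z ζ) k - X.G (c.f ζ) k) / (‖hh ζ‖ : ℂ)) ≤ M

/-! ### `S5-FA4` -/

variable {c : Config V n} {hh : ℂ → ℂ} {Vh : ℂ → Fin X.q → ℂ} {F : ℂ → ℂ → CotAmb V}
variable {pz : ℂ → CE (Fin n ⊕ Fin n)} {r₀ M : ℝ}

theorem IsDeform.isFam (hD : IsDeform X 𝔚 𝒴 c hh Vh F pz r₀ M) : IsFam 𝒴 F r₀ where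
  mem := fun z hz ζ hζ => (hD.adm z hz).disc.2.2 ζ hζ
  smooth := hD.smooth
  hol2 := hD.hol2
  holz := hD.holz

theorem IsDeform.famV_zero (hD : IsDeform X 𝔚 𝒴 c hh Vh F pz r₀ M) {ζ : ℂ} (hζ : ζ ∈ uDiscC) :
    famV X.G F 0 ζ = Vh ζ :=
  funext fun k => hD.first ζ hζ k

theorem s5fam_base_chart (hY : IsCotangent 𝓜 𝒴) {Ψ : CE (Fin n) → V} {W : Set (CE (Fin n))}
    (hΨ : 𝓜.IsHol Ψ W) {y : CotAmb V} (hy : y ∈ 𝒴.carrier) (hyW : y.1 ∈ Ψ '' W) :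
    y ∈ cotParam Ψ '' cotDom W ∧
      Function.invFunOn Ψ W y.1 = cBase (Function.invFunOn (cotParam Ψ) (cotDom W) y) := by
  obtain ⟨w, hw, hwy⟩ := hyW
  obtain ⟨η, hη⟩ := S6.s6g_exists_cotParam hY hy hΨ hw hwy.symm
  have hmem : y ∈ cotParam Ψ '' cotDom W := ⟨_, S6.s6g_cJoin_mem_cotDom hw η, hη.symm⟩
  refine ⟨hmem, ?_⟩
  have h1 : cBase (Function.invFunOn (cotParam Ψ) (cotDom W) y) ∈ W := Function.invFunOn_mem hmem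
  have h2 := Function.invFunOn_eq hmem
  have h3 : Ψ (cBase (Function.invFunOn (cotParam Ψ) (cotDom W) y)) = y.1 :=
    congrArg Prod.fst h2
  rw [← h3]
  exact (𝓜.isParam hΨ).leftInv h1

theorem IsHolCurve.base (hY : IsCotangent 𝓜 𝒴) {γ : ℂ → CotAmb V} {Ω : Set ℂ}
    (hγ : IsHolCurve 𝒴 γ Ω) : IsHolCurve 𝓜 (fun z => (γ z).1) Ω := by
  obtain ⟨h1, h2, h3, h4⟩ := hγ
  refine ⟨h1, fun z hz => S6.s6g_base_mem hY (h2 z hz), continuous_fst.comp_continuousOn h3,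
    fun Ψ W hΨ => ?_⟩
  have hc := h4 _ _ (hY.isHol hΨ)
  have hd : DifferentiableOn ℂ (fun z => S4.cBaseL ((Function.invFunOn (cotParam Ψ) (cotDom W) ∘ γ) z))
      (Ω ∩ γ ⁻¹' (cotParam Ψ '' cotDom W)) :=
    (S4.cBaseL : CE (Fin n ⊕ Fin n) →L[ℂ] CE (Fin n)).differentiable.comp_differentiableOn hc
  refine (hd.mono fun z hz => ⟨hz.1, (s5fam_base_chart hY hΨ (h2 z hz.1) hz.2).1⟩).congr
    fun z hz => ?_
  exact (s5fam_base_chart hY hΨ (h2 z hz.1) hz.2).2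

/-- the projection of a family in `Y` is a family in `M` (in cotangent charts the projection is `cBase`; `S4/Cpt2.lean` `isSmDisc_base` is the
analogue for one disc). -/
theorem IsFam.base (hY : IsCotangent 𝓜 𝒴) (hF : IsFam 𝒴 F r₀) :
    IsFam 𝓜 (fun z ζ => (F z ζ).1) r₀ := by
  refine ⟨fun z hz ζ hζ => S6.s6g_base_mem hY (hF.mem z hz ζ hζ),
    contDiff_fst.comp_contDiffOn hF.smooth, fun Ψ W hΨ => ?_, fun ζ hζ => (hF.holz ζ hζ).base hY⟩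
  have hc := hF.hol2 _ _ (hY.isHol hΨ)
  have hd : DifferentiableOn ℂ (fun a : ℂ × ℂ =>
      S4.cBaseL (Function.invFunOn (cotParam Ψ) (cotDom W) (F a.1 a.2)))
      ((Metric.ball 0 r₀ ×ˢ uDisc) ∩ {a | F a.1 a.2 ∈ cotParam Ψ '' cotDom W}) :=
    (S4.cBaseL : CE (Fin n ⊕ Fin n) →L[ℂ] CE (Fin n)).differentiable.comp_differentiableOn hc
  have hm : ∀ a ∈ (Metric.ball (0 : ℂ) r₀ ×ˢ uDisc) ∩ {a : ℂ × ℂ | (F a.1 a.2).1 ∈ Ψ '' W},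
      F a.1 a.2 ∈ 𝒴.carrier := fun a ha =>
    hF.mem a.1 ha.1.1 a.2 (Metric.ball_subset_closedBall ha.1.2)
  refine (hd.mono fun a ha => ⟨ha.1, (s5fam_base_chart hY hΨ (hm a ha) ha.2).1⟩).congr
    fun a ha => ?_
  exact (s5fam_base_chart hY hΨ (hm a ha) ha.2).2

/-- the region is relatively open in `Y`. -/
theorem exists_open_reg (h : Std5 X 𝔚 D 𝒴 err A1 A2) :
    ∃ O : Set (CotAmb V), IsOpen O ∧ 𝒴.carrier ∩ O = 𝔚.reg 𝒴 := by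
  have h1 : ContinuousOn (fun y : CotAmb V => 𝔚.δ1 y.1) 𝒴.carrier :=
    h.walls.δ1_smooth.continuousOn.comp continuous_fst.continuousOn fun y hy => h.base_mem hy
  have h2 : ContinuousOn 𝔚.δ2 𝒴.carrier := h.walls.δ2_smooth.continuousOn
  have h3 : ContinuousOn 𝔚.pw 𝒴.carrier := h1.mul h2
  obtain ⟨O, hO, hOeq⟩ := (continuousOn_iff'.1 h3) (Set.Ioi 0) isOpen_Ioi
  refine ⟨O, hO, ?_⟩
  rw [Set.inter_comm, ← hOeq]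
  ext y
  exact ⟨fun hy => ⟨hy.2, hy.1⟩, fun hy => ⟨hy.2, hy.1⟩⟩

theorem s5fam_ratio_aux {p p' K t : ℝ} (hp : 0 < p) (hp' : 0 < p') (hK : 0 ≤ K) (ht : 0 ≤ t)
    (hKt : K * t ≤ 1 / 2) (h : |p' - p| ≤ K * t * p) :
    |p' / p - 1| ≤ 2 * K * t ∧ |p / p' - 1| ≤ 2 * K * t ∧
      |Real.log p' - Real.log p| ≤ 2 * K * t := by
  have hKt0 : 0 ≤ K * t := mul_nonneg hK ht
  have h1 : |p' / p - 1| ≤ K * t := by
    have e : p' / p - 1 = (p' - p) / p := by field_simp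
    rw [e, abs_div, abs_of_pos hp, div_le_iff₀ hp]
    exact h
  have hlow : p / 2 ≤ p' := by
    have := (abs_le.1 h).1
    nlinarith
  have h2 : |p / p' - 1| ≤ 2 * K * t := by
    have e : p / p' - 1 = (p - p') / p' := by field_simp
    rw [e, abs_div, abs_of_pos hp', div_le_iff₀ hp', abs_sub_comm]
    refine h.trans ?_
    nlinarith
  refine ⟨h1.trans (by linarith), h2, ?_⟩
  rw [← Real.log_div hp'.ne' hp.ne', abs_le]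
  constructor
  · have h3 := Real.log_le_sub_one_of_pos (div_pos hp hp')
    have e : Real.log (p / p') = - Real.log (p' / p) := by
      rw [← Real.log_inv, inv_div]
    rw [e] at h3
    have := (abs_le.1 h2).2
    linarith
  · have h3 := Real.log_le_sub_one_of_pos (div_pos hp' hp)
    have := (abs_le.1 h1).2
    linarith

/-- the walls along a deformation: `|δ_i(F z ζ) - δ_i(f ζ)| ≤ C ‖X_z - X_0‖ ≤ C M |z| m ≤ C M |z| δ_i(f ζ)` (`wall_tensors_glip`, `IsDeform.disp`, `m = p^a ≤ δ_i`). -/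
theorem wall_ratio (h : Std5 X 𝔚 D 𝒴 err A1 A2) {r₀ : ℝ} (hr₀ : 0 < r₀) (M : ℝ) :
    ∃ C' r₁ : ℝ, 0 ≤ C' ∧ 0 < r₁ ∧ r₁ ≤ r₀ / 2 ∧ C' * r₁ ≤ 1 / 2 ∧
      ∀ (c : Config V n) (hh : ℂ → ℂ) (Vh : ℂ → Fin X.q → ℂ)
      (F : ℂ → ℂ → CotAmb V) (pz : ℂ → CE (Fin n ⊕ Fin n)), IsAdm X 𝔚 𝒴 c →
      (∀ ζ ∈ uCirc, ‖hh ζ‖ = c.mw 𝔚 ζ) → IsDeform X 𝔚 𝒴 c hh Vh F pz r₀ M →
      ∀ z : ℂ, ‖z‖ ≤ r₁ → ∀ ζ ∈ uCirc,
        |𝔚.pw (F z ζ) / 𝔚.pw (c.f ζ) - 1| ≤ C' * ‖z‖ ∧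
        |𝔚.pw (c.f ζ) / 𝔚.pw (F z ζ) - 1| ≤ C' * ‖z‖ ∧
        |Real.log (𝔚.pw (F z ζ)) - Real.log (𝔚.pw (c.f ζ))| ≤ C' * ‖z‖ := by
  obtain ⟨C, -, -, hδ1, hδ2⟩ := wall_tensors_glip h
  set K : ℝ := 2 * |C| * |M| with hK
  have hK0 : 0 ≤ K := by positivity
  refine ⟨2 * K, min (r₀ / 2) (1 / (2 * (2 * K + 1))), by positivity, by positivity,
    min_le_left _ _, ?_, ?_⟩
  · calc 2 * K * min (r₀ / 2) (1 / (2 * (2 * K + 1))) ≤ 2 * K * (1 / (2 * (2 * K + 1))) :=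
        mul_le_mul_of_nonneg_left (min_le_right _ _) (by positivity)
      _ ≤ 1 / 2 := by
        rw [mul_one_div, div_le_iff₀ (by positivity)]
        linarith
  intro c hh Vh F pz hc hmod hD z hz ζ hζ
  have hzr : ‖z‖ ≤ r₀ / 2 := hz.trans (min_le_left _ _)
  have hzB : z ∈ Metric.ball (0 : ℂ) r₀ := by
    rw [mem_ball_zero_iff]
    linarith
  have hKz : K * ‖z‖ ≤ 1 / 2 := by
    have h1 : ‖z‖ ≤ 1 / (2 * (2 * K + 1)) := hz.trans (min_le_right _ _)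
    calc K * ‖z‖ ≤ K * (1 / (2 * (2 * K + 1))) := mul_le_mul_of_nonneg_left h1 hK0
      _ ≤ 1 / 2 := by
        rw [mul_one_div, div_le_iff₀ (by positivity)]
        linarith
  have hy : c.f ζ ∈ 𝔚.reg 𝒴 := hc.bdry ζ hζ
  have hy' : F z ζ ∈ 𝔚.reg 𝒴 := (hD.adm z hzB).bdry ζ hζ
  obtain ⟨hp0, hp1⟩ := pw_mem h hy
  have hdisp := hD.disp z hzB ζ hζ
  have hmw : ‖hh ζ‖ ≤ 𝔚.pw (c.f ζ) := by
    rw [hmod ζ hζ]
    unfold Config.mw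
    calc 𝔚.pw (c.f ζ) ^ 𝔚.a ≤ 𝔚.pw (c.f ζ) ^ 1 :=
          pow_le_pow_of_le_one hp0.le hp1 (by have := h.walls.two_le_a; omega)
      _ = 𝔚.pw (c.f ζ) := pow_one _
  have hG : |C| * ‖X.G (F z ζ) - X.G (c.f ζ)‖ ≤ |C| * |M| * ‖z‖ * 𝔚.pw (c.f ζ) := by
    have h1 : ‖X.G (F z ζ) - X.G (c.f ζ)‖ ≤ |M| * ‖z‖ * 𝔚.pw (c.f ζ) := by
      refine hdisp.trans ?_
      have h2 : M * ‖z‖ ≤ |M| * ‖z‖ := mul_le_mul_of_nonneg_right (le_abs_self M) (norm_nonneg z)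
      exact mul_le_mul h2 hmw (norm_nonneg _) (by positivity)
    calc |C| * ‖X.G (F z ζ) - X.G (c.f ζ)‖ ≤ |C| * (|M| * ‖z‖ * 𝔚.pw (c.f ζ)) :=
          mul_le_mul_of_nonneg_left h1 (abs_nonneg C)
      _ = _ := by ring
  have hlip : ∀ {β : CotAmb V → ℝ}, GLipOn X.G (𝔚.reg 𝒴) Set.univ C (fun y _ => (β y : ℂ)) →
      |β (F z ζ) - β (c.f ζ)| ≤ |C| * |M| * ‖z‖ * 𝔚.pw (c.f ζ) := by
    intro β hβ
    have h1 := hβ.2 _ hy' _ hy 0 (Set.mem_univ _) 0 (Set.mem_univ _)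
    rw [sub_self, abs_zero, add_zero, ← Complex.ofReal_sub, Complex.norm_real,
      Real.norm_eq_abs] at h1
    exact (h1.trans (mul_le_mul_of_nonneg_right (le_abs_self C) (norm_nonneg _))).trans hG
  have e1 := hlip (β := fun y => 𝔚.δ1 y.1) hδ1
  have e2 := hlip (β := 𝔚.δ2) hδ2
  have a1 := h.walls.δ1_mem _ (h.base_mem hy.1)
  have a2 := h.walls.δ2_mem _ hy'.1
  have hpp : |𝔚.pw (F z ζ) - 𝔚.pw (c.f ζ)| ≤ K * ‖z‖ * 𝔚.pw (c.f ζ) := by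
    have e : 𝔚.pw (F z ζ) - 𝔚.pw (c.f ζ) =
        (𝔚.δ1 (F z ζ).1 - 𝔚.δ1 (c.f ζ).1) * 𝔚.δ2 (F z ζ) +
          𝔚.δ1 (c.f ζ).1 * (𝔚.δ2 (F z ζ) - 𝔚.δ2 (c.f ζ)) := by
      unfold Walls.pw
      ring
    rw [e]
    refine (abs_add_le _ _).trans ?_
    rw [abs_mul, abs_mul, abs_of_nonneg a2.1, abs_of_nonneg a1.1]
    have b1 : |𝔚.δ1 (F z ζ).1 - 𝔚.δ1 (c.f ζ).1| * 𝔚.δ2 (F z ζ) ≤
        |C| * |M| * ‖z‖ * 𝔚.pw (c.f ζ) :=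
      (mul_le_of_le_one_right (abs_nonneg _) a2.2).trans e1
    have b2 : 𝔚.δ1 (c.f ζ).1 * |𝔚.δ2 (F z ζ) - 𝔚.δ2 (c.f ζ)| ≤
        |C| * |M| * ‖z‖ * 𝔚.pw (c.f ζ) :=
      (mul_le_of_le_one_left (abs_nonneg _) a1.2).trans e2
    rw [hK]
    linarith
  exact s5fam_ratio_aux hp0 hy'.2 hK0 (norm_nonneg z) hKz hpp

theorem s5fam_DsqV_congr {ι : Type} [Fintype ι] {a b : ℂ → ι → ℂ}
    (hab : ∀ ζ ∈ uCirc, a ζ = b ζ) : DsqV a = DsqV b := by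
  unfold DsqV
  exact Finset.sum_congr rfl fun i _ => Dsq_congr fun ζ hζ => congrFun (hab ζ hζ) i

theorem circSm_mw (h : Std5 X 𝔚 D 𝒴 err A1 A2) (hc : IsAdm X 𝔚 𝒴 c) :
    CircSm fun ζ => ((c.mw 𝔚 ζ : ℝ) : ℂ) := by
  have h1 := ((circSm_const (𝔚.a : ℂ)).mul (circSm_log_pw h hc)).cexp
  refine h1.congr fun ζ hζ => ?_
  have hp := (pw_mem h (hc.bdry ζ hζ)).1
  show Complex.exp ((𝔚.a : ℂ) * ((Real.log (𝔚.pw (c.f ζ)) : ℝ) : ℂ)) = ((c.mw 𝔚 ζ : ℝ) : ℂ)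
  unfold Config.mw
  rw [← Complex.ofReal_natCast, ← Complex.ofReal_mul, ← Complex.ofReal_exp, ← Real.log_pow,
    Real.exp_log (pow_pos hp _)]

/-- the normalised field `Z z ζ = V z ζ / |hh ζ|`: Cauchy estimates from `disp`, `D_Z`, `D_X` (`IsFam.cauchy`, `IsFam.cauchy_X`). -/
theorem IsDeform.Z_bounds (h : Std5 X 𝔚 D 𝒴 err A1 A2) (hr₀ : 0 < r₀) (hc : IsAdm X 𝔚 𝒴 c)
    (hmod : ∀ ζ ∈ uCirc, ‖hh ζ‖ = c.mw 𝔚 ζ) (hD : IsDeform X 𝔚 𝒴 c hh Vh F pz r₀ M) :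
    (∀ z : ℂ, ‖z‖ ≤ r₀ / 2 → ∀ ζ ∈ uCirc, ∀ k,
      ‖famV X.G F z ζ k - Vh ζ k‖ ≤ 8 * M * ‖z‖ / r₀ * ‖hh ζ‖) ∧
    (∀ z : ℂ, ‖z‖ ≤ r₀ / 2 →
      DsqV (fun ζ k => (famV X.G F z ζ k - Vh ζ k) / (‖hh ζ‖ : ℂ)) ≤
        64 * X.q * M * ‖z‖ ^ 2 / r₀ ^ 4) ∧
    (∀ z : ℂ, ‖z‖ ≤ r₀ / 2 →
      DsqV (fun ζ k => X.G (F z ζ) k - X.G (c.f ζ) k) ≤ 4 * X.q * M * ‖z‖ ^ 2 / r₀ ^ 2) ∧
    (∀ z : ℂ, ‖z‖ ≤ r₀ / 2 →
      DsqV (fun ζ k => famV X.G F z ζ k - Vh ζ k) ≤ 64 * X.q * M * ‖z‖ ^ 2 / r₀ ^ 4) := by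
  have hfam := hD.isFam
  have hG := h.valid.imm
  have hC : ∀ ζ ∈ uCirc, ζ ∈ uDiscC := fun ζ hζ => Metric.sphere_subset_closedBall hζ
  have hm : ∀ ζ ∈ uCirc, 0 < ‖hh ζ‖ := fun ζ hζ => by
    rw [hmod ζ hζ]
    exact pow_pos (pw_mem h (hc.bdry ζ hζ)).1 _
  have hmS : CircSm fun ζ => ((‖hh ζ‖ : ℝ) : ℂ) :=
    (circSm_mw h hc).congr fun ζ hζ => by
      show ((c.mw 𝔚 ζ : ℝ) : ℂ) = ((‖hh ζ‖ : ℝ) : ℂ)
      rw [hmod ζ hζ]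
  obtain ⟨c1, c2⟩ := hfam.cauchy hG hr₀ (M := M) (m := fun ζ => ‖hh ζ‖) hm hmS
    (fun z hz ζ hζ => by
      rw [hD.F_zero ζ (hC ζ hζ)]
      exact hD.disp z hz ζ hζ)
    (fun z hz => by
      refine le_trans (le_of_eq (s5fam_DsqV_congr fun ζ hζ => ?_)) (hD.D_Z z hz)
      rw [hD.F_zero ζ (hC ζ hζ)])
  obtain ⟨c3, c4⟩ := hfam.cauchy_X hG hr₀ hD.D_X
  refine ⟨fun z hz ζ hζ k => ?_, fun z hz => ?_, fun z hz => ?_, fun z hz => ?_⟩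
  · rw [← hD.famV_zero (hC ζ hζ)]
    exact c1 z hz ζ hζ k
  · refine le_trans (le_of_eq (s5fam_DsqV_congr fun ζ hζ => ?_)) (c2 z hz)
    rw [← hD.famV_zero (hC ζ hζ)]
  · refine le_trans (le_of_eq (s5fam_DsqV_congr fun ζ hζ => ?_)) (c3 z hz)
    rw [hD.F_zero ζ (hC ζ hζ)]
  · refine le_trans (le_of_eq (s5fam_DsqV_congr fun ζ hζ => ?_)) (c4 z hz)
    rw [← hD.famV_zero (hC ζ hζ)]

end Deform

end Claimed.Agent.R316
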