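import Claimed.Agent.R316.S5.Setup
import Claimed.Agent.R316.S4.Evol
import Claimed.Agent.R316.S4.Spray
import Claimed.Agent.R316.S4.Cot
import Claimed.Agent.R316.S4.Frame2
import Claimed.Agent.R316.S4.Cpt2

/-!
# Row 316, Section 5: what Section 5 consumes from Section 4 (`discs.tex`) and from the base layer

These are the INTERFACE statements between BP-S4 / BP-G3 and BP-S5, in the form in which Section 5 uses them.  THE STATEMENTS ARE FROZEN.
Owners: `disc_compactness`, `gimm_prelim` helper58; `exists_frame`, `frame_center`, `frame_gram_lower`, `poisM_frame` helper110; `exists_spray` helper267.  The sub-blueprints live in `R316/S4/`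
(they import `S5/Setup.lean`, which contains the definitions `PrelimData.G`, `poisM`, `IsSpray`); when a theorem is on main its `sorry` here is replaced by a citation (as for `symplectic_evolution`).

* `S4-G`    `gimm_prelim` : the map `G(x, ξ) = (F(x), ξ(X_1), …, ξ(X_m))` (4.4) is an injective immersion.
* `S4-CPT`  `disc_compactness` : Proposition 4.2, only the confinement statement for discs in `Y`.
* `S4-FR`   `exists_frame` : Lemma 4.5 (discs extending past the circle).  Plan: preliminary holomorphic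
  frame `V₀` on a neighbourhood of the closed disc as in the paper; Gram matrix `L = V₀ᴴV₀`; take a Fejer mean
  `L_P` with `|L_P - L| + D(L_P - L)` tiny (order depending on the disc), `L_P = HᴴH` by `wiener_masani`,
  `U = c V₀ H⁻¹`.  `D(U)²`: `D(U)² = ⟨tr Uᴴ(-i∂_θ U)⟩` (`HolSm.Dsq_eq`); with `Θ = log det (JᴴJ)` in cotangent
  charts (a GLOBAL smooth function on `Y`, transitions of cotangent charts have determinant one) one gets
  `tr (Q⁻¹ Uᴴ ∂_θ U) = ∂Θ(∂_θ f) + ∂_θ log det S`, `Q = UᴴU`, the last term has mean zero (`det S` is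
  holomorphic without zeros, `det S² det JE = 1`); pairing estimate + `G`-Lipschitz bound of `gDz Θ`.
  `JE`: entries are `Uᴴ`-contractions of the Poisson matrix `J Jstd Jᵀ` on the circle; maximum principle;
  `JE⁻¹` by the minimum principle for `det JE` and the adjugate.
* `S4-FR0`  `frame_center`, `frame_gram_lower`.
* `S4-EV`   `symplectic_evolution` : Lemma 4.1.
* `G3-SPRAY` `exists_spray` : the time one map of the holomorphic field `∑ τ_α Z_α`, `Z_α` the Hamiltonian field of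
  `G_α` (in cotangent coordinates `Z_α = ∑ ∂G_α/∂ξ_i ∂_{x_i} - ∂G_α/∂x_i ∂_{ξ_i}`, so `dG(Z_α) = ` column `α` of
  `- J Jstd Jᵀ`… the sign is fixed by `IsSpray.first`).
-/

set_option autoImplicit false
set_option maxSynthPendingDepth 3
open scoped ContDiff ComplexOrder Topology Matrix
open MeasureTheory Filter

namespace Claimed.Agent.R316

variable {V : Type} [NormedAddCommGroup V] [InnerProductSpace ℝ V] [FiniteDimensional ℝ V]
variable [MeasurableSpace V] [BorelSpace V]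
variable {n : ℕ} {𝓜 : CMfd V (Fin n)} {g : HFam V (Fin n)} {o : V}
variable {𝒴 : CMfd (CotAmb V) (Fin n ⊕ Fin n)}

theorem gimm_prelim (Pd : PrelimData 𝓜 g o) (hY : IsCotangent 𝓜 𝒴) : GImm 𝒴 Pd.G :=
  S4.gimm_prelim Pd hY

/-- **Proposition 4.2** (confinement). -/
theorem disc_compactness (I : InitialData 𝓜 g) (Pd : PrelimData 𝓜 g o) (hY : IsCotangent 𝓜 𝒴)
    {K : Set (CotAmb V)} (hK : IsCompact K) (hKY : K ⊆ 𝒴.carrier) (A₀ : ℝ) :
    ∃ K' : Set (CotAmb V), IsCompact K' ∧ K' ⊆ 𝒴.carrier ∧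
      ∀ f : ℂ → CotAmb V, IsSmDisc 𝒴 f → (∀ ζ ∈ uCirc, f ζ ∈ K) → areaG 𝓜 g f ≤ A₀ →
        ∀ ζ ∈ uDiscC, f ζ ∈ K' :=
  S4.disc_compactness I Pd hY hK hKY A₀

variable {q : ℕ} {G : CotAmb V → CE (Fin q)}

/-- **Lemma 4.5** (frames with bounds depending only on the boundary compact). -/
theorem exists_frame (hY : IsCotangent 𝓜 𝒴) (hG : GImm 𝒴 G)
    {K : Set (CotAmb V)} (hK : IsCompact K) (hKY : K ⊆ 𝒴.carrier) :
    ∃ C : ℝ, ∀ (f : ℂ → CotAmb V) (r : ℝ), 1 < r → IsHolDisc 𝒴 f r → (∀ ζ ∈ uCirc, f ζ ∈ K) →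
      ∃ (U : ℂ → Matrix (Fin q) (Fin n ⊕ Fin n) ℂ)
        (JE : ℂ → Matrix (Fin n ⊕ Fin n) (Fin n ⊕ Fin n) ℂ),
        IsFrame 𝓜 G f U JE ∧ FrameBd C G f U JE :=
  S4.exists_frame hY hG hK hKY

/-- last assertion of Lemma 4.5: the frame matrix at a centre in a compact part of a chart. -/
theorem frame_center (hY : IsCotangent 𝓜 𝒴) (hG : GImm 𝒴 G) {Φ : CE (Fin n) → V}
    {U₀ : Set (CE (Fin n))} (hΦ : 𝓜.IsHol Φ U₀) {K₀ : Set (CE (Fin n ⊕ Fin n))}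
    (hK₀ : IsCompact K₀) (hsub : K₀ ⊆ cotDom U₀) (CF : ℝ) :
    ∃ C : ℝ, ∀ (f : ℂ → CotAmb V) (U : ℂ → Matrix (Fin q) (Fin n ⊕ Fin n) ℂ)
      (JE : ℂ → Matrix (Fin n ⊕ Fin n) (Fin n ⊕ Fin n) ℂ)
      (S0 : Matrix (Fin n ⊕ Fin n) (Fin n ⊕ Fin n) ℂ) (p : CE (Fin n ⊕ Fin n)),
      IsFrame 𝓜 G f U JE → FrameBd CF G f U JE → p ∈ K₀ → f 0 = cotParam Φ p →
      U 0 = jac (G ∘ cotParam Φ) p * S0 →
      IsUnit S0.det ∧ S0 * JE 0 * S0ᵀ = Jstd (Fin n) ∧ frobSq S0 ≤ C ∧ frobSq S0⁻¹ ≤ C :=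
  S4.frame_center hY hG hΦ hK₀ hsub CF

/-- lower bound of the Gram determinant of the frame on an interior compact:
`det UᴴU = det (JᴴJ)(f) / |det JE|`. -/
theorem frame_gram_lower (hY : IsCotangent 𝓜 𝒴) (hG : GImm 𝒴 G)
    {K' : Set (CotAmb V)} (hK' : IsCompact K') (hKY : K' ⊆ 𝒴.carrier) (CF : ℝ) :
    ∃ c₀ : ℝ, 0 < c₀ ∧ ∀ (f : ℂ → CotAmb V) (U : ℂ → Matrix (Fin q) (Fin n ⊕ Fin n) ℂ)
      (JE : ℂ → Matrix (Fin n ⊕ Fin n) (Fin n ⊕ Fin n) ℂ),
      IsFrame 𝓜 G f U JE → FrameBd CF G f U JE → (∀ ζ ∈ uDiscC, f ζ ∈ K') →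
      ∀ ζ ∈ uDiscC, c₀ ≤ ((U ζ)ᴴ * U ζ).det.re :=
  S4.frame_gram_lower hY hG hK' hKY CF

/-- **Lemma 4.1** in a cotangent chart, with a base function added (4.3), (4.3'). -/
theorem symplectic_evolution (I : InitialData 𝓜 g) (D : FlowData 𝓜 g o) {Φ : CE (Fin n) → V}
    {U₀ : Set (CE (Fin n))} (hΦ : 𝓜.IsHol Φ U₀) {p : CE (Fin n ⊕ Fin n)} (hp : p ∈ cotDom U₀)
    {t : ℝ} (ht : 0 < t) {d : V → ℝ} (hd : ContDiffAt ℝ 2 (d ∘ Φ) (cBase p)) :
    sympP (levi (fun p' => D.N (cotParam Φ p') t + d (cotParam Φ p').1) p) (Jstd (Fin n)) =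
      deriv (fun s => D.N (cotParam Φ p) s) t + lap 𝓜 (D.h t) d (cotParam Φ p).1 :=
  S4.symplectic_evolution D I hΦ hp ht hd

theorem exists_spray (hY : IsCotangent 𝓜 𝒴) (hc : IsClosed 𝓜.carrier) (hG : GImm 𝒴 G) :
    ∃ (Sg : CotAmb V → CE (Fin q) → CotAmb V) (dom : Set (CotAmb V × CE (Fin q))),
      IsSpray 𝓜 𝒴 G Sg dom := by
  exact S4.exists_spray hY hG

/-- the Poisson matrix in a frame. -/
theorem poisM_frame (hY : IsCotangent 𝓜 𝒴) (hG : GImm 𝒴 G) {f : ℂ → CotAmb V}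
    {U : ℂ → Matrix (Fin q) (Fin n ⊕ Fin n) ℂ} {JE : ℂ → Matrix (Fin n ⊕ Fin n) (Fin n ⊕ Fin n) ℂ}
    (hf : ∀ ζ ∈ uDiscC, f ζ ∈ 𝒴.carrier) (hF : IsFrame 𝓜 G f U JE) {ζ : ℂ} (hζ : ζ ∈ uDiscC) :
    poisM 𝓜 G (f ζ) = U ζ * JE ζ * (U ζ)ᵀ :=
  S4.poisM_frame hY hG hf hF hζ

end Claimed.Agent.R316
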