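import Claimed.Agent.R316.S5.FromS4
import Claimed.Agent.R316.S6.GEnv
import Claimed.Agent.R316.Pack008

/-!
# Row 316, Section 5.1: auxiliary lemmas for `S5/Local.lean` (`BP-S5-L01`, helper262)

No `sorry`.  Prefix `s5la_`.  The statements do not use `Std5` (defined in `Local.lean`): the hypotheses are listed explicitly.
* discs: restriction, dilation `f(ρ ζ)`, ambient smoothness of holomorphic discs;
* circle averages: `⟨F(ρ ·)⟩ → ⟨F⟩` for `F` continuous on the closed disc, additivity, monotonicity for continuous integrands;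
* continuity of space-time smooth functions along an admissible configuration;
* `s5la_cA_N_ge_vraw`, `s5la_bdry5_eq`, `s5la_cA_dc_nonneg`, `s5la_fun5_ge`, `s5la_exists_ctx`, `s5la_mu0_small`.
-/

set_option autoImplicit false
set_option linter.unusedSectionVars false
set_option maxSynthPendingDepth 3
open scoped ContDiff ComplexOrder Topology Matrix
open MeasureTheory Filter

namespace Claimed.Agent.R316

open Claimed.Agent.R316.S6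

section Discs

variable {V' : Type} [NormedAddCommGroup V'] [NormedSpace ℝ V']
variable {κ : Type} [Fintype κ] {𝓧 : CMfd V' κ}

theorem s5la_disc_mono {f : ℂ → V'} {r r' : ℝ} (hf : IsHolDisc 𝓧 f r) (h : r' ≤ r) :
    IsHolDisc 𝓧 f r' :=
  ⟨fun ζ hζ => hf.1 ζ (Metric.ball_subset_ball h hζ), hf.2.1.mono (Metric.ball_subset_ball h),
    fun Ψ W hΨ => (hf.2.2 Ψ W hΨ).mono (Set.inter_subset_inter_left _ (Metric.ball_subset_ball h))⟩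

theorem s5la_mul_mem_ball {R ρ R' : ℝ} (hρ : 0 < ρ) (h : ρ * R' ≤ R) {ζ : ℂ}
    (hζ : ζ ∈ Metric.ball (0 : ℂ) R') : (ρ : ℂ) * ζ ∈ Metric.ball (0 : ℂ) R := by
  rw [mem_ball_zero_iff] at hζ ⊢
  rw [norm_mul, Complex.norm_real, Real.norm_of_nonneg hρ.le]
  calc ρ * ‖ζ‖ < ρ * R' := mul_lt_mul_of_pos_left hζ hρ
    _ ≤ R := h

theorem s5la_mul_mem_closedBall {ρ : ℝ} (hρ : 0 ≤ ρ) (h : ρ ≤ 1) {ζ : ℂ}
    (hζ : ζ ∈ Metric.closedBall (0 : ℂ) 1) : (ρ : ℂ) * ζ ∈ Metric.closedBall (0 : ℂ) 1 := by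
  rw [mem_closedBall_zero_iff] at hζ ⊢
  rw [norm_mul, Complex.norm_real, Real.norm_of_nonneg hρ]
  exact mul_le_one₀ h (norm_nonneg _) hζ

/-- dilation of a holomorphic disc. -/
theorem s5la_disc_dilate {f : ℂ → V'} {R ρ R' : ℝ} (hf : IsHolDisc 𝓧 f R) (hρ : 0 < ρ)
    (h : ρ * R' ≤ R) : IsHolDisc 𝓧 (fun ζ => f ((ρ : ℂ) * ζ)) R' := by
  refine s6g_isHolDisc_of_local fun ζ₀ hζ₀ => ?_
  have hm : (ρ : ℂ) * ζ₀ ∈ Metric.ball (0 : ℂ) R := s5la_mul_mem_ball hρ h hζ₀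
  obtain ⟨h1, h2, h3⟩ := s6g_pspec (hf.1 _ hm)
  have hloc := s6g_disc_local hf hm h1 ⟨_, h2, h3⟩
  have hcont : ContinuousAt (fun ζ : ℂ => (ρ : ℂ) * ζ) ζ₀ := by fun_prop
  refine ⟨_, _, fun ζ => (Function.invFunOn (𝓧.pΦ (f ((ρ : ℂ) * ζ₀))) (𝓧.pU (f ((ρ : ℂ) * ζ₀))) ∘ f)
    ((ρ : ℂ) * ζ), h1, ?_⟩
  filter_upwards [hcont.eventually hloc] with ζ hζ
  exact ⟨DifferentiableAt.comp (f := fun ζ : ℂ => (ρ : ℂ) * ζ) ζ hζ.1 (by fun_prop), hζ.2.1,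
    hζ.2.2.symm⟩

/-- a holomorphic disc is smooth as an ambient map. -/
theorem s5la_disc_contDiffOn {f : ℂ → V'} {r : ℝ} (hf : IsHolDisc 𝓧 f r) :
    ContDiffOn ℝ ∞ f (Metric.ball 0 r) := by
  intro ζ₀ hζ₀
  obtain ⟨h1, h2, h3⟩ := s6g_pspec (hf.1 _ hζ₀)
  have hloc := s6g_disc_local hf hζ₀ h1 ⟨_, h2, h3⟩
  have hF : ContDiffAt ℝ ∞ (Function.invFunOn (𝓧.pΦ (f ζ₀)) (𝓧.pU (f ζ₀)) ∘ f) ζ₀ :=
    hol_contDiffAt_real (hloc.mono fun ζ hζ => hζ.1)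
  have hΨ : ContDiffAt ℝ ∞ (𝓧.pΦ (f ζ₀)) ((Function.invFunOn (𝓧.pΦ (f ζ₀)) (𝓧.pU (f ζ₀)) ∘ f) ζ₀) :=
    (𝓧.isParam h1).smooth.contDiffAt ((𝓧.isParam h1).isOpen.mem_nhds hloc.self_of_nhds.2.1)
  have he : f =ᶠ[𝓝 ζ₀] (𝓧.pΦ (f ζ₀)) ∘ (Function.invFunOn (𝓧.pΦ (f ζ₀)) (𝓧.pU (f ζ₀)) ∘ f) :=
    hloc.mono fun ζ hζ => hζ.2.2.symm
  exact ((hΨ.comp ζ₀ hF).congr_of_eventuallyEq he).contDiffWithinAt

/-- a disc which is holomorphic past the circle is a smooth disc. -/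
theorem s5la_isSmDisc {f : ℂ → V'} {r : ℝ} (hr : 1 < r) (hf : IsHolDisc 𝓧 f r) : IsSmDisc 𝓧 f :=
  ⟨s5la_disc_mono hf hr.le, (s5la_disc_contDiffOn hf).mono (Metric.closedBall_subset_ball hr),
    fun ζ hζ => hf.1 ζ (Metric.closedBall_subset_ball hr hζ)⟩

end Discs

section Avg

theorem s5la_circleMap_mem (θ : ℝ) : circleMap 0 1 θ ∈ uDiscC :=
  Metric.sphere_subset_closedBall (circleMap_mem_uCirc θ)

theorem s5la_cA_def (F : ℂ → ℝ) :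
    cA F = (2 * Real.pi)⁻¹ * ∫ θ in (0 : ℝ)..2 * Real.pi, F (circleMap 0 1 θ) := by
  unfold cA
  rw [Real.circleAverage_def, smul_eq_mul]

theorem s5la_continuous_circle {F : ℂ → ℝ} (hF : ContinuousOn F uCirc) :
    Continuous fun θ : ℝ => F (circleMap 0 1 θ) :=
  hF.comp_continuous (continuous_circleMap 0 1) circleMap_mem_uCirc

theorem s5la_cA_add {F G : ℂ → ℝ} (hF : ContinuousOn F uCirc) (hG : ContinuousOn G uCirc) :
    cA (fun ζ => F ζ + G ζ) = cA F + cA G := by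
  rw [s5la_cA_def, s5la_cA_def, s5la_cA_def, intervalIntegral.integral_add
    ((s5la_continuous_circle hF).intervalIntegrable _ _)
    ((s5la_continuous_circle hG).intervalIntegrable _ _), mul_add]

theorem s5la_cA_mono {F G : ℂ → ℝ} (hF : ContinuousOn F uCirc) (hG : ContinuousOn G uCirc)
    (h : ∀ ζ ∈ uCirc, F ζ ≤ G ζ) : cA F ≤ cA G := by
  rw [s5la_cA_def, s5la_cA_def]
  refine mul_le_mul_of_nonneg_left ?_ (by positivity)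
  exact intervalIntegral.integral_mono_on (by positivity)
    ((s5la_continuous_circle hF).intervalIntegrable _ _)
    ((s5la_continuous_circle hG).intervalIntegrable _ _) fun θ _ => h _ (circleMap_mem_uCirc θ)

theorem s5la_cA_nonneg {F : ℂ → ℝ} (h : ∀ ζ ∈ uCirc, 0 ≤ F ζ) : 0 ≤ cA F := by
  rw [s5la_cA_def]
  refine mul_nonneg (by positivity) ?_
  exact intervalIntegral.integral_nonneg (by positivity) fun θ _ => h _ (circleMap_mem_uCirc θ)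

theorem s5la_cA_const (a : ℝ) : cA (fun _ : ℂ => a) = a := by
  rw [s5la_cA_def, intervalIntegral.integral_const, smul_eq_mul, sub_zero]
  field_simp

/-- the averages over the circles `|ζ| = ρ` converge as `ρ ↑ 1`. -/
theorem s5la_tendsto_cA_dilate {F : ℂ → ℝ} (hF : ContinuousOn F uDiscC) :
    Tendsto (fun ρ : ℝ => cA fun ζ => F ((ρ : ℂ) * ζ)) (𝓝[<] 1) (𝓝 (cA F)) := by
  obtain ⟨M, hM⟩ := (isCompact_closedBall (0 : ℂ) 1).exists_bound_of_continuousOn hF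
  have hIoo : ∀ᶠ ρ : ℝ in 𝓝[<] 1, ρ ∈ Set.Ioo (0 : ℝ) 1 := Ioo_mem_nhdsLT one_pos
  have hmem : ∀ ρ ∈ Set.Ioo (0 : ℝ) 1, ∀ θ : ℝ, (ρ : ℂ) * circleMap 0 1 θ ∈ uDiscC := fun ρ hρ θ =>
    s5la_mul_mem_closedBall hρ.1.le hρ.2.le (s5la_circleMap_mem θ)
  have key : Tendsto (fun ρ : ℝ => ∫ θ in (0 : ℝ)..2 * Real.pi, F ((ρ : ℂ) * circleMap 0 1 θ))
      (𝓝[<] 1) (𝓝 (∫ θ in (0 : ℝ)..2 * Real.pi, F (circleMap 0 1 θ))) := by
    refine intervalIntegral.tendsto_integral_filter_of_dominated_convergence (fun _ => M) ?_ ?_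
      intervalIntegrable_const ?_
    · filter_upwards [hIoo] with ρ hρ
      have hc : Continuous fun θ : ℝ => F ((ρ : ℂ) * circleMap 0 1 θ) :=
        hF.comp_continuous (continuous_const.mul (continuous_circleMap 0 1)) (hmem ρ hρ)
      exact hc.aestronglyMeasurable
    · filter_upwards [hIoo] with ρ hρ
      exact Eventually.of_forall fun θ _ => hM _ (hmem ρ hρ θ)
    · refine Eventually.of_forall fun θ _ => ?_
      have h1 : Tendsto (fun ρ : ℝ => (ρ : ℂ) * circleMap 0 1 θ) (𝓝[<] 1)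
          (𝓝[uDiscC] (circleMap 0 1 θ)) := by
        refine tendsto_nhdsWithin_iff.2 ⟨?_, ?_⟩
        · have h2 : Continuous fun ρ : ℝ => (ρ : ℂ) * circleMap 0 1 θ := by fun_prop
          have h3 := (h2.tendsto 1).mono_left (nhdsWithin_le_nhds (s := Set.Iio (1 : ℝ)))
          simpa using h3
        · filter_upwards [hIoo] with ρ hρ using hmem ρ hρ θ
      exact (hF _ (s5la_circleMap_mem θ)).tendsto.comp h1
  simp only [s5la_cA_def]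
  exact key.const_mul _

end Avg

section Conf

variable {V : Type} [NormedAddCommGroup V] [InnerProductSpace ℝ V] [FiniteDimensional ℝ V]
variable [MeasurableSpace V] [BorelSpace V]
variable {n : ℕ} {𝓜 : CMfd V (Fin n)} {g : HFam V (Fin n)} {o : V}
variable {D : FlowData 𝓜 g o} {𝒴 : CMfd (CotAmb V) (Fin n ⊕ Fin n)}
variable {X : S5Ctx V n} {𝔚 : Walls V} {err A1 A2 : ℝ} {c : Config V n}

theorem s5la_s_pos (hX : X.Valid D 𝒴) (hc : IsAdm X 𝔚 𝒴 c) : 0 < c.s :=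
  lt_of_lt_of_le hX.s_lo hc.s_mem.1

theorem s5la_s_lt (hX : X.Valid D 𝒴) (hc : IsAdm X 𝔚 𝒴 c) : c.s < X.T :=
  lt_of_le_of_lt hc.s_mem.2 hX.s_hi

theorem s5la_time_mem (hX : X.Valid D 𝒴) (hc : IsAdm X 𝔚 𝒴 c) {ζ : ℂ} (hζ : ζ ∈ uDiscC) :
    c.time ζ ∈ Set.Icc 0 X.T :=
  ⟨mul_nonneg (s5la_s_pos hX hc).le (Real.exp_pos _).le, (hc.time_lt ζ hζ).le⟩

theorem s5la_continuousOn_time (hc : IsAdm X 𝔚 𝒴 c) : ContinuousOn c.time uDiscC := by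
  unfold Config.time
  exact continuousOn_const.mul (Real.continuous_exp.comp_continuousOn
    (continuousOn_const.mul (Complex.continuous_re.comp_continuousOn hc.w_hol.2.continuousOn)))

/-- a space-time smooth function on `Y` is continuous along an admissible configuration. -/
theorem s5la_continuousOn_comp (hX : X.Valid D 𝒴) (hc : IsAdm X 𝔚 𝒴 c) {u : ℝ → CotAmb V → ℝ}
    (hu : 𝒴.SmoothST (Set.Icc 0 X.T) u) : ContinuousOn (fun ζ => u (c.time ζ) (c.f ζ)) uDiscC := by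
  have h1 : ContinuousOn (fun ζ => ((c.time ζ, c.f ζ) : ℝ × CotAmb V)) uDiscC :=
    (s5la_continuousOn_time hc).prodMk hc.disc.2.1.continuousOn
  exact hu.continuousOn.comp h1 fun ζ hζ => ⟨s5la_time_mem hX hc hζ, hc.disc.2.2 ζ hζ⟩

theorem s5la_smoothST_N (I : InitialData 𝓜 g) (hY : IsCotangent 𝓜 𝒴) (T : ℝ) :
    𝒴.SmoothST (Set.Icc 0 T) fun t y => D.N y t := fun Ψ W hΨ =>
  (s6f_N_smoothST D I.kahler.toIsMetric hY Ψ W hΨ).mono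
    (Set.prod_mono Set.Icc_subset_Ici_self subset_rfl)

theorem s5la_continuousOn_N (I : InitialData 𝓜 g) (hY : IsCotangent 𝓜 𝒴) (hX : X.Valid D 𝒴)
    (hc : IsAdm X 𝔚 𝒴 c) : ContinuousOn (fun ζ => D.N (c.f ζ) (c.time ζ)) uDiscC :=
  s5la_continuousOn_comp hX hc (s5la_smoothST_N I hY X.T)

/-- the dilations of an admissible configuration are competitors of the envelope. -/
theorem s5la_competitor_dilate (hc : IsAdm X 𝔚 𝒴 c) {ρ : ℝ} (h0 : 0 < ρ) (h1 : ρ < 1) :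
    IsCompetitor 𝒴 X.T (cotParam X.Φ c.p) c.s (fun ζ => c.f ((ρ : ℂ) * ζ))
      (fun ζ => c.w ((ρ : ℂ) * ζ)) := by
  have hr : ρ * ρ⁻¹ ≤ 1 := (mul_inv_cancel₀ h0.ne').le
  refine ⟨ρ⁻¹, (one_lt_inv₀ h0).2 h1, s5la_disc_dilate hc.disc.1 h0 hr, ?_, ?_, ?_, ?_⟩
  · have h2 : DifferentiableOn ℂ (fun ζ : ℂ => (ρ : ℂ) * ζ) (Metric.ball 0 ρ⁻¹) := by fun_prop
    exact hc.w_hol.1.comp h2 fun ζ hζ => s5la_mul_mem_ball h0 hr hζ
  · simp only [mul_zero]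
    exact hc.f_zero
  · simp only [mul_zero]
    exact hc.w_zero
  · intro ζ hζ
    exact hc.time_lt _ (s5la_mul_mem_closedBall h0.le h1.le hζ)

/-- discs which are only smooth up to the circle compete in the envelope. -/
theorem s5la_cA_N_ge_vraw (I : InitialData 𝓜 g) (hY : IsCotangent 𝓜 𝒴) (hX : X.Valid D 𝒴)
    (hc : IsAdm X 𝔚 𝒴 c) :
    D.vraw 𝒴 X.T (cotParam X.Φ c.p) c.s ≤ cA fun ζ => D.N (c.f ζ) (c.time ζ) := by
  refine ge_of_tendsto (s5la_tendsto_cA_dilate (s5la_continuousOn_N I hY hX hc)) ?_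
  filter_upwards [Ioo_mem_nhdsLT (one_pos : (0 : ℝ) < 1)] with ρ hρ
  exact s6g_vraw_le_cavg D hY (s5la_s_pos hX hc) (s5la_competitor_dilate hc hρ.1 hρ.2)

theorem s5la_smoothST_base (hY : IsCotangent 𝓜 𝒴) {I : Set ℝ} {u : ℝ → V → ℝ}
    (hu : 𝓜.SmoothST I u) : 𝒴.SmoothST I fun t y => u t y.1 := by
  refine CMfd.smoothST_of_cover fun y hy => ?_
  have hx := s6g_base_mem hY hy
  have hΦ := 𝓜.isHol_pΦ hx
  obtain ⟨ζ, hζ⟩ := s6g_exists_cotParam hY hy hΦ (𝓜.co_mem hx) (𝓜.pΦ_co hx).symm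
  refine ⟨cotParam (𝓜.pΦ y.1), cotDom (𝓜.pU y.1), hY.isHol hΦ,
    ⟨_, s6g_cJoin_mem_cotDom (𝓜.co_mem hx) ζ, hζ.symm⟩, ?_⟩
  have h2 : ContDiff ℝ ∞ fun q : ℝ × CE (Fin n ⊕ Fin n) => ((q.1, cBase q.2) : ℝ × CE (Fin n)) :=
    contDiff_fst.prodMk (s6f_contDiff_cBase.comp contDiff_snd)
  exact (hu _ _ hΦ).comp h2.contDiffOn fun q hq => ⟨hq.1, hq.2⟩

theorem s5la_δ_pos (hY : IsCotangent 𝓜 𝒴) (hW : IsWalls 𝔚 D 𝒴 X.T err A1 A2) {y : CotAmb V}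
    (hy : y ∈ 𝔚.reg 𝒴) : 0 < 𝔚.δ1 y.1 ∧ 0 < 𝔚.δ2 y := by
  have h1 := hW.δ1_mem y.1 (s6g_base_mem hY hy.1)
  have h2 := hW.δ2_mem y hy.1
  have h3 : 0 < 𝔚.δ1 y.1 * 𝔚.δ2 y := hy.2
  constructor
  · rcases h1.1.lt_or_eq with h4 | h4
    · exact h4
    · rw [← h4, zero_mul] at h3; exact absurd h3 (lt_irrefl _)
  · rcases h2.1.lt_or_eq with h4 | h4
    · exact h4
    · rw [← h4, mul_zero] at h3; exact absurd h3 (lt_irrefl _)

theorem s5la_continuousOn_d0 (hY : IsCotangent 𝓜 𝒴) (hX : X.Valid D 𝒴)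
    (hW : IsWalls 𝔚 D 𝒴 X.T err A1 A2) (hc : IsAdm X 𝔚 𝒴 c) :
    ContinuousOn (fun ζ => 𝔚.d0 (c.time ζ) (c.f ζ).1) uDiscC :=
  s5la_continuousOn_comp hX hc (s5la_smoothST_base hY hW.d0_smooth)

theorem s5la_continuousOn_δ1 (hY : IsCotangent 𝓜 𝒴) (hX : X.Valid D 𝒴)
    (hW : IsWalls 𝔚 D 𝒴 X.T err A1 A2) (hc : IsAdm X 𝔚 𝒴 c) :
    ContinuousOn (fun ζ => 𝔚.δ1 (c.f ζ).1) uDiscC :=
  s5la_continuousOn_comp hX hc (s5la_smoothST_base hY (hW.δ1_smooth.smoothST (Set.Icc 0 X.T)))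

theorem s5la_continuousOn_δ2 (hX : X.Valid D 𝒴)
    (hW : IsWalls 𝔚 D 𝒴 X.T err A1 A2) (hc : IsAdm X 𝔚 𝒴 c) :
    ContinuousOn (fun ζ => 𝔚.δ2 (c.f ζ)) uDiscC :=
  s5la_continuousOn_comp hX hc (hW.δ2_smooth.smoothST (Set.Icc 0 X.T))

theorem s5la_continuousOn_dc (hY : IsCotangent 𝓜 𝒴) (hX : X.Valid D 𝒴)
    (hW : IsWalls 𝔚 D 𝒴 X.T err A1 A2) (hc : IsAdm X 𝔚 𝒴 c) :
    ContinuousOn (fun ζ => 𝔚.dc (c.f ζ) (c.time ζ)) uCirc := by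
  have hs : uCirc ⊆ uDiscC := Metric.sphere_subset_closedBall
  unfold Walls.dc Walls.kw
  refine ((s5la_continuousOn_d0 hY hX hW hc).mono hs).add (ContinuousOn.add ?_ ?_)
  · exact (((s5la_continuousOn_δ1 hY hX hW hc).mono hs).inv₀ fun ζ hζ =>
      (s5la_δ_pos hY hW (hc.bdry ζ hζ)).1.ne').sub continuousOn_const
  · exact (((s5la_continuousOn_δ2 hX hW hc).mono hs).inv₀ fun ζ hζ =>
      (s5la_δ_pos hY hW (hc.bdry ζ hζ)).2.ne').sub continuousOn_const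

theorem s5la_bdry5_eq (I : InitialData 𝓜 g) (hY : IsCotangent 𝓜 𝒴) (hX : X.Valid D 𝒴)
    (hW : IsWalls 𝔚 D 𝒴 X.T err A1 A2) (hc : IsAdm X 𝔚 𝒴 c) :
    bdry5 𝔚 D c = cA (fun ζ => D.N (c.f ζ) (c.time ζ)) + cA fun ζ => 𝔚.dc (c.f ζ) (c.time ζ) :=
  s5la_cA_add ((s5la_continuousOn_N I hY hX hc).mono Metric.sphere_subset_closedBall)
    (s5la_continuousOn_dc hY hX hW hc)

theorem s5la_dc_nonneg (hY : IsCotangent 𝓜 𝒴) (hW : IsWalls 𝔚 D 𝒴 X.T err A1 A2) {y : CotAmb V}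
    (hy : y ∈ 𝔚.reg 𝒴) {t : ℝ} (ht : t ∈ Set.Icc 0 X.T) : 0 ≤ 𝔚.dc y t := by
  obtain ⟨h1, h2⟩ := s5la_δ_pos hY hW hy
  have h3 := (hW.δ1_mem y.1 (s6g_base_mem hY hy.1)).2
  have h4 := (hW.δ2_mem y hy.1).2
  have h5 := hW.d0_nonneg t ht y.1 (s6g_base_mem hY hy.1)
  have h6 : 1 ≤ (𝔚.δ1 y.1)⁻¹ := (one_le_inv₀ h1).2 h3
  have h7 : 1 ≤ (𝔚.δ2 y)⁻¹ := (one_le_inv₀ h2).2 h4
  unfold Walls.dc Walls.kw
  linarith

theorem s5la_cA_dc_nonneg (hY : IsCotangent 𝓜 𝒴) (hX : X.Valid D 𝒴)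
    (hW : IsWalls 𝔚 D 𝒴 X.T err A1 A2) (hc : IsAdm X 𝔚 𝒴 c) :
    0 ≤ cA fun ζ => 𝔚.dc (c.f ζ) (c.time ζ) :=
  s5la_cA_nonneg fun ζ hζ => s5la_dc_nonneg hY hW (hc.bdry ζ hζ)
    (s5la_time_mem hX hc (Metric.sphere_subset_closedBall hζ))

/-- each of the three nonnegative parts is bounded by the functional. -/
theorem s5la_fun5_ge (I : InitialData 𝓜 g) (hY : IsCotangent 𝓜 𝒴) (hX : X.Valid D 𝒴)
    (hW : IsWalls 𝔚 D 𝒴 X.T err A1 A2) (hc : IsAdm X 𝔚 𝒴 c) (ε : ℝ) :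
    (‖c.p - X.p₀‖ ^ 4 + (c.s - X.s₀) ^ 4) + cA (fun ζ => 𝔚.dc (c.f ζ) (c.time ζ)) +
      ε * energy5 X 𝔚 𝓜 g c ≤ fun5 X 𝔚 D ε c := by
  have h1 := hX.contact c.s hc.s_mem c.p hc.p_mem
  have h2 := s5la_cA_N_ge_vraw I hY hX hc
  unfold fun5
  rw [s5la_bdry5_eq I hY hX hW hc]
  linarith

/-- (5.9), first half, without the infimum. -/
theorem s5la_mu0_core (I : InitialData 𝓜 g) (hY : IsCotangent 𝓜 𝒴) (hX : X.Valid D 𝒴) (τ : ℝ)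
    (hτ : 0 < τ) :
    ∃ K : Set (CotAmb V), IsCompact K ∧ K ⊆ 𝒴.carrier ∧
      ∀ (𝔚 : Walls V) (err A1 A2 : ℝ), IsWalls 𝔚 D 𝒴 X.T err A1 A2 →
        (∀ y ∈ K, 𝔚.δ1 y.1 = 1 ∧ 𝔚.δ2 y = 1) →
        (∀ y ∈ K, ∀ t ∈ Set.Icc (0 : ℝ) X.T, 𝔚.d0 t y.1 ≤ τ) →
        ∃ c, IsAdm X 𝔚 𝒴 c ∧ fun5 X 𝔚 D 0 c ≤ 2 * τ := by
  obtain ⟨s, hs, p, hp, hv⟩ := hX.inf_zero (τ / 2) (half_pos hτ)
  have hy : cotParam X.Φ p ∈ 𝒴.carrier := s6g_cotParam_mem hY hX.isHol (hX.ball hp)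
  have hs0 : 0 < s := lt_of_lt_of_le hX.s_lo hs.1
  have hsT : s < X.T := lt_of_le_of_lt hs.2 hX.s_hi
  have hlt : D.vraw 𝒴 X.T (cotParam X.Φ p) s < D.vraw 𝒴 X.T (cotParam X.Φ p) s + τ / 2 := by
    linarith
  have hne : {a : ℝ | ∃ (f : ℂ → CotAmb V) (w : ℂ → ℂ),
      IsCompetitor 𝒴 X.T (cotParam X.Φ p) s f w ∧
      a = cavg fun ζ => D.N (f ζ) (s * Real.exp (2 * (w ζ).re))}.Nonempty :=
    ⟨_, _, _, s6env_const_competitor hy hsT, rfl⟩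
  obtain ⟨a, ⟨f, w, hcomp, rfl⟩, ha⟩ := exists_lt_of_csInf_lt hne hlt
  obtain ⟨r, hr, hf, hw, hf0, hw0, hT⟩ := hcomp
  have hsub : uDiscC ⊆ Metric.ball (0 : ℂ) r := Metric.closedBall_subset_ball hr
  refine ⟨f '' uDiscC, (isCompact_closedBall _ _).image_of_continuousOn (hf.2.1.mono hsub), ?_, ?_⟩
  · rintro _ ⟨ζ, hζ, rfl⟩
    exact hf.1 ζ (hsub hζ)
  intro 𝔚 err A1 A2 hW hδ hd
  have hc : IsAdm X 𝔚 𝒴 ⟨p, s, f, w⟩ := by
    refine ⟨hp, hs, s5la_isSmDisc hr hf, holSm_of_differentiableOn hr hw, hf0, hw0, hT, ?_⟩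
    intro ζ hζ
    have hζ' : ζ ∈ uDiscC := Metric.sphere_subset_closedBall hζ
    refine ⟨hf.1 ζ (hsub hζ'), ?_⟩
    obtain ⟨h1, h2⟩ := hδ _ ⟨ζ, hζ', rfl⟩
    show 0 < 𝔚.δ1 (f ζ).1 * 𝔚.δ2 (f ζ)
    rw [h1, h2]
    norm_num
  refine ⟨_, hc, ?_⟩
  have h1 : cA (fun ζ => 𝔚.dc ((⟨p, s, f, w⟩ : Config V n).f ζ) ((⟨p, s, f, w⟩ : Config V n).time ζ))
      ≤ τ := by
    rw [← s5la_cA_const τ]
    refine s5la_cA_mono (s5la_continuousOn_dc hY hX hW hc) continuousOn_const fun ζ hζ => ?_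
    have hζ' : ζ ∈ uDiscC := Metric.sphere_subset_closedBall hζ
    obtain ⟨h1, h2⟩ := hδ _ ⟨ζ, hζ', rfl⟩
    have h3 := hd _ ⟨ζ, hζ', rfl⟩ _ (s5la_time_mem hX hc hζ')
    unfold Walls.dc Walls.kw
    simp only [h1, h2, inv_one, sub_self, add_zero]
    exact h3
  have h2 : cA (fun ζ => D.N ((⟨p, s, f, w⟩ : Config V n).f ζ) ((⟨p, s, f, w⟩ : Config V n).time ζ))
      < D.vraw 𝒴 X.T (cotParam X.Φ p) s + τ / 2 := ha
  unfold fun5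
  rw [s5la_bdry5_eq I hY hX hW hc]
  simp only [zero_mul, add_zero]
  linarith

end Conf

section Ctx

variable {ι : Type} [Fintype ι] [DecidableEq ι]

theorem s5la_contDiff_normSq_sub (p₀ : CE ι) : ContDiff ℝ ∞ fun p : CE ι => ‖p - p₀‖ ^ 2 :=
  (contDiff_norm_sq ℝ).comp (contDiff_id.sub contDiff_const)

/-- the fourth power of the distance has vanishing Levi form at the centre. -/
theorem s5la_levi_norm_pow_four (p₀ : CE ι) : levi (fun p : CE ι => ‖p - p₀‖ ^ 4) p₀ = 0 := by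
  have h2 : ContDiffAt ℝ 2 (fun p : CE ι => ‖p - p₀‖ ^ 2) p₀ :=
    ((s5la_contDiff_normSq_sub p₀).of_le (by norm_cast)).contDiffAt
  have he : (fun p : CE ι => ‖p - p₀‖ ^ 4) = fun p => (‖p - p₀‖ ^ 2) ^ 2 := by
    funext p; ring
  have hmin : IsLocalMin (fun p : CE ι => ‖p - p₀‖ ^ 2) p₀ :=
    Eventually.of_forall fun p => by simp
  have hfd : fderiv ℝ (fun p : CE ι => ‖p - p₀‖ ^ 2) p₀ = 0 := hmin.fderiv_eq_zero
  have hd : DifferentiableAt ℝ (fun p : CE ι => ‖p - p₀‖ ^ 2) p₀ := h2.differentiableAt (by norm_num)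
  have hfdC : fderiv ℝ (fun p : CE ι => ((‖p - p₀‖ ^ 2 : ℝ) : ℂ)) p₀ = 0 := by
    have h3 : HasFDerivAt (fun p : CE ι => ((‖p - p₀‖ ^ 2 : ℝ) : ℂ))
        (Complex.ofRealCLM.comp (fderiv ℝ (fun p : CE ι => ‖p - p₀‖ ^ 2) p₀)) p₀ :=
      Complex.ofRealCLM.hasFDerivAt.comp p₀ hd.hasFDerivAt
    rw [h3.fderiv, hfd]
    simp
  have hg : grad10 (fun p : CE ι => ‖p - p₀‖ ^ 2) p₀ = 0 := by
    funext k
    unfold grad10 dz
    rw [hfdC]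
    simp
  ext j k
  rw [he, levi_sq h2, hg]
  simp

end Ctx

section Ctx2

variable {V : Type} [NormedAddCommGroup V] [InnerProductSpace ℝ V] [FiniteDimensional ℝ V]
variable [MeasurableSpace V] [BorelSpace V]
variable {n : ℕ} {𝓜 : CMfd V (Fin n)} {g : HFam V (Fin n)} {o : V}
variable {D : FlowData 𝓜 g o} {𝒴 : CMfd (CotAmb V) (Fin n ⊕ Fin n)}

/-- the values of the raw envelope come arbitrarily close to the envelope. -/
theorem s5la_frequently_vraw_lt {T s : ℝ} {y : CotAmb V} (hy : y ∈ 𝒴.carrier) (hs : 0 < s)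
    (hsT : s < T) {a : ℝ} (ha : D.venv 𝒴 T y s < a) :
    ∃ᶠ q : CotAmb V × ℝ in 𝓝[𝒴.carrier ×ˢ Set.Ioo 0 T] (y, s), D.vraw 𝒴 T q.1 q.2 < a := by
  intro hcon
  have h1 : ∀ᶠ q : CotAmb V × ℝ in 𝓝[𝒴.carrier ×ˢ Set.Ioo 0 T] (y, s), a ≤ D.vraw 𝒴 T q.1 q.2 :=
    hcon.mono fun q hq => not_lt.1 hq
  have h2 : a ≤ D.venv 𝒴 T y s := by
    unfold FlowData.venv
    rw [liminf_eq]
    exact le_csSup (s6env_bddAbove (f := fun q : CotAmb V × ℝ => D.vraw 𝒴 T q.1 q.2)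
      (S := 𝒴.carrier ×ˢ Set.Ioo 0 T) (x := (y, s)) ⟨hy, hs, hsT⟩) h1
  linarith

/-- reduction of Proposition 5.1 to a strict test on a compact coordinate cylinder. -/
theorem s5la_exists_ctx (I : InitialData 𝓜 g) (hY : IsCotangent 𝓜 𝒴) {q : ℕ}
    {G : CotAmb V → CE (Fin q)} (hG : GImm 𝒴 G) (hB : BaseImm 𝓜 G) {T : ℝ} {Φ : CE (Fin n) → V}
    {U : Set (CE (Fin n))} (hT : 0 < T) (hΦ : 𝓜.IsHol Φ U)
    {φ : ℝ → CE (Fin n ⊕ Fin n) → ℝ} {s₀ : ℝ} {p₀ : CE (Fin n ⊕ Fin n)}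
    (hs0 : 0 < s₀) (hs1 : s₀ < T) (hp : p₀ ∈ cotDom U)
    (hφ : ContDiff ℝ ∞ (fun a : ℝ × CE (Fin n ⊕ Fin n) => φ a.1 a.2))
    (heq : φ s₀ p₀ = D.venv 𝒴 T (cotParam Φ p₀) s₀)
    (hle : ∀ᶠ a : ℝ × CE (Fin n ⊕ Fin n) in 𝓝 (s₀, p₀), φ a.1 a.2 ≤ D.venv 𝒴 T (cotParam Φ a.2) a.1) :
    ∃ X : S5Ctx V n, X.Valid D 𝒴 ∧ X.T = T ∧ X.p₀ = p₀ ∧ X.s₀ = s₀ ∧
      levi (X.φ s₀) p₀ = levi (φ s₀) p₀ ∧
      deriv (fun s => X.φ s p₀) s₀ = deriv (fun s => φ s p₀) s₀ := by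
  obtain ⟨ε₁, hε₁, hball₁⟩ := Metric.eventually_nhds_iff_ball.1 hle
  obtain ⟨ε₂, hε₂, hball₂⟩ :=
    Metric.isOpen_iff.1 (s6g_isOpen_cotDom (𝓜.isParam hΦ).isOpen) p₀ hp
  set rc : ℝ := min (min (ε₁ / 2) (ε₂ / 2)) (min (s₀ / 2) ((T - s₀) / 2)) with hrc
  have hrc0 : 0 < rc := by
    have : 0 < T - s₀ := by linarith
    positivity
  have hrc1 : rc ≤ ε₁ / 2 := (min_le_left _ _).trans (min_le_left _ _)
  have hrc2 : rc ≤ ε₂ / 2 := (min_le_left _ _).trans (min_le_right _ _)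
  have hrc3 : rc ≤ s₀ / 2 := (min_le_right _ _).trans (min_le_left _ _)
  have hrc4 : rc ≤ (T - s₀) / 2 := (min_le_right _ _).trans (min_le_right _ _)
  set ψ : ℝ → CE (Fin n ⊕ Fin n) → ℝ := fun s p => φ s p - ‖p - p₀‖ ^ 4 - (s - s₀) ^ 4 with hψ
  have hψs : ContDiff ℝ ∞ (fun a : ℝ × CE (Fin n ⊕ Fin n) => ψ a.1 a.2) := by
    have h1 : ContDiff ℝ ∞ fun a : ℝ × CE (Fin n ⊕ Fin n) => ‖a.2 - p₀‖ ^ 4 := by
      have h2 : ContDiff ℝ ∞ fun a : ℝ × CE (Fin n ⊕ Fin n) => (‖a.2 - p₀‖ ^ 2) ^ 2 :=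
        ((s5la_contDiff_normSq_sub p₀).comp contDiff_snd).pow 2
      have he : (fun a : ℝ × CE (Fin n ⊕ Fin n) => ‖a.2 - p₀‖ ^ 4)
          = fun a => (‖a.2 - p₀‖ ^ 2) ^ 2 := by
        funext a; ring
      rw [he]; exact h2
    exact (hφ.sub h1).sub ((contDiff_fst.sub contDiff_const).pow 4)
  have hball : Metric.closedBall p₀ rc ⊆ cotDom U := fun p hpm =>
    hball₂ (Metric.closedBall_subset_ball (by linarith) hpm)
  have hy₀ : cotParam Φ p₀ ∈ 𝒴.carrier := s6g_cotParam_mem hY hΦ hp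
  refine ⟨⟨T, q, G, Φ, U, ψ, p₀, s₀, rc⟩, ?_, rfl, rfl, rfl, ?_, ?_⟩
  · refine ⟨hT, hG, hB, hΦ, hψs, hrc0, hball, ?_, ?_, ?_, ?_⟩
    · show 0 < s₀ - rc
      linarith
    · show s₀ + rc < T
      linarith
    · -- contact
      intro s hs p hpm
      have hs' : s ∈ Set.Icc (s₀ - rc) (s₀ + rc) := hs
      have hpm' : p ∈ Metric.closedBall p₀ rc := hpm
      have h1 : ((s, p) : ℝ × CE (Fin n ⊕ Fin n)) ∈ Metric.ball (s₀, p₀) ε₁ := by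
        rw [Metric.mem_ball, Prod.dist_eq, max_lt_iff]
        constructor
        · rw [Real.dist_eq, abs_lt]
          constructor <;> linarith [hs'.1, hs'.2]
        · have := Metric.mem_closedBall.1 hpm'
          linarith
      have h2 := hball₁ _ h1
      have h3 := s6g_venv_le_vraw D I hY (s6g_cotParam_mem hY hΦ (hball hpm'))
        (s := s) (T := T) (by linarith [hs'.1]) (by linarith [hs'.2])
      show φ s p - ‖p - p₀‖ ^ 4 - (s - s₀) ^ 4 + (‖p - p₀‖ ^ 4 + (s - s₀) ^ 4) ≤ _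
      simp only at h2
      linarith
    · -- the infimum
      intro τ hτ
      have hfreq := s5la_frequently_vraw_lt (D := D) hy₀ hs0 hs1
        (a := φ s₀ p₀ + τ / 2) (by rw [heq]; linarith)
      set inv := Function.invFunOn (cotParam Φ) (cotDom U) with hinv
      have ht : Tendsto (fun q : CotAmb V × ℝ => ((q.2, inv q.1) : ℝ × CE (Fin n ⊕ Fin n)))
          (𝓝[𝒴.carrier ×ˢ Set.Ioo 0 T] (cotParam Φ p₀, s₀)) (𝓝 (s₀, p₀)) := by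
        rw [nhdsWithin_prod_eq]
        refine Tendsto.prodMk_nhds ?_ ?_
        · exact (tendsto_snd (f := 𝓝[𝒴.carrier] (cotParam Φ p₀))
            (g := 𝓝[Set.Ioo 0 T] s₀)).mono_right nhdsWithin_le_nhds
        · exact (s6g_tendsto_inv (hY.isHol hΦ) hp).comp tendsto_fst
      have hψ0 : ψ s₀ p₀ = φ s₀ p₀ := by simp [hψ]
      have hnb : ∀ᶠ a : ℝ × CE (Fin n ⊕ Fin n) in 𝓝 (s₀, p₀),
          a.2 ∈ Metric.closedBall p₀ rc ∧ a.1 ∈ Set.Icc (s₀ - rc) (s₀ + rc) ∧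
          φ s₀ p₀ - τ / 2 < ψ a.1 a.2 := by
        have c1 : ∀ᶠ a : ℝ × CE (Fin n ⊕ Fin n) in 𝓝 (s₀, p₀), a.2 ∈ Metric.closedBall p₀ rc :=
          continuous_snd.continuousAt.eventually (Metric.closedBall_mem_nhds p₀ hrc0)
        have c2 : ∀ᶠ a : ℝ × CE (Fin n ⊕ Fin n) in 𝓝 (s₀, p₀),
            a.1 ∈ Set.Icc (s₀ - rc) (s₀ + rc) :=
          continuous_fst.continuousAt.eventually (Icc_mem_nhds (by linarith) (by linarith))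
        have c3 : ∀ᶠ a : ℝ × CE (Fin n ⊕ Fin n) in 𝓝 (s₀, p₀), φ s₀ p₀ - τ / 2 < ψ a.1 a.2 :=
          hψs.continuous.continuousAt.eventually (lt_mem_nhds (by simp only [hψ0]; linarith))
        filter_upwards [c1, c2, c3] with a a1 a2 a3 using ⟨a1, a2, a3⟩
      have him : ∀ᶠ q : CotAmb V × ℝ in 𝓝[𝒴.carrier ×ˢ Set.Ioo 0 T] (cotParam Φ p₀, s₀),
          q.1 ∈ cotParam Φ '' cotDom U := by
        rw [nhdsWithin_prod_eq]
        exact tendsto_fst.eventually (s6g_eventually_mem_image (hY.isHol hΦ) hp)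
      obtain ⟨q', hq1, hq2, hq3⟩ := (hfreq.and_eventually ((ht.eventually hnb).and him)).exists
      refine ⟨q'.2, hq2.2.1, inv q'.1, hq2.1, ?_⟩
      have h4 : cotParam Φ (inv q'.1) = q'.1 := Function.invFunOn_eq hq3
      show D.vraw 𝒴 T (cotParam Φ (inv q'.1)) q'.2 ≤ ψ q'.2 (inv q'.1) + τ
      rw [h4]
      linarith [hq2.2.2]
  · -- the Levi form
    show levi (ψ s₀) p₀ = levi (φ s₀) p₀
    have he : ψ s₀ = fun p => φ s₀ p - ‖p - p₀‖ ^ 4 := by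
      funext p; simp [hψ]
    have h1 : ContDiffAt ℝ 2 (φ s₀) p₀ := by
      have h2 : ContDiff ℝ ∞ (fun p : CE (Fin n ⊕ Fin n) => φ s₀ p) :=
        hφ.comp (contDiff_const.prodMk contDiff_id)
      exact (h2.of_le (by norm_cast)).contDiffAt
    have h3 : ContDiffAt ℝ 2 (fun p : CE (Fin n ⊕ Fin n) => ‖p - p₀‖ ^ 4) p₀ := by
      have h2 : ContDiff ℝ ∞ fun p : CE (Fin n ⊕ Fin n) => (‖p - p₀‖ ^ 2) ^ 2 :=
        (s5la_contDiff_normSq_sub p₀).pow 2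
      have he : (fun p : CE (Fin n ⊕ Fin n) => ‖p - p₀‖ ^ 4) = fun p => (‖p - p₀‖ ^ 2) ^ 2 := by
        funext p; ring
      rw [he]
      exact (h2.of_le (by norm_cast)).contDiffAt
    rw [he, levi_sub h1 h3, s5la_levi_norm_pow_four, sub_zero]
  · -- the time derivative
    show deriv (fun s => ψ s p₀) s₀ = deriv (fun s => φ s p₀) s₀
    have he : (fun s => ψ s p₀) = fun s => φ s p₀ - (s - s₀) ^ 4 := by
      funext s; simp [hψ]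
    have h1 : DifferentiableAt ℝ (fun s => φ s p₀) s₀ := by
      have h2 : ContDiff ℝ ∞ (fun s : ℝ => φ s p₀) := hφ.comp (contDiff_id.prodMk contDiff_const)
      exact h2.contDiffAt.differentiableAt (by simp)
    have h2 : HasDerivAt (fun s : ℝ => (s - s₀) ^ 4) (((4 : ℕ) : ℝ) * (s₀ - s₀) ^ (4 - 1) * 1) s₀ :=
      HasDerivAt.fun_pow ((hasDerivAt_id' s₀).sub_const s₀) 4
    have h3 : HasDerivAt (fun s => φ s p₀ - (s - s₀) ^ 4)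
        (deriv (fun s => φ s p₀) s₀ - ((4 : ℕ) : ℝ) * (s₀ - s₀) ^ (4 - 1) * 1) s₀ :=
      h1.hasDerivAt.sub h2
    rw [he, h3.deriv]
    simp

end Ctx2

end Claimed.Agent.R316
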