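import Claimed.Agent.R316.S5.Amb
import Claimed.Agent.R316.CM.FormsST

/-!
# Row 316, Section 5.2: smooth complex functions on `𝓧 × I`, their ambient derivatives, `G`-Lipschitz bounds

Auxiliary file for `S5/Symbol.lean` (helper110), no `sorry`.

* `SmST 𝓧 I β` : `β : V' → ℝ → ℂ` (POINT FIRST, as in `GLipOn`) is smooth on `𝓧 × I` = the hypothesis of `glip_of_smooth`; closure properties.
* `SmST.ambM_ddc`, `SmST.gDz`, `SmST.gDzb` : the ambient Hessian / differentials of a `SmoothST` family are `SmST`.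
* `GLipOn.mono`, `GLipOn.congr`, `GLipOn.univ_of_const`, `exists_glip_fintype`.
* `levi_inv_cleared`, `levi_log_cleared` : `f³ dd(f⁻¹) = dd(f²) - 3 f dd f`, `f² dd log f = 2 f dd f - ½ dd(f²)` (no gradient terms).
-/

set_option autoImplicit false
set_option linter.unusedSectionVars false
set_option maxSynthPendingDepth 3
open scoped ContDiff ComplexOrder Topology Matrix
open MeasureTheory Filter

namespace Claimed.Agent.R316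

section SmSTsec

variable {V' : Type} [NormedAddCommGroup V'] [NormedSpace ℝ V'] [FiniteDimensional ℝ V']
variable {κ : Type} [Fintype κ] [DecidableEq κ] {q : ℕ}
variable {𝓧 : CMfd V' κ} {G : V' → CE (Fin q)} {I : Set ℝ}

/-- complex valued smooth function on `𝓧 × I` (point first). -/
def SmST (𝓧 : CMfd V' κ) (I : Set ℝ) (β : V' → ℝ → ℂ) : Prop :=
  ∀ (Ψ : CE κ → V') (W : Set (CE κ)), 𝓧.IsHol Ψ W →
    ContDiffOn ℝ ∞ (fun a : ℝ × CE κ => β (Ψ a.2) a.1) (I ×ˢ W)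

variable {β β' : V' → ℝ → ℂ}

theorem SmST.add (h : SmST 𝓧 I β) (h' : SmST 𝓧 I β') : SmST 𝓧 I fun y t => β y t + β' y t :=
  fun Ψ W hΨ => (h Ψ W hΨ).add (h' Ψ W hΨ)

theorem SmST.sub (h : SmST 𝓧 I β) (h' : SmST 𝓧 I β') : SmST 𝓧 I fun y t => β y t - β' y t :=
  fun Ψ W hΨ => (h Ψ W hΨ).sub (h' Ψ W hΨ)

theorem SmST.mul (h : SmST 𝓧 I β) (h' : SmST 𝓧 I β') : SmST 𝓧 I fun y t => β y t * β' y t :=
  fun Ψ W hΨ => (h Ψ W hΨ).mul (h' Ψ W hΨ)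

theorem SmST.neg (h : SmST 𝓧 I β) : SmST 𝓧 I fun y t => - β y t :=
  fun Ψ W hΨ => (h Ψ W hΨ).neg

theorem SmST.pow (h : SmST 𝓧 I β) (m : ℕ) : SmST 𝓧 I fun y t => β y t ^ m :=
  fun Ψ W hΨ => (h Ψ W hΨ).pow m

theorem SmST.const (c : ℂ) : SmST 𝓧 I fun _ _ => c :=
  fun _ _ _ => contDiffOn_const

theorem SmST.mono {J : Set ℝ} (h : SmST 𝓧 I β) (hJ : J ⊆ I) : SmST 𝓧 J β :=
  fun Ψ W hΨ => (h Ψ W hΨ).mono (Set.prod_mono hJ subset_rfl)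

theorem SmST.congr (h : SmST 𝓧 I β) (he : ∀ y ∈ 𝓧.carrier, ∀ t ∈ I, β' y t = β y t) :
    SmST 𝓧 I β' :=
  fun Ψ W hΨ => (h Ψ W hΨ).congr fun _ ha => he _ (CMfd.mem_carrier hΨ ha.2) _ ha.1

theorem SmST.ofReal {u : ℝ → V' → ℝ} (hu : 𝓧.SmoothST I u) : SmST 𝓧 I fun y t => (u t y : ℂ) :=
  fun Ψ W hΨ => Complex.ofRealCLM.contDiff.comp_contDiffOn (hu Ψ W hΨ)

theorem SmST.of_smooth {u : V' → ℝ} (hu : 𝓧.Smooth u) : SmST 𝓧 I fun y _ => (u y : ℂ) :=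
  SmST.ofReal (hu.smoothST I)

/-- outer smooth real function. -/
theorem SmST.ofReal_comp {u : ℝ → V' → ℝ} (hu : 𝓧.SmoothST I u) {χ : ℝ → ℝ}
    (hχ : ContDiff ℝ ∞ χ) : SmST 𝓧 I fun y t => (χ (u t y) : ℂ) :=
  fun Ψ W hΨ => Complex.ofRealCLM.contDiff.comp_contDiffOn (hχ.comp_contDiffOn (hu Ψ W hΨ))

theorem smoothST_add {u v : ℝ → V' → ℝ} (hu : 𝓧.SmoothST I u) (hv : 𝓧.SmoothST I v) :
    𝓧.SmoothST I fun t y => u t y + v t y :=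
  fun Ψ W hΨ => (hu Ψ W hΨ).add (hv Ψ W hΨ)

theorem smoothST_mul {u v : ℝ → V' → ℝ} (hu : 𝓧.SmoothST I u) (hv : 𝓧.SmoothST I v) :
    𝓧.SmoothST I fun t y => u t y * v t y :=
  fun Ψ W hΨ => (hu Ψ W hΨ).mul (hv Ψ W hΨ)

theorem smoothST_pow {u : ℝ → V' → ℝ} (hu : 𝓧.SmoothST I u) (m : ℕ) :
    𝓧.SmoothST I fun t y => u t y ^ m :=
  fun Ψ W hΨ => (hu Ψ W hΨ).pow m

theorem smoothST_neg {u : ℝ → V' → ℝ} (hu : 𝓧.SmoothST I u) :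
    𝓧.SmoothST I fun t y => - u t y :=
  fun Ψ W hΨ => (hu Ψ W hΨ).neg

theorem smoothST_const (c : ℝ) : 𝓧.SmoothST I fun _ _ => c :=
  fun _ _ _ => contDiffOn_const

theorem smoothST_comp {u : ℝ → V' → ℝ} (hu : 𝓧.SmoothST I u) {χ : ℝ → ℝ}
    (hχ : ContDiff ℝ ∞ χ) : 𝓧.SmoothST I fun t y => χ (u t y) :=
  fun Ψ W hΨ => hχ.comp_contDiffOn (hu Ψ W hΨ)

theorem pinvJ_contDiffOn (hG : GImm 𝓧 G) {Ψ : CE κ → V'} {W : Set (CE κ)} (hΨ : 𝓧.IsHol Ψ W)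
    (k : κ) (r : Fin q) : ContDiffOn ℝ ∞ (fun p => pinvJ G Ψ p k r) W := by
  have hJ : ∀ i j, ContDiffOn ℝ ∞ (fun p => jac (G ∘ Ψ) p i j) W :=
    contDiffOn_jac (CMfd.isOpen_dom hΨ) (hG.hol _ _ hΨ)
  have hJH := contDiffOn_conjTranspose hJ
  unfold pinvJ
  exact contDiffOn_matMul (contDiffOn_matInv (contDiffOn_matMul hJH hJ)
    fun p hp => (amb_isUnit_det_gram (amb_jac_injective hG hΨ hp)).ne_zero) hJH k r

theorem smoothST_contDiffAt {u : ℝ → V' → ℝ} (hu : 𝓧.SmoothST I u) {Ψ : CE κ → V'}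
    {W : Set (CE κ)} (hΨ : 𝓧.IsHol Ψ W) {t : ℝ} (ht : t ∈ I) {p : CE κ} (hp : p ∈ W) :
    ContDiffAt ℝ ∞ (u t ∘ Ψ) p := by
  have h1 : ContDiffOn ℝ ∞ (fun y => (fun q : ℝ × CE κ => u q.1 (Ψ q.2)) (t, y)) W :=
    contDiffOn_slice_space (F := fun q : ℝ × CE κ => u q.1 (Ψ q.2)) (hu Ψ W hΨ) ht
  exact (h1 p hp).contDiffAt ((CMfd.isOpen_dom hΨ).mem_nhds hp)

/-- the ambient Hessian of a smooth family is smooth. -/
theorem SmST.ambM_ddc (hG : GImm 𝓧 G) (hI : IsTimeDom I) {u : ℝ → V' → ℝ}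
    (hu : 𝓧.SmoothST I u) (i j : Fin q) :
    SmST 𝓧 I fun y t => ambM 𝓧 G (ddc (u t)) y i j := by
  intro Ψ W hΨ
  have hW := CMfd.isOpen_dom hΨ
  have hP : ∀ k r, ContDiffOn ℝ ∞ (fun a : ℝ × CE κ => pinvJ G Ψ a.2 k r) (I ×ˢ W) :=
    fun k r => st_contDiffOn_comp_snd (pinvJ_contDiffOn hG hΨ k r) I
  have hL : ∀ k l, ContDiffOn ℝ ∞
      (fun a : ℝ × CE κ => levi (fun y => u a.1 (Ψ y)) a.2 k l) (I ×ˢ W) :=
    contDiffOn_levi_slice (F := fun q : ℝ × CE κ => u q.1 (Ψ q.2)) hI hW (hu Ψ W hΨ)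
  have hPH : ∀ r k, ContDiffOn ℝ ∞ (fun a : ℝ × CE κ => (pinvJ G Ψ a.2)ᴴ r k) (I ×ˢ W) :=
    contDiffOn_conjTranspose hP
  have h0 : ∀ r l, ContDiffOn ℝ ∞ (fun a : ℝ × CE κ =>
      ((pinvJ G Ψ a.2)ᴴ * levi (fun y => u a.1 (Ψ y)) a.2) r l) (I ×ˢ W) :=
    contDiffOn_matMul hPH hL
  have h1 : ContDiffOn ℝ ∞ (fun a : ℝ × CE κ =>
      ((pinvJ G Ψ a.2)ᴴ * levi (fun y => u a.1 (Ψ y)) a.2 * pinvJ G Ψ a.2) i j) (I ×ˢ W) :=
    contDiffOn_matMul h0 hP i j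
  refine h1.congr fun a ha => ?_
  have h2 := ambM_ddc_eq (β := u a.1) hG hΨ ha.2
    ((smoothST_contDiffAt hu hΨ ha.1 ha.2).of_le (by norm_cast))
  exact congrFun (congrFun h2 i) j

theorem SmST.gDz (hG : GImm 𝓧 G) (hI : IsTimeDom I) {u : ℝ → V' → ℝ}
    (hu : 𝓧.SmoothST I u) (r : Fin q) :
    SmST 𝓧 I fun y t => gDz 𝓧 G (fun y' => (u t y' : ℂ)) y r := by
  intro Ψ W hΨ
  have hW := CMfd.isOpen_dom hΨ
  have hP : ∀ k r, ContDiffOn ℝ ∞ (fun a : ℝ × CE κ => pinvJ G Ψ a.2 k r) (I ×ˢ W) :=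
    fun k r => st_contDiffOn_comp_snd (pinvJ_contDiffOn hG hΨ k r) I
  have hL : ∀ k, ContDiffOn ℝ ∞
      (fun a : ℝ × CE κ => dz k (fun y => ((u a.1 (Ψ y) : ℝ) : ℂ)) a.2) (I ×ˢ W) :=
    contDiffOn_dz_slice (F := fun q : ℝ × CE κ => ((u q.1 (Ψ q.2) : ℝ) : ℂ)) hI hW
      (st_contDiffOn_ofReal (hu Ψ W hΨ))
  have h1 : ContDiffOn ℝ ∞ (fun a : ℝ × CE κ =>
      ∑ k, dz k (fun y => ((u a.1 (Ψ y) : ℝ) : ℂ)) a.2 * pinvJ G Ψ a.2 k r) (I ×ˢ W) :=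
    ContDiffOn.sum fun k _ => (hL k).mul (hP k r)
  refine h1.congr fun a ha => ?_
  exact gDz_eq (β := fun y' => (u a.1 y' : ℂ)) hG hΨ ha.2
    (Complex.ofRealCLM.differentiableAt.comp _
      ((smoothST_contDiffAt hu hΨ ha.1 ha.2).differentiableAt (by simp))) r

theorem SmST.gDzb (hG : GImm 𝓧 G) (hI : IsTimeDom I) {u : ℝ → V' → ℝ}
    (hu : 𝓧.SmoothST I u) (r : Fin q) :
    SmST 𝓧 I fun y t => gDzb 𝓧 G (fun y' => (u t y' : ℂ)) y r := by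
  intro Ψ W hΨ
  have hW := CMfd.isOpen_dom hΨ
  have hP : ∀ k r, ContDiffOn ℝ ∞ (fun a : ℝ × CE κ => star (pinvJ G Ψ a.2 k r)) (I ×ˢ W) :=
    fun k r => st_contDiffOn_conj (st_contDiffOn_comp_snd (pinvJ_contDiffOn hG hΨ k r) I)
  have hL : ∀ k, ContDiffOn ℝ ∞
      (fun a : ℝ × CE κ => dzb k (fun y => ((u a.1 (Ψ y) : ℝ) : ℂ)) a.2) (I ×ˢ W) :=
    contDiffOn_dzb_slice (F := fun q : ℝ × CE κ => ((u q.1 (Ψ q.2) : ℝ) : ℂ)) hI hW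
      (st_contDiffOn_ofReal (hu Ψ W hΨ))
  have h1 : ContDiffOn ℝ ∞ (fun a : ℝ × CE κ =>
      ∑ k, dzb k (fun y => ((u a.1 (Ψ y) : ℝ) : ℂ)) a.2 * star (pinvJ G Ψ a.2 k r)) (I ×ˢ W) :=
    ContDiffOn.sum fun k _ => (hL k).mul (hP k r)
  refine h1.congr fun a ha => ?_
  exact gDzb_eq (β := fun y' => (u a.1 y' : ℂ)) hG hΨ ha.2
    (Complex.ofRealCLM.differentiableAt.comp _
      ((smoothST_contDiffAt hu hΨ ha.1 ha.2).differentiableAt (by simp))) r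

/-! ### `GLipOn` -/

variable {S S' : Set V'} {I' : Set ℝ} {C C' : ℝ}

theorem GLipOn.mono (h : GLipOn G S I C β) (hS : S' ⊆ S) (hI : I' ⊆ I) (hC : C ≤ C') :
    GLipOn G S' I' C' β :=
  ⟨fun y hy t ht => (h.1 y (hS hy) t (hI ht)).trans hC,
    fun y hy y' hy' t ht t' ht' => (h.2 y (hS hy) y' (hS hy') t (hI ht) t' (hI ht')).trans
      (mul_le_mul_of_nonneg_right hC (by positivity))⟩

theorem GLipOn.congr (h : GLipOn G S I C β) (he : ∀ y ∈ S, ∀ t ∈ I, β' y t = β y t) :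
    GLipOn G S I C β' :=
  ⟨fun y hy t ht => by rw [he y hy t ht]; exact h.1 y hy t ht,
    fun y hy y' hy' t ht t' ht' => by
      rw [he y hy t ht, he y' hy' t' ht']; exact h.2 y hy y' hy' t ht t' ht'⟩

/-- time independent functions. -/
theorem GLipOn.univ_of_const {b : V' → ℂ} (h : GLipOn G S I C fun y _ => b y)
    (hI : I.Nonempty) : GLipOn G S Set.univ |C| fun y _ => b y := by
  obtain ⟨t₀, ht₀⟩ := hI
  refine ⟨fun y hy _ _ => (h.1 y hy t₀ ht₀).trans (le_abs_self C),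
    fun y hy y' hy' t _ t' _ => ?_⟩
  have h1 := h.2 y hy y' hy' t₀ ht₀ t₀ ht₀
  rw [sub_self, abs_zero, add_zero] at h1
  calc ‖b y - b y'‖ ≤ C * ‖G y - G y'‖ := h1
    _ ≤ |C| * ‖G y - G y'‖ := mul_le_mul_of_nonneg_right (le_abs_self C) (norm_nonneg _)
    _ ≤ |C| * (‖G y - G y'‖ + |t - t'|) :=
      mul_le_mul_of_nonneg_left (le_add_of_nonneg_right (abs_nonneg _)) (abs_nonneg C)

theorem exists_glip_fintype {α : Type} [Fintype α] {b : α → V' → ℝ → ℂ}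
    (h : ∀ i, ∃ C : ℝ, GLipOn G S I C (b i)) : ∃ C : ℝ, ∀ i, GLipOn G S I C (b i) := by
  choose C hC using h
  refine ⟨∑ i, |C i|, fun i => (hC i).mono subset_rfl subset_rfl ?_⟩
  exact (le_abs_self _).trans
    (Finset.single_le_sum (f := fun i => |C i|) (fun _ _ => abs_nonneg _) (Finset.mem_univ i))

theorem SmST.exists_glip (hG : GImm 𝓧 G) {K : Set V'} (hK : IsCompact K) (hKX : K ⊆ 𝓧.carrier)
    {T : ℝ} (hβ : SmST 𝓧 (Set.Icc 0 T) β) : ∃ C : ℝ, GLipOn G K (Set.Icc 0 T) C β :=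
  glip_of_smooth hG hK hKX hβ

end SmSTsec

/-! ### cleared Levi forms -/

section Cleared

variable {ι : Type} [Fintype ι] [DecidableEq ι] {f : CE ι → ℝ} {z : CE ι}

/-- `f³ dd(f⁻¹) = dd(f²) - 3 f dd f`. -/
theorem levi_inv_cleared (hf : ContDiffAt ℝ 2 f z) (h0 : f z ≠ 0) :
    ((f z ^ 3 : ℝ) : ℂ) • levi (fun w => (f w)⁻¹) z =
      levi (fun w => f w ^ 2) z - ((3 * f z : ℝ) : ℂ) • levi f z := by
  ext j k
  simp only [Matrix.smul_apply, Matrix.sub_apply, smul_eq_mul]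
  rw [levi_inv hf h0, levi_sq hf]
  have h3 : ((f z : ℝ) : ℂ) ≠ 0 := Complex.ofReal_ne_zero.2 h0
  push_cast
  field_simp
  ring

/-- `f² dd log f = 2 f dd f - ½ dd(f²)`. -/
theorem levi_log_cleared (hf : ContDiffAt ℝ 2 f z) (h0 : f z ≠ 0) :
    ((f z ^ 2 : ℝ) : ℂ) • levi (fun w => Real.log (f w)) z =
      ((2 * f z : ℝ) : ℂ) • levi f z - (1 / 2 : ℂ) • levi (fun w => f w ^ 2) z := by
  ext j k
  simp only [Matrix.smul_apply, Matrix.sub_apply, smul_eq_mul]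
  rw [levi_log hf h0, levi_sq hf]
  have h3 : ((f z : ℝ) : ℂ) ≠ 0 := Complex.ofReal_ne_zero.2 h0
  push_cast
  field_simp
  ring

end Cleared

end Claimed.Agent.R316
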