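import Claimed.Agent.R316.S5.Std
import Claimed.Agent.R316.S5.Amb
import Claimed.Agent.R316.S5.SmST

/-!
# Row 316, Section 5.2: the smooth data on `Y × [0, T]`, `G`-Lipschitz bounds of the cleared tensors, smoothness along the
boundary of an admissible configuration (first part of the former `S5/Symbol.lean`; imported by `S5/Local.lean`)

* `S5-G3` `N_smooth`, `smooth_base`, `symb_glip`, `symb_isHermitian`, `wall_tensors_glip`.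
* `S5-G4` `gam0_glip`, `circSm_log_pw`, `Dsq_time_le`.
* `Std5.circSm` : a smooth function on `Y × [0, T]` along an admissible configuration is `CircSm`; `circSm_g0`, `circSm_N`,
  `circSm_dc`, `circSm_pw`; averages: `sym_bdry5_eq`, `sym_cA_dc_nonneg`, `sym_cA_log_g0_ge`, `sym_cA_g0_ge`, `sym_cA_g0_le`,
  `sym_lg_eq`, `sym_lg_ge`, `sym_lg_le`.
-/

set_option autoImplicit false
set_option linter.unusedSectionVars false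
set_option maxSynthPendingDepth 3
open scoped ContDiff ComplexOrder Topology Matrix
open MeasureTheory Filter

namespace Claimed.Agent.R316

open Claimed.Agent.R316.S6

section SymD

variable {V : Type} [NormedAddCommGroup V] [InnerProductSpace ℝ V] [FiniteDimensional ℝ V]
variable [MeasurableSpace V] [BorelSpace V]
variable {n : ℕ} {𝓜 : CMfd V (Fin n)} {g : HFam V (Fin n)} {o : V}
variable {D : FlowData 𝓜 g o} {𝒴 : CMfd (CotAmb V) (Fin n ⊕ Fin n)}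
variable {X : S5Ctx V n} {𝔚 : Walls V} {err A1 A2 : ℝ} {c : Config V n}

/-- joint smoothness of `N` up to `t = 0`. -/
theorem N_smooth (I : InitialData 𝓜 g) (hY : IsCotangent 𝓜 𝒴) (T : ℝ)
    (Ψ : CE (Fin n ⊕ Fin n) → CotAmb V) (W : Set (CE (Fin n ⊕ Fin n))) (hΨ : 𝒴.IsHol Ψ W) :
    ContDiffOn ℝ ∞ (fun a : ℝ × CE (Fin n ⊕ Fin n) => D.N (Ψ a.2) a.1) (Set.Icc 0 T ×ˢ W) :=
  (s6f_N_smoothST D I.kahler.toIsMetric hY Ψ W hΨ).mono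
    (Set.prod_mono Set.Icc_subset_Ici_self subset_rfl)

theorem smoothST_base (hY : IsCotangent 𝓜 𝒴) {I : Set ℝ} {u : ℝ → V → ℝ} (hu : 𝓜.SmoothST I u) :
    𝒴.SmoothST I fun t y => u t y.1 := by
  refine CMfd.smoothST_of_cover fun y hy => ?_
  have hx := s6g_base_mem hY hy
  have hΦ := 𝓜.isHol_pΦ hx
  obtain ⟨ζ, hζ⟩ := s6g_exists_cotParam hY hy hΦ (𝓜.co_mem hx) (𝓜.pΦ_co hx).symm
  refine ⟨cotParam (𝓜.pΦ y.1), cotDom (𝓜.pU y.1), hY.isHol hΦ,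
    ⟨_, s6g_cJoin_mem_cotDom (𝓜.co_mem hx) ζ, hζ.symm⟩, ?_⟩
  have h2 : ContDiff ℝ ∞ fun q : ℝ × CE (Fin n ⊕ Fin n) => ((q.1, cBase q.2) : ℝ × CE (Fin n)) :=
    contDiff_fst.prodMk (s6f_contDiff_cBase.comp contDiff_snd)
  exact (hu _ _ hΦ).comp h2.contDiffOn fun q hq => ⟨hq.1, hq.2⟩

/-- the projection `Y → M` is holomorphic: base functions are smooth on `Y`. -/
theorem smooth_base (hY : IsCotangent 𝓜 𝒴) {I : Set ℝ} {u : ℝ → V → ℝ} (hu : 𝓜.SmoothST I u)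
    (Ψ : CE (Fin n ⊕ Fin n) → CotAmb V) (W : Set (CE (Fin n ⊕ Fin n))) (hΨ : 𝒴.IsHol Ψ W) :
    ContDiffOn ℝ ∞ (fun a : ℝ × CE (Fin n ⊕ Fin n) => u a.1 (Ψ a.2).1) (I ×ˢ W) :=
  smoothST_base hY hu Ψ W hΨ

/-! ### the smooth data -/

theorem Std5.timeDom (h : Std5 X 𝔚 D 𝒴 err A1 A2) : IsTimeDom (Set.Icc 0 X.T) :=
  isTimeDom_Icc h.valid.T_pos

theorem Std5.sN (h : Std5 X 𝔚 D 𝒴 err A1 A2) : 𝒴.SmoothST (Set.Icc 0 X.T) fun t y => D.N y t :=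
  N_smooth h.init h.cot X.T

theorem Std5.sd0 (h : Std5 X 𝔚 D 𝒴 err A1 A2) :
    𝒴.SmoothST (Set.Icc 0 X.T) fun t y => 𝔚.d0 t y.1 :=
  smoothST_base h.cot h.walls.d0_smooth

theorem Std5.sδ1 (h : Std5 X 𝔚 D 𝒴 err A1 A2) (I : Set ℝ) :
    𝒴.SmoothST I fun _ y => 𝔚.δ1 y.1 :=
  smoothST_base h.cot (h.walls.δ1_smooth.smoothST I)

theorem Std5.sδ2 (h : Std5 X 𝔚 D 𝒴 err A1 A2) (I : Set ℝ) :
    𝒴.SmoothST I fun _ y => 𝔚.δ2 y :=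
  h.walls.δ2_smooth.smoothST I

theorem Std5.spw (h : Std5 X 𝔚 D 𝒴 err A1 A2) (I : Set ℝ) :
    𝒴.SmoothST I fun _ y => 𝔚.pw y :=
  smoothST_mul (h.sδ1 I) (h.sδ2 I)

theorem Std5.δ_pos (h : Std5 X 𝔚 D 𝒴 err A1 A2) {y : CotAmb V} (hy : y ∈ 𝔚.reg 𝒴) :
    0 < 𝔚.δ1 y.1 ∧ 0 < 𝔚.δ2 y := by
  have h1 := h.walls.δ1_mem y.1 (h.base_mem hy.1)
  have h2 := h.walls.δ2_mem y hy.1
  have h3 : 0 < 𝔚.δ1 y.1 * 𝔚.δ2 y := hy.2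
  constructor
  · rcases h1.1.lt_or_eq with h4 | h4
    · exact h4
    · rw [← h4, zero_mul] at h3; exact absurd h3 (lt_irrefl _)
  · rcases h2.1.lt_or_eq with h4 | h4
    · exact h4
    · rw [← h4, mul_zero] at h3; exact absurd h3 (lt_irrefl _)

/-- the chosen chart at a point of `Y`. -/
theorem sym_c2 {I : Set ℝ} {u : ℝ → CotAmb V → ℝ} (hu : 𝒴.SmoothST I u) {t : ℝ} (ht : t ∈ I)
    {y : CotAmb V} (hy : y ∈ 𝒴.carrier) : ContDiffAt ℝ 2 (u t ∘ 𝒴.pΦ y) (𝒴.co y) :=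
  (smoothST_contDiffAt hu (𝒴.isHol_pΦ hy) ht (𝒴.co_mem hy)).of_le (by norm_cast)

/-- conjugation by the pseudo inverse. -/
theorem ambM_ddc_def {q : ℕ} (G : CotAmb V → CE (Fin q)) (β : CotAmb V → ℝ) (y : CotAmb V) :
    ambM 𝒴 G (ddc β) y = (gPinv 𝒴 G y)ᴴ * levi (β ∘ 𝒴.pΦ y) (𝒴.co y) * gPinv 𝒴 G y := rfl

theorem sym_cj_add {α γ : Type} [Fintype α] [Fintype γ] (P : Matrix α γ ℂ) (L L' : Matrix α α ℂ) :
    Pᴴ * (L + L') * P = Pᴴ * L * P + Pᴴ * L' * P := by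
  rw [Matrix.mul_add, Matrix.add_mul]

theorem sym_cj_sub {α γ : Type} [Fintype α] [Fintype γ] (P : Matrix α γ ℂ) (L L' : Matrix α α ℂ) :
    Pᴴ * (L - L') * P = Pᴴ * L * P - Pᴴ * L' * P := by
  rw [Matrix.mul_sub, Matrix.sub_mul]

theorem sym_cj_smul {α γ : Type} [Fintype α] [Fintype γ] (P : Matrix α γ ℂ) (c : ℂ)
    (L : Matrix α α ℂ) : Pᴴ * (c • L) * P = c • (Pᴴ * L * P) := by
  rw [Matrix.mul_smul, Matrix.smul_mul]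

/-- the cost in the chosen chart is `C²` at points of the region, and its Levi form splits. -/
theorem sym_levi_cost (h : Std5 X 𝔚 D 𝒴 err A1 A2) {y : CotAmb V} (hy : y ∈ 𝔚.reg 𝒴) {t : ℝ}
    (ht : t ∈ Set.Icc 0 X.T) :
    ContDiffAt ℝ 2 ((fun y' => 𝔚.cost D y' t) ∘ 𝒴.pΦ y) (𝒴.co y) ∧
    levi ((fun y' => 𝔚.cost D y' t) ∘ 𝒴.pΦ y) (𝒴.co y) =
      levi ((fun y' => D.N y' t) ∘ 𝒴.pΦ y) (𝒴.co y) +
      levi ((fun y' => 𝔚.d0 t y'.1) ∘ 𝒴.pΦ y) (𝒴.co y) +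
      levi (fun w => (((fun y' => 𝔚.δ1 y'.1) ∘ 𝒴.pΦ y) w)⁻¹) (𝒴.co y) +
      levi (fun w => (((fun y' => 𝔚.δ2 y') ∘ 𝒴.pΦ y) w)⁻¹) (𝒴.co y) := by
  have hyz : 𝒴.pΦ y (𝒴.co y) = y := 𝒴.pΦ_co hy.1
  have hn := sym_c2 h.sN ht hy.1
  have he := sym_c2 h.sd0 ht hy.1
  have ha := sym_c2 (h.sδ1 (Set.Icc 0 X.T)) ht hy.1
  have hb := sym_c2 (h.sδ2 (Set.Icc 0 X.T)) ht hy.1
  have ha0 : ((fun y' : CotAmb V => 𝔚.δ1 y'.1) ∘ 𝒴.pΦ y) (𝒴.co y) ≠ 0 := by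
    show 𝔚.δ1 (𝒴.pΦ y (𝒴.co y)).1 ≠ 0
    rw [hyz]; exact (h.δ_pos hy).1.ne'
  have hb0 : ((fun y' : CotAmb V => 𝔚.δ2 y') ∘ 𝒴.pΦ y) (𝒴.co y) ≠ 0 := by
    show 𝔚.δ2 (𝒴.pΦ y (𝒴.co y)) ≠ 0
    rw [hyz]; exact (h.δ_pos hy).2.ne'
  have ha' : ContDiffAt ℝ 2 (fun w => (((fun y' : CotAmb V => 𝔚.δ1 y'.1) ∘ 𝒴.pΦ y) w)⁻¹)
      (𝒴.co y) := ha.inv ha0
  have hb' : ContDiffAt ℝ 2 (fun w => (((fun y' : CotAmb V => 𝔚.δ2 y') ∘ 𝒴.pΦ y) w)⁻¹)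
      (𝒴.co y) := hb.inv hb0
  have hcost : ((fun y' => 𝔚.cost D y' t) ∘ 𝒴.pΦ y) = fun w =>
      (((fun y' => D.N y' t) ∘ 𝒴.pΦ y) w + ((fun y' : CotAmb V => 𝔚.d0 t y'.1) ∘ 𝒴.pΦ y) w +
        (((fun y' : CotAmb V => 𝔚.δ1 y'.1) ∘ 𝒴.pΦ y) w)⁻¹ +
        (((fun y' : CotAmb V => 𝔚.δ2 y') ∘ 𝒴.pΦ y) w)⁻¹) + (-2) := by
    funext w
    simp only [Function.comp, Walls.cost, Walls.dc, Walls.kw]
    ring
  rw [hcost]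
  refine ⟨(((hn.add he).add ha').add hb').add contDiffAt_const, ?_⟩
  rw [levi_add_const, levi_add ((hn.add he).add ha') hb', levi_add (hn.add he) ha', levi_add hn he]

/-- the cleared symbol as a tensor which is smooth on all of `Y × [0, T]`. -/
noncomputable def Walls.symbS (𝔚 : Walls V) (D : FlowData 𝓜 g o)
    (𝒴 : CMfd (CotAmb V) (Fin n ⊕ Fin n)) {q : ℕ} (G : CotAmb V → CE (Fin q)) (y : CotAmb V)
    (t : ℝ) : Matrix (Fin q) (Fin q) ℂ :=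
  ((𝔚.pw y ^ (2 * 𝔚.a) : ℝ) : ℂ) •
      (ambM 𝒴 G (ddc fun y' => D.N y' t) y + ambM 𝒴 G (ddc fun y' => 𝔚.d0 t y'.1) y)
  + ((𝔚.δ2 y ^ (2 * 𝔚.a) * 𝔚.δ1 y.1 ^ (2 * 𝔚.a - 3) : ℝ) : ℂ) •
      (ambM 𝒴 G (ddc fun y' => 𝔚.δ1 y'.1 ^ 2) y
        - ((3 * 𝔚.δ1 y.1 : ℝ) : ℂ) • ambM 𝒴 G (ddc fun y' => 𝔚.δ1 y'.1) y)
  + ((𝔚.δ1 y.1 ^ (2 * 𝔚.a) * 𝔚.δ2 y ^ (2 * 𝔚.a - 3) : ℝ) : ℂ) •
      (ambM 𝒴 G (ddc fun y' => 𝔚.δ2 y' ^ 2) y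
        - ((3 * 𝔚.δ2 y : ℝ) : ℂ) • ambM 𝒴 G (ddc fun y' => 𝔚.δ2 y') y)

theorem sym_clear {α : Type} (A B : ℝ) {m : ℕ} (hm : 2 ≤ m) (L : Matrix α α ℂ) :
    (((A * B) ^ (2 * m) : ℝ) : ℂ) • L =
      ((B ^ (2 * m) * A ^ (2 * m - 3) : ℝ) : ℂ) • (((A ^ 3 : ℝ) : ℂ) • L) := by
  rw [smul_smul]
  congr 1
  have h1 : A ^ (2 * m) = A ^ (2 * m - 3) * A ^ 3 := by
    rw [← pow_add]; congr 1; omega
  rw [← Complex.ofReal_mul, mul_pow, h1]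
  congr 1
  ring

theorem symb_eq_symbS (h : Std5 X 𝔚 D 𝒴 err A1 A2) {y : CotAmb V} (hy : y ∈ 𝔚.reg 𝒴) {t : ℝ}
    (ht : t ∈ Set.Icc 0 X.T) : 𝔚.symb D 𝒴 X.G y t = 𝔚.symbS D 𝒴 X.G y t := by
  have hyz : 𝒴.pΦ y (𝒴.co y) = y := 𝒴.pΦ_co hy.1
  have ha := sym_c2 (h.sδ1 (Set.Icc 0 X.T)) ht hy.1
  have hb := sym_c2 (h.sδ2 (Set.Icc 0 X.T)) ht hy.1
  have haz : ((fun y' : CotAmb V => 𝔚.δ1 y'.1) ∘ 𝒴.pΦ y) (𝒴.co y) = 𝔚.δ1 y.1 := by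
    show 𝔚.δ1 (𝒴.pΦ y (𝒴.co y)).1 = _
    rw [hyz]
  have hbz : ((fun y' : CotAmb V => 𝔚.δ2 y') ∘ 𝒴.pΦ y) (𝒴.co y) = 𝔚.δ2 y := by
    show 𝔚.δ2 (𝒴.pΦ y (𝒴.co y)) = _
    rw [hyz]
  have ia := levi_inv_cleared ha (by rw [haz]; exact (h.δ_pos hy).1.ne')
  have ib := levi_inv_cleared hb (by rw [hbz]; exact (h.δ_pos hy).2.ne')
  rw [haz] at ia
  rw [hbz] at ib
  unfold Walls.symb Walls.symbS
  simp only [ambM_ddc_def]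
  rw [(sym_levi_cost h hy ht).2]
  simp only [sym_cj_add, smul_add]
  have e1 : ((𝔚.pw y ^ (2 * 𝔚.a) : ℝ) : ℂ) • ((gPinv 𝒴 X.G y)ᴴ *
      levi (fun w => (((fun y' : CotAmb V => 𝔚.δ1 y'.1) ∘ 𝒴.pΦ y) w)⁻¹) (𝒴.co y) * gPinv 𝒴 X.G y) =
      ((𝔚.δ2 y ^ (2 * 𝔚.a) * 𝔚.δ1 y.1 ^ (2 * 𝔚.a - 3) : ℝ) : ℂ) •
      ((gPinv 𝒴 X.G y)ᴴ * levi ((fun y' : CotAmb V => 𝔚.δ1 y'.1 ^ 2) ∘ 𝒴.pΦ y) (𝒴.co y) *
          gPinv 𝒴 X.G y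
        - ((3 * 𝔚.δ1 y.1 : ℝ) : ℂ) • ((gPinv 𝒴 X.G y)ᴴ *
          levi ((fun y' : CotAmb V => 𝔚.δ1 y'.1) ∘ 𝒴.pΦ y) (𝒴.co y) * gPinv 𝒴 X.G y)) := by
    unfold Walls.pw
    rw [sym_clear _ _ h.walls.two_le_a, ← sym_cj_smul, ia, sym_cj_sub, sym_cj_smul]
    rfl
  have e2 : ((𝔚.pw y ^ (2 * 𝔚.a) : ℝ) : ℂ) • ((gPinv 𝒴 X.G y)ᴴ *
      levi (fun w => (((fun y' : CotAmb V => 𝔚.δ2 y') ∘ 𝒴.pΦ y) w)⁻¹) (𝒴.co y) * gPinv 𝒴 X.G y) =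
      ((𝔚.δ1 y.1 ^ (2 * 𝔚.a) * 𝔚.δ2 y ^ (2 * 𝔚.a - 3) : ℝ) : ℂ) •
      ((gPinv 𝒴 X.G y)ᴴ * levi ((fun y' : CotAmb V => 𝔚.δ2 y' ^ 2) ∘ 𝒴.pΦ y) (𝒴.co y) *
          gPinv 𝒴 X.G y
        - ((3 * 𝔚.δ2 y : ℝ) : ℂ) • ((gPinv 𝒴 X.G y)ᴴ *
          levi ((fun y' : CotAmb V => 𝔚.δ2 y') ∘ 𝒴.pΦ y) (𝒴.co y) * gPinv 𝒴 X.G y)) := by
    unfold Walls.pw
    rw [mul_comm (𝔚.δ1 y.1) (𝔚.δ2 y), sym_clear _ _ h.walls.two_le_a, ← sym_cj_smul, ib,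
      sym_cj_sub, sym_cj_smul]
    rfl
  rw [e1, e2]

theorem symbS_smST (h : Std5 X 𝔚 D 𝒴 err A1 A2) (i j : Fin X.q) :
    SmST 𝒴 (Set.Icc 0 X.T) fun y t => 𝔚.symbS D 𝒴 X.G y t i j := by
  have hG := h.valid.imm
  have hI := h.timeDom
  have s1 := h.sδ1 (Set.Icc 0 X.T)
  have s2 := h.sδ2 (Set.Icc 0 X.T)
  simp only [Walls.symbS, Matrix.add_apply, Matrix.smul_apply, Matrix.sub_apply, smul_eq_mul]
  refine SmST.add (SmST.add (SmST.mul ?_ (SmST.add ?_ ?_)) (SmST.mul ?_ (SmST.sub ?_ (SmST.mul ?_ ?_))))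
    (SmST.mul ?_ (SmST.sub ?_ (SmST.mul ?_ ?_)))
  · exact SmST.ofReal (smoothST_pow (h.spw _) _)
  · exact SmST.ambM_ddc hG hI h.sN i j
  · exact SmST.ambM_ddc hG hI h.sd0 i j
  · exact SmST.ofReal (smoothST_mul (smoothST_pow s2 _) (smoothST_pow s1 _))
  · exact SmST.ambM_ddc hG hI (smoothST_pow s1 2) i j
  · exact SmST.ofReal (smoothST_mul (smoothST_const 3) s1)
  · exact SmST.ambM_ddc hG hI s1 i j
  · exact SmST.ofReal (smoothST_mul (smoothST_pow s1 _) (smoothST_pow s2 _))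
  · exact SmST.ambM_ddc hG hI (smoothST_pow s2 2) i j
  · exact SmST.ofReal (smoothST_mul (smoothST_const 3) s2)
  · exact SmST.ambM_ddc hG hI s2 i j

/-- (5.16), pointwise part: the cleared symbol is bounded and Lipschitz on the open region. -/
theorem symb_glip (h : Std5 X 𝔚 D 𝒴 err A1 A2) :
    ∃ C : ℝ, ∀ i j, GLipOn X.G (𝔚.reg 𝒴) (Set.Icc 0 X.T) C
      fun y t => 𝔚.symb D 𝒴 X.G y t i j := by
  obtain ⟨K, hK, hKY, hreg⟩ := h.walls.compact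
  have h1 : ∀ ij : Fin X.q × Fin X.q, ∃ C : ℝ, GLipOn X.G (𝔚.reg 𝒴) (Set.Icc 0 X.T) C
      fun y t => 𝔚.symb D 𝒴 X.G y t ij.1 ij.2 := by
    intro ij
    obtain ⟨C, hC⟩ := (symbS_smST h ij.1 ij.2).exists_glip h.valid.imm hK hKY
    exact ⟨C, (hC.mono hreg subset_rfl le_rfl).congr fun y hy t ht => by
      rw [symb_eq_symbS h hy ht]⟩
  obtain ⟨C, hC⟩ := exists_glip_fintype h1
  exact ⟨C, fun i j => hC (i, j)⟩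

theorem symb_isHermitian (h : Std5 X 𝔚 D 𝒴 err A1 A2) {y : CotAmb V} (hy : y ∈ 𝔚.reg 𝒴) {t : ℝ}
    (ht : t ∈ Set.Icc 0 X.T) : (𝔚.symb D 𝒴 X.G y t).IsHermitian := by
  have h1 := levi_isHermitian (sym_levi_cost h hy ht).1
  unfold Walls.symb
  rw [ambM_ddc_def]
  have h2 := Matrix.isHermitian_conjTranspose_mul_mul (gPinv 𝒴 X.G y) h1
  unfold Matrix.IsHermitian at h2 ⊢
  rw [Matrix.conjTranspose_smul, h2]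
  congr 1
  exact Complex.conj_ofReal _

theorem sym_glip_univ (h : Std5 X 𝔚 D 𝒴 err A1 A2) {b b' : CotAmb V → ℂ}
    (hb : SmST 𝒴 (Set.Icc 0 X.T) fun y _ => b y) (he : ∀ y ∈ 𝔚.reg 𝒴, b' y = b y) :
    ∃ C : ℝ, GLipOn X.G (𝔚.reg 𝒴) Set.univ C fun y _ => b' y := by
  obtain ⟨K, hK, hKY, hreg⟩ := h.walls.compact
  obtain ⟨C, hC⟩ := hb.exists_glip h.valid.imm hK hKY
  have h1 : GLipOn X.G (𝔚.reg 𝒴) (Set.Icc 0 X.T) C fun y _ => b' y :=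
    (hC.mono hreg subset_rfl le_rfl).congr fun y hy _ _ => he y hy
  exact ⟨|C|, h1.univ_of_const ⟨0, le_rfl, h.valid.T_pos.le⟩⟩

theorem sym_gDz_log (h : Std5 X 𝔚 D 𝒴 err A1 A2) {y : CotAmb V} (hy : y ∈ 𝔚.reg 𝒴)
    (r : Fin X.q) :
    ((𝔚.pw y ^ 𝔚.a : ℝ) : ℂ) * gDz 𝒴 X.G (fun y' => (Real.log (𝔚.pw y') : ℂ)) y r =
      ((𝔚.pw y ^ (𝔚.a - 1) : ℝ) : ℂ) * gDz 𝒴 X.G (fun y' => (𝔚.pw y' : ℂ)) y r := by
  have hyz : 𝒴.pΦ y (𝒴.co y) = y := 𝒴.pΦ_co hy.1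
  have h0 : (0 : ℝ) ∈ Set.Icc 0 X.T := ⟨le_rfl, h.valid.T_pos.le⟩
  have hp : DifferentiableAt ℝ ((fun y' => 𝔚.pw y') ∘ 𝒴.pΦ y) (𝒴.co y) :=
    (sym_c2 (h.spw (Set.Icc 0 X.T)) h0 hy.1).differentiableAt (by norm_num)
  have hpz : ((fun y' => 𝔚.pw y') ∘ 𝒴.pΦ y) (𝒴.co y) = 𝔚.pw y := by
    show 𝔚.pw (𝒴.pΦ y (𝒴.co y)) = _
    rw [hyz]
  have hpos : 𝔚.pw y ≠ 0 := hy.2.ne'
  have hd : ∀ k, dz k ((fun y' => (Real.log (𝔚.pw y') : ℂ)) ∘ 𝒴.pΦ y) (𝒴.co y) =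
      (((𝔚.pw y)⁻¹ : ℝ) : ℂ) * dz k ((fun y' => (𝔚.pw y' : ℂ)) ∘ 𝒴.pΦ y) (𝒴.co y) := by
    intro k
    have := dz_comp_real (j := k) Real.log ((fun y' => 𝔚.pw y') ∘ 𝒴.pΦ y) (z := 𝒴.co y)
      (Real.differentiableAt_log (by rw [hpz]; exact hpos)) hp
    rw [Real.deriv_log, hpz] at this
    exact this
  unfold gDz
  simp only [hd]
  rw [Finset.mul_sum, Finset.mul_sum]
  refine Finset.sum_congr rfl fun k _ => ?_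
  have h1 : 𝔚.pw y ^ 𝔚.a * (𝔚.pw y)⁻¹ = 𝔚.pw y ^ (𝔚.a - 1) := by
    have h2 : 𝔚.a = (𝔚.a - 1) + 1 := by have := h.walls.two_le_a; omega
    conv_lhs => rw [h2, pow_succ]
    field_simp
  rw [← h1]
  push_cast
  ring

theorem sym_ambM_log (h : Std5 X 𝔚 D 𝒴 err A1 A2) {y : CotAmb V} (hy : y ∈ 𝔚.reg 𝒴) :
    ((𝔚.pw y ^ (2 * 𝔚.a) : ℝ) : ℂ) • ambM 𝒴 X.G (ddc fun y' => Real.log (𝔚.pw y')) y =
      ((𝔚.pw y ^ (2 * 𝔚.a - 2) : ℝ) : ℂ) •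
        (((2 * 𝔚.pw y : ℝ) : ℂ) • ambM 𝒴 X.G (ddc fun y' => 𝔚.pw y') y
          - (1 / 2 : ℂ) • ambM 𝒴 X.G (ddc fun y' => 𝔚.pw y' ^ 2) y) := by
  have hyz : 𝒴.pΦ y (𝒴.co y) = y := 𝒴.pΦ_co hy.1
  have h0 : (0 : ℝ) ∈ Set.Icc 0 X.T := ⟨le_rfl, h.valid.T_pos.le⟩
  have hp := sym_c2 (h.spw (Set.Icc 0 X.T)) h0 hy.1
  have hpz : ((fun y' => 𝔚.pw y') ∘ 𝒴.pΦ y) (𝒴.co y) = 𝔚.pw y := by
    show 𝔚.pw (𝒴.pΦ y (𝒴.co y)) = _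
    rw [hyz]
  have il := levi_log_cleared hp (by rw [hpz]; exact hy.2.ne')
  rw [hpz] at il
  simp only [ambM_ddc_def]
  have h1 : ((𝔚.pw y ^ (2 * 𝔚.a) : ℝ) : ℂ) =
      ((𝔚.pw y ^ (2 * 𝔚.a - 2) : ℝ) : ℂ) * ((𝔚.pw y ^ 2 : ℝ) : ℂ) := by
    rw [← Complex.ofReal_mul, ← pow_add]
    congr 2
    have := h.walls.two_le_a
    omega
  rw [h1, ← smul_smul]
  congr 1
  have e1 := sym_cj_smul (gPinv 𝒴 X.G y) ((𝔚.pw y ^ 2 : ℝ) : ℂ)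
    (levi ((fun y' => Real.log (𝔚.pw y')) ∘ 𝒴.pΦ y) (𝒴.co y))
  have e2 := sym_cj_smul (gPinv 𝒴 X.G y) ((2 * 𝔚.pw y : ℝ) : ℂ)
    (levi ((fun y' => 𝔚.pw y') ∘ 𝒴.pΦ y) (𝒴.co y))
  have e3 := sym_cj_smul (gPinv 𝒴 X.G y) (1 / 2 : ℂ)
    (levi ((fun y' => 𝔚.pw y' ^ 2) ∘ 𝒴.pΦ y) (𝒴.co y))
  rw [← e1, ← e2, ← e3, ← sym_cj_sub]
  congr 2

/-- the cleared logarithmic tensors (5.17'): `λ = p^a ∂ log p`, `𝕃 = p^{2a} dd log p`, and the cutoffs. -/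
theorem wall_tensors_glip (h : Std5 X 𝔚 D 𝒴 err A1 A2) :
    ∃ C : ℝ,
      (∀ r, GLipOn X.G (𝔚.reg 𝒴) Set.univ C fun y _ =>
        ((𝔚.pw y ^ 𝔚.a : ℝ) : ℂ) * gDz 𝒴 X.G (fun y' => (Real.log (𝔚.pw y') : ℂ)) y r) ∧
      (∀ i j, GLipOn X.G (𝔚.reg 𝒴) Set.univ C fun y _ =>
        ((𝔚.pw y ^ (2 * 𝔚.a) : ℝ) : ℂ) * ambM 𝒴 X.G (ddc fun y' => Real.log (𝔚.pw y')) y i j) ∧
      GLipOn X.G (𝔚.reg 𝒴) Set.univ C (fun y _ => (𝔚.δ1 y.1 : ℂ)) ∧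
      GLipOn X.G (𝔚.reg 𝒴) Set.univ C (fun y _ => (𝔚.δ2 y : ℂ)) := by
  have hG := h.valid.imm
  have hI := h.timeDom
  have sp := h.spw (Set.Icc 0 X.T)
  have h1 : ∀ r, ∃ C : ℝ, GLipOn X.G (𝔚.reg 𝒴) Set.univ C fun y _ =>
      ((𝔚.pw y ^ 𝔚.a : ℝ) : ℂ) * gDz 𝒴 X.G (fun y' => (Real.log (𝔚.pw y') : ℂ)) y r := fun r =>
    sym_glip_univ h (b := fun y => ((𝔚.pw y ^ (𝔚.a - 1) : ℝ) : ℂ) *
      gDz 𝒴 X.G (fun y' => (𝔚.pw y' : ℂ)) y r)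
      (SmST.mul (SmST.ofReal (smoothST_pow sp _)) (SmST.gDz hG hI sp r))
      fun y hy => sym_gDz_log h hy r
  have h2 : ∀ ij : Fin X.q × Fin X.q, ∃ C : ℝ, GLipOn X.G (𝔚.reg 𝒴) Set.univ C fun y _ =>
      ((𝔚.pw y ^ (2 * 𝔚.a) : ℝ) : ℂ) *
        ambM 𝒴 X.G (ddc fun y' => Real.log (𝔚.pw y')) y ij.1 ij.2 := fun ij =>
    sym_glip_univ h (b := fun y => ((𝔚.pw y ^ (2 * 𝔚.a - 2) : ℝ) : ℂ) *
        (((2 * 𝔚.pw y : ℝ) : ℂ) * ambM 𝒴 X.G (ddc fun y' => 𝔚.pw y') y ij.1 ij.2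
          - (1 / 2 : ℂ) * ambM 𝒴 X.G (ddc fun y' => 𝔚.pw y' ^ 2) y ij.1 ij.2))
      (SmST.mul (SmST.ofReal (smoothST_pow sp _))
        (SmST.sub (SmST.mul (SmST.ofReal (smoothST_mul (smoothST_const 2) sp))
          (SmST.ambM_ddc hG hI sp _ _))
          (SmST.mul (SmST.const _) (SmST.ambM_ddc hG hI (smoothST_pow sp 2) _ _))))
      fun y hy => by
        have := congrFun (congrFun (sym_ambM_log h hy) ij.1) ij.2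
        simpa only [Matrix.smul_apply, Matrix.sub_apply, smul_eq_mul] using this
  obtain ⟨C1, hC1⟩ := exists_glip_fintype h1
  obtain ⟨C2, hC2⟩ := exists_glip_fintype h2
  obtain ⟨C3, hC3⟩ := sym_glip_univ h (b := fun y => (𝔚.δ1 y.1 : ℂ))
    (SmST.ofReal (h.sδ1 _)) fun _ _ => rfl
  obtain ⟨C4, hC4⟩ := sym_glip_univ h (b := fun y => (𝔚.δ2 y : ℂ))
    (SmST.ofReal (h.sδ2 _)) fun _ _ => rfl
  have a1 := abs_nonneg C1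
  have a2 := abs_nonneg C2
  have a3 := abs_nonneg C3
  have a4 := abs_nonneg C4
  have b1 := le_abs_self C1
  have b2 := le_abs_self C2
  have b3 := le_abs_self C3
  have b4 := le_abs_self C4
  refine ⟨|C1| + |C2| + |C3| + |C4|, fun r => (hC1 r).mono subset_rfl subset_rfl (by linarith),
    fun i j => (hC2 (i, j)).mono subset_rfl subset_rfl (by linarith),
    hC3.mono subset_rfl subset_rfl (by linarith), hC4.mono subset_rfl subset_rfl (by linarith)⟩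

theorem Std5.sE (h : Std5 X 𝔚 D 𝒴 err A1 A2) :
    𝒴.SmoothST (Set.Icc 0 X.T) fun t y =>
      Real.exp (-(𝔚.χ1 y.1 * (D.rho t y.1 + 𝔚.c1))) * Real.exp (-(𝔚.χ2 y * 𝔚.c2)) := by
  have s1 : 𝒴.SmoothST (Set.Icc 0 X.T) fun _ y => 𝔚.χ1 y.1 :=
    smoothST_base h.cot (h.walls.χ1_smooth.smoothST _)
  have s2 : 𝒴.SmoothST (Set.Icc 0 X.T) fun _ y => 𝔚.χ2 y := h.walls.χ2_smooth.smoothST _
  have s0 : 𝓜.SmoothST (Set.Icc 0 X.T) fun t x => D.rho t x := fun Ψ W hΨ =>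
    ((D.P_smooth Ψ W hΨ).mono (Set.prod_mono Set.Icc_subset_Ici_self subset_rfl)).neg
  have s3 : 𝒴.SmoothST (Set.Icc 0 X.T) fun t y => D.rho t y.1 := smoothST_base h.cot s0
  exact smoothST_mul
    (smoothST_comp (smoothST_neg (smoothST_mul s1 (smoothST_add s3 (smoothST_const _))))
      Real.contDiff_exp)
    (smoothST_comp (smoothST_neg (smoothST_mul s2 (smoothST_const _))) Real.contDiff_exp)

/-- `γ₀` and `γ₀ p^{-4a}` are bounded and Lipschitz on the region. -/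
theorem gam0_glip (h : Std5 X 𝔚 D 𝒴 err A1 A2) :
    ∃ C : ℝ, GLipOn X.G (𝔚.reg 𝒴) (Set.Icc 0 X.T) C (fun y t => (𝔚.gam0 D y t : ℂ)) ∧
      GLipOn X.G (𝔚.reg 𝒴) (Set.Icc 0 X.T) C
        (fun y t => (𝔚.gam0 D y t * (𝔚.pw y ^ (4 * 𝔚.a))⁻¹ : ℝ)) := by
  obtain ⟨K, hK, hKY, hreg⟩ := h.walls.compact
  have sE := h.sE
  have sg : 𝒴.SmoothST (Set.Icc 0 X.T) fun t y => 𝔚.pw y ^ (4 * 𝔚.a) *
      (Real.exp (-(𝔚.χ1 y.1 * (D.rho t y.1 + 𝔚.c1))) * Real.exp (-(𝔚.χ2 y * 𝔚.c2))) :=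
    smoothST_mul (smoothST_pow (h.spw _) _) sE
  obtain ⟨C1, hC1⟩ := (SmST.ofReal sg).exists_glip h.valid.imm hK hKY
  obtain ⟨C2, hC2⟩ := (SmST.ofReal sE).exists_glip h.valid.imm hK hKY
  refine ⟨max C1 C2, ((hC1.mono hreg subset_rfl (le_max_left _ _)).congr fun y _ t _ => ?_),
    ((hC2.mono hreg subset_rfl (le_max_right _ _)).congr fun y hy t _ => ?_)⟩
  · unfold Walls.gam0
    rw [mul_assoc]
  · unfold Walls.gam0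
    have hp : 𝔚.pw y ^ (4 * 𝔚.a) ≠ 0 := pow_ne_zero _ hy.2.ne'
    congr 1
    field_simp

theorem pw_mem (h : Std5 X 𝔚 D 𝒴 err A1 A2) {y : CotAmb V} (hy : y ∈ 𝔚.reg 𝒴) :
    0 < 𝔚.pw y ∧ 𝔚.pw y ≤ 1 := by
  refine ⟨hy.2, ?_⟩
  have h1 := h.walls.δ1_mem y.1 (h.base_mem hy.1)
  have h2 := h.walls.δ2_mem y hy.1
  unfold Walls.pw
  nlinarith [h1.1, h1.2, h2.1, h2.2]

/-- smooth space-time functions along a smooth disc and a smooth time. -/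
theorem SmST.circSm {I J : Set ℝ} {β : CotAmb V → ℝ → ℂ} (hβ : SmST 𝒴 I β) {f : ℂ → CotAmb V}
    (hf : IsSmDisc 𝒴 f) {t : ℂ → ℝ} (ht : CircSm fun ζ => (t ζ : ℂ)) (hJ : IsOpen J) (hJI : J ⊆ I)
    (htJ : ∀ ζ ∈ uCirc, t ζ ∈ J) : CircSm fun ζ => β (f ζ) (t ζ) :=
  circSm_comp hf ht isOpen_univ hJ
    (fun Ψ W hΨ => (hβ Ψ W hΨ).mono (Set.prod_mono hJI Set.inter_subset_left))
    (fun _ _ => Set.mem_univ _) htJ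

theorem circSm_pw (h : Std5 X 𝔚 D 𝒴 err A1 A2) (hc : IsAdm X 𝔚 𝒴 c) :
    CircSm fun ζ => ((𝔚.pw (c.f ζ) : ℝ) : ℂ) :=
  SmST.circSm (I := Set.univ) (J := Set.univ) (t := fun _ => 0) (SmST.ofReal (h.spw Set.univ))
    hc.disc (circSm_const _) isOpen_univ subset_rfl fun _ _ => Set.mem_univ _

/-- `log p ∘ f` is smooth on the circle (`circSm_comp` with `O = {p > 0}`, `IsWalls.δ1_smooth`, `δ2_smooth`, `smooth_base`). -/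
theorem circSm_log_pw (h : Std5 X 𝔚 D 𝒴 err A1 A2) (hc : IsAdm X 𝔚 𝒴 c) :
    CircSm fun ζ => ((Real.log (𝔚.pw (c.f ζ)) : ℝ) : ℂ) :=
  CircSm.comp_real (u := fun ζ => 𝔚.pw (c.f ζ)) (circSm_pw h hc) isOpen_Ioi
    (Real.contDiffOn_log.mono fun x hx => (ne_of_gt hx : x ≠ 0)) fun ζ hζ => (hc.bdry ζ hζ).2

theorem sym_exp_lip {s T a b : ℝ} (hs : 0 < s) (ha : s * Real.exp a ≤ T) (hb : s * Real.exp b ≤ T) :
    |s * Real.exp a - s * Real.exp b| ≤ T * |a - b| := by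
  have key : ∀ {a b : ℝ}, a ≤ b → s * Real.exp b ≤ T →
      |s * Real.exp a - s * Real.exp b| ≤ T * |a - b| := by
    intro a b hab hb
    have h1 : Real.exp a ≤ Real.exp b := Real.exp_le_exp.2 hab
    have h2 := Real.add_one_le_exp (a - b)
    have h3 : Real.exp a = Real.exp b * Real.exp (a - b) := by
      rw [← Real.exp_add]
      congr 1
      ring
    rw [abs_sub_comm, abs_of_nonneg (by nlinarith), abs_sub_comm, abs_of_nonneg (by linarith)]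
    have h4 : s * Real.exp b - s * Real.exp a ≤ s * Real.exp b * (b - a) := by
      rw [h3]
      have : 0 < s * Real.exp b := mul_pos hs (Real.exp_pos _)
      nlinarith
    exact h4.trans (mul_le_mul_of_nonneg_right hb (by linarith))
  rcases le_total a b with hab | hab
  · exact key hab hb
  · rw [abs_sub_comm, abs_sub_comm a b]
    exact key hab ha

/-- `D(t)² ≤ 4 T² D(w)²`. -/
theorem Dsq_time_le (hc : IsAdm X 𝔚 𝒴 c) (hs : 0 < c.s) :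
    CircSm (fun ζ => (c.time ζ : ℂ)) ∧ DsqR c.time ≤ 4 * X.T ^ 2 * Dsq c.w := by
  have hw := hc.w_hol.circSm
  constructor
  · have h1 : CircSm fun ζ => (c.s : ℂ) * Complex.exp ((2 : ℂ) * (((c.w ζ).re : ℝ) : ℂ)) :=
      (circSm_const _).mul ((circSm_const _).mul hw.re).cexp
    refine h1.congr fun ζ _ => ?_
    show (c.s : ℂ) * Complex.exp ((2 : ℂ) * (((c.w ζ).re : ℝ) : ℂ)) =
      ((c.s * Real.exp (2 * (c.w ζ).re) : ℝ) : ℂ)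
    push_cast
    rfl
  · have h1 := Dsq_le_of_diff (a := fun ζ => (c.time ζ : ℂ)) (g := fun _ : Unit => c.w)
      (c := fun _ => 4 * X.T ^ 2) (fun _ => hw.circLip) (fun _ => by positivity)
      fun ζ hζ ξ hξ => by
        have hζT := hc.time_lt ζ (Metric.sphere_subset_closedBall hζ)
        have hξT := hc.time_lt ξ (Metric.sphere_subset_closedBall hξ)
        have e1 : ‖((c.time ζ : ℝ) : ℂ) - ((c.time ξ : ℝ) : ℂ)‖ = |c.time ζ - c.time ξ| := by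
          rw [← Complex.ofReal_sub, Complex.norm_real, Real.norm_eq_abs]
        have e2 : |c.time ζ - c.time ξ| ≤ X.T * |2 * (c.w ζ).re - 2 * (c.w ξ).re| :=
          sym_exp_lip hs hζT.le hξT.le
        have e3 : |2 * (c.w ζ).re - 2 * (c.w ξ).re| ≤ 2 * ‖c.w ζ - c.w ξ‖ := by
          have := Complex.abs_re_le_norm (c.w ζ - c.w ξ)
          rw [Complex.sub_re] at this
          rw [← mul_sub, abs_mul, abs_two]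
          linarith
        have hT : 0 ≤ X.T := (mul_pos hs (Real.exp_pos _)).le.trans hζT.le
        have e4 : |c.time ζ - c.time ξ| ≤ 2 * X.T * ‖c.w ζ - c.w ξ‖ := by
          have := mul_le_mul_of_nonneg_left e3 hT
          linarith
        simp only [Finset.univ_unique, Finset.sum_const, Finset.card_singleton, one_smul]
        rw [e1]
        calc |c.time ζ - c.time ξ| ^ 2 ≤ (2 * X.T * ‖c.w ζ - c.w ξ‖) ^ 2 :=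
              pow_le_pow_left₀ (abs_nonneg _) e4 2
          _ = 4 * X.T ^ 2 * ‖c.w ζ - c.w ξ‖ ^ 2 := by ring
    unfold DsqR
    simpa using h1

/-! ### the clock weight along the boundary -/

theorem sym_cont {u : ℂ → ℝ} (hu : CircSm fun ζ => (u ζ : ℂ)) : Continuous (B14.bd u) :=
  Complex.continuous_re.comp hu.continuous

theorem Std5.sgam0 (h : Std5 X 𝔚 D 𝒴 err A1 A2) :
    𝒴.SmoothST (Set.Icc 0 X.T) fun t y => 𝔚.gam0 D y t := by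
  have sg : 𝒴.SmoothST (Set.Icc 0 X.T) fun t y => 𝔚.pw y ^ (4 * 𝔚.a) *
      (Real.exp (-(𝔚.χ1 y.1 * (D.rho t y.1 + 𝔚.c1))) * Real.exp (-(𝔚.χ2 y * 𝔚.c2))) :=
    smoothST_mul (smoothST_pow (h.spw _) _) h.sE
  intro Ψ W hΨ
  refine (sg Ψ W hΨ).congr fun a _ => ?_
  exact mul_assoc _ _ _

theorem Std5.s_pos (h : Std5 X 𝔚 D 𝒴 err A1 A2) (hc : IsAdm X 𝔚 𝒴 c) : 0 < c.s :=
  lt_of_lt_of_le h.valid.s_lo hc.s_mem.1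

theorem Std5.time_mem (h : Std5 X 𝔚 D 𝒴 err A1 A2) (hc : IsAdm X 𝔚 𝒴 c) :
    ∀ ζ ∈ uCirc, c.time ζ ∈ Set.Ioo 0 X.T := fun ζ hζ =>
  ⟨mul_pos (h.s_pos hc) (Real.exp_pos _), hc.time_lt ζ (Metric.sphere_subset_closedBall hζ)⟩

/-- a smooth space-time function along an admissible configuration. -/
theorem Std5.circSm (h : Std5 X 𝔚 D 𝒴 err A1 A2) (hc : IsAdm X 𝔚 𝒴 c) {u : ℝ → CotAmb V → ℝ}
    (hu : 𝒴.SmoothST (Set.Icc 0 X.T) u) : CircSm fun ζ => ((u (c.time ζ) (c.f ζ) : ℝ) : ℂ) :=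
  SmST.circSm (SmST.ofReal hu) hc.disc (Dsq_time_le hc (h.s_pos hc)).1 isOpen_Ioo
    Set.Ioo_subset_Icc_self (h.time_mem hc)

theorem circSm_g0 (h : Std5 X 𝔚 D 𝒴 err A1 A2) (hc : IsAdm X 𝔚 𝒴 c) :
    CircSm fun ζ => ((c.g0 𝔚 D ζ : ℝ) : ℂ) :=
  h.circSm hc h.sgam0

theorem g0_pos (hc : IsAdm X 𝔚 𝒴 c) : ∀ ζ ∈ uCirc, 0 < c.g0 𝔚 D ζ := fun ζ hζ =>
  mul_pos (mul_pos (pow_pos (hc.bdry ζ hζ).2 _) (Real.exp_pos _)) (Real.exp_pos _)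

theorem circSm_N (h : Std5 X 𝔚 D 𝒴 err A1 A2) (hc : IsAdm X 𝔚 𝒴 c) :
    CircSm fun ζ => ((D.N (c.f ζ) (c.time ζ) : ℝ) : ℂ) :=
  h.circSm hc h.sN

theorem circSm_dc (h : Std5 X 𝔚 D 𝒴 err A1 A2) (hc : IsAdm X 𝔚 𝒴 c) :
    CircSm fun ζ => ((𝔚.dc (c.f ζ) (c.time ζ) : ℝ) : ℂ) := by
  have h0 := h.circSm hc h.sd0
  have h1 := h.circSm hc (h.sδ1 _)
  have h2 := h.circSm hc (h.sδ2 _)
  have p1 : ∀ ζ ∈ uCirc, ((𝔚.δ1 (c.f ζ).1 : ℝ) : ℂ) ≠ 0 := fun ζ hζ =>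
    Complex.ofReal_ne_zero.2 (h.δ_pos (hc.bdry ζ hζ)).1.ne'
  have p2 : ∀ ζ ∈ uCirc, ((𝔚.δ2 (c.f ζ) : ℝ) : ℂ) ≠ 0 := fun ζ hζ =>
    Complex.ofReal_ne_zero.2 (h.δ_pos (hc.bdry ζ hζ)).2.ne'
  have h3 := h0.add (((h1.inv p1).sub (circSm_const 1)).add ((h2.inv p2).sub (circSm_const 1)))
  refine h3.congr fun ζ _ => ?_
  unfold Walls.dc Walls.kw
  push_cast
  rfl

theorem continuousOn_g0 (h : Std5 X 𝔚 D 𝒴 err A1 A2) (hc : IsAdm X 𝔚 𝒴 c) :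
    ContinuousOn (c.g0 𝔚 D) uCirc :=
  Complex.continuous_re.comp_continuousOn (circSm_g0 h hc).circLip.continuousOn

theorem continuous_log_g0 (h : Std5 X 𝔚 D 𝒴 err A1 A2) (hc : IsAdm X 𝔚 𝒴 c) :
    Continuous fun θ => Real.log (B14.bd (c.g0 𝔚 D) θ) :=
  (sym_cont (circSm_g0 h hc)).log fun θ => (g0_pos (D := D) hc _ (circleMap_mem_uCirc θ)).ne'

/-- (5.23) averaged: `⟨log γ₀⟩ ≥ -(A1 ⟨d⟩ + A2 ⟨N⟩)`. -/
theorem sym_cA_log_g0_ge (h : Std5 X 𝔚 D 𝒴 err A1 A2) (hc : IsAdm X 𝔚 𝒴 c) :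
    -(A1 * cA (fun ζ => 𝔚.dc (c.f ζ) (c.time ζ)) + A2 * cA (fun ζ => D.N (c.f ζ) (c.time ζ))) ≤
      cA fun ζ => Real.log (c.g0 𝔚 D ζ) := by
  have cd := sym_cont (circSm_dc h hc)
  have cN := sym_cont (circSm_N h hc)
  have cl := continuous_log_g0 h hc
  have cd' : Continuous fun θ => A1 * B14.bd (fun ζ => 𝔚.dc (c.f ζ) (c.time ζ)) θ :=
    continuous_const.mul cd
  have cN' : Continuous fun θ => A2 * B14.bd (fun ζ => D.N (c.f ζ) (c.time ζ)) θ :=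
    continuous_const.mul cN
  have h1 := B14.pavg_mono (a := fun θ => -(A1 * B14.bd (fun ζ => 𝔚.dc (c.f ζ) (c.time ζ)) θ +
      A2 * B14.bd (fun ζ => D.N (c.f ζ) (c.time ζ)) θ))
    (b := fun θ => Real.log (B14.bd (c.g0 𝔚 D) θ))
    (cd'.add cN').neg cl fun θ => by
      have := h.walls.loss _ (hc.bdry _ (circleMap_mem_uCirc θ)) _
        (Set.Ioo_subset_Icc_self (h.time_mem hc _ (circleMap_mem_uCirc θ)))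
      have e : Real.log (B14.bd (c.g0 𝔚 D) θ) = Real.log (𝔚.gam0 D (c.f (circleMap 0 1 θ))
        (c.time (circleMap 0 1 θ))) := rfl
      rw [e]
      simp only [B14.bd]
      linarith
  rw [B14.pavg_neg, B14.pavg_add cd' cN',
    B14.pavg_const_mul_real, B14.pavg_const_mul_real] at h1
  exact h1

/-- Jensen and (5.23): `⟨γ₀⟩ ≥ exp (-(A1 ⟨d⟩ + A2 ⟨N⟩))`. -/
theorem sym_cA_g0_ge (h : Std5 X 𝔚 D 𝒴 err A1 A2) (hc : IsAdm X 𝔚 𝒴 c) :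
    Real.exp (-(A1 * cA (fun ζ => 𝔚.dc (c.f ζ) (c.time ζ)) +
      A2 * cA (fun ζ => D.N (c.f ζ) (c.time ζ)))) ≤ cA (c.g0 𝔚 D) :=
  (Real.exp_le_exp.2 (sym_cA_log_g0_ge h hc)).trans
    (exp_cA_log_le (continuousOn_g0 h hc) (g0_pos (D := D) hc))

theorem sym_cA_g0_pos (h : Std5 X 𝔚 D 𝒴 err A1 A2) (hc : IsAdm X 𝔚 𝒴 c) : 0 < cA (c.g0 𝔚 D) :=
  (Real.exp_pos _).trans_le (sym_cA_g0_ge h hc)

theorem sym_bdry5_eq (h : Std5 X 𝔚 D 𝒴 err A1 A2) (hc : IsAdm X 𝔚 𝒴 c) :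
    bdry5 𝔚 D c = cA (fun ζ => D.N (c.f ζ) (c.time ζ)) + cA fun ζ => 𝔚.dc (c.f ζ) (c.time ζ) :=
  B14.pavg_add (sym_cont (circSm_N h hc)) (sym_cont (circSm_dc h hc))

theorem sym_dc_nonneg (h : Std5 X 𝔚 D 𝒴 err A1 A2) {y : CotAmb V} (hy : y ∈ 𝔚.reg 𝒴) {t : ℝ}
    (ht : t ∈ Set.Icc 0 X.T) : 0 ≤ 𝔚.dc y t := by
  have h0 := h.walls.d0_nonneg t ht y.1 (h.base_mem hy.1)
  obtain ⟨p1, p2⟩ := h.δ_pos hy
  have q1 := (h.walls.δ1_mem y.1 (h.base_mem hy.1)).2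
  have q2 := (h.walls.δ2_mem y hy.1).2
  have r1 : 1 ≤ (𝔚.δ1 y.1)⁻¹ := (one_le_inv₀ p1).2 q1
  have r2 : 1 ≤ (𝔚.δ2 y)⁻¹ := (one_le_inv₀ p2).2 q2
  unfold Walls.dc Walls.kw
  linarith

theorem sym_cA_dc_nonneg (h : Std5 X 𝔚 D 𝒴 err A1 A2) (hc : IsAdm X 𝔚 𝒴 c) :
    0 ≤ cA fun ζ => 𝔚.dc (c.f ζ) (c.time ζ) :=
  B14.pavg_nonneg fun θ => sym_dc_nonneg h (hc.bdry _ (circleMap_mem_uCirc θ))
    (Set.Ioo_subset_Icc_self (h.time_mem hc _ (circleMap_mem_uCirc θ)))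

theorem sym_gam0_le_one (h : Std5 X 𝔚 D 𝒴 err A1 A2) {y : CotAmb V} (hy : y ∈ 𝔚.reg 𝒴) {t : ℝ}
    (ht : t ∈ Set.Icc 0 X.T) : 𝔚.gam0 D y t ≤ 1 := by
  obtain ⟨hp0, hp1⟩ := pw_mem h hy
  have hx := h.base_mem hy.1
  have c1 := (h.walls.χ1_mem y.1 hx).1
  have c2 := (h.walls.χ2_mem y hy.1).1
  have hρ : 0 ≤ D.rho t y.1 := by
    unfold FlowData.rho
    have := D.P_nonpos t ht.1 y.1 hx
    linarith
  have e1 : Real.exp (-(𝔚.χ1 y.1 * (D.rho t y.1 + 𝔚.c1))) ≤ 1 := Real.exp_le_one_iff.2 (by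
    have := mul_nonneg c1 (add_nonneg hρ h.walls.c1_nonneg)
    linarith)
  have e2 : Real.exp (-(𝔚.χ2 y * 𝔚.c2)) ≤ 1 := Real.exp_le_one_iff.2 (by
    have := mul_nonneg c2 h.walls.c2_nonneg
    linarith)
  have e0 : 𝔚.pw y ^ (4 * 𝔚.a) ≤ 1 := pow_le_one₀ hp0.le hp1
  unfold Walls.gam0
  calc _ ≤ (1 : ℝ) * 1 * 1 := mul_le_mul (mul_le_mul e0 e1 (Real.exp_pos _).le zero_le_one) e2
        (Real.exp_pos _).le (by norm_num)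
    _ = 1 := by norm_num

theorem sym_cA_g0_le (h : Std5 X 𝔚 D 𝒴 err A1 A2) (hc : IsAdm X 𝔚 𝒴 c) :
    cA (c.g0 𝔚 D) ≤ 1 := by
  have h1 := B14.pavg_mono (b := fun _ => (1 : ℝ)) (sym_cont (circSm_g0 h hc)) continuous_const
    fun θ => sym_gam0_le_one h (hc.bdry _ (circleMap_mem_uCirc θ))
      (Set.Ioo_subset_Icc_self (h.time_mem hc _ (circleMap_mem_uCirc θ)))
  rwa [B14.pavg_const] at h1

/-- `⟨log γ⟩ = ⟨log γ₀⟩ - log ⟨γ₀⟩`. -/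
theorem sym_lg_eq (h : Std5 X 𝔚 D 𝒴 err A1 A2) (hc : IsAdm X 𝔚 𝒴 c) :
    cA (fun ζ => Real.log (c.gam 𝔚 D ζ)) =
      cA (fun ζ => Real.log (c.g0 𝔚 D ζ)) - Real.log (cA (c.g0 𝔚 D)) := by
  have hA := sym_cA_g0_pos h hc
  have e1 : cA (fun ζ => Real.log (c.gam 𝔚 D ζ)) =
      cA fun ζ => Real.log (c.g0 𝔚 D ζ) - Real.log (cA (c.g0 𝔚 D)) :=
    cA_congr fun ζ hζ => Real.log_div (g0_pos (D := D) hc ζ hζ).ne' hA.ne'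
  have e2 := B14.pavg_sub (b := fun _ => Real.log (cA (c.g0 𝔚 D))) (continuous_log_g0 h hc)
    continuous_const
  rw [B14.pavg_const] at e2
  rw [e1]
  exact e2

/-- (5.23). -/
theorem sym_lg_ge (h : Std5 X 𝔚 D 𝒴 err A1 A2) (hc : IsAdm X 𝔚 𝒴 c) :
    -(A1 * cA (fun ζ => 𝔚.dc (c.f ζ) (c.time ζ)) + A2 * cA (fun ζ => D.N (c.f ζ) (c.time ζ))) ≤
      cA fun ζ => Real.log (c.gam 𝔚 D ζ) := by
  rw [sym_lg_eq h hc]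
  have h1 := sym_cA_log_g0_ge h hc
  have h2 := Real.log_nonpos (sym_cA_g0_pos h hc).le (sym_cA_g0_le h hc)
  linarith

theorem sym_lg_le (h : Std5 X 𝔚 D 𝒴 err A1 A2) (hc : IsAdm X 𝔚 𝒴 c) :
    cA (fun ζ => Real.log (c.gam 𝔚 D ζ)) ≤ 0 := by
  rw [sym_lg_eq h hc]
  have h1 := (Real.le_log_iff_exp_le (sym_cA_g0_pos h hc)).2
    (exp_cA_log_le (continuousOn_g0 h hc) (g0_pos (D := D) hc))
  linarith

end SymD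

end Claimed.Agent.R316
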