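import Claimed.Agent.R316.S5.FromS4
import Claimed.Agent.R316.S5.Dilate
import Claimed.Agent.R316.S5.LocalA
import Claimed.Agent.R316.Pack008
import Claimed.Agent.R316.S5.SymData

/-!
# Row 316, Section 5.1: localisation and the order of approximation ((5.8)-(5.11))

All statements are soft (infima, continuity, compactness).  `Std5` bundles the standing hypotheses.

Leaves:
* `S5-L0` `exists_ctx` : strict contact `φ - |p - p₀|⁴ - (s - s₀)⁴`, choice of the cylinder, `venv ≤ vraw`,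
  `liminf` gives `inf_zero` (a parametrisation is a homeomorphism onto a relatively open set).
* `S5-L1` `cA_N_ge_vraw` (dilation `f(rζ)`, `r ↑ 1`, continuity of `N` on `Y × [0, T]`), `bdry5_eq`,
  `cA_dc_nonneg`, `energy5_nonneg`, `fun5_ge`.
* `S5-L2` `mu5_*`, `tendsto_mu5`, `energy_le`, `center_close`.
* `S5-L3` `exists_admX` (dilation; `areaG`, `Dsq` of holomorphic data decrease under dilation,
  `DsqR (log pw ∘ f_r) → DsqR (log pw ∘ f)` because `Dsq a ≤ Lip(a)²`).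
* `S5-L4` `mu0_small`.
* `S5-L5` `lg_ge`, `lg_le`, `cA_g0_ge` (Jensen + `IsWalls.loss`).
* `S5-M2` `test_close`, `phi_bound`, `dphi_bound`, `levi_bound`, `levi_test_herm` (continuity on the compact cylinder; `levi` of a real `C²` function is Hermitian: `CW/Levi.lean`).
-/

set_option autoImplicit false
set_option maxSynthPendingDepth 3
open scoped ContDiff ComplexOrder Topology Matrix
open MeasureTheory Filter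

namespace Claimed.Agent.R316

variable {V : Type} [NormedAddCommGroup V] [InnerProductSpace ℝ V] [FiniteDimensional ℝ V]
variable [MeasurableSpace V] [BorelSpace V]
variable {n : ℕ} {𝓜 : CMfd V (Fin n)} {g : HFam V (Fin n)} {o : V}

/-! `Std5` (standing hypotheses) is in `S5/Std.lean`; the smooth data along the boundary (`Std5.circSm`, `circSm_N`, `circSm_dc`, `circSm_g0`, `circSm_log_pw`, `sym_cont`, ...) are in `S5/SymData.lean`. -/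

variable {D : FlowData 𝓜 g o} {𝒴 : CMfd (CotAmb V) (Fin n ⊕ Fin n)}

/-- reduction of Proposition 5.1 to a strict test on a compact coordinate cylinder. -/
theorem exists_ctx (I : InitialData 𝓜 g) (hY : IsCotangent 𝓜 𝒴) {q : ℕ}
    {G : CotAmb V → CE (Fin q)} (hG : GImm 𝒴 G) (hB : BaseImm 𝓜 G) {T : ℝ} {Φ : CE (Fin n) → V}
    {U : Set (CE (Fin n))} (hT : 0 < T) (hΦ : 𝓜.IsHol Φ U)
    {φ : ℝ → CE (Fin n ⊕ Fin n) → ℝ} {s₀ : ℝ} {p₀ : CE (Fin n ⊕ Fin n)}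
    (hs0 : 0 < s₀) (hs1 : s₀ < T) (hp : p₀ ∈ cotDom U)
    (hφ : ContDiff ℝ ∞ (fun a : ℝ × CE (Fin n ⊕ Fin n) => φ a.1 a.2))
    (heq : φ s₀ p₀ = D.venv 𝒴 T (cotParam Φ p₀) s₀)
    (hle : ∀ᶠ a : ℝ × CE (Fin n ⊕ Fin n) in 𝓝 (s₀, p₀), φ a.1 a.2 ≤ D.venv 𝒴 T (cotParam Φ a.2) a.1) :
    ∃ X : S5Ctx V n, X.Valid D 𝒴 ∧ X.T = T ∧ X.p₀ = p₀ ∧ X.s₀ = s₀ ∧
      levi (X.φ s₀) p₀ = levi (φ s₀) p₀ ∧
      deriv (fun s => X.φ s p₀) s₀ = deriv (fun s => φ s p₀) s₀ := by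
  exact s5la_exists_ctx I hY hG hB hT hΦ hs0 hs1 hp hφ heq hle

variable {X : S5Ctx V n} {𝔚 : Walls V} {err A1 A2 : ℝ} {c : Config V n}

/-- discs which are only smooth up to the circle compete in the envelope. -/
theorem cA_N_ge_vraw (h : Std5 X 𝔚 D 𝒴 err A1 A2) (hc : IsAdm X 𝔚 𝒴 c) :
    D.vraw 𝒴 X.T (cotParam X.Φ c.p) c.s ≤ cA fun ζ => D.N (c.f ζ) (c.time ζ) := by
  exact s5la_cA_N_ge_vraw h.init h.cot h.valid hc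

theorem bdry5_eq (h : Std5 X 𝔚 D 𝒴 err A1 A2) (hc : IsAdm X 𝔚 𝒴 c) :
    bdry5 𝔚 D c = cA (fun ζ => D.N (c.f ζ) (c.time ζ)) + cA fun ζ => 𝔚.dc (c.f ζ) (c.time ζ) := by
  exact s5la_bdry5_eq h.init h.cot h.valid h.walls hc

theorem cA_dc_nonneg (h : Std5 X 𝔚 D 𝒴 err A1 A2) (hc : IsAdm X 𝔚 𝒴 c) :
    0 ≤ cA fun ζ => 𝔚.dc (c.f ζ) (c.time ζ) := by
  exact s5la_cA_dc_nonneg h.cot h.valid h.walls hc

theorem areaG_nonneg (h : Std5 X 𝔚 D 𝒴 err A1 A2) (hc : IsAdm X 𝔚 𝒴 c) : 0 ≤ areaG 𝓜 g c.f :=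
  setIntegral_nonneg measurableSet_ball fun ζ hζ =>
    ambQ_nonneg h.init.kahler.toIsMetric
      (h.base_mem (hc.disc.2.2 ζ (Metric.ball_subset_closedBall hζ))) _

theorem energy5_nonneg (h : Std5 X 𝔚 D 𝒴 err A1 A2) (hc : IsAdm X 𝔚 𝒴 c) :
    0 ≤ energy5 X 𝔚 𝓜 g c := by
  have h1 := areaG_nonneg h hc
  have h2 := DsqV_nonneg (fun ζ => (X.G (c.f ζ) : Fin X.q → ℂ))
  have h3 := Dsq_nonneg c.w
  have h4 := DsqR_nonneg (fun ζ => Real.log (𝔚.pw (c.f ζ)))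
  unfold energy5
  linarith

/-- each of the three nonnegative parts is bounded by the functional. -/
theorem fun5_ge (h : Std5 X 𝔚 D 𝒴 err A1 A2) (hc : IsAdm X 𝔚 𝒴 c) (ε : ℝ) :
    (‖c.p - X.p₀‖ ^ 4 + (c.s - X.s₀) ^ 4) + cA (fun ζ => 𝔚.dc (c.f ζ) (c.time ζ)) +
      ε * energy5 X 𝔚 𝓜 g c ≤ fun5 X 𝔚 D ε c := by
  have h1 := cA_N_ge_vraw h hc
  have h2 := h.valid.contact c.s hc.s_mem c.p hc.p_mem
  unfold fun5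
  rw [bdry5_eq h hc]
  linarith

theorem s5l_fun5_nonneg (h : Std5 X 𝔚 D 𝒴 err A1 A2) (hc : IsAdm X 𝔚 𝒴 c) {ε : ℝ} (hε : 0 ≤ ε) :
    0 ≤ fun5 X 𝔚 D ε c := by
  have h1 := fun5_ge h hc ε
  have h2 := cA_dc_nonneg h hc
  have h3 := mul_nonneg hε (energy5_nonneg h hc)
  have h4 : 0 ≤ ‖c.p - X.p₀‖ ^ 4 + (c.s - X.s₀) ^ 4 := by positivity
  linarith

theorem s5l_bddBelow (h : Std5 X 𝔚 D 𝒴 err A1 A2) {ε : ℝ} (hε : 0 ≤ ε) :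
    BddBelow {a : ℝ | ∃ c : Config V n, IsAdm X 𝔚 𝒴 c ∧ a = fun5 X 𝔚 D ε c} :=
  ⟨0, by
    rintro a ⟨c, hc, rfl⟩
    exact s5l_fun5_nonneg h hc hε⟩

theorem s5l_fun5_eq (ε : ℝ) (c : Config V n) :
    fun5 X 𝔚 D ε c = fun5 X 𝔚 D 0 c + ε * energy5 X 𝔚 𝓜 g c := by
  unfold fun5
  ring

theorem mu5_le (h : Std5 X 𝔚 D 𝒴 err A1 A2) (hc : IsAdm X 𝔚 𝒴 c) {ε : ℝ} (hε : 0 ≤ ε) :
    mu5 X 𝔚 D 𝒴 ε ≤ fun5 X 𝔚 D ε c :=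
  csInf_le (s5l_bddBelow h hε) ⟨c, hc, rfl⟩

theorem mu5_nonneg (h : Std5 X 𝔚 D 𝒴 err A1 A2) {ε : ℝ} (hε : 0 ≤ ε) : 0 ≤ mu5 X 𝔚 D 𝒴 ε :=
  Real.sInf_nonneg (by
    rintro a ⟨c, hc, rfl⟩
    exact s5l_fun5_nonneg h hc hε)

theorem s5l_mu5_empty (hne : ¬ ∃ c : Config V n, IsAdm X 𝔚 𝒴 c) (ε : ℝ) : mu5 X 𝔚 D 𝒴 ε = 0 := by
  have : {a : ℝ | ∃ c : Config V n, IsAdm X 𝔚 𝒴 c ∧ a = fun5 X 𝔚 D ε c} = ∅ :=
    Set.eq_empty_iff_forall_notMem.2 (by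
      rintro a ⟨c, hc, -⟩
      exact hne ⟨c, hc⟩)
  unfold mu5
  rw [this, Real.sInf_empty]

theorem mu5_mono (h : Std5 X 𝔚 D 𝒴 err A1 A2) {ε ε' : ℝ} (hε : 0 ≤ ε) (hle : ε ≤ ε') :
    mu5 X 𝔚 D 𝒴 ε ≤ mu5 X 𝔚 D 𝒴 ε' := by
  by_cases hne : ∃ c : Config V n, IsAdm X 𝔚 𝒴 c
  · obtain ⟨c₀, hc₀⟩ := hne
    refine le_csInf ⟨_, c₀, hc₀, rfl⟩ ?_
    rintro a ⟨c, hc, rfl⟩
    refine (mu5_le h hc hε).trans ?_
    rw [s5l_fun5_eq ε, s5l_fun5_eq ε']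
    have := mul_le_mul_of_nonneg_right hle (energy5_nonneg h hc)
    linarith
  · rw [s5l_mu5_empty hne, s5l_mu5_empty hne]

/-- (5.9), second half. -/
theorem tendsto_mu5 (h : Std5 X 𝔚 D 𝒴 err A1 A2) :
    Tendsto (mu5 X 𝔚 D 𝒴) (𝓝[>] (0 : ℝ)) (𝓝 (mu5 X 𝔚 D 𝒴 0)) := by
  by_cases hne : ∃ c : Config V n, IsAdm X 𝔚 𝒴 c
  · refine tendsto_order.2 ⟨fun a ha => ?_, fun a ha => ?_⟩
    · filter_upwards [self_mem_nhdsWithin] with ε hε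
      exact lt_of_lt_of_le ha (mu5_mono h le_rfl (le_of_lt hε))
    · obtain ⟨c₀, hc₀⟩ := hne
      obtain ⟨b, ⟨c, hc, rfl⟩, hb⟩ := exists_lt_of_csInf_lt
        (s := {a : ℝ | ∃ c : Config V n, IsAdm X 𝔚 𝒴 c ∧ a = fun5 X 𝔚 D 0 c})
        ⟨_, c₀, hc₀, rfl⟩ ha
      have hE := energy5_nonneg h hc
      have hpos : 0 < (a - fun5 X 𝔚 D 0 c) / (energy5 X 𝔚 𝓜 g c + 1) :=
        div_pos (by linarith) (by linarith)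
      filter_upwards [Ioo_mem_nhdsGT hpos] with ε hε
      refine lt_of_le_of_lt (mu5_le h hc hε.1.le) ?_
      rw [s5l_fun5_eq ε]
      have h1 := (lt_div_iff₀ (by linarith : 0 < energy5 X 𝔚 𝓜 g c + 1)).1 hε.2
      nlinarith [hε.1]
  · have : mu5 X 𝔚 D 𝒴 = fun _ => 0 := funext fun ε => s5l_mu5_empty hne ε
    rw [this]
    exact tendsto_const_nhds

/-- (5.10). -/
theorem energy_le (h : Std5 X 𝔚 D 𝒴 err A1 A2) (hc : IsAdm X 𝔚 𝒴 c) {ε η : ℝ} (hε : 0 ≤ ε)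
    (hη : fun5 X 𝔚 D ε c ≤ mu5 X 𝔚 D 𝒴 ε + η) :
    ε * energy5 X 𝔚 𝓜 g c ≤ mu5 X 𝔚 D 𝒴 ε - mu5 X 𝔚 D 𝒴 0 + η := by
  have h1 := mu5_le h hc (le_refl (0 : ℝ))
  rw [s5l_fun5_eq ε] at hη
  linarith

/-- (5.11). -/
theorem center_close (h : Std5 X 𝔚 D 𝒴 err A1 A2) (τ : ℝ) (hτ : 0 < τ) :
    ∀ᶠ ε in 𝓝[>] (0 : ℝ), ∀ᶠ η in 𝓝[>] (0 : ℝ), ∀ c : Config V n, IsAdm X 𝔚 𝒴 c →
      fun5 X 𝔚 D ε c ≤ mu5 X 𝔚 D 𝒴 ε + η →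
      ‖c.p - X.p₀‖ ^ 4 + (c.s - X.s₀) ^ 4 ≤ mu5 X 𝔚 D 𝒴 0 + τ ∧
      cA (fun ζ => 𝔚.dc (c.f ζ) (c.time ζ)) ≤ mu5 X 𝔚 D 𝒴 0 + τ ∧
      cA (fun ζ => D.N (c.f ζ) (c.time ζ)) ≤ mu5 X 𝔚 D 𝒴 0 + τ + X.φ c.s c.p ∧
      ε * (1 + energy5 X 𝔚 𝓜 g c) ≤ τ := by
  have h1 : ∀ᶠ ε in 𝓝[>] (0 : ℝ), mu5 X 𝔚 D 𝒴 ε < mu5 X 𝔚 D 𝒴 0 + τ / 4 :=
    (tendsto_order.1 (tendsto_mu5 h)).2 _ (by linarith)
  have hτ4 : 0 < τ / 4 := by positivity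
  filter_upwards [h1, Ioo_mem_nhdsGT hτ4] with ε hε1 hε2
  filter_upwards [Ioo_mem_nhdsGT hτ4] with η hη c hc hfun
  have a1 := fun5_ge h hc ε
  have a2 := cA_dc_nonneg h hc
  have a3 := mul_nonneg hε2.1.le (energy5_nonneg h hc)
  have a4 : 0 ≤ ‖c.p - X.p₀‖ ^ 4 + (c.s - X.s₀) ^ 4 := by positivity
  have a5 := energy_le h hc hε2.1.le hfun
  have a6 : fun5 X 𝔚 D ε c = cA (fun ζ => D.N (c.f ζ) (c.time ζ)) +
      cA (fun ζ => 𝔚.dc (c.f ζ) (c.time ζ)) + ε * energy5 X 𝔚 𝓜 g c - X.φ c.s c.p := by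
    unfold fun5
    rw [bdry5_eq h hc]
  have b1 := hε2.2
  have b2 := hη.2
  refine ⟨by linarith, by linarith, by linarith, ?_⟩
  rw [mul_add, mul_one]
  linarith

/-- almost minimisers may be taken holomorphic past the circle. -/
theorem exists_admX (h : Std5 X 𝔚 D 𝒴 err A1 A2) (hne : ∃ c, IsAdm X 𝔚 𝒴 c) {ε η : ℝ}
    (hε : 0 < ε) (hη : 0 < η) :
    ∃ c : Config V n, IsAdmX X 𝔚 𝒴 c ∧ fun5 X 𝔚 D ε c ≤ mu5 X 𝔚 D 𝒴 ε + η := by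
  obtain ⟨c₀, hc₀⟩ := hne
  obtain ⟨b, ⟨c, hc, rfl⟩, hb⟩ := exists_lt_of_csInf_lt
    (s := {a : ℝ | ∃ c : Config V n, IsAdm X 𝔚 𝒴 c ∧ a = fun5 X 𝔚 D ε c})
    ⟨_, c₀, hc₀, rfl⟩ (lt_add_of_pos_right (mu5 X 𝔚 D 𝒴 ε) (half_pos hη))
  obtain ⟨c', hc', hle⟩ := s5dil_main h.init h.cot h.valid h.walls hc hε.le (half_pos hη)
  exact ⟨c', hc', by linarith⟩

/-- (5.9), first half: a fixed almost optimal disc of the envelope is admissible, with small cost, for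
all walls which are trivial on its (compact) boundary. -/
theorem mu0_small (I : InitialData 𝓜 g) (hY : IsCotangent 𝓜 𝒴) (hX : X.Valid D 𝒴) (τ : ℝ)
    (hτ : 0 < τ) :
    ∃ K : Set (CotAmb V), IsCompact K ∧ K ⊆ 𝒴.carrier ∧
      ∀ (𝔚 : Walls V) (err A1 A2 : ℝ), IsWalls 𝔚 D 𝒴 X.T err A1 A2 →
        (∀ y ∈ K, 𝔚.δ1 y.1 = 1 ∧ 𝔚.δ2 y = 1) →
        (∀ y ∈ K, ∀ t ∈ Set.Icc (0 : ℝ) X.T, 𝔚.d0 t y.1 ≤ τ) →
        (∃ c, IsAdm X 𝔚 𝒴 c) ∧ mu5 X 𝔚 D 𝒴 0 ≤ 2 * τ := by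
  obtain ⟨K, hK, hKY, hcore⟩ := s5la_mu0_core I hY hX τ hτ
  refine ⟨K, hK, hKY, fun 𝔚 err A1 A2 hW hδ hd => ?_⟩
  obtain ⟨c, hc, hle⟩ := hcore 𝔚 err A1 A2 hW hδ hd
  exact ⟨⟨c, hc⟩, (mu5_le ⟨I, hY, hX, hW⟩ hc le_rfl).trans hle⟩

/-- `⟨γ₀⟩ ≥ exp(-(A1 ⟨d⟩ + A2 ⟨N⟩))`, `⟨γ₀⟩ ≤ 1`. -/
theorem cA_g0_ge (h : Std5 X 𝔚 D 𝒴 err A1 A2) (hc : IsAdm X 𝔚 𝒴 c) :
    Real.exp (-(A1 * cA (fun ζ => 𝔚.dc (c.f ζ) (c.time ζ)) +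
      A2 * cA (fun ζ => D.N (c.f ζ) (c.time ζ)))) ≤ cA (c.g0 𝔚 D) ∧ cA (c.g0 𝔚 D) ≤ 1 :=
  ⟨sym_cA_g0_ge h hc, sym_cA_g0_le h hc⟩

/-- (5.23). -/
theorem lg_ge (h : Std5 X 𝔚 D 𝒴 err A1 A2) (hc : IsAdm X 𝔚 𝒴 c) :
    -(A1 * cA (fun ζ => 𝔚.dc (c.f ζ) (c.time ζ)) + A2 * cA (fun ζ => D.N (c.f ζ) (c.time ζ))) ≤
      cA fun ζ => Real.log (c.gam 𝔚 D ζ) :=
  sym_lg_ge h hc

theorem lg_le (h : Std5 X 𝔚 D 𝒴 err A1 A2) (hc : IsAdm X 𝔚 𝒴 c) :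
    cA (fun ζ => Real.log (c.gam 𝔚 D ζ)) ≤ 0 :=
  sym_lg_le h hc

/-! ### `S5-M2`: the test function -/

theorem s5m_cont_levi (hφ : ContDiff ℝ ∞ (fun a : ℝ × CE (Fin n ⊕ Fin n) => X.φ a.1 a.2))
    (i j : Fin n ⊕ Fin n) :
    Continuous fun a : ℝ × CE (Fin n ⊕ Fin n) => levi (X.φ a.1) a.2 i j := by
  have h := contDiffOn_levi_param (I := Set.univ) (U := Set.univ) uniqueDiffOn_univ isOpen_univ
    (F := fun a : ℝ × CE (Fin n ⊕ Fin n) => X.φ a.1 a.2) hφ.contDiffOn i j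
  rw [Set.univ_prod_univ] at h
  exact continuousOn_univ.1 h.continuousOn

theorem s5m_deriv_eq (hφ : ContDiff ℝ ∞ (fun a : ℝ × CE (Fin n ⊕ Fin n) => X.φ a.1 a.2)) (s : ℝ)
    (p : CE (Fin n ⊕ Fin n)) :
    deriv (fun s' => X.φ s' p) s =
      fderiv ℝ (fun a : ℝ × CE (Fin n ⊕ Fin n) => X.φ a.1 a.2) (s, p) (1, 0) := by
  have h1 : HasFDerivAt (fun a : ℝ × CE (Fin n ⊕ Fin n) => X.φ a.1 a.2)
      (fderiv ℝ (fun a : ℝ × CE (Fin n ⊕ Fin n) => X.φ a.1 a.2) (s, p)) (s, p) :=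
    (hφ.differentiable (by simp) (s, p)).hasFDerivAt
  have h2 : HasDerivAt (fun s' : ℝ => (s', p)) ((1 : ℝ), (0 : CE (Fin n ⊕ Fin n))) s :=
    (hasDerivAt_id s).prodMk (hasDerivAt_const s p)
  exact (h1.comp_hasDerivAt s h2).deriv

theorem s5m_cont_deriv (hφ : ContDiff ℝ ∞ (fun a : ℝ × CE (Fin n ⊕ Fin n) => X.φ a.1 a.2)) :
    Continuous fun a : ℝ × CE (Fin n ⊕ Fin n) => deriv (fun s' => X.φ s' a.2) a.1 := by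
  have h : (fun a : ℝ × CE (Fin n ⊕ Fin n) => deriv (fun s' => X.φ s' a.2) a.1) = fun a =>
      fderiv ℝ (fun a : ℝ × CE (Fin n ⊕ Fin n) => X.φ a.1 a.2) a (1, 0) := by
    funext a
    exact s5m_deriv_eq hφ a.1 a.2
  rw [h]
  exact (hφ.continuous_fderiv (by simp)).clm_apply continuous_const

theorem s5m_compact (X : S5Ctx V n) :
    IsCompact (Set.Icc (X.s₀ - X.rc) (X.s₀ + X.rc) ×ˢ Metric.closedBall X.p₀ X.rc) :=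
  isCompact_Icc.prod (isCompact_closedBall _ _)

/-- continuity of the derivatives of the test function at the contact point. -/
theorem test_close (hφ : ContDiff ℝ ∞ (fun a : ℝ × CE (Fin n ⊕ Fin n) => X.φ a.1 a.2)) (τ : ℝ)
    (hτ : 0 < τ) :
    ∃ ρ : ℝ, 0 < ρ ∧ ∀ (s : ℝ) (p : CE (Fin n ⊕ Fin n)), ‖p - X.p₀‖ ^ 4 + (s - X.s₀) ^ 4 ≤ ρ →
      (∀ i j, ‖levi (X.φ s) p i j - levi (X.φ X.s₀) X.p₀ i j‖ ≤ τ) ∧
      |deriv (fun s' => X.φ s' p) s - deriv (fun s' => X.φ s' X.p₀) X.s₀| ≤ τ := by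
  have h1 : ∀ i j, ∀ᶠ a : ℝ × CE (Fin n ⊕ Fin n) in 𝓝 (X.s₀, X.p₀),
      ‖levi (X.φ a.1) a.2 i j - levi (X.φ X.s₀) X.p₀ i j‖ ≤ τ := by
    intro i j
    have := (s5m_cont_levi hφ i j).continuousAt (x := (X.s₀, X.p₀))
    filter_upwards [Metric.continuousAt_iff'.1 this τ hτ] with a ha
    rw [← dist_eq_norm]
    exact ha.le
  have h2 : ∀ᶠ a : ℝ × CE (Fin n ⊕ Fin n) in 𝓝 (X.s₀, X.p₀),
      |deriv (fun s' => X.φ s' a.2) a.1 - deriv (fun s' => X.φ s' X.p₀) X.s₀| ≤ τ := by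
    have := (s5m_cont_deriv hφ).continuousAt (x := (X.s₀, X.p₀))
    filter_upwards [Metric.continuousAt_iff'.1 this τ hτ] with a ha
    rw [← Real.dist_eq]
    exact ha.le
  have h3 := (eventually_all.2 fun i => eventually_all.2 fun j => h1 i j).and h2
  obtain ⟨δ, hδ, hball⟩ := Metric.eventually_nhds_iff.1 h3
  refine ⟨(δ / 2) ^ 4, by positivity, fun s p hsp => ?_⟩
  have hδ2 : 0 ≤ δ / 2 := by positivity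
  have a1 : ‖p - X.p₀‖ ^ 4 ≤ (δ / 2) ^ 4 := by
    have : 0 ≤ (s - X.s₀) ^ 4 := by positivity
    linarith
  have a2 : |s - X.s₀| ^ 4 ≤ (δ / 2) ^ 4 := by
    have e : |s - X.s₀| ^ 4 = (s - X.s₀) ^ 4 := by
      rw [show (4 : ℕ) = 2 * 2 from rfl, pow_mul, pow_mul, sq_abs]
    have : 0 ≤ ‖p - X.p₀‖ ^ 4 := by positivity
    rw [e]
    linarith
  have b1 : ‖p - X.p₀‖ ≤ δ / 2 := le_of_pow_le_pow_left₀ (by norm_num) hδ2 a1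
  have b2 : |s - X.s₀| ≤ δ / 2 := le_of_pow_le_pow_left₀ (by norm_num) hδ2 a2
  have hd : dist (s, p) (X.s₀, X.p₀) < δ := by
    rw [Prod.dist_eq, max_lt_iff, Real.dist_eq, dist_eq_norm]
    constructor <;> linarith
  have h4 := hball hd
  exact ⟨fun i j => h4.1 i j, h4.2⟩

theorem phi_bound (hφ : ContDiff ℝ ∞ (fun a : ℝ × CE (Fin n ⊕ Fin n) => X.φ a.1 a.2)) :
    ∃ M : ℝ, 0 ≤ M ∧ ∀ s ∈ Set.Icc (X.s₀ - X.rc) (X.s₀ + X.rc),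
      ∀ p ∈ Metric.closedBall X.p₀ X.rc, X.φ s p ≤ M := by
  obtain ⟨M, hM⟩ := (s5m_compact X).exists_bound_of_continuousOn hφ.continuous.continuousOn
  refine ⟨|M|, abs_nonneg _, fun s hs p hp => ?_⟩
  exact (le_abs_self _).trans ((hM (s, p) ⟨hs, hp⟩).trans (le_abs_self M))

theorem levi_test_herm (hφ : ContDiff ℝ ∞ (fun a : ℝ × CE (Fin n ⊕ Fin n) => X.φ a.1 a.2)) (s : ℝ)
    (p : CE (Fin n ⊕ Fin n)) : (levi (X.φ s) p).IsHermitian := by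
  have h : ContDiff ℝ ∞ (X.φ s) := hφ.comp (contDiff_const.prodMk contDiff_id)
  exact levi_isHermitian (h.contDiffAt.of_le (WithTop.coe_le_coe.2 le_top))

theorem levi_bound (hφ : ContDiff ℝ ∞ (fun a : ℝ × CE (Fin n ⊕ Fin n) => X.φ a.1 a.2)) :
    ∃ M : ℝ, ∀ s ∈ Set.Icc (X.s₀ - X.rc) (X.s₀ + X.rc),
      ∀ p ∈ Metric.closedBall X.p₀ X.rc, frobSq (levi (X.φ s) p) ≤ M := by
  have hc : Continuous fun a : ℝ × CE (Fin n ⊕ Fin n) => frobSq (levi (X.φ a.1) a.2) := by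
    unfold frobSq
    exact continuous_finsetSum _ fun i _ => continuous_finsetSum _ fun j _ =>
      ((s5m_cont_levi hφ i j).norm).pow 2
  obtain ⟨M, hM⟩ := (s5m_compact X).exists_bound_of_continuousOn hc.continuousOn
  exact ⟨M, fun s hs p hp => (le_abs_self _).trans (hM (s, p) ⟨hs, hp⟩)⟩

theorem dphi_bound (hφ : ContDiff ℝ ∞ (fun a : ℝ × CE (Fin n ⊕ Fin n) => X.φ a.1 a.2)) :
    ∃ M : ℝ, ∀ s ∈ Set.Icc (X.s₀ - X.rc) (X.s₀ + X.rc),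
      ∀ p ∈ Metric.closedBall X.p₀ X.rc, deriv (fun s' => X.φ s' p) s ≤ M := by
  obtain ⟨M, hM⟩ := (s5m_compact X).exists_bound_of_continuousOn
    (s5m_cont_deriv hφ).continuousOn
  exact ⟨M, fun s hs p hp => (le_abs_self _).trans (hM (s, p) ⟨hs, hp⟩)⟩

end Claimed.Agent.R316
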