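import Claimed.Agent.R316.S5.Local

/-!
# Row 316, Section 5.4: the base wall error (5.21), general profile (`S5-W4`, helper110)

No `sorry`.  Prefix `wb_`.  `Δ_{h_t} (R (u / A)) = R' A⁻¹ Δ_{h_t} u + R'' A⁻² |∂u|²_{h_t}`, and by the cofactor inequality
(`0 < h_t ≤ g`, `det h_t / det g = e^{-ρ}`) `|Δ_{h_t} u| ≤ n C_u e^ρ`, `tr_{h_t} g ≤ n e^ρ`, `|∂u|²_{h_t} ≤ n C_u² e^ρ`.
-/

set_option autoImplicit false
set_option linter.unusedSectionVars false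
set_option maxSynthPendingDepth 3
open scoped ContDiff ComplexOrder Topology Matrix
open MeasureTheory Filter

namespace Claimed.Agent.R316

variable {V : Type} [NormedAddCommGroup V] [InnerProductSpace ℝ V] [FiniteDimensional ℝ V]
variable [MeasurableSpace V] [BorelSpace V]
variable {n : ℕ} {𝓜 : CMfd V (Fin n)} {g : HFam V (Fin n)} {o : V}

/-- the cofactor inequality at a point: `0 < h ≤ g`, `-b g ≤ B ≤ b g` imply `|tr_h B| (det h / det g) ≤ n b`. -/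
theorem wb_abs_tr_mul_detRatio_le {h B : HFam V (Fin n)} (hh : IsMetric 𝓜 h) (hg : IsMetric 𝓜 g)
    (hle : leF 𝓜 h g) {b : V → ℝ} (h₁ : leF 𝓜 B (smulF b g))
    (h₂ : leF 𝓜 (smulF (fun y => - b y) g) B) {x : V} (hx : x ∈ 𝓜.carrier) :
    |tr 𝓜 h B x| * detRatio 𝓜 h g x ≤ n * b x := by
  have hp := 𝓜.isHol_pΦ hx
  have hco := 𝓜.co_mem hx
  have a1 := h₁ _ _ hp _ hco
  have a2 := h₂ _ _ hp _ hco
  simp only [R316.smulF, 𝓜.pΦ_co hx, Complex.ofReal_neg, neg_smul, sub_neg_eq_add] at a1 a2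
  have h3 := cofactor_ineq (hh.posDef hp _ hco) (hle _ _ hp _ hco) a1 a2
  have hpos := hg.det_re_pos_chosen hx
  rw [detRatio_chosen hh.toIsHForm hg.toIsHForm hx, ← mul_div_assoc, div_le_iff₀ hpos]
  rw [Fintype.card_fin] at h3
  exact h3

variable (Pd : PrelimData 𝓜 g o) (D : FlowData 𝓜 g o)

theorem wb_exp_rho (I : InitialData 𝓜 g) {t : ℝ} (ht : 0 ≤ t) {x : V} (hx : x ∈ 𝓜.carrier) :
    Real.exp (D.rho t x) = (detRatio 𝓜 (D.h t) g x)⁻¹ := by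
  have hpos : 0 < detRatio 𝓜 (D.h t) g x :=
    detRatio_pos (D.kahler t ht).toIsMetric I.kahler.toIsMetric hx
  unfold FlowData.rho
  rw [D.P_eq t ht x hx, Real.exp_neg]
  congr 1
  exact Real.exp_log hpos

/-- `|tr_{h_t} B| ≤ n b e^ρ`. -/
theorem wb_abs_tr_le (I : InitialData 𝓜 g) {B : HFam V (Fin n)} {b : V → ℝ} (h₁ : leF 𝓜 B (smulF b g))
    (h₂ : leF 𝓜 (smulF (fun y => - b y) g) B) {t : ℝ} (ht : 0 ≤ t) {x : V}
    (hx : x ∈ 𝓜.carrier) : |tr 𝓜 (D.h t) B x| ≤ n * b x * Real.exp (D.rho t x) := by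
  have hpos : 0 < detRatio 𝓜 (D.h t) g x :=
    detRatio_pos (D.kahler t ht).toIsMetric I.kahler.toIsMetric hx
  have h1 := wb_abs_tr_mul_detRatio_le (D.kahler t ht).toIsMetric I.kahler.toIsMetric
    (D.le_g t ht) h₁ h₂ hx
  rw [wb_exp_rho D I ht hx, ← div_eq_mul_inv, le_div_iff₀ hpos]
  exact h1

theorem wb_lap_u_le (I : InitialData 𝓜 g) {t : ℝ} (ht : 0 ≤ t) {x : V} (hx : x ∈ 𝓜.carrier) :
    |lap 𝓜 (D.h t) Pd.u x| ≤ n * Pd.Cu * Real.exp (D.rho t x) := by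
  have h1 := wb_abs_tr_le D I Pd.u_dd_upper Pd.u_dd_lower ht hx
  refine h1.trans ?_
  refine mul_le_mul_of_nonneg_right ?_ (Real.exp_pos _).le
  refine mul_le_mul_of_nonneg_left ?_ (Nat.cast_nonneg _)
  exact div_le_self Pd.Cu_pos.le (Pd.u_ge_one x hx)

theorem wb_tr_g_le (I : InitialData 𝓜 g) {t : ℝ} (ht : 0 ≤ t) {x : V} (hx : x ∈ 𝓜.carrier) :
    tr 𝓜 (D.h t) g x ≤ n * Real.exp (D.rho t x) := by
  have hg := I.kahler.toIsMetric
  have h₁ : leF 𝓜 g (smulF (fun _ => (1 : ℝ)) g) := fun Φ U hΦ z hz => by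
    simp only [R316.smulF, Complex.ofReal_one, one_smul, sub_self]
    exact Matrix.PosSemidef.zero
  have h₂ : leF 𝓜 (smulF (fun _ => - (1 : ℝ)) g) g := fun Φ U hΦ z hz => by
    simp only [R316.smulF, Complex.ofReal_neg, Complex.ofReal_one, neg_smul, one_smul,
      sub_neg_eq_add]
    exact (hg.posDef hΦ z hz).posSemidef.add (hg.posDef hΦ z hz).posSemidef
  have h1 := wb_abs_tr_le D I (b := fun _ => (1 : ℝ)) h₁ h₂ ht hx
  rw [mul_one] at h1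
  exact (le_abs_self _).trans h1

theorem wb_gradSq_u_le (I : InitialData 𝓜 g) {t : ℝ} (ht : 0 ≤ t) {x : V} (hx : x ∈ 𝓜.carrier) :
    gradSq 𝓜 (D.h t) Pd.u x ≤ n * Pd.Cu ^ 2 * Real.exp (D.rho t x) := by
  have hh := (D.kahler t ht).toIsMetric
  have hg := I.kahler.toIsMetric
  have h1 := gradSq_le_mul_tr hh hg Pd.u hx
  have h2 := wb_tr_g_le D I ht hx
  have h3 := Pd.u_grad x hx
  have h4 : 0 ≤ gradSq 𝓜 g Pd.u x := gradSq_nonneg hg _ hx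
  calc gradSq 𝓜 (D.h t) Pd.u x ≤ gradSq 𝓜 g Pd.u x * tr 𝓜 (D.h t) g x := h1
    _ ≤ gradSq 𝓜 g Pd.u x * (n * Real.exp (D.rho t x)) := mul_le_mul_of_nonneg_left h2 h4
    _ ≤ Pd.Cu ^ 2 * (n * Real.exp (D.rho t x)) :=
      mul_le_mul_of_nonneg_right h3 (by positivity)
    _ = _ := by ring

/-- chain rule for a profile of `u / A`. -/
theorem wb_lap_profile {R : ℝ → ℝ} {A t : ℝ} {x : V} (hx : x ∈ 𝓜.carrier)
    (hR : ContDiffAt ℝ 2 R (Pd.u x / A)) :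
    lap 𝓜 (D.h t) (fun x' => R (Pd.u x' / A) - 1) x =
      deriv R (Pd.u x / A) * (A⁻¹ * lap 𝓜 (D.h t) Pd.u x) +
        deriv (deriv R) (Pd.u x / A) * (A⁻¹ ^ 2 * gradSq 𝓜 (D.h t) Pd.u x) := by
  have hu := Pd.u_smooth.c2At hx
  have e : (fun x' => R (Pd.u x' / A) - 1) = fun x' => R (A⁻¹ * Pd.u x') + (-1) := by
    funext x'
    rw [div_eq_inv_mul, sub_eq_add_neg]
  have hR' : ContDiffAt ℝ 2 R (A⁻¹ * Pd.u x) := by rwa [← div_eq_inv_mul]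
  rw [e, lap_add_const, lap_comp (u := fun y => A⁻¹ * Pd.u y) (D.h t) hx hR' (hu.const_mul _),
    lap_const_mul _ _ hu, gradSq_const_mul _ _ hu.diffAt, div_eq_inv_mul]

/-- (5.21) for a general profile. -/
theorem wb_lap_profile_le (I : InitialData 𝓜 g) {R : ℝ → ℝ} {A t : ℝ} (hA : 1 ≤ A) (ht : 0 ≤ t) {x : V}
    (hx : x ∈ 𝓜.carrier) (hR : ContDiffAt ℝ 2 R (Pd.u x / A)) :
    |lap 𝓜 (D.h t) (fun x' => R (Pd.u x' / A) - 1) x| ≤
      (|deriv R (Pd.u x / A)| * (n * Pd.Cu) + |deriv (deriv R) (Pd.u x / A)| * (n * Pd.Cu ^ 2)) *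
        Real.exp (D.rho t x) := by
  rw [wb_lap_profile Pd D hx hR]
  have hA0 : 0 < A := lt_of_lt_of_le one_pos hA
  have hAi : A⁻¹ ≤ 1 := inv_le_one_of_one_le₀ hA
  have hAi0 : 0 ≤ A⁻¹ := (inv_pos.2 hA0).le
  have h1 := wb_lap_u_le Pd D I ht hx
  have h2 := wb_gradSq_u_le Pd D I ht hx
  have h3 : 0 ≤ gradSq 𝓜 (D.h t) Pd.u x := gradSq_nonneg (D.kahler t ht).toIsMetric _ hx
  have b1 : |A⁻¹ * lap 𝓜 (D.h t) Pd.u x| ≤ n * Pd.Cu * Real.exp (D.rho t x) := by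
    rw [abs_mul, abs_of_nonneg hAi0]
    exact (mul_le_of_le_one_left (abs_nonneg _) hAi).trans h1
  have b2 : |A⁻¹ ^ 2 * gradSq 𝓜 (D.h t) Pd.u x| ≤ n * Pd.Cu ^ 2 * Real.exp (D.rho t x) := by
    rw [abs_mul, abs_of_nonneg (by positivity), abs_of_nonneg h3]
    exact (mul_le_of_le_one_left h3 (pow_le_one₀ hAi0 hAi)).trans h2
  refine (abs_add_le _ _).trans ?_
  rw [abs_mul (deriv R (Pd.u x / A)), abs_mul (deriv (deriv R) (Pd.u x / A))]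
  have c1 := mul_le_mul_of_nonneg_left b1 (abs_nonneg (deriv R (Pd.u x / A)))
  have c2 := mul_le_mul_of_nonneg_left b2 (abs_nonneg (deriv (deriv R) (Pd.u x / A)))
  refine (add_le_add c1 c2).trans (le_of_eq ?_)
  ring

end Claimed.Agent.R316
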