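import Claimed.Agent.R316.S5.WallsBase
import Claimed.Agent.R316.S5.EndAux

/-!
# Row 316, Section 5.4: the fibre wall error (5.20) (`S5-W5` `fiber_wall_error`)

Owner helper26.  No `sorry`.

PLAN.  `𝔭(β)(y) = sympP (ambM (dd β) y) (poisM y)` is the chart free form of `p(dd_Y β)` (`wl_symp_amb`); fibre scaling `fscale B` multiplies it by `B²` (`wl_symp_scale`);
`cost_B ∘ fscale B = B² N_t + d_0 + k₁ + k₂^1`; the ambient tensors of `N_t`, `d_0`, `δ₁`, `δ₁²`, `δ₂^1`, `(δ₂^1)²` and the Poisson matrix are bounded on the FIXED compact `{u ≤ A, N(·,0) ≤ 1}`.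
-/

set_option autoImplicit false
set_option maxSynthPendingDepth 3
open scoped ContDiff ComplexOrder Topology Matrix
open MeasureTheory Filter

namespace Claimed.Agent.R316

open Claimed.Agent.R316.S6

section alg

variable {α κ ι : Type} [Fintype α] [DecidableEq α] [Fintype κ] [DecidableEq κ]
variable [Fintype ι] [DecidableEq ι]

/-- frame invariance, rectangular frames. -/
theorem wl_sympP_conj_rect (W : Matrix α α ℂ) (J : Matrix κ κ ℂ) (S : Matrix α κ ℂ) :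
    sympP (Sᴴ * W * S) J = sympP W (S * J * Sᵀ) := by
  unfold sympP
  congr 2
  have e : Sᴴᵀ = Sᵀᴴ := by
    ext i j
    simp
  rw [Matrix.transpose_mul, Matrix.transpose_mul, Matrix.conjTranspose_mul,
    Matrix.conjTranspose_mul, e]
  have h1 : Jᴴ * (Sᴴ * W * S) * J * (Sᵀ * (Wᵀ * Sᵀᴴ))
      = (Jᴴ * Sᴴ * W * (S * J * Sᵀ) * Wᵀ) * Sᵀᴴ := by simp only [Matrix.mul_assoc]
  have h2 : Sᵀᴴ * (Jᴴ * Sᴴ) * W * (S * J * Sᵀ) * Wᵀ
      = Sᵀᴴ * (Jᴴ * Sᴴ * W * (S * J * Sᵀ) * Wᵀ) := by simp only [Matrix.mul_assoc]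
  rw [h1, h2, Matrix.trace_mul_comm]

theorem wl_sympP_smul_J (c : ℝ) (W J : Matrix κ κ ℂ) :
    sympP W (((c : ℝ) : ℂ) • J) = c ^ 2 * sympP W J := by
  unfold sympP
  simp only [Matrix.conjTranspose_smul, Matrix.mul_smul, Matrix.smul_mul, Matrix.trace_smul,
    smul_eq_mul, Complex.star_def, Complex.conj_ofReal, Complex.re_ofReal_mul]
  ring

/-- the matrix of the fibre scaling. -/
noncomputable def wlLam (ι : Type) [DecidableEq ι] (B : ℝ) : Matrix (ι ⊕ ι) (ι ⊕ ι) ℂ :=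
  Matrix.fromBlocks 1 0 0 (((B : ℝ) : ℂ) • 1)

theorem wl_Lam_J (B : ℝ) : wlLam ι B * Jstd ι * (wlLam ι B)ᵀ = ((B : ℝ) : ℂ) • Jstd ι := by
  unfold wlLam Jstd
  rw [Matrix.fromBlocks_transpose, Matrix.fromBlocks_multiply, Matrix.fromBlocks_multiply,
    Matrix.fromBlocks_smul]
  simp

/-- entrywise form of the local Lipschitz bound of `sympP`. -/
theorem wl_sympP_entry {W W' J : Matrix κ κ ℂ} {a b c : ℝ} (ha : 0 ≤ a) (hb : 0 ≤ b)
    (hW : ∀ i j, ‖W i j‖ ≤ a) (hW' : ∀ i j, ‖W' i j‖ ≤ a) (hd : ∀ i j, ‖(W - W') i j‖ ≤ b)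
    (hJ : ∀ i j, ‖J i j‖ ≤ c) :
    |sympP W J - sympP W' J| ≤ (Fintype.card κ : ℝ) ^ 4 * c ^ 2 * a * b := by
  have h0 := abs_sympP_sub_le W W' J
  have h1 := s5n_frobSq_le_of_entries hJ
  have h2 := s5n_sqrt_frobSq_le_of_entries ha hW
  have h3 := s5n_sqrt_frobSq_le_of_entries ha hW'
  have h4 := s5n_sqrt_frobSq_le_of_entries hb hd
  set N : ℝ := (Fintype.card κ : ℝ) with hN
  have hN0 : 0 ≤ N := by positivity
  calc |sympP W J - sympP W' J|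
      ≤ (1 / 2 : ℝ) * frobSq J * (Real.sqrt (frobSq W) + Real.sqrt (frobSq W')) *
        Real.sqrt (frobSq (W - W')) := h0
    _ ≤ (1 / 2 : ℝ) * (N * c) ^ 2 * (N * a + N * a) * (N * b) := by
        have := frobSq_nonneg J
        have := Real.sqrt_nonneg (frobSq W)
        have := Real.sqrt_nonneg (frobSq W')
        have := Real.sqrt_nonneg (frobSq (W - W'))
        gcongr
    _ = N ^ 4 * c ^ 2 * a * b := by ring

/-- the abstract estimate behind (5.20). -/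
theorem wl_mat_est {MN Md M1 M2 W0 W1 J : Matrix κ κ ℂ} {b C c r : ℝ} (hC : 0 ≤ C) (hb : 1 ≤ b)
    (hr : 1 ≤ r) (E0 : W0 = ((b : ℝ) : ℂ) • MN + Md + M1) (E1 : W1 = W0 + M2)
    (hN : ∀ i j, ‖MN i j‖ ≤ C) (hd : ∀ i j, ‖Md i j‖ ≤ C) (h1 : ∀ i j, ‖M1 i j‖ ≤ 4 * C * r)
    (h2 : ∀ i j, ‖M2 i j‖ ≤ 4 * C * r) (hJ : ∀ i j, ‖J i j‖ ≤ c) :
    |sympP W1 J - sympP W0 J| ≤
      (Fintype.card κ : ℝ) ^ 4 * c ^ 2 * (10 * C) * (4 * C) * b * r ^ 2 := by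
  have p1 : 0 ≤ C * b * (r - 1) := mul_nonneg (mul_nonneg hC (by linarith)) (by linarith)
  have p2 : 0 ≤ C * r * (b - 1) := mul_nonneg (mul_nonneg hC (by linarith)) (by linarith)
  have p3 : 0 ≤ C * (b - 1) := mul_nonneg hC (by linarith)
  have p4 : 0 ≤ C * b * r := mul_nonneg (mul_nonneg hC (by linarith)) (by linarith)
  have b0 : ∀ i j, ‖W0 i j‖ ≤ 6 * (C * b * r) := by
    intro i j
    rw [E0]
    simp only [Matrix.add_apply, Matrix.smul_apply, smul_eq_mul]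
    have t1 : ‖((b : ℝ) : ℂ) * MN i j‖ ≤ b * C := by
      rw [norm_mul, Complex.norm_real, Real.norm_eq_abs, abs_of_nonneg (by linarith)]
      exact mul_le_mul_of_nonneg_left (hN i j) (by linarith)
    have t2 := norm_add_le (((b : ℝ) : ℂ) * MN i j + Md i j) (M1 i j)
    have t3 := norm_add_le (((b : ℝ) : ℂ) * MN i j) (Md i j)
    have t4 := hd i j
    have t5 := h1 i j
    nlinarith
  have b1 : ∀ i j, ‖W1 i j‖ ≤ 10 * (C * b * r) := by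
    intro i j
    rw [E1, Matrix.add_apply]
    have t2 := norm_add_le (W0 i j) (M2 i j)
    have t3 := b0 i j
    have t4 := h2 i j
    nlinarith
  have b0' : ∀ i j, ‖W0 i j‖ ≤ 10 * (C * b * r) := fun i j => (b0 i j).trans (by linarith)
  have bd : ∀ i j, ‖(W1 - W0) i j‖ ≤ 4 * C * r := by
    intro i j
    rw [E1, add_sub_cancel_left]
    exact h2 i j
  have fin := wl_sympP_entry (J := J) (a := 10 * (C * b * r)) (b := 4 * C * r) (c := c)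
    (by linarith) (mul_nonneg (by linarith) (by linarith)) b1 b0' bd hJ
  refine fin.trans (le_of_eq ?_)
  ring

end alg

section scale

variable {ι : Type} [Fintype ι] [DecidableEq ι]

/-- the fibre scaling in cotangent coordinates. -/
noncomputable def wlScale (ι : Type) [Fintype ι] (B : ℝ) : CE (ι ⊕ ι) →L[ℂ] CE (ι ⊕ ι) :=
  LinearMap.toContinuousLinearMap
    { toFun := fun p => WithLp.toLp 2
        (Sum.elim (fun j => p (Sum.inl j)) (fun j => ((B : ℝ) : ℂ) * p (Sum.inr j)))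
      map_add' := fun p q => by
        ext a
        rcases a with a | a <;> simp [mul_add]
      map_smul' := fun c p => by
        ext a
        rcases a with a | a <;> simp [mul_left_comm] }

theorem wl_scale_inl (B : ℝ) (p : CE (ι ⊕ ι)) (j : ι) : wlScale ι B p (Sum.inl j) = p (Sum.inl j) :=
  rfl

theorem wl_scale_inr (B : ℝ) (p : CE (ι ⊕ ι)) (j : ι) :
    wlScale ι B p (Sum.inr j) = ((B : ℝ) : ℂ) * p (Sum.inr j) := rfl

theorem wl_cBase_scale (B : ℝ) (p : CE (ι ⊕ ι)) : cBase (wlScale ι B p) = cBase p := rfl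

theorem wl_cFib_scale (B : ℝ) (p : CE (ι ⊕ ι)) :
    cFib (wlScale ι B p) = ((B : ℝ) : ℂ) • cFib p := rfl

theorem wl_scale_scale {B : ℝ} (hB : B ≠ 0) (p : CE (ι ⊕ ι)) :
    wlScale ι B (wlScale ι B⁻¹ p) = p := by
  ext a
  rcases a with a | a
  · rfl
  · rw [wl_scale_inr, wl_scale_inr, ← mul_assoc, ← Complex.ofReal_mul, mul_inv_cancel₀ hB,
      Complex.ofReal_one, one_mul]

theorem wl_jac_scale (B : ℝ) (p : CE (ι ⊕ ι)) : jac (wlScale ι B) p = wlLam ι B := by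
  ext a b
  show fderiv ℂ (wlScale ι B) p (eb b) a = _
  rw [(wlScale ι B).hasFDerivAt.fderiv]
  unfold wlLam
  rcases a with a | a <;> rcases b with b | b
  · rw [wl_scale_inl]
    simp [eb_apply, Matrix.one_apply]
  · rw [wl_scale_inl]
    simp [eb_apply]
  · rw [wl_scale_inr]
    simp [eb_apply]
  · rw [wl_scale_inr]
    simp [eb_apply, Matrix.one_apply]

variable {V : Type} [NormedAddCommGroup V] [InnerProductSpace ℝ V] [FiniteDimensional ℝ V]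

theorem wl_cotParam_scale (Φ : CE ι → V) (B : ℝ) (p : CE (ι ⊕ ι)) :
    cotParam Φ (wlScale ι B p) = fscale ((B : ℝ) : ℂ) (cotParam Φ p) := by
  unfold cotParam fscale
  rw [wl_cBase_scale, wl_cFib_scale, s6g_pairL_smul]
  rfl

theorem wl_scale_mem {U : Set (CE ι)} (B : ℝ) {p : CE (ι ⊕ ι)} (hp : p ∈ cotDom U) :
    wlScale ι B p ∈ cotDom U := hp

/-- `p(dd(β ∘ μ_B)) = B² p(dd β) ∘ μ_B` in a cotangent chart. -/
theorem wl_symp_scale (Φ : CE ι → V) (B : ℝ) {β : CotAmb V → ℝ} {p : CE (ι ⊕ ι)}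
    (hβ : ContDiffAt ℝ 2 (β ∘ cotParam Φ) (wlScale ι B p)) :
    sympP (levi ((fun y => β (fscale ((B : ℝ) : ℂ) y)) ∘ cotParam Φ) p) (Jstd ι) =
      B ^ 2 * sympP (levi (β ∘ cotParam Φ) (wlScale ι B p)) (Jstd ι) := by
  have e : ((fun y => β (fscale ((B : ℝ) : ℂ) y)) ∘ cotParam Φ) =
      fun w => (β ∘ cotParam Φ) (wlScale ι B w) := by
    funext w
    show β (fscale ((B : ℝ) : ℂ) (cotParam Φ w)) = β (cotParam Φ (wlScale ι B w))
    rw [wl_cotParam_scale]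
  rw [e, levi_comp_hol (wlScale ι B) (β ∘ cotParam Φ)
    (Filter.Eventually.of_forall fun w => (wlScale ι B).differentiableAt) hβ, wl_jac_scale,
    sympP_conj, wl_Lam_J, wl_sympP_smul_J]

end scale

section flow

variable {V : Type} [NormedAddCommGroup V] [InnerProductSpace ℝ V] [FiniteDimensional ℝ V]
variable [MeasurableSpace V] [BorelSpace V]
variable {n : ℕ} {𝓜 : CMfd V (Fin n)} {g : HFam V (Fin n)} {o : V}
variable {𝒴 : CMfd (CotAmb V) (Fin n ⊕ Fin n)} {q : ℕ} {G : CotAmb V → CE (Fin q)}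

/-- chart free form of `p(dd_Y β)`. -/
theorem wl_symp_amb (hY : IsCotangent 𝓜 𝒴) (hG : GImm 𝒴 G) {Φ : CE (Fin n) → V}
    {U : Set (CE (Fin n))} (hΦ : 𝓜.IsHol Φ U) {p : CE (Fin n ⊕ Fin n)} (hp : p ∈ cotDom U)
    {β : CotAmb V → ℝ} (hβ : ContDiffAt ℝ 2 (β ∘ cotParam Φ) p) :
    sympP (levi (β ∘ cotParam Φ) p) (Jstd (Fin n)) =
      sympP (ambM 𝒴 G (ddc β) (cotParam Φ p)) (poisM 𝓜 G (cotParam Φ p)) := by
  have h1 := conj_ambM_ddc hG (hY.isHol hΦ) hp hβ 1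
  rw [Matrix.mul_one, Matrix.conjTranspose_one, Matrix.one_mul, Matrix.mul_one] at h1
  rw [← h1, wl_sympP_conj_rect, S4.poisM_chart hY hG hΦ hp]

/-- ambient Hessians of smooth families are bounded on compact sets. -/
theorem wl_amb_bound (hG : GImm 𝒴 G) {K : Set (CotAmb V)} (hK : IsCompact K)
    (hKY : K ⊆ 𝒴.carrier) {T : ℝ} (hT0 : 0 < T) {u : ℝ → CotAmb V → ℝ}
    (hu : 𝒴.SmoothST (Set.Icc 0 T) u) :
    ∃ C : ℝ, ∀ y ∈ K, ∀ t ∈ Set.Icc (0 : ℝ) T, ∀ i j, ‖ambM 𝒴 G (ddc (u t)) y i j‖ ≤ C := by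
  have h1 : ∀ ij : Fin q × Fin q, ∃ C : ℝ, GLipOn G K (Set.Icc 0 T) C
      fun y t => ambM 𝒴 G (ddc (u t)) y ij.1 ij.2 := fun ij =>
    (SmST.ambM_ddc hG (isTimeDom_Icc hT0) hu ij.1 ij.2).exists_glip hG hK hKY
  obtain ⟨C, hC⟩ := exists_glip_fintype h1
  exact ⟨C, fun y hy t ht i j => (hC (i, j)).1 y hy t ht⟩

/-- the rescaled cost without the fibre wall. -/
noncomputable def wlB0 (Pd : PrelimData 𝓜 g o) (D : FlowData 𝓜 g o) (d0 : ℝ → V → ℝ) (A c t : ℝ)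
    (y : CotAmb V) : ℝ :=
  c * D.N y t + (d0 t y.1 + ((chiW1 (Pd.u y.1 / A))⁻¹ - 1))

/-- the rescaled cost. -/
noncomputable def wlB1 (Pd : PrelimData 𝓜 g o) (D : FlowData 𝓜 g o) (d0 : ℝ → V → ℝ) (A c t : ℝ)
    (y : CotAmb V) : ℝ :=
  wlB0 Pd D d0 A c t y + ((chiW2 (D.N y 0))⁻¹ - 1)

theorem wl_smooth_δ1 (Pd : PrelimData 𝓜 g o) (A : ℝ) : 𝓜.Smooth fun x => chiW1 (Pd.u x / A) :=
  fun Φ U hΦ => (wl_chiW1_contDiff.comp (contDiff_id.div_const A)).comp_contDiffOn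
    (Pd.u_smooth Φ U hΦ)

theorem wl_smooth_χ1 (Pd : PrelimData 𝓜 g o) (A : ℝ) : 𝓜.Smooth fun x => thW1 (Pd.u x / A) :=
  fun Φ U hΦ => (wl_thW1_contDiff.comp (contDiff_id.div_const A)).comp_contDiffOn
    (Pd.u_smooth Φ U hΦ)

theorem wl_smooth_N0 (I : InitialData 𝓜 g) (D : FlowData 𝓜 g o) (hY : IsCotangent 𝓜 𝒴) :
    𝒴.Smooth fun y => D.N y 0 :=
  (s6f_N_smoothST D I.kahler.toIsMetric hY).smooth (t := 0) Set.self_mem_Ici

theorem wl_smooth_δ2 (I : InitialData 𝓜 g) (D : FlowData 𝓜 g o) (hY : IsCotangent 𝓜 𝒴) (b : ℝ) :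
    𝒴.Smooth fun y => chiW2 (D.N y 0 / b) :=
  fun Ψ W hΨ => (wl_chiW2_contDiff.comp (contDiff_id.div_const b)).comp_contDiffOn
    (wl_smooth_N0 I D hY Ψ W hΨ)

theorem wl_smooth_χ2 (I : InitialData 𝓜 g) (D : FlowData 𝓜 g o) (hY : IsCotangent 𝓜 𝒴) (b : ℝ) :
    𝒴.Smooth fun y => thW2 (D.N y 0 / b) :=
  fun Ψ W hΨ => (wl_thW2_contDiff.comp (contDiff_id.div_const b)).comp_contDiffOn
    (wl_smooth_N0 I D hY Ψ W hΨ)

theorem wl_smooth_δ2' (I : InitialData 𝓜 g) (D : FlowData 𝓜 g o) (hY : IsCotangent 𝓜 𝒴) :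
    𝒴.Smooth fun y => chiW2 (D.N y 0) :=
  fun Ψ W hΨ => wl_chiW2_contDiff.comp_contDiffOn (wl_smooth_N0 I D hY Ψ W hΨ)

/-- the rescaled costs are `C²` in every parametrisation where the cutoffs are positive, and their Levi forms split. -/
theorem wl_split (I : InitialData 𝓜 g) (Pd : PrelimData 𝓜 g o) (D : FlowData 𝓜 g o)
    (hY : IsCotangent 𝓜 𝒴) {T : ℝ} {d0 : ℝ → V → ℝ} (hd : 𝓜.SmoothST (Set.Icc 0 T) d0) (A c : ℝ)
    {t : ℝ} (ht : t ∈ Set.Icc (0 : ℝ) T) {Ψ : CE (Fin n ⊕ Fin n) → CotAmb V}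
    {W : Set (CE (Fin n ⊕ Fin n))} (hΨ : 𝒴.IsHol Ψ W) {w : CE (Fin n ⊕ Fin n)} (hw : w ∈ W)
    (h1 : chiW1 (Pd.u (Ψ w).1 / A) ≠ 0) (h2 : chiW2 (D.N (Ψ w) 0) ≠ 0) :
    ContDiffAt ℝ 2 (wlB0 Pd D d0 A c t ∘ Ψ) w ∧ ContDiffAt ℝ 2 (wlB1 Pd D d0 A c t ∘ Ψ) w ∧
    levi (wlB0 Pd D d0 A c t ∘ Ψ) w =
      ((c : ℝ) : ℂ) • levi ((fun y => D.N y t) ∘ Ψ) w + levi ((fun y => d0 t y.1) ∘ Ψ) w +
      levi (fun v => (((fun y : CotAmb V => chiW1 (Pd.u y.1 / A)) ∘ Ψ) v)⁻¹) w ∧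
    levi (wlB1 Pd D d0 A c t ∘ Ψ) w = levi (wlB0 Pd D d0 A c t ∘ Ψ) w +
      levi (fun v => (((fun y : CotAmb V => chiW2 (D.N y 0)) ∘ Ψ) v)⁻¹) w := by
  have two : (2 : WithTop ℕ∞) ≤ ∞ := by norm_cast
  have hn : ContDiffAt ℝ 2 ((fun y => D.N y t) ∘ Ψ) w :=
    (smoothST_contDiffAt (u := fun t y => D.N y t) (N_smooth I hY T) hΨ ht hw).of_le two
  have he : ContDiffAt ℝ 2 ((fun y : CotAmb V => d0 t y.1) ∘ Ψ) w :=
    (smoothST_contDiffAt (u := fun t y => d0 t y.1) (smoothST_base hY hd) hΨ ht hw).of_le two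
  have ha : ContDiffAt ℝ 2 ((fun y : CotAmb V => chiW1 (Pd.u y.1 / A)) ∘ Ψ) w :=
    (smoothST_contDiffAt (u := fun _ y => chiW1 (Pd.u y.1 / A))
      (smoothST_base hY ((wl_smooth_δ1 Pd A).smoothST (Set.Icc 0 T))) hΨ ht hw).of_le two
  have hb : ContDiffAt ℝ 2 ((fun y : CotAmb V => chiW2 (D.N y 0)) ∘ Ψ) w :=
    (smoothST_contDiffAt (u := fun _ y => chiW2 (D.N y 0))
      ((wl_smooth_δ2' I D hY).smoothST (Set.Icc 0 T)) hΨ ht hw).of_le two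
  have ha' : ContDiffAt ℝ 2 (fun v => (((fun y : CotAmb V => chiW1 (Pd.u y.1 / A)) ∘ Ψ) v)⁻¹) w :=
    ha.inv h1
  have hb' : ContDiffAt ℝ 2 (fun v => (((fun y : CotAmb V => chiW2 (D.N y 0)) ∘ Ψ) v)⁻¹) w :=
    hb.inv h2
  have hcn : ContDiffAt ℝ 2 (fun v => c * ((fun y => D.N y t) ∘ Ψ) v) w := contDiffAt_const.mul hn
  have e0 : (wlB0 Pd D d0 A c t ∘ Ψ) = fun v =>
      (c * ((fun y => D.N y t) ∘ Ψ) v + ((fun y : CotAmb V => d0 t y.1) ∘ Ψ) v +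
        (((fun y : CotAmb V => chiW1 (Pd.u y.1 / A)) ∘ Ψ) v)⁻¹) + (-1) := by
    funext v
    simp only [Function.comp, wlB0]
    ring
  have c0 : ContDiffAt ℝ 2 (wlB0 Pd D d0 A c t ∘ Ψ) w := by
    rw [e0]
    exact ((hcn.add he).add ha').add contDiffAt_const
  have e1 : (wlB1 Pd D d0 A c t ∘ Ψ) = fun v =>
      ((wlB0 Pd D d0 A c t ∘ Ψ) v + (((fun y : CotAmb V => chiW2 (D.N y 0)) ∘ Ψ) v)⁻¹) + (-1) := by
    funext v
    simp only [Function.comp, wlB1]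
    ring
  refine ⟨c0, ?_, ?_, ?_⟩
  · rw [e1]
    exact (c0.add hb').add contDiffAt_const
  · rw [e0, levi_add_const, levi_add (hcn.add he) ha', levi_add hcn he, levi_const_mul c hn]
  · rw [e1, levi_add_const, levi_add c0 hb']

/-- entries of the ambient Hessian of `1 / f`, after clearing the denominator. -/
theorem wl_inv_entry {f : CotAmb V → ℝ} {y : CotAmb V} (hy : y ∈ 𝒴.carrier)
    (hc2 : ContDiffAt ℝ 2 (f ∘ 𝒴.pΦ y) (𝒴.co y)) (hpos : 0 < f y) (hle : f y ≤ 1) {C : ℝ}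
    (hC1 : ∀ i j, ‖ambM 𝒴 G (ddc f) y i j‖ ≤ C)
    (hC2 : ∀ i j, ‖ambM 𝒴 G (ddc fun y' => f y' ^ 2) y i j‖ ≤ C) (i j : Fin q) :
    ‖((gPinv 𝒴 G y)ᴴ * levi (fun v => ((f ∘ 𝒴.pΦ y) v)⁻¹) (𝒴.co y) * gPinv 𝒴 G y) i j‖ ≤
      4 * C * (f y)⁻¹ ^ 3 := by
  have hyz : 𝒴.pΦ y (𝒴.co y) = y := 𝒴.pΦ_co hy
  have hfz : (f ∘ 𝒴.pΦ y) (𝒴.co y) = f y := by
    show f (𝒴.pΦ y (𝒴.co y)) = _
    rw [hyz]
  have ia := levi_inv_cleared hc2 (by rw [hfz]; exact hpos.ne')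
  rw [hfz] at ia
  set M := (gPinv 𝒴 G y)ᴴ * levi (fun v => ((f ∘ 𝒴.pΦ y) v)⁻¹) (𝒴.co y) * gPinv 𝒴 G y with hM
  have key : ((f y ^ 3 : ℝ) : ℂ) • M =
      ambM 𝒴 G (ddc fun y' => f y' ^ 2) y - ((3 * f y : ℝ) : ℂ) • ambM 𝒴 G (ddc f) y := by
    rw [hM, ← sym_cj_smul, ia, sym_cj_sub, sym_cj_smul]
    rfl
  have k2 := congrFun (congrFun key i) j
  simp only [Matrix.smul_apply, Matrix.sub_apply, smul_eq_mul] at k2
  have h3 : (0 : ℝ) < f y ^ 3 := by positivity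
  have hC0 : 0 ≤ C := (norm_nonneg _).trans (hC1 i j)
  have k3 : f y ^ 3 * ‖M i j‖ ≤ 4 * C := by
    have e : f y ^ 3 * ‖M i j‖ = ‖((f y ^ 3 : ℝ) : ℂ) * M i j‖ := by
      rw [norm_mul, Complex.norm_real, Real.norm_eq_abs, abs_of_pos h3]
    rw [e, k2]
    refine (norm_sub_le _ _).trans ?_
    rw [norm_mul, Complex.norm_real, Real.norm_eq_abs, abs_of_pos (by positivity : 0 < 3 * f y)]
    have h4 := hC2 i j
    have h5 := hC1 i j
    have h6 : 3 * f y * ‖ambM 𝒴 G (ddc f) y i j‖ ≤ 3 * 1 * C :=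
      mul_le_mul (by linarith) h5 (norm_nonneg _) (by norm_num)
    linarith
  rw [inv_pow, ← div_eq_mul_inv, le_div_iff₀ h3]
  linarith

/-- the core estimate on the fixed compact `{u ≤ A, N(·, 0) ≤ 1}`. -/
theorem wl_fib_core (I : InitialData 𝓜 g) (ho : o ∈ 𝓜.carrier) (Pd : PrelimData 𝓜 g o)
    (D : FlowData 𝓜 g o) (hY : IsCotangent 𝓜 𝒴) {T : ℝ} (hT0 : 0 < T) {d0 : ℝ → V → ℝ}
    (hd : 𝓜.SmoothST (Set.Icc 0 T) d0) {A : ℝ} (hA : 0 < A) :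
    ∃ C₁ : ℝ, 0 ≤ C₁ ∧ ∀ B : ℝ, 1 ≤ B → ∀ t ∈ Set.Icc (0 : ℝ) T, ∀ y ∈ 𝒴.carrier,
      0 < chiW1 (Pd.u y.1 / A) → 0 < chiW2 (D.N y 0) →
      |sympP (ambM 𝒴 Pd.G (ddc (wlB1 Pd D d0 A (B ^ 2) t)) y) (poisM 𝓜 Pd.G y) -
        sympP (ambM 𝒴 Pd.G (ddc (wlB0 Pd D d0 A (B ^ 2) t)) y) (poisM 𝓜 Pd.G y)| ≤
      C₁ * B ^ 2 * (chiW1 (Pd.u y.1 / A) * chiW2 (D.N y 0))⁻¹ ^ 6 := by
  have hG : GImm 𝒴 Pd.G := gimm_prelim Pd hY
  have hK := wl_compact_region (𝒴 := 𝒴) I ho Pd D hY A 1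
  set K : Set (CotAmb V) := {y : CotAmb V | y ∈ 𝒴.carrier ∧ Pd.u y.1 ≤ A ∧ D.N y 0 ≤ 1 ^ 2} with hKdef
  have hKY : K ⊆ 𝒴.carrier := fun y hy => hy.1
  have s1 : 𝒴.SmoothST (Set.Icc 0 T) fun _ y => chiW1 (Pd.u y.1 / A) :=
    smoothST_base hY ((wl_smooth_δ1 Pd A).smoothST (Set.Icc 0 T))
  have s2 : 𝒴.SmoothST (Set.Icc 0 T) fun _ y => chiW2 (D.N y 0) :=
    (wl_smooth_δ2' I D hY).smoothST (Set.Icc 0 T)
  obtain ⟨CN, hCN⟩ := wl_amb_bound hG hK hKY hT0 (u := fun t y => D.N y t) (N_smooth I hY T)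
  obtain ⟨Cd, hCd⟩ := wl_amb_bound hG hK hKY hT0 (u := fun t y => d0 t y.1) (smoothST_base hY hd)
  obtain ⟨Ca, hCa⟩ := wl_amb_bound hG hK hKY hT0 s1
  obtain ⟨Ca2, hCa2⟩ := wl_amb_bound hG hK hKY hT0 (smoothST_pow s1 2)
  obtain ⟨Cb, hCb⟩ := wl_amb_bound hG hK hKY hT0 s2
  obtain ⟨Cb2, hCb2⟩ := wl_amb_bound hG hK hKY hT0 (smoothST_pow s2 2)
  obtain ⟨c, hc0, hc, -⟩ := S4.pois_glip hY hG hK hKY
  set C : ℝ := |CN| + |Cd| + |Ca| + |Ca2| + |Cb| + |Cb2| with hC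
  have hC0 : 0 ≤ C := by positivity
  have lN : CN ≤ C := by
    have := le_abs_self CN
    have := abs_nonneg Cd; have := abs_nonneg Ca; have := abs_nonneg Ca2
    have := abs_nonneg Cb; have := abs_nonneg Cb2
    linarith
  have ld : Cd ≤ C := by
    have := le_abs_self Cd
    have := abs_nonneg CN; have := abs_nonneg Ca; have := abs_nonneg Ca2
    have := abs_nonneg Cb; have := abs_nonneg Cb2
    linarith
  have la : Ca ≤ C := by
    have := le_abs_self Ca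
    have := abs_nonneg CN; have := abs_nonneg Cd; have := abs_nonneg Ca2
    have := abs_nonneg Cb; have := abs_nonneg Cb2
    linarith
  have la2 : Ca2 ≤ C := by
    have := le_abs_self Ca2
    have := abs_nonneg CN; have := abs_nonneg Cd; have := abs_nonneg Ca
    have := abs_nonneg Cb; have := abs_nonneg Cb2
    linarith
  have lb : Cb ≤ C := by
    have := le_abs_self Cb
    have := abs_nonneg CN; have := abs_nonneg Cd; have := abs_nonneg Ca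
    have := abs_nonneg Ca2; have := abs_nonneg Cb2
    linarith
  have lb2 : Cb2 ≤ C := by
    have := le_abs_self Cb2
    have := abs_nonneg CN; have := abs_nonneg Cd; have := abs_nonneg Ca
    have := abs_nonneg Ca2; have := abs_nonneg Cb
    linarith
  refine ⟨(Fintype.card (Fin (Pd.NF + Pd.mX)) : ℝ) ^ 4 * c ^ 2 * (10 * C) * (4 * C), by positivity,
    fun B hB t ht y hy h1 h2 => ?_⟩
  have hyK : y ∈ K := by
    refine ⟨hy, ?_, ?_⟩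
    · have := wl_lt_of_chiW1_pos h1
      rw [div_lt_one hA] at this
      exact this.le
    · have := wl_lt_of_chiW2_pos h2
      linarith
  have hΨ := 𝒴.isHol_pΦ hy
  have hw := 𝒴.co_mem hy
  have hyz : 𝒴.pΦ y (𝒴.co y) = y := 𝒴.pΦ_co hy
  obtain ⟨-, -, e0, e1⟩ := wl_split I Pd D hY hd A (B ^ 2) ht hΨ hw
    (by rw [hyz]; exact h1.ne') (by rw [hyz]; exact h2.ne')
  set δ1 : ℝ := chiW1 (Pd.u y.1 / A) with hδ1
  set δ2 : ℝ := chiW2 (D.N y 0) with hδ2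
  have hδ1le : δ1 ≤ 1 := Real.smoothTransition.le_one _
  have hδ2le : δ2 ≤ 1 := Real.smoothTransition.le_one _
  set Q : ℝ := (δ1 * δ2)⁻¹ with hQ
  have hQ1 : 1 ≤ Q := (one_le_inv₀ (mul_pos h1 h2)).2 (by nlinarith)
  have hq1 : δ1⁻¹ ≤ Q := by
    rw [hQ]
    exact inv_anti₀ (mul_pos h1 h2) (by nlinarith)
  have hq2 : δ2⁻¹ ≤ Q := by
    rw [hQ]
    exact inv_anti₀ (mul_pos h1 h2) (by nlinarith)
  have hq13 : δ1⁻¹ ^ 3 ≤ Q ^ 3 := pow_le_pow_left₀ (inv_nonneg.2 h1.le) hq1 3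
  have hq23 : δ2⁻¹ ^ 3 ≤ Q ^ 3 := pow_le_pow_left₀ (inv_nonneg.2 h2.le) hq2 3
  have hQ3 : 1 ≤ Q ^ 3 := one_le_pow₀ hQ1
  have hB2 : 1 ≤ B ^ 2 := one_le_pow₀ hB
  have m1 := wl_inv_entry (G := Pd.G) (f := fun y : CotAmb V => chiW1 (Pd.u y.1 / A)) hy
    (sym_c2 s1 ht hy) h1 hδ1le (C := C) (fun i j => (hCa y hyK t ht i j).trans la)
    (fun i j => (hCa2 y hyK t ht i j).trans la2)
  have m2 := wl_inv_entry (G := Pd.G) (f := fun y : CotAmb V => chiW2 (D.N y 0)) hy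
    (sym_c2 s2 ht hy) h2 hδ2le (C := C) (fun i j => (hCb y hyK t ht i j).trans lb)
    (fun i j => (hCb2 y hyK t ht i j).trans lb2)
  set P := gPinv 𝒴 Pd.G y with hP
  set M1 := Pᴴ * levi (fun v => (((fun y : CotAmb V => chiW1 (Pd.u y.1 / A)) ∘ 𝒴.pΦ y) v)⁻¹)
    (𝒴.co y) * P with hM1
  set M2 := Pᴴ * levi (fun v => (((fun y : CotAmb V => chiW2 (D.N y 0)) ∘ 𝒴.pΦ y) v)⁻¹)
    (𝒴.co y) * P with hM2
  have E0 : ambM 𝒴 Pd.G (ddc (wlB0 Pd D d0 A (B ^ 2) t)) y =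
      ((B ^ 2 : ℝ) : ℂ) • ambM 𝒴 Pd.G (ddc fun y => D.N y t) y +
        ambM 𝒴 Pd.G (ddc fun y => d0 t y.1) y + M1 := by
    simp only [ambM_ddc_def]
    rw [e0, sym_cj_add, sym_cj_add, sym_cj_smul]
  have E1 : ambM 𝒴 Pd.G (ddc (wlB1 Pd D d0 A (B ^ 2) t)) y =
      ambM 𝒴 Pd.G (ddc (wlB0 Pd D d0 A (B ^ 2) t)) y + M2 := by
    simp only [ambM_ddc_def]
    rw [e1, sym_cj_add]
  have n1 : ∀ i j, ‖M1 i j‖ ≤ 4 * C * Q ^ 3 := fun i j =>
    (m1 i j).trans (mul_le_mul_of_nonneg_left hq13 (by positivity))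
  have n2 : ∀ i j, ‖M2 i j‖ ≤ 4 * C * Q ^ 3 := fun i j =>
    (m2 i j).trans (mul_le_mul_of_nonneg_left hq23 (by positivity))
  have fin := wl_mat_est (J := poisM 𝓜 Pd.G y) (c := c) hC0 hB2 hQ3 E0 E1
    (fun i j => (hCN y hyK t ht i j).trans lN) (fun i j => (hCd y hyK t ht i j).trans ld) n1 n2
    (fun i j => (hc y hyK i j).1)
  refine fin.trans (le_of_eq ?_)
  ring

theorem wl_cost_fscale (Pd : PrelimData 𝓜 g o) (D : FlowData 𝓜 g o) (d0 d0t : ℝ → V → ℝ)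
    (A c1 c2 t : ℝ) {B : ℝ} (hB : B ≠ 0) :
    (fun y => (mkWalls Pd D d0 d0t A B c1 c2).cost D (fscale ((B : ℝ) : ℂ) y) t) =
      wlB1 Pd D d0 A (B ^ 2) t := by
  funext y
  have hB2 : B ^ 2 ≠ 0 := pow_ne_zero 2 hB
  have e1 : (fscale ((B : ℝ) : ℂ) y).1 = y.1 := rfl
  simp only [Walls.cost, Walls.dc, Walls.kw, mkWalls, wlB1, wlB0, s6g_N_fscale, e1,
    Complex.norm_real, Real.norm_eq_abs, sq_abs]
  rw [mul_div_cancel_left₀ _ hB2]
  ring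

theorem wl_cost0_fscale (Pd : PrelimData 𝓜 g o) (D : FlowData 𝓜 g o) (d0 : ℝ → V → ℝ)
    (A t B : ℝ) :
    (fun y => (fun y' : CotAmb V => D.N y' t + (d0 t y'.1 + ((chiW1 (Pd.u y'.1 / A))⁻¹ - 1)))
      (fscale ((B : ℝ) : ℂ) y)) = wlB0 Pd D d0 A (B ^ 2) t := by
  funext y
  have e1 : (fscale ((B : ℝ) : ℂ) y).1 = y.1 := rfl
  simp only [wlB0, s6g_N_fscale, e1, Complex.norm_real, Real.norm_eq_abs, sq_abs]

/-- transport of `C²` regularity through the fibre scaling. -/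
theorem wl_c2_of_scale {Φ : CE (Fin n) → V} {B : ℝ} (hB : B ≠ 0) {β β' : CotAmb V → ℝ}
    (e : (fun y => β (fscale ((B : ℝ) : ℂ) y)) = β') {p : CE (Fin n ⊕ Fin n)}
    (h : ContDiffAt ℝ 2 (β' ∘ cotParam Φ) (wlScale (Fin n) B⁻¹ p)) :
    ContDiffAt ℝ 2 (β ∘ cotParam Φ) p := by
  have hc : (β ∘ cotParam Φ) = fun w => (β' ∘ cotParam Φ) (wlScale (Fin n) B⁻¹ w) := by
    funext w
    show β (cotParam Φ w) = β' (cotParam Φ (wlScale (Fin n) B⁻¹ w))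
    rw [← congrFun e, ← wl_cotParam_scale, wl_scale_scale hB]
  rw [hc]
  exact h.comp p ((wlScale (Fin n) B⁻¹).restrictScalars ℝ).contDiff.contDiffAt

/-- (5.20): the fibre wall error, with a constant independent of `B ≥ 1`. -/
theorem wl_fiber_wall_error (I : InitialData 𝓜 g) (ho : o ∈ 𝓜.carrier) (Pd : PrelimData 𝓜 g o)
    (D : FlowData 𝓜 g o) (hY : IsCotangent 𝓜 𝒴) {T : ℝ} (hT0 : 0 < T) {d0 d0t : ℝ → V → ℝ}
    (hd : IsBaseCost D T d0 d0t) {A : ℝ} (hA : 1 ≤ A) :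
    ∃ C' : ℝ, 1 ≤ C' ∧ ∀ B c1 c2 : ℝ, 1 ≤ B → ∀ (Φ : CE (Fin n) → V) (U : Set (CE (Fin n))),
      𝓜.IsHol Φ U → ∀ p ∈ cotDom U, cotParam Φ p ∈ (mkWalls Pd D d0 d0t A B c1 c2).reg 𝒴 →
      ∀ t ∈ Set.Ioo (0 : ℝ) T,
      |sympP (levi (fun p' => (mkWalls Pd D d0 d0t A B c1 c2).cost D (cotParam Φ p') t) p)
          (Jstd (Fin n)) -
        sympP (levi (fun p' => D.N (cotParam Φ p') t +
          (d0 t (cotParam Φ p').1 + ((chiW1 (Pd.u (cotParam Φ p').1 / A))⁻¹ - 1))) p) (Jstd (Fin n))|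
        ≤ C' * ((mkWalls Pd D d0 d0t A B c1 c2).pw (cotParam Φ p))⁻¹ ^ 6 ∧
      (thW2 (D.N (cotParam Φ p) 0 / B ^ 2) ≠ 1 →
        sympP (levi (fun p' => (mkWalls Pd D d0 d0t A B c1 c2).cost D (cotParam Φ p') t) p)
          (Jstd (Fin n)) =
        sympP (levi (fun p' => D.N (cotParam Φ p') t +
          (d0 t (cotParam Φ p').1 + ((chiW1 (Pd.u (cotParam Φ p').1 / A))⁻¹ - 1))) p)
          (Jstd (Fin n))) := by
  have hA0 : 0 < A := by linarith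
  have hG : GImm 𝒴 Pd.G := gimm_prelim Pd hY
  obtain ⟨C₁, hC₁0, hC₁⟩ := wl_fib_core (𝒴 := 𝒴) I ho Pd D hY hT0 hd.smooth hA0
  refine ⟨max 1 C₁, le_max_left _ _, fun B c1 c2 hB Φ U hΦ p hp hreg t ht => ⟨?_, fun hth => ?_⟩⟩
  · have hB0 : B ≠ 0 := by linarith
    have hB2 : 0 < B ^ 2 := by positivity
    have ht' : t ∈ Set.Icc (0 : ℝ) T := Set.Ioo_subset_Icc_self ht
    set p' := wlScale (Fin n) B⁻¹ p with hp'def
    have hp' : p' ∈ cotDom U := hp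
    have hpp : wlScale (Fin n) B p' = p := wl_scale_scale hB0 p
    have hy' : cotParam Φ p' ∈ 𝒴.carrier := s6g_cotParam_mem hY hΦ hp'
    have hfs : cotParam Φ p = fscale ((B : ℝ) : ℂ) (cotParam Φ p') := by
      rw [← wl_cotParam_scale, hpp]
    have hN0 : D.N (cotParam Φ p) 0 / B ^ 2 = D.N (cotParam Φ p') 0 := by
      rw [hfs, s6g_N_fscale, Complex.norm_real, Real.norm_eq_abs, sq_abs,
        mul_div_cancel_left₀ _ hB2.ne']
    have hb1 : (cotParam Φ p).1 = (cotParam Φ p').1 := by rw [hfs]; rfl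
    have hpw : (mkWalls Pd D d0 d0t A B c1 c2).pw (cotParam Φ p) =
        chiW1 (Pd.u (cotParam Φ p').1 / A) * chiW2 (D.N (cotParam Φ p') 0) := by
      show chiW1 (Pd.u (cotParam Φ p).1 / A) * chiW2 (D.N (cotParam Φ p) 0 / B ^ 2) = _
      rw [hN0, hb1]
    have hpos : 0 < chiW1 (Pd.u (cotParam Φ p').1 / A) * chiW2 (D.N (cotParam Φ p') 0) := by
      rw [← hpw]
      exact hreg.2
    have hn1 : 0 ≤ chiW1 (Pd.u (cotParam Φ p').1 / A) := Real.smoothTransition.nonneg _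
    have hn2 : 0 ≤ chiW2 (D.N (cotParam Φ p') 0) := Real.smoothTransition.nonneg _
    have h1 : 0 < chiW1 (Pd.u (cotParam Φ p').1 / A) := by
      rcases hn1.lt_or_eq with h | h
      · exact h
      · rw [← h, zero_mul] at hpos
        exact absurd hpos (lt_irrefl _)
    have h2 : 0 < chiW2 (D.N (cotParam Φ p') 0) := by
      rcases hn2.lt_or_eq with h | h
      · exact h
      · rw [← h, mul_zero] at hpos
        exact absurd hpos (lt_irrefl _)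
    obtain ⟨c0, c1', -, -⟩ := wl_split I Pd D hY hd.smooth A (B ^ 2) ht' (hY.isHol hΦ) hp'
      h1.ne' h2.ne'
    have ec := wl_cost_fscale Pd D d0 d0t A c1 c2 t hB0
    have e0 := wl_cost0_fscale Pd D d0 A t B
    have S1 := wl_symp_scale Φ B (β := fun y => (mkWalls Pd D d0 d0t A B c1 c2).cost D y t)
      (p := p') (by rw [hpp]; exact wl_c2_of_scale hB0 ec c1')
    have S0 := wl_symp_scale Φ B
      (β := fun y' : CotAmb V => D.N y' t + (d0 t y'.1 + ((chiW1 (Pd.u y'.1 / A))⁻¹ - 1)))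
      (p := p') (by rw [hpp]; exact wl_c2_of_scale hB0 e0 c0)
    rw [ec, hpp, wl_symp_amb hY hG hΦ hp' c1'] at S1
    rw [e0, hpp, wl_symp_amb hY hG hΦ hp' c0] at S0
    have key := hC₁ B hB t ht' _ hy' h1 h2
    rw [S1, S0, ← mul_sub, abs_mul, abs_of_pos hB2] at key
    rw [hpw]
    set Q6 : ℝ := (chiW1 (Pd.u (cotParam Φ p').1 / A) * chiW2 (D.N (cotParam Φ p') 0))⁻¹ ^ 6
      with hQ6
    have hQ60 : 0 ≤ Q6 := by positivity
    have k2 : B ^ 2 * |sympP (levi ((fun y => (mkWalls Pd D d0 d0t A B c1 c2).cost D y t) ∘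
        cotParam Φ) p) (Jstd (Fin n)) - sympP (levi ((fun y' : CotAmb V => D.N y' t +
        (d0 t y'.1 + ((chiW1 (Pd.u y'.1 / A))⁻¹ - 1))) ∘ cotParam Φ) p) (Jstd (Fin n))| ≤
        B ^ 2 * (C₁ * Q6) := by
      refine key.trans (le_of_eq ?_)
      ring
    have k3 := le_of_mul_le_mul_left k2 hB2
    exact k3.trans (mul_le_mul_of_nonneg_right (le_max_right _ _) hQ60)
  · have hB2 : 0 < B ^ 2 := by positivity
    have h1 := wl_lt_of_thW2_ne_one hth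
    have hopen : IsOpen (cotDom U) := s6g_isOpen_cotDom (𝓜.isParam hΦ).isOpen
    have hc : ContinuousAt (fun p' => D.N (cotParam Φ p') 0) p :=
      ((wl_smooth_N0 I D hY _ _ (hY.isHol hΦ)).continuousOn).continuousAt (hopen.mem_nhds hp)
    have h2 : D.N (cotParam Φ p) 0 < 1 / 2 * B ^ 2 := by
      rw [div_lt_iff₀ hB2] at h1
      linarith
    have hev : (fun p' => (mkWalls Pd D d0 d0t A B c1 c2).cost D (cotParam Φ p') t) =ᶠ[𝓝 p]
        fun p' => D.N (cotParam Φ p') t +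
          (d0 t (cotParam Φ p').1 + ((chiW1 (Pd.u (cotParam Φ p').1 / A))⁻¹ - 1)) := by
      filter_upwards [hc.eventually (Iio_mem_nhds h2)] with p' hp'
      have h3 : D.N (cotParam Φ p') 0 / B ^ 2 ≤ 1 / 2 := by
        rw [div_le_iff₀ hB2]
        exact le_of_lt hp'
      simp only [Walls.cost, Walls.dc, Walls.kw, mkWalls]
      rw [wl_chiW2_one h3]
      norm_num
    rw [levi_congr hev]

end flow

end Claimed.Agent.R316
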