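import Claimed.Agent.R316.S5.Local
import Claimed.Agent.R316.S5.WallsB
import Claimed.Agent.R316.S5.WallsFib

/-!
# Row 316, Section 5.1 + 5.4: construction of the localisation data (`IsWalls`)
((5.2)-(5.5), (5.20)-(5.23))

SIMPLIFICATION.  The fibre wall error (5.20) is bounded INDEPENDENTLY of `B` by fibre scaling `μ_B (x, ξ) = (x, B ξ)`: in cotangent coordinates
`levi (β ∘ μ_B) = Λᴴ (levi β ∘ μ_B) Λ`, `Λ = diag(1, B)`, `Λ Jstd Λᵀ = B Jstd`, hence `p(dd(β ∘ μ_B)) = B² p(dd β) ∘ μ_B`.  With `N_t ∘ μ_B = B² N_t` and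
`k₂^B ∘ μ_B = k₂^1` the error at `μ_B y'` is `B⁻² [2 B² p(W_N, W_κ) + 2 p(W_d, W_κ) + p(W_κ)](y')`, `p(·,·)` the polarisation, with all tensors evaluated on the FIXED
compact `{u ≤ A, N(·,0) ≤ 1}`; after clearing denominators (`δ₁³ W_d`, `δ₂³ W_κ` are smooth on `Y`) everything is bounded there.  So `c₃ = 6`, `a = 2`, `c = 1`, `A1 = 8`.

Leaves: `S5-W1` (profiles), `S5-W2` `tail_wall`, `S5-W3` `compact_region`, `S5-W4` `base_wall_error`, `S5-W5` `fiber_wall_error`,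
`S5-W6` `isWalls_mkWalls` (assembly of `IsWalls`), `S5-W7` `walls_exist` (choice of `j`, `A`, `B`).

The profiles `chiW1 ..`, `chiW_recip_bounds`, `mkWalls`, `IsBaseCost` live in `S5/WallsDef.lean`; W5 is proved in `S5/WallsFib.lean`.
-/

set_option autoImplicit false
set_option maxSynthPendingDepth 3
open scoped ContDiff ComplexOrder Topology Matrix
open MeasureTheory Filter

namespace Claimed.Agent.R316

variable {V : Type} [NormedAddCommGroup V] [InnerProductSpace ℝ V] [FiniteDimensional ℝ V]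
variable [MeasurableSpace V] [BorelSpace V]
variable {n : ℕ} {𝓜 : CMfd V (Fin n)} {g : HFam V (Fin n)} {o : V}
variable {𝒴 : CMfd (CotAmb V) (Fin n ⊕ Fin n)}

/-- (5.2), (5.3): base costs, small on a given compact, with the tail wall `d_0 ≥ ρ + j` on `u > A/3` for all large `A`. -/
theorem tail_wall (I : InitialData 𝓜 g) (Pd : PrelimData 𝓜 g o) (D : FlowData 𝓜 g o)
    (hT : D.StTails) {T : ℝ} (hT0 : 0 < T) {K : Set V} (hK : IsCompact K) (hKM : K ⊆ 𝓜.carrier)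
    {τ : ℝ} (hτ : 0 < τ) (j₀ : ℕ) :
    ∃ (j : ℕ) (d0 d0t : ℝ → V → ℝ) (A₀ : ℝ), j₀ ≤ j ∧ IsBaseCost D T d0 d0t ∧
      (∀ t ∈ Set.Icc (0 : ℝ) T, ∀ x ∈ K, d0 t x ≤ τ) ∧
      ∀ A : ℝ, A₀ ≤ A → ∀ t ∈ Set.Icc (0 : ℝ) T, ∀ x ∈ 𝓜.carrier, A / 3 < Pd.u x →
        D.rho t x + j ≤ d0 t x := by
  have : Nonempty (Fin n) := ⟨⟨0, I.n_pos⟩⟩
  obtain ⟨r, rt, C, hrs, hr, hrK⟩ := hT T hT0
  obtain ⟨Q, Qt, c, hc, hQs, hQ⟩ := D.supercal T hT0
  obtain ⟨j₁, hj₁⟩ := hrK K hK hKM (τ / 2) (half_pos hτ)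
  set j : ℕ := max j₀ j₁ with hj
  have hTD : IsTimeDom (Set.Icc 0 T) := isTimeDom_Icc hT0
  -- bound of `Q` on the compact
  obtain ⟨M, hM⟩ := (isCompact_Icc.prod hK).exists_bound_of_continuousOn
    (hQs.continuousOn.mono (Set.prod_mono subset_rfl hKM))
  set ε : ℝ := τ / (2 * (|M| + 1)) with hε
  have hM1 : 0 < |M| + 1 := by positivity
  have hε0 : 0 < ε := by positivity
  set R : ℝ := (|C j| + j) / (ε * c) + 1 with hR
  have hR0 : 0 ≤ R := by positivity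
  have hQt : 𝓜.SmoothST (Set.Icc 0 T) Qt :=
    hQs.of_hasDerivWithinAt hTD fun t ht x hx => (hQ t ht x hx).1
  have hrt : 𝓜.SmoothST (Set.Icc 0 T) (rt j) :=
    (hrs j).of_hasDerivWithinAt hTD fun t ht x hx => (hr j t ht x hx).1
  refine ⟨j, fun t x => r j t x + ε * Q t x, fun t x => rt j t x + ε * Qt t x,
    3 * Pd.Cu * (R + 1), le_max_left _ _, ⟨?_, ?_, ?_, ?_, ?_⟩, ?_, ?_⟩
  · exact fun Φ U hΦ => (hrs j Φ U hΦ).add (contDiffOn_const.mul (hQs Φ U hΦ))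
  · exact fun Φ U hΦ => (hrt Φ U hΦ).add (contDiffOn_const.mul (hQt Φ U hΦ))
  · intro t ht x hx
    exact (hr j t ht x hx).1.add ((hQ t ht x hx).1.const_mul ε)
  · intro t ht x hx
    have h1 := (hr j t ht x hx).2.2.1
    have h2 := (hQ t ht x hx).2.1
    have h3 : 0 ≤ c * (1 + hdist 𝓜 g o x ^ 2) := by positivity
    have h4 : 0 ≤ ε * Q t x := mul_nonneg hε0.le (h3.trans h2)
    linarith
  · intro t ht x hx
    have c1 : 𝓜.C2At (r j t) x := ((hrs j).smooth ht).c2At hx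
    have c2 : 𝓜.C2At (Q t) x := (hQs.smooth ht).c2At hx
    have e : lap 𝓜 (D.h t) (fun x => r j t x + ε * Q t x) x =
        lap 𝓜 (D.h t) (r j t) x + ε * lap 𝓜 (D.h t) (Q t) x := by
      rw [lap_add (D.h t) c1 (c2.const_mul ε), lap_const_mul (D.h t) ε c2]
    rw [e]
    have h1 := (hr j t ht x hx).2.1
    have h2 := (hQ t ht x hx).2.2
    have h3 : 0 < tr 𝓜 (flowMetric g D.U t) g x :=
      tr_pos (D.kahler t ht.1).toIsMetric I.kahler.toIsMetric hx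
    have h4 : 0 ≤ Qt t x - lap 𝓜 (D.h t) (Q t) x := (mul_pos hc h3).le.trans h2
    have h5 := mul_nonneg hε0.le h4
    linarith
  · intro t ht x hx
    have h1 := hj₁ j (le_max_right _ _) t ht x hx
    have h2 : ‖Q t x‖ ≤ M := hM (t, x) ⟨ht, hx⟩
    have h3 : Q t x ≤ |M| + 1 := by
      have := (le_abs_self (Q t x)).trans (h2.trans (le_abs_self M))
      linarith
    have h4 : ε * Q t x ≤ τ / 2 := by
      calc ε * Q t x ≤ ε * (|M| + 1) := mul_le_mul_of_nonneg_left h3 hε0.le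
        _ = τ / 2 := by rw [hε]; field_simp
    show r j t x + ε * Q t x ≤ τ
    linarith
  · intro A hA t ht x hx hu
    have h1 := (hr j t ht x hx).2.2.2.2
    have h2 := (hQ t ht x hx).2.1
    have h3 := Pd.u_upper x hx
    have hCu := Pd.Cu_pos
    have h4 : R < hdist 𝓜 g o x := by
      have h5 : Pd.Cu * (R + 1) < Pd.Cu * (1 + hdist 𝓜 g o x) := by
        have : 3 * Pd.Cu * (R + 1) / 3 < Pd.u x := lt_of_le_of_lt (by linarith) hu
        linarith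
      have := lt_of_mul_lt_mul_left h5 hCu.le
      linarith
    have h6 : R ≤ 1 + hdist 𝓜 g o x ^ 2 := by nlinarith
    have h7 : |C j| + j ≤ ε * c * R := by
      have hεc : 0 < ε * c := mul_pos hε0 hc
      rw [hR, mul_add, mul_div_cancel₀ _ hεc.ne']
      linarith
    have h8 : ε * c * R ≤ ε * Q t x := by
      calc ε * c * R ≤ ε * c * (1 + hdist 𝓜 g o x ^ 2) :=
            mul_le_mul_of_nonneg_left h6 (mul_pos hε0 hc).le
        _ = ε * (c * (1 + hdist 𝓜 g o x ^ 2)) := by ring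
        _ ≤ ε * Q t x := mul_le_mul_of_nonneg_left h2 hε0.le
    have h9 := le_abs_self (C j)
    show D.rho t x + j ≤ r j t x + ε * Q t x
    linarith

theorem w3_isCompact_le (I : InitialData 𝓜 g) (ho : o ∈ 𝓜.carrier) (PD : PrelimData 𝓜 g o) (L : ℝ) :
    IsCompact {x | x ∈ 𝓜.carrier ∧ PD.u x ≤ L} := by
  have h : IsClosed (𝓜.carrier ∩ PD.u ⁻¹' Set.Iic L) :=
    PD.u_smooth.continuousOn.preimage_isClosed_of_isClosed I.closed isClosed_Iic
  refine (I.proper o ho (PD.Cu * L)).of_isClosed_subset h ?_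
  rintro x ⟨hx, hxL⟩
  refine ⟨hx, ?_⟩
  have h1 := PD.u_lower x hx
  have h2 : PD.Cu⁻¹ * (1 + hdist 𝓜 g o x) ≤ L := h1.trans hxL
  rw [inv_mul_le_iff₀ PD.Cu_pos] at h2
  linarith

open S6 S4 in
/-- a bound of `N(·, 0)` over a compact of `M` bounds the pairings with the fields `X_i`. -/
theorem w3_pairing_le (I : InitialData 𝓜 g) (Pd : PrelimData 𝓜 g o) (D : FlowData 𝓜 g o)
    (hY : IsCotangent 𝓜 𝒴) {K₀ : Set V} (hK₀ : IsCompact K₀) (hsub : K₀ ⊆ 𝓜.carrier) (B : ℝ) :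
    ∃ C : ℝ, ∀ y ∈ 𝒴.carrier, y.1 ∈ K₀ → D.N y 0 ≤ B ^ 2 → ∀ i, ‖y.2 (Pd.X i y.1)‖ ≤ C := by
  refine hK₀.induction_on (p := fun K => ∃ C : ℝ, ∀ y ∈ 𝒴.carrier, y.1 ∈ K → D.N y 0 ≤ B ^ 2 →
    ∀ i, ‖y.2 (Pd.X i y.1)‖ ≤ C) ?_ ?_ ?_ ?_
  · exact ⟨0, fun y _ hy => absurd hy (Set.notMem_empty _)⟩
  · rintro s t hst ⟨C, hC⟩
    exact ⟨C, fun y hy h1 => hC y hy (hst h1)⟩
  · rintro s t ⟨C, hC⟩ ⟨C', hC'⟩
    refine ⟨max C C', fun y hy h1 h2 i => ?_⟩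
    rcases h1 with h | h
    · exact (hC y hy h h2 i).trans (le_max_left _ _)
    · exact (hC' y hy h h2 i).trans (le_max_right _ _)
  · intro x hx
    have hxM := hsub hx
    have hΦ := 𝓜.isHol_pΦ hxM
    set Φ := 𝓜.pΦ x with hΦdef
    set U := 𝓜.pU x with hUdef
    have hz₀ : 𝓜.co x ∈ U := 𝓜.co_mem hxM
    have hU : IsOpen U := CMfd.isOpen_dom hΦ
    have hP := 𝓜.isParam hΦ
    obtain ⟨r, hr, hrU⟩ := Metric.nhds_basis_closedBall.mem_iff.1 (hU.mem_nhds hz₀)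
    choose a had ha using fun i => Pd.X_hol i Φ U hΦ
    have hg : IsMetric 𝓜 g := I.kahler.toIsMetric
    have hc : ∀ i, ContinuousOn (fun z => qf (g Φ z) (a i z)) (Metric.closedBall (𝓜.co x) r) := by
      intro i
      have h1 : ContDiffOn ℝ 0 (fun z => qf (g Φ z) (a i z)) U := by
        refine contDiffOn_qf (fun j k => ((hg.smooth hΦ j k).of_le (by simp))) fun j => ?_
        refine contDiffOn_zero.2 ?_
        exact (EuclideanSpace.proj j : CE (Fin n) →L[ℂ] ℂ).continuous.comp_continuousOn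
          (had i).continuousOn
      exact (contDiffOn_zero.1 h1).mono hrU
    choose M hM using fun i => (isCompact_closedBall (𝓜.co x) r).exists_bound_of_continuousOn (hc i)
    refine ⟨Φ '' Metric.closedBall (𝓜.co x) r, ?_, ?_⟩
    · have h1 : Φ '' Metric.closedBall (𝓜.co x) r ∈ 𝓝[𝓜.carrier] x := by
        have := hP.map_nhds_eq hz₀
        have e : Φ (𝓜.co x) = x := 𝓜.pΦ_co hxM
        rw [e] at this
        rw [← this]
        exact image_mem_map (Metric.closedBall_mem_nhds _ hr)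
      exact nhdsWithin_mono x hsub h1
    · refine ⟨∑ i, Real.sqrt (B ^ 2 * |M i|), ?_⟩
      rintro y hy ⟨z, hz, hzy⟩ hN i
      obtain ⟨ζ, hζ⟩ := s6g_exists_cotParam hY hy hΦ (hrU hz) hzy.symm
      have hmem := s6g_cJoin_mem_cotDom (hrU hz) ζ
      have h1 := cpt_pairing_chart Pd hΦ (ha i) hmem
      rw [← hζ, s6g_cFib_cJoin, cBase_cJoin] at h1
      have h2 := s6g_N_chart D hΦ hmem (le_refl (0 : ℝ))
      rw [← hζ] at h2
      unfold nloc bmat at h2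
      rw [s6g_cFib_cJoin, cBase_cJoin, s6g_h_zero D hΦ (hrU hz)] at h2
      have h3 := dual_cauchy_schwarz (hg.posDef hΦ z (hrU hz)) ζ (a i z)
      rw [← h1, ← h2] at h3
      have h4 : qf (g Φ z) (a i z) ≤ |M i| :=
        (le_abs_self _).trans ((hM i z hz).trans (le_abs_self _))
      have h5 : 0 ≤ qf (g Φ z) (a i z) :=
        qf_nonneg (hg.posDef hΦ z (hrU hz)).posSemidef _
      have h6 : 0 ≤ D.N y 0 := s6g_N_nonneg D hY hy le_rfl
      have h7 : ‖y.2 (Pd.X i y.1)‖ ^ 2 ≤ B ^ 2 * |M i| :=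
        h3.trans (mul_le_mul hN h4 h5 (sq_nonneg _))
      have h8 : ‖y.2 (Pd.X i y.1)‖ ≤ Real.sqrt (B ^ 2 * |M i|) := Real.le_sqrt_of_sq_le h7
      exact h8.trans (Finset.single_le_sum (f := fun i => Real.sqrt (B ^ 2 * |M i|))
        (fun j _ => Real.sqrt_nonneg _) (Finset.mem_univ i))

/-- the closed boundary region is compact in `Y`. -/
theorem compact_region (I : InitialData 𝓜 g) (ho : o ∈ 𝓜.carrier) (Pd : PrelimData 𝓜 g o) (D : FlowData 𝓜 g o)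
    (hY : IsCotangent 𝓜 𝒴) (A B : ℝ) :
    IsCompact {y : CotAmb V | y ∈ 𝒴.carrier ∧ Pd.u y.1 ≤ A ∧ D.N y 0 ≤ B ^ 2} := by
  have hK₀ := w3_isCompact_le I ho Pd A
  have hsub : {x | x ∈ 𝓜.carrier ∧ Pd.u x ≤ A} ⊆ 𝓜.carrier := fun x hx => hx.1
  obtain ⟨C, hC⟩ := w3_pairing_le I Pd D hY hK₀ hsub B
  have hQ := S4.isCompact_cot_of_bound I Pd hY hK₀ hsub C
  set Q := {y : CotAmb V | y ∈ 𝒴.carrier ∧ y.1 ∈ {x | x ∈ 𝓜.carrier ∧ Pd.u x ≤ A} ∧
    ∀ i, ‖y.2 (Pd.X i y.1)‖ ≤ C} with hQdef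
  have hQY : Q ⊆ 𝒴.carrier := fun y hy => hy.1
  have hc : ContinuousOn (fun y : CotAmb V => D.N y 0) Q :=
    (S6.s6g_N0_continuousOn D I.kahler.toIsMetric hY).mono hQY
  have hcl : IsClosed (Q ∩ (fun y : CotAmb V => D.N y 0) ⁻¹' Set.Iic (B ^ 2)) :=
    hc.preimage_isClosed_of_isClosed hQ.isClosed isClosed_Iic
  refine hQ.of_isClosed_subset ?_ ?_
  · convert hcl using 1
    ext y
    constructor
    · rintro ⟨h1, h2, h3⟩
      exact ⟨⟨h1, ⟨S6.s6g_base_mem hY h1, h2⟩, hC y h1 ⟨S6.s6g_base_mem hY h1, h2⟩ h3⟩, h3⟩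
    · rintro ⟨⟨h1, h2, -⟩, h3⟩
      exact ⟨h1, h2.2, h3⟩
  · rintro y ⟨h1, h2, h3⟩
    exact ⟨h1, ⟨S6.s6g_base_mem hY h1, h2⟩, hC y h1 ⟨S6.s6g_base_mem hY h1, h2⟩ h3⟩

/-- (5.21): `|Δ_{h_t} k₁| ≤ C e^ρ δ₁⁻³`, uniformly in `A ≥ 1`, and `k₁` is locally constant where `χ₁ ≠ 1`. -/
theorem base_wall_error (I : InitialData 𝓜 g) (Pd : PrelimData 𝓜 g o) (D : FlowData 𝓜 g o) :
    ∃ C : ℝ, ∀ A : ℝ, 1 ≤ A → ∀ t : ℝ, 0 ≤ t → ∀ x ∈ 𝓜.carrier, Pd.u x < A →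
      |lap 𝓜 (D.h t) (fun x' => (chiW1 (Pd.u x' / A))⁻¹ - 1) x| ≤
        C * Real.exp (D.rho t x) * (chiW1 (Pd.u x / A))⁻¹ ^ 3 ∧
      (thW1 (Pd.u x / A) ≠ 1 → lap 𝓜 (D.h t) (fun x' => (chiW1 (Pd.u x' / A))⁻¹ - 1) x = 0) := by
  obtain ⟨C, hC⟩ := chiW_recip_bounds
  refine ⟨|C| * (n * Pd.Cu) + |C| * (n * Pd.Cu ^ 2), fun A hA t ht x hx hxA => ?_⟩
  have hA0 : 0 < A := lt_of_lt_of_le one_pos hA
  have hy : Pd.u x / A < 1 := (div_lt_one hA0).2 hxA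
  have hpos : 0 < chiW1 (Pd.u x / A) := Real.smoothTransition.pos_of_pos (by linarith)
  have hchi : ContDiff ℝ 2 chiW1 :=
    (Real.smoothTransition.contDiff (n := 2)).comp
      (contDiff_const.mul (contDiff_const.sub contDiff_id))
  have hR : ContDiffAt ℝ 2 (fun y => (chiW1 y)⁻¹) (Pd.u x / A) :=
    hchi.contDiffAt.inv hpos.ne'
  obtain ⟨c1, c2, -, -⟩ := hC _ hy
  constructor
  · refine (wb_lap_profile_le Pd D I hA ht hx hR).trans ?_
    have hq : 1 ≤ (chiW1 (Pd.u x / A))⁻¹ :=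
      (one_le_inv₀ hpos).2 (Real.smoothTransition.le_one _)
    set q : ℝ := (chiW1 (Pd.u x / A))⁻¹ with hqdef
    have hq0 : 0 ≤ q := zero_le_one.trans hq
    have hq23 : q ^ 2 ≤ q ^ 3 := pow_le_pow_right₀ hq (by norm_num)
    have d1 : |deriv (fun y => (chiW1 y)⁻¹) (Pd.u x / A)| ≤ |C| * q ^ 3 :=
      c1.trans ((mul_le_mul_of_nonneg_right (le_abs_self C) (by positivity)).trans
        (mul_le_mul_of_nonneg_left hq23 (abs_nonneg C)))
    have d2 : |deriv (deriv fun y => (chiW1 y)⁻¹) (Pd.u x / A)| ≤ |C| * q ^ 3 :=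
      c2.trans (mul_le_mul_of_nonneg_right (le_abs_self C) (by positivity))
    have hCu := Pd.Cu_pos.le
    have e1 := mul_le_mul_of_nonneg_right d1 (by positivity : 0 ≤ (n : ℝ) * Pd.Cu)
    have e2 := mul_le_mul_of_nonneg_right d2 (by positivity : 0 ≤ (n : ℝ) * Pd.Cu ^ 2)
    have e3 := mul_le_mul_of_nonneg_right (add_le_add e1 e2) (Real.exp_pos (D.rho t x)).le
    refine e3.trans (le_of_eq ?_)
    ring
  · intro hth
    have hy2 : Pd.u x / A < 1 / 2 := by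
      by_contra hcon
      exact hth (Real.smoothTransition.one_of_one_le (by linarith [not_lt.1 hcon]))
    have hev : (fun y => (chiW1 y)⁻¹) =ᶠ[𝓝 (Pd.u x / A)] fun _ => (1 : ℝ) := by
      filter_upwards [Iio_mem_nhds hy2] with y hy'
      have hy'' : y < 1 / 2 := hy'
      have : chiW1 y = 1 := Real.smoothTransition.one_of_one_le (by linarith)
      rw [this, inv_one]
    rw [wb_lap_profile Pd D hx hR, hev.deriv_eq, hev.deriv.deriv_eq]
    simp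

/-- (5.20): the fibre wall error, with a constant independent of `B ≥ 1`. -/
theorem fiber_wall_error (I : InitialData 𝓜 g) (ho : o ∈ 𝓜.carrier) (Pd : PrelimData 𝓜 g o) (D : FlowData 𝓜 g o)
    (hY : IsCotangent 𝓜 𝒴) {T : ℝ} (hT0 : 0 < T) {d0 d0t : ℝ → V → ℝ}
    (hd : IsBaseCost D T d0 d0t) {A : ℝ} (hA : 1 ≤ A) :
    ∃ C' : ℝ, 1 ≤ C' ∧ ∀ B c1 c2 : ℝ, 1 ≤ B → ∀ (Φ : CE (Fin n) → V) (U : Set (CE (Fin n))),
      𝓜.IsHol Φ U → ∀ p ∈ cotDom U, cotParam Φ p ∈ (mkWalls Pd D d0 d0t A B c1 c2).reg 𝒴 →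
      ∀ t ∈ Set.Ioo (0 : ℝ) T,
      |sympP (levi (fun p' => (mkWalls Pd D d0 d0t A B c1 c2).cost D (cotParam Φ p') t) p)
          (Jstd (Fin n)) -
        sympP (levi (fun p' => D.N (cotParam Φ p') t +
          (d0 t (cotParam Φ p').1 + ((chiW1 (Pd.u (cotParam Φ p').1 / A))⁻¹ - 1))) p) (Jstd (Fin n))|
        ≤ C' * ((mkWalls Pd D d0 d0t A B c1 c2).pw (cotParam Φ p))⁻¹ ^ 6 ∧
      (thW2 (D.N (cotParam Φ p) 0 / B ^ 2) ≠ 1 →
        sympP (levi (fun p' => (mkWalls Pd D d0 d0t A B c1 c2).cost D (cotParam Φ p') t) p)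
          (Jstd (Fin n)) =
        sympP (levi (fun p' => D.N (cotParam Φ p') t +
          (d0 t (cotParam Φ p').1 + ((chiW1 (Pd.u (cotParam Φ p').1 / A))⁻¹ - 1))) p)
          (Jstd (Fin n))) :=
  wl_fiber_wall_error I ho Pd D hY hT0 hd hA

theorem wa_chiW1_pos {x : ℝ} : 0 < chiW1 x ↔ x < 1 := by
  unfold chiW1
  constructor
  · intro h
    by_contra hx
    rw [Real.smoothTransition.zero_of_nonpos (by linarith)] at h
    exact lt_irrefl _ h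
  · intro h
    exact Real.smoothTransition.pos_of_pos (by linarith)

theorem wa_chiW2_pos {x : ℝ} : 0 < chiW2 x ↔ x < 1 := by
  unfold chiW2
  constructor
  · intro h
    by_contra hx
    rw [Real.smoothTransition.zero_of_nonpos (by linarith)] at h
    exact lt_irrefl _ h
  · intro h
    exact Real.smoothTransition.pos_of_pos (by linarith)

theorem wa_chiW1_one {x : ℝ} (h : x ≤ 2 / 3) : chiW1 x = 1 :=
  Real.smoothTransition.one_of_one_le (by linarith)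

theorem wa_chiW2_one {x : ℝ} (h : x ≤ 1 / 2) : chiW2 x = 1 :=
  Real.smoothTransition.one_of_one_le (by linarith)

theorem wa_thW1_zero {x : ℝ} (h : x ≤ 1 / 3) : thW1 x = 0 :=
  Real.smoothTransition.zero_of_nonpos (by linarith)

theorem wa_thW2_zero {x : ℝ} (h : x ≤ 1 / 8) : thW2 x = 0 :=
  Real.smoothTransition.zero_of_nonpos (by linarith)

theorem wa_st_mem (x : ℝ) : Real.smoothTransition x ∈ Set.Icc (0 : ℝ) 1 :=
  ⟨Real.smoothTransition.nonneg x, Real.smoothTransition.le_one x⟩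

theorem wa_smooth_comp {V' : Type} [NormedAddCommGroup V'] [NormedSpace ℝ V'] {κ : Type}
    [Fintype κ] {𝓧 : CMfd V' κ} {u : V' → ℝ} (hu : 𝓧.Smooth u) {χ : ℝ → ℝ}
    (hχ : ContDiff ℝ ∞ χ) : 𝓧.Smooth fun x => χ (u x) :=
  fun Φ U hΦ => hχ.comp_contDiffOn (hu Φ U hΦ)

theorem wa_contDiff_prof (a b c : ℝ) :
    ContDiff ℝ ∞ fun x : ℝ => Real.smoothTransition (a * (x / c) + b) :=
  Real.smoothTransition.contDiff.comp (by fun_prop)

/-- `- log δ ≤ δ⁻¹ - 1`. -/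
theorem wa_neg_log_le {δ : ℝ} (h : 0 < δ) : - Real.log δ ≤ δ⁻¹ - 1 := by
  rw [← Real.log_inv]
  exact Real.log_le_sub_one_of_pos (inv_pos.2 h)

theorem wa_reg {Pd : PrelimData 𝓜 g o} {D : FlowData 𝓜 g o} {d0 d0t : ℝ → V → ℝ}
    {A B c1 c2 : ℝ} {y : CotAmb V} (hy : y ∈ (mkWalls Pd D d0 d0t A B c1 c2).reg 𝒴) :
    y ∈ 𝒴.carrier ∧ 0 < chiW1 (Pd.u y.1 / A) ∧ 0 < chiW2 (D.N y 0 / B ^ 2) := by
  have h3 : 0 < chiW1 (Pd.u y.1 / A) * chiW2 (D.N y 0 / B ^ 2) := hy.2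
  have h1 : 0 ≤ chiW1 (Pd.u y.1 / A) := Real.smoothTransition.nonneg _
  have h2 : 0 ≤ chiW2 (D.N y 0 / B ^ 2) := Real.smoothTransition.nonneg _
  refine ⟨hy.1, ?_, ?_⟩
  · rcases h1.lt_or_eq with h4 | h4
    · exact h4
    · rw [← h4, zero_mul] at h3; exact absurd h3 (lt_irrefl _)
  · rcases h2.lt_or_eq with h4 | h4
    · exact h4
    · rw [← h4, mul_zero] at h3; exact absurd h3 (lt_irrefl _)

theorem wa_log_le (j : ℕ) : Real.log ((j : ℝ) + 2) ≤ (j : ℝ) + 1 := by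
  have h := Real.log_le_sub_one_of_pos (x := (j : ℝ) + 2) (by positivity)
  linarith

theorem wa_log_nonneg (j : ℕ) : 0 ≤ Real.log ((j : ℝ) + 2) :=
  Real.log_nonneg (by have : (0 : ℝ) ≤ j := Nat.cast_nonneg j; linarith)

/-- (5.23). -/
theorem wa_loss (I : InitialData 𝓜 g) (Pd : PrelimData 𝓜 g o) (D : FlowData 𝓜 g o)
    (hY : IsCotangent 𝓜 𝒴) {T : ℝ} {d0 d0t : ℝ → V → ℝ}
    (hd : IsBaseCost D T d0 d0t) {A B c2 : ℝ} {j : ℕ} (hj : 1 ≤ j) (hA : 1 ≤ A) (hB : 1 ≤ B)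
    (hc2 : 0 ≤ c2)
    (htail : ∀ t ∈ Set.Icc (0 : ℝ) T, ∀ x ∈ 𝓜.carrier, A / 3 < Pd.u x → D.rho t x + j ≤ d0 t x)
    {y : CotAmb V} (hy : y ∈ (mkWalls Pd D d0 d0t A B (Real.log (j + 2)) c2).reg 𝒴) {t : ℝ}
    (ht : t ∈ Set.Icc (0 : ℝ) T) :
    - Real.log ((mkWalls Pd D d0 d0t A B (Real.log (j + 2)) c2).gam0 D y t) ≤
      8 * (mkWalls Pd D d0 d0t A B (Real.log (j + 2)) c2).dc y t + (8 * c2 / B ^ 2) * D.N y t := by
  obtain ⟨hyc, h1, h2⟩ := wa_reg hy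
  have hx : y.1 ∈ 𝓜.carrier := S6.s6g_base_mem hY hyc
  have hA0 : 0 < A := by linarith
  have hB0 : 0 < B ^ 2 := by positivity
  have hj' : (1 : ℝ) ≤ j := by exact_mod_cast hj
  have hρ : 0 ≤ D.rho t y.1 := by
    have := D.P_nonpos t ht.1 y.1 hx
    unfold FlowData.rho
    linarith
  have hd0 : 0 ≤ d0 t y.1 := hd.nonneg t ht y.1 hx
  have hN0 : 0 ≤ D.N y 0 := S6.s6g_N_nonneg D hY hyc le_rfl
  have hNt : D.N y 0 ≤ D.N y t := S6.s6g_N_mono D I.kahler.toIsMetric hY hyc ht.1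
  have a1 := wa_neg_log_le h1
  have a2 := wa_neg_log_le h2
  have hχ1 := wa_st_mem (6 * (Pd.u y.1 / A) - 2)
  have hχ2 := wa_st_mem (8 * (D.N y 0 / B ^ 2) - 1)
  have b : thW1 (Pd.u y.1 / A) * (D.rho t y.1 + Real.log (j + 2)) ≤ 8 * d0 t y.1 := by
    rcases le_or_gt (Pd.u y.1 / A) (1 / 3) with h | h
    · rw [wa_thW1_zero h, zero_mul]
      positivity
    · have h' : A / 3 < Pd.u y.1 := by
        rw [lt_div_iff₀ hA0] at h
        linarith
      have h3 := htail t ht y.1 hx h'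
      have h4 := wa_log_le j
      have h5 := wa_log_nonneg j
      have h6 : thW1 (Pd.u y.1 / A) * (D.rho t y.1 + Real.log (j + 2)) ≤
          1 * (D.rho t y.1 + Real.log (j + 2)) :=
        mul_le_mul_of_nonneg_right hχ1.2 (by linarith)
      linarith
  have c : thW2 (D.N y 0 / B ^ 2) * c2 ≤ (8 * c2 / B ^ 2) * D.N y t := by
    have e : (8 * c2 / B ^ 2) * D.N y t = c2 * (8 * (D.N y t / B ^ 2)) := by
      field_simp
    rw [e, mul_comm]
    refine mul_le_mul_of_nonneg_left ?_ hc2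
    have hmono : D.N y 0 / B ^ 2 ≤ D.N y t / B ^ 2 := by gcongr
    rcases le_or_gt (D.N y 0 / B ^ 2) (1 / 8) with h | h
    · rw [wa_thW2_zero h]
      have : 0 ≤ D.N y 0 / B ^ 2 := by positivity
      linarith
    · have := hχ2.2
      unfold thW2
      linarith
  have e1 : (mkWalls Pd D d0 d0t A B (Real.log (j + 2)) c2).gam0 D y t =
      (chiW1 (Pd.u y.1 / A) * chiW2 (D.N y 0 / B ^ 2)) ^ (4 * 2) *
        Real.exp (-(thW1 (Pd.u y.1 / A) * (D.rho t y.1 + Real.log (j + 2)))) *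
        Real.exp (-(thW2 (D.N y 0 / B ^ 2) * c2)) := rfl
  have e2 : (mkWalls Pd D d0 d0t A B (Real.log (j + 2)) c2).dc y t =
      d0 t y.1 + (((chiW1 (Pd.u y.1 / A))⁻¹ - 1) + ((chiW2 (D.N y 0 / B ^ 2))⁻¹ - 1)) := rfl
  rw [e1, e2, Real.log_mul (by positivity) (by positivity), Real.log_mul (by positivity)
    (by positivity), Real.log_exp, Real.log_exp, Real.log_pow, Real.log_mul h1.ne' h2.ne']
  push_cast
  linarith

theorem wa_E1 {P C' J x e1 : ℝ} (hP0 : 0 < P) (hP1 : P ≤ 1) (hC : 1 ≤ C') (hJ : 0 < J)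
    (he0 : 0 ≤ e1) (he1 : e1 ≤ 1) (hx : |x| ≤ C' * P⁻¹ ^ 6) :
    P ^ (4 * 2) * e1 * Real.exp (-(1 * (Real.log C' + Real.log J))) * x ≤ 1 / J := by
  have hC0 : 0 < C' := by linarith
  have e : Real.exp (-(1 * (Real.log C' + Real.log J))) = (C' * J)⁻¹ := by
    rw [one_mul, Real.exp_neg, Real.exp_add, Real.exp_log hC0, Real.exp_log hJ]
  rw [e]
  have hk : 0 ≤ P ^ (4 * 2) * e1 * (C' * J)⁻¹ := by positivity
  calc P ^ (4 * 2) * e1 * (C' * J)⁻¹ * x ≤ P ^ (4 * 2) * e1 * (C' * J)⁻¹ * |x| :=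
        mul_le_mul_of_nonneg_left (le_abs_self x) hk
    _ ≤ P ^ (4 * 2) * e1 * (C' * J)⁻¹ * (C' * P⁻¹ ^ 6) := mul_le_mul_of_nonneg_left hx hk
    _ = e1 * P ^ 2 * (1 / J) := by
        field_simp
        ring
    _ ≤ 1 * 1 * (1 / J) := by
        have : P ^ 2 ≤ 1 := pow_le_one₀ hP0.le hP1
        gcongr
    _ = 1 / J := by ring

theorem wa_E2 {δ1 δ2 Cu J ρ e2 x : ℝ} (h1 : 0 < δ1) (h1' : δ1 ≤ 1) (h2 : 0 < δ2) (h2' : δ2 ≤ 1)
    (hJ : 0 < J) (he0 : 0 ≤ e2) (he1 : e2 ≤ 1) (hx : |x| ≤ Cu * Real.exp ρ * δ1⁻¹ ^ 3) :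
    (δ1 * δ2) ^ (4 * 2) * Real.exp (-(1 * (ρ + Real.log J))) * e2 * x ≤ |Cu| / J := by
  have e : Real.exp (-(1 * (ρ + Real.log J))) = (Real.exp ρ * J)⁻¹ := by
    rw [one_mul, Real.exp_neg, Real.exp_add, Real.exp_log hJ]
  rw [e]
  have hE : 0 < Real.exp ρ := Real.exp_pos ρ
  have hk : 0 ≤ (δ1 * δ2) ^ (4 * 2) * (Real.exp ρ * J)⁻¹ * e2 := by positivity
  have hx' : |x| ≤ |Cu| * Real.exp ρ * δ1⁻¹ ^ 3 := by
    refine hx.trans ?_
    have := le_abs_self Cu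
    gcongr
  calc (δ1 * δ2) ^ (4 * 2) * (Real.exp ρ * J)⁻¹ * e2 * x
      ≤ (δ1 * δ2) ^ (4 * 2) * (Real.exp ρ * J)⁻¹ * e2 * |x| :=
        mul_le_mul_of_nonneg_left (le_abs_self x) hk
    _ ≤ (δ1 * δ2) ^ (4 * 2) * (Real.exp ρ * J)⁻¹ * e2 * (|Cu| * Real.exp ρ * δ1⁻¹ ^ 3) :=
        mul_le_mul_of_nonneg_left hx' hk
    _ = e2 * δ1 ^ 5 * δ2 ^ 8 * (|Cu| / J) := by
        field_simp
        ring
    _ ≤ 1 * 1 * 1 * (|Cu| / J) := by
        have a : δ1 ^ 5 ≤ 1 := pow_le_one₀ h1.le h1'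
        have b : δ2 ^ 8 ≤ 1 := pow_le_one₀ h2.le h2'
        have c : 0 ≤ |Cu| / J := by positivity
        gcongr
    _ = |Cu| / J := by ring

/-- (5.24). -/
theorem wa_sympl (I : InitialData 𝓜 g) (Pd : PrelimData 𝓜 g o) (D : FlowData 𝓜 g o)
    (hY : IsCotangent 𝓜 𝒴) {T : ℝ} {d0 d0t : ℝ → V → ℝ}
    (hd : IsBaseCost D T d0 d0t) {A B Cu C' : ℝ} {j : ℕ} (hA : 1 ≤ A)
    (hCu : ∀ t : ℝ, 0 ≤ t → ∀ x ∈ 𝓜.carrier, Pd.u x < A →
      |lap 𝓜 (D.h t) (fun x' => (chiW1 (Pd.u x' / A))⁻¹ - 1) x| ≤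
        Cu * Real.exp (D.rho t x) * (chiW1 (Pd.u x / A))⁻¹ ^ 3 ∧
      (thW1 (Pd.u x / A) ≠ 1 → lap 𝓜 (D.h t) (fun x' => (chiW1 (Pd.u x' / A))⁻¹ - 1) x = 0))
    (hC1 : 1 ≤ C')
    {Φ : CE (Fin n) → V} {U : Set (CE (Fin n))} (hΦ : 𝓜.IsHol Φ U) {p : CE (Fin n ⊕ Fin n)}
    (hp : p ∈ cotDom U)
    (hreg : cotParam Φ p ∈ (mkWalls Pd D d0 d0t A B (Real.log (j + 2))
        (Real.log C' + Real.log (j + 2))).reg 𝒴) {t : ℝ} (ht : t ∈ Set.Ioo (0 : ℝ) T)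
    (hC' : |sympP (levi (fun p' => (mkWalls Pd D d0 d0t A B (Real.log (j + 2))
          (Real.log C' + Real.log (j + 2))).cost D (cotParam Φ p') t) p) (Jstd (Fin n)) -
        sympP (levi (fun p' => D.N (cotParam Φ p') t +
          (d0 t (cotParam Φ p').1 + ((chiW1 (Pd.u (cotParam Φ p').1 / A))⁻¹ - 1))) p) (Jstd (Fin n))|
        ≤ C' * ((mkWalls Pd D d0 d0t A B (Real.log (j + 2))
          (Real.log C' + Real.log (j + 2))).pw (cotParam Φ p))⁻¹ ^ 6 ∧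
      (thW2 (D.N (cotParam Φ p) 0 / B ^ 2) ≠ 1 →
        sympP (levi (fun p' => (mkWalls Pd D d0 d0t A B (Real.log (j + 2))
          (Real.log C' + Real.log (j + 2))).cost D (cotParam Φ p') t) p) (Jstd (Fin n)) =
        sympP (levi (fun p' => D.N (cotParam Φ p') t +
          (d0 t (cotParam Φ p').1 + ((chiW1 (Pd.u (cotParam Φ p').1 / A))⁻¹ - 1))) p)
          (Jstd (Fin n)))) :
    (mkWalls Pd D d0 d0t A B (Real.log (j + 2)) (Real.log C' + Real.log (j + 2))).gam0 D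
        (cotParam Φ p) t *
      (sympP (levi (fun p' => (mkWalls Pd D d0 d0t A B (Real.log (j + 2))
          (Real.log C' + Real.log (j + 2))).cost D (cotParam Φ p') t) p) (Jstd (Fin n))
        - deriv (fun s => D.N (cotParam Φ p) s) t - d0t t (cotParam Φ p).1) ≤
      (|Cu| + 1) / (j + 2) := by
  obtain ⟨hyc, h1, h2⟩ := wa_reg hreg
  have hz : cBase p ∈ U := hp
  have hx : (cotParam Φ p).1 ∈ 𝓜.carrier := S6.s6g_base_mem hY hyc
  have hA0 : 0 < A := by linarith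
  have hJ : (0 : ℝ) < (j : ℝ) + 2 := by positivity
  have ht' : t ∈ Set.Icc (0 : ℝ) T := ⟨ht.1.le, ht.2.le⟩
  have hu : Pd.u (cotParam Φ p).1 < A := by
    have := wa_chiW1_pos.1 h1
    rwa [div_lt_one hA0] at this
  have hρ : 0 ≤ D.rho t (cotParam Φ p).1 := by
    have := D.P_nonpos t ht.1.le _ hx
    unfold FlowData.rho
    linarith
  -- regularity of the base part
  have hk1 : 𝓜.C2At (fun x' => (chiW1 (Pd.u x' / A))⁻¹ - 1) (cotParam Φ p).1 := by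
    have hχ : ContDiffAt ℝ 2 (fun s : ℝ => (chiW1 (s / A))⁻¹ - 1) (Pd.u (cotParam Φ p).1) := by
      have h0 : ContDiff ℝ 2 fun s : ℝ => chiW1 (s / A) :=
        Real.smoothTransition.contDiff.comp (by fun_prop)
      exact (h0.contDiffAt.inv h1.ne').sub contDiffAt_const
    exact CMfd.C2At.comp hx hχ (Pd.u_smooth.c2At hx)
  have hd0 : 𝓜.C2At (d0 t) (cotParam Φ p).1 := (hd.smooth.smooth ht').c2At hx
  have hsum : ContDiffAt ℝ 2
      ((fun x' => d0 t x' + ((chiW1 (Pd.u x' / A))⁻¹ - 1)) ∘ Φ) (cBase p) :=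
    (CMfd.c2At_iff hΦ hz).1 (hd0.add hk1)
  have SE := symplectic_evolution I D hΦ hp ht.1 hsum
  rw [lap_add (D.h t) hd0 hk1] at SE
  have hsup := hd.super t ht' _ hx
  obtain ⟨c1, c2⟩ := hCu t ht.1.le _ hx hu
  obtain ⟨f1, f2⟩ := hC'
  set S := sympP (levi (fun p' => (mkWalls Pd D d0 d0t A B (Real.log (j + 2))
          (Real.log C' + Real.log (j + 2))).cost D (cotParam Φ p') t) p) (Jstd (Fin n)) with hS
  set S0 := sympP (levi (fun p' => D.N (cotParam Φ p') t +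
          (d0 t (cotParam Φ p').1 + ((chiW1 (Pd.u (cotParam Φ p').1 / A))⁻¹ - 1))) p)
          (Jstd (Fin n)) with hS0
  set L1 := lap 𝓜 (D.h t) (fun x' => (chiW1 (Pd.u x' / A))⁻¹ - 1) (cotParam Φ p).1 with hL1
  set L0 := lap 𝓜 (D.h t) (d0 t) (cotParam Φ p).1 with hL0
  set δ1 := chiW1 (Pd.u (cotParam Φ p).1 / A) with hδ1
  set δ2 := chiW2 (D.N (cotParam Φ p) 0 / B ^ 2) with hδ2
  set χ1 := thW1 (Pd.u (cotParam Φ p).1 / A) with hχ1
  set χ2 := thW2 (D.N (cotParam Φ p) 0 / B ^ 2) with hχ2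
  have hδ1' : δ1 ≤ 1 := Real.smoothTransition.le_one _
  have hδ2' : δ2 ≤ 1 := Real.smoothTransition.le_one _
  have hχ1m : χ1 ∈ Set.Icc (0 : ℝ) 1 := wa_st_mem _
  have hχ2m : χ2 ∈ Set.Icc (0 : ℝ) 1 := wa_st_mem _
  have hc1 := wa_log_nonneg j
  have hc2 : 0 ≤ Real.log C' + Real.log ((j : ℝ) + 2) := add_nonneg (Real.log_nonneg hC1) hc1
  have eγ : (mkWalls Pd D d0 d0t A B (Real.log (j + 2)) (Real.log C' + Real.log (j + 2))).gam0 D
        (cotParam Φ p) t = (δ1 * δ2) ^ (4 * 2) *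
        Real.exp (-(χ1 * (D.rho t (cotParam Φ p).1 + Real.log (j + 2)))) *
        Real.exp (-(χ2 * (Real.log C' + Real.log (j + 2)))) := rfl
  have epw : (mkWalls Pd D d0 d0t A B (Real.log (j + 2)) (Real.log C' + Real.log (j + 2))).pw
      (cotParam Φ p) = δ1 * δ2 := rfl
  rw [epw] at f1
  rw [eγ]
  set γ := (δ1 * δ2) ^ (4 * 2) *
        Real.exp (-(χ1 * (D.rho t (cotParam Φ p).1 + Real.log (j + 2)))) *
        Real.exp (-(χ2 * (Real.log C' + Real.log (j + 2)))) with hγ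
  have hγ0 : 0 ≤ γ := by positivity
  have hP0 : 0 < δ1 * δ2 := mul_pos h1 h2
  have hP1 : δ1 * δ2 ≤ 1 := mul_le_one₀ hδ1' h2.le hδ2'
  have E1 : γ * (S - S0) ≤ 1 / ((j : ℝ) + 2) := by
    by_cases h : χ2 = 1
    · rw [hγ, h]
      refine wa_E1 hP0 hP1 hC1 hJ (Real.exp_pos _).le ?_ f1
      rw [Real.exp_le_one_iff]
      have : 0 ≤ χ1 * (D.rho t (cotParam Φ p).1 + Real.log (j + 2)) :=
        mul_nonneg hχ1m.1 (by linarith)
      linarith
    · rw [f2 h, sub_self, mul_zero]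
      positivity
  have E2 : γ * L1 ≤ |Cu| / ((j : ℝ) + 2) := by
    by_cases h : χ1 = 1
    · rw [hγ, h]
      refine wa_E2 h1 hδ1' h2 hδ2' hJ (Real.exp_pos _).le ?_ c1
      rw [Real.exp_le_one_iff]
      have : 0 ≤ χ2 * (Real.log C' + Real.log ((j : ℝ) + 2)) := mul_nonneg hχ2m.1 hc2
      linarith
    · rw [c2 h, mul_zero]
      positivity
  have E3 : γ * (L0 - d0t t (cotParam Φ p).1) ≤ 0 :=
    mul_nonpos_of_nonneg_of_nonpos hγ0 (by linarith)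
  have key : S - deriv (fun s => D.N (cotParam Φ p) s) t - d0t t (cotParam Φ p).1 =
      (S - S0) + L1 + (L0 - d0t t (cotParam Φ p).1) := by
    have : S0 = deriv (fun s => D.N (cotParam Φ p) s) t + (L0 + L1) := SE
    rw [this]; ring
  rw [key, mul_add, mul_add, add_div]
  linarith

/-- assembly: the concrete data are walls, with `err = (C_u + 1)/(j+2)`, `A1 = 8`, `A2 = 8 c2 / B²`
(`C_u` from `base_wall_error`, `C'` from `fiber_wall_error`, `c1 = log (j+2)`, `c2 = log C' + log (j+2)`). -/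
theorem isWalls_mkWalls (I : InitialData 𝓜 g) (ho : o ∈ 𝓜.carrier) (Pd : PrelimData 𝓜 g o) (D : FlowData 𝓜 g o)
    (hY : IsCotangent 𝓜 𝒴) {T : ℝ} (hT0 : 0 < T) {d0 d0t : ℝ → V → ℝ}
    (hd : IsBaseCost D T d0 d0t) {A B Cu C' : ℝ} {j : ℕ} (hj : 1 ≤ j) (hA : 1 ≤ A) (hB : 1 ≤ B)
    (htail : ∀ t ∈ Set.Icc (0 : ℝ) T, ∀ x ∈ 𝓜.carrier, A / 3 < Pd.u x → D.rho t x + j ≤ d0 t x)
    (hCu : ∀ t : ℝ, 0 ≤ t → ∀ x ∈ 𝓜.carrier, Pd.u x < A →
      |lap 𝓜 (D.h t) (fun x' => (chiW1 (Pd.u x' / A))⁻¹ - 1) x| ≤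
        Cu * Real.exp (D.rho t x) * (chiW1 (Pd.u x / A))⁻¹ ^ 3 ∧
      (thW1 (Pd.u x / A) ≠ 1 → lap 𝓜 (D.h t) (fun x' => (chiW1 (Pd.u x' / A))⁻¹ - 1) x = 0))
    (hC1 : 1 ≤ C')
    (hC' : ∀ (Φ : CE (Fin n) → V) (U : Set (CE (Fin n))),
      𝓜.IsHol Φ U → ∀ p ∈ cotDom U,
      cotParam Φ p ∈ (mkWalls Pd D d0 d0t A B (Real.log (j + 2))
        (Real.log C' + Real.log (j + 2))).reg 𝒴 →
      ∀ t ∈ Set.Ioo (0 : ℝ) T,
      |sympP (levi (fun p' => (mkWalls Pd D d0 d0t A B (Real.log (j + 2))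
          (Real.log C' + Real.log (j + 2))).cost D (cotParam Φ p') t) p) (Jstd (Fin n)) -
        sympP (levi (fun p' => D.N (cotParam Φ p') t +
          (d0 t (cotParam Φ p').1 + ((chiW1 (Pd.u (cotParam Φ p').1 / A))⁻¹ - 1))) p) (Jstd (Fin n))|
        ≤ C' * ((mkWalls Pd D d0 d0t A B (Real.log (j + 2))
          (Real.log C' + Real.log (j + 2))).pw (cotParam Φ p))⁻¹ ^ 6 ∧
      (thW2 (D.N (cotParam Φ p) 0 / B ^ 2) ≠ 1 →
        sympP (levi (fun p' => (mkWalls Pd D d0 d0t A B (Real.log (j + 2))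
          (Real.log C' + Real.log (j + 2))).cost D (cotParam Φ p') t) p) (Jstd (Fin n)) =
        sympP (levi (fun p' => D.N (cotParam Φ p') t +
          (d0 t (cotParam Φ p').1 + ((chiW1 (Pd.u (cotParam Φ p').1 / A))⁻¹ - 1))) p)
          (Jstd (Fin n)))) :
    IsWalls (mkWalls Pd D d0 d0t A B (Real.log (j + 2)) (Real.log C' + Real.log (j + 2))) D 𝒴 T
      ((|Cu| + 1) / (j + 2)) 8 (8 * (Real.log C' + Real.log (j + 2)) / B ^ 2) := by
  have hc1 := wa_log_nonneg j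
  have hc2 : 0 ≤ Real.log C' + Real.log ((j : ℝ) + 2) := add_nonneg (Real.log_nonneg hC1) hc1
  have hA0 : 0 < A := by linarith
  have hB0 : 0 < B ^ 2 := by positivity
  have hN0 : 𝒴.Smooth fun y => D.N y 0 :=
    (S6.s6f_N_smoothST D I.kahler.toIsMetric hY).smooth (t := 0) Set.self_mem_Ici
  refine
    { two_le_a := le_rfl
      c1_nonneg := hc1
      c2_nonneg := hc2
      err_nonneg := by positivity
      A1_nonneg := by norm_num
      A2_nonneg := by positivity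
      d0_smooth := hd.smooth
      d0t_smooth := hd.smooth_t
      d0_deriv := hd.deriv
      d0_nonneg := hd.nonneg
      δ1_smooth := ?_
      δ2_smooth := ?_
      χ1_smooth := ?_
      χ2_smooth := ?_
      δ1_mem := fun x _ => wa_st_mem _
      δ2_mem := fun y _ => wa_st_mem _
      χ1_mem := fun x _ => wa_st_mem _
      χ2_mem := fun y _ => wa_st_mem _
      compact := ?_
      sympl := ?_
      loss := ?_ }
  · exact wa_smooth_comp Pd.u_smooth (χ := fun s => chiW1 (s / A))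
      (Real.smoothTransition.contDiff.comp (by fun_prop))
  · exact wa_smooth_comp hN0 (χ := fun s => chiW2 (s / B ^ 2))
      (Real.smoothTransition.contDiff.comp (by fun_prop))
  · exact wa_smooth_comp Pd.u_smooth (χ := fun s => thW1 (s / A))
      (Real.smoothTransition.contDiff.comp (by fun_prop))
  · exact wa_smooth_comp hN0 (χ := fun s => thW2 (s / B ^ 2))
      (Real.smoothTransition.contDiff.comp (by fun_prop))
  · refine ⟨_, compact_region I ho Pd D hY A B, fun y hy => hy.1, fun y hy => ?_⟩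
    obtain ⟨hyc, h1, h2⟩ := wa_reg hy
    have a1 := wa_chiW1_pos.1 h1
    have a2 := wa_chiW2_pos.1 h2
    rw [div_lt_one hA0] at a1
    rw [div_lt_one hB0] at a2
    exact ⟨hyc, a1.le, a2.le⟩
  · intro Φ U hΦ p hp hreg t ht
    exact wa_sympl I Pd D hY hd hA hCu hC1 hΦ hp hreg ht (hC' Φ U hΦ p hp hreg t ht)
  · intro y hy t ht
    exact wa_loss I Pd D hY hd hj hA hB hc2 htail hy ht

theorem wl7_chiW1_one {x : ℝ} (hx : x ≤ 2 / 3) : chiW1 x = 1 :=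
  Real.smoothTransition.one_of_one_le (by linarith)

theorem wl7_chiW2_one {x : ℝ} (hx : x ≤ 1 / 2) : chiW2 x = 1 :=
  Real.smoothTransition.one_of_one_le (by linarith)

/-- **existence of the localisation data**: trivial on a given compact, with arbitrarily small errors. -/
theorem walls_exist (I : InitialData 𝓜 g) (ho : o ∈ 𝓜.carrier) (Pd : PrelimData 𝓜 g o) (D : FlowData 𝓜 g o)
    (hT : D.StTails) (hY : IsCotangent 𝓜 𝒴) {T : ℝ} (hT0 : 0 < T) {K : Set (CotAmb V)}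
    (hK : IsCompact K) (hKY : K ⊆ 𝒴.carrier) {τ : ℝ} (hτ : 0 < τ) :
    ∃ (𝔚 : Walls V) (err A2 : ℝ), IsWalls 𝔚 D 𝒴 T err 8 A2 ∧ err ≤ τ ∧ A2 ≤ τ ∧
      (∀ y ∈ K, 𝔚.δ1 y.1 = 1 ∧ 𝔚.δ2 y = 1) ∧
      ∀ y ∈ K, ∀ t ∈ Set.Icc (0 : ℝ) T, 𝔚.d0 t y.1 ≤ τ := by
  -- the base compact
  have hK₁ : IsCompact (Prod.fst '' K) := hK.image continuous_fst
  have hK₁M : Prod.fst '' K ⊆ 𝓜.carrier := by
    rintro _ ⟨y, hy, rfl⟩
    exact S6.s6g_base_mem hY (hKY hy)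
  obtain ⟨Cu, hCu⟩ := base_wall_error I Pd D
  -- choice of `j₀`
  obtain ⟨j₀, hj₀⟩ := exists_nat_ge ((|Cu| + 1) / τ + 1)
  have hj₀1 : 1 ≤ j₀ := by
    have : (1 : ℝ) ≤ j₀ := le_trans (by
      have : 0 ≤ (|Cu| + 1) / τ := by positivity
      linarith) hj₀
    exact_mod_cast this
  obtain ⟨j, d0, d0t, A₀, hjj, hd, hsmall, htail⟩ := tail_wall I Pd D hT hT0 hK₁ hK₁M hτ j₀
  have hj1 : 1 ≤ j := hj₀1.trans hjj
  -- choice of `A`
  obtain ⟨Mu, hMu⟩ := hK₁.exists_bound_of_continuousOn (Pd.u_smooth.continuousOn.mono hK₁M)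
  set A : ℝ := max (max 1 A₀) (3 / 2 * |Mu|) with hAdef
  have hA1 : 1 ≤ A := (le_max_left _ _).trans (le_max_left _ _)
  have hA0 : A₀ ≤ A := (le_max_right _ _).trans (le_max_left _ _)
  have hAM : 3 / 2 * |Mu| ≤ A := le_max_right _ _
  obtain ⟨C', hC1, hC'⟩ := fiber_wall_error (𝒴 := 𝒴) I ho Pd D hY hT0 hd hA1
  -- choice of `B`
  have hNs : 𝒴.Smooth fun y => D.N y 0 :=
    CMfd.SmoothST.smooth (u := fun t y => D.N y t) (N_smooth I hY T) ⟨le_rfl, hT0.le⟩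
  obtain ⟨MN, hMN⟩ := hK.exists_bound_of_continuousOn (hNs.continuousOn.mono hKY)
  set c2 : ℝ := Real.log C' + Real.log (j + 2) with hc2
  have hc20 : 0 ≤ c2 := add_nonneg (Real.log_nonneg hC1)
    (Real.log_nonneg (by
      have : (0 : ℝ) ≤ j := Nat.cast_nonneg _
      linarith))
  set B : ℝ := 1 + 2 * |MN| + 8 * c2 / τ with hBdef
  have hq : 0 ≤ 8 * c2 / τ := by positivity
  have hB1 : 1 ≤ B := by
    have := abs_nonneg MN
    linarith
  have hBB : B ≤ B ^ 2 := by nlinarith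
  have hW := isWalls_mkWalls I ho Pd D hY hT0 hd (A := A) (B := B) (Cu := Cu) (C' := C') hj1 hA1 hB1
    (htail A hA0) (hCu A hA1) hC1 (hC' B _ _ hB1)
  refine ⟨_, _, _, hW, ?_, ?_, ?_, ?_⟩
  · -- err
    have hjr : (j₀ : ℝ) ≤ j := by exact_mod_cast hjj
    have hpos : (0 : ℝ) < (j : ℝ) + 2 := by positivity
    rw [div_le_iff₀ hpos]
    have h1 : (|Cu| + 1) / τ ≤ (j : ℝ) + 2 := by linarith
    rw [div_le_iff₀ hτ] at h1
    linarith
  · -- A2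
    have hB2 : 0 < B ^ 2 := by positivity
    rw [div_le_iff₀ hB2]
    have h1 : 8 * c2 / τ ≤ B ^ 2 := by
      have := abs_nonneg MN
      linarith
    rw [div_le_iff₀ hτ] at h1
    linarith
  · intro y hy
    constructor
    · show chiW1 (Pd.u y.1 / A) = 1
      apply wl7_chiW1_one
      have h1 := hMu y.1 ⟨y, hy, rfl⟩
      rw [Real.norm_eq_abs] at h1
      have h2 : Pd.u y.1 ≤ |Mu| := (le_abs_self _).trans (h1.trans (le_abs_self _))
      rw [div_le_iff₀ (by linarith)]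
      linarith
    · show chiW2 (D.N y 0 / B ^ 2) = 1
      apply wl7_chiW2_one
      have h1 := hMN y hy
      rw [Real.norm_eq_abs] at h1
      have h2 : D.N y 0 ≤ |MN| := (le_abs_self _).trans (h1.trans (le_abs_self _))
      rw [div_le_iff₀ (by positivity)]
      have := abs_nonneg MN
      linarith
  · intro y hy t ht
    exact hsmall t ht y.1 ⟨y, hy, rfl⟩

end Claimed.Agent.R316
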