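import Claimed.Agent.R316.S5.Clock
import Claimed.Agent.R316.S5.Defo
import Claimed.Agent.R316.S5.WallsEx

/-!
# Row 316, Section 5: **Proposition 5.1** (`FlowData.StDiscInequality`), assembly

`disc_inequality` is the export of the package BP-S5.

Leaves: `S5-M1` `Packet.Ok.mono`, `fixedJ5` (assembly of `FixedJ` from `packet_ok`, `center_close`, `defo5`, `clock5`, `exists_frame`,
`exists_admX`): PROVED; `exists_small_param` (elementary).  (`S5-M2` is in `Local.lean`.)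
-/

set_option autoImplicit false
set_option maxSynthPendingDepth 3
open scoped ContDiff ComplexOrder Topology Matrix
open MeasureTheory Filter

namespace Claimed.Agent.R316

variable {V : Type} [NormedAddCommGroup V] [InnerProductSpace ℝ V] [FiniteDimensional ℝ V]
variable [MeasurableSpace V] [BorelSpace V]
variable {n : ℕ} {𝓜 : CMfd V (Fin n)} {g : HFam V (Fin n)} {o : V}
variable {D : FlowData 𝓜 g o} {𝒴 : CMfd (CotAmb V) (Fin n ⊕ Fin n)}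
variable {X : S5Ctx V n} {𝔚 : Walls V} {err A1 A2 : ℝ}

theorem Packet.Ok.mono {κ : Type} [Fintype κ] [DecidableEq κ] {P : Packet κ} {J0 : Matrix κ κ ℂ}
    {C C' : ℝ} (h : P.Ok J0 C) (hC : C ≤ C') : P.Ok J0 C' :=
  { h with
    Tb_le := fun ζ hζ => (h.Tb_le ζ hζ).trans hC
    Tb_D := h.Tb_D.trans (mul_le_mul_of_nonneg_right hC (by linarith [h.En_nonneg]))
    JE_le := fun ζ hζ => (h.JE_le ζ hζ).trans hC
    om_le := fun ζ hζ => (h.om_le ζ hζ).trans hC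
    ds_le := h.ds_le.trans hC
    lg_ge := by linarith [h.lg_ge] }

/-- all facts at a fixed `j`. -/
theorem fixedJ5 (h : Std5 X 𝔚 D 𝒴 err A1 A2) (Pd : PrelimData 𝓜 g o)
    (hmu : mu5 X 𝔚 D 𝒴 0 < (X.rc / 2) ^ 4) (B : ℝ)
    (hB : ∀ s ∈ Set.Icc (X.s₀ - X.rc) (X.s₀ + X.rc), ∀ p ∈ Metric.closedBall X.p₀ X.rc,
      A1 * (mu5 X 𝔚 D 𝒴 0 + 1) + A2 * (mu5 X 𝔚 D 𝒴 0 + 1 + X.φ s p) ≤ B) :
    ∃ CF C : ℝ, FixedJ (Jstd (Fin n)) (Adm5 X 𝔚 D 𝒴 CF) C (errClock X err B) ∧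
      ((∃ c, IsAdm X 𝔚 𝒴 c) → ∀ ε η : ℝ, 0 < ε → 0 < η → ∃ P, Adm5 X 𝔚 D 𝒴 CF ε η P) := by
  obtain ⟨K, hK, hKY, hreg⟩ := h.walls.compact
  obtain ⟨CF, hCF⟩ := exists_frame h.cot h.valid.imm hK hKY
  obtain ⟨C₁, hC₁⟩ := packet_ok h CF
  refine ⟨CF, max C₁ (errClock X err B), ⟨le_max_right _ _, ?_, ?_, ?_, ?_⟩, ?_⟩
  · filter_upwards [hC₁] with ε h1
    filter_upwards [h1] with η h2 P hP
    exact (h2 P hP).mono (le_max_left _ _)
  · intro τ hτ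
    filter_upwards [center_close h τ hτ] with ε h1
    filter_upwards [h1] with η h2 P hP
    obtain ⟨c, U, JE, S0, hc, hfun, -, -, -, rfl⟩ := hP
    exact (h2 c hc.1 hfun).2.2.2
  · intro L
    exact defo5 h Pd hmu CF L
  · intro τ hτ
    exact clock5 h hmu CF B hB τ hτ
  · intro hne ε η hε hη
    obtain ⟨c, hc, hfun⟩ := exists_admX h hne hε hη
    obtain ⟨hadm, r, hr, hdisc, hw⟩ := hc
    obtain ⟨U, JE, hF, hFB⟩ := hCF c.f r hr hdisc (fun ζ hζ => hreg (hadm.bdry ζ hζ))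
    obtain ⟨S0, -, hS0, -⟩ := hF.tangent 0 (by simp) X.Φ X.U c.p h.valid.isHol
      (h.valid.ball hadm.p_mem) hadm.f_zero
    exact ⟨_, c, U, JE, S0, ⟨hadm, r, hr, hdisc, hw⟩, hfun, hF, hFB, hS0, rfl⟩

/-- elementary choice of the small parameter. -/
theorem exists_small_param (a b c d e : ℝ) (ha : 0 < a) (hb : 0 < b) (hc : 0 ≤ c) (hd : 0 ≤ d)
    (he : 0 < e) :
    ∃ t : ℝ, 0 < t ∧ t ≤ 1 / 2 ∧ 2 * t < a ∧ 3 * t ≤ b ∧ c * t ≤ e ∧
      8 * (3 * t) + t * (3 * t + d) ≤ e := by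
  set t : ℝ := min (min (1 / 2) (a / 3)) (min (b / 3) (min (e / (c + 1)) (e / (26 + d)))) with ht
  have h1 : t ≤ 1 / 2 := (min_le_left _ _).trans (min_le_left _ _)
  have h2 : t ≤ a / 3 := (min_le_left _ _).trans (min_le_right _ _)
  have h3 : t ≤ b / 3 := (min_le_right _ _).trans (min_le_left _ _)
  have h4 : t ≤ e / (c + 1) :=
    (min_le_right _ _).trans ((min_le_right _ _).trans (min_le_left _ _))
  have h5 : t ≤ e / (26 + d) :=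
    (min_le_right _ _).trans ((min_le_right _ _).trans (min_le_right _ _))
  have h0 : 0 < t := by
    rw [ht]
    refine lt_min (lt_min (by norm_num) (by positivity))
      (lt_min (by positivity) (lt_min (by positivity) (by positivity)))
  rw [le_div_iff₀ (by positivity)] at h4 h5
  refine ⟨t, h0, h1, by linarith, by linarith, by nlinarith, by nlinarith⟩

/-- **Proposition 5.1.** -/
theorem disc_inequality (I : InitialData 𝓜 g) (ho : o ∈ 𝓜.carrier) (Pd : PrelimData 𝓜 g o) (D : FlowData 𝓜 g o)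
    (hT : D.StTails) (hY : IsCotangent 𝓜 𝒴) : D.StDiscInequality 𝒴 := by
  intro T Φ U hT0 hΦ φ s₀ p₀ hs0 hs1 hp hφ heq hle hC
  obtain ⟨X, hX, hXT, hXp, hXs, hlevi, hderiv⟩ :=
    exists_ctx I hY (gimm_prelim Pd hY) (baseImm_prelim Pd) hT0 hΦ hs0 hs1 hp hφ heq hle
  rw [← hlevi] at hC ⊢
  rw [← hderiv]
  subst hXp hXs
  have hcs : 0 < X.T / (X.s₀ - X.rc) := div_pos hX.T_pos hX.s_lo
  refine endgame (levi_test_herm hX.smooth _ _) hC ?_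
  intro τ hτ
  obtain ⟨Mφ, hMφ0, hMφ⟩ := phi_bound (X := X) hX.smooth
  obtain ⟨ρ, hρ, hclose⟩ := test_close (X := X) hX.smooth τ hτ
  set Bc : ℝ := 8 * 2 + (2 + Mφ) with hBc
  obtain ⟨t, ht0, ht1, ht2, ht3, ht4, ht5⟩ :=
    exists_small_param ((X.rc / 2) ^ 4) ρ (X.T / (X.s₀ - X.rc) * Real.exp Bc) Mφ τ
      (by have := hX.rc_pos; positivity) hρ (by positivity) hMφ0 hτ
  obtain ⟨K, hK, hKY, hKw⟩ := mu0_small I hY hX t ht0
  obtain ⟨𝔚, err, A2, hW, herr, hA2, hδ, hd0⟩ :=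
    walls_exist I ho Pd D hT hY hX.T_pos hK hKY ht0
  obtain ⟨hne, hmu⟩ := hKw 𝔚 err 8 A2 hW hδ hd0
  have hS : Std5 X 𝔚 D 𝒴 err 8 A2 := ⟨I, hY, hX, hW⟩
  have hmu0 : 0 ≤ mu5 X 𝔚 D 𝒴 0 := mu5_nonneg hS le_rfl
  have hA20 : 0 ≤ A2 := hW.A2_nonneg
  have hB : ∀ s ∈ Set.Icc (X.s₀ - X.rc) (X.s₀ + X.rc), ∀ p ∈ Metric.closedBall X.p₀ X.rc,
      8 * (mu5 X 𝔚 D 𝒴 0 + 1) + A2 * (mu5 X 𝔚 D 𝒴 0 + 1 + X.φ s p) ≤ Bc := by
    intro s hs p hp
    have h1 := hMφ s hs p hp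
    have h2 : A2 * (mu5 X 𝔚 D 𝒴 0 + 1 + X.φ s p) ≤ 1 * (2 + Mφ) := by
      have h3 : mu5 X 𝔚 D 𝒴 0 + 1 + X.φ s p ≤ 2 + Mφ := by linarith
      calc A2 * (mu5 X 𝔚 D 𝒴 0 + 1 + X.φ s p) ≤ A2 * (2 + Mφ) :=
            mul_le_mul_of_nonneg_left h3 hA20
        _ ≤ 1 * (2 + Mφ) := mul_le_mul_of_nonneg_right (by linarith) (by linarith)
    rw [hBc]; linarith
  obtain ⟨CF, C, hF, hne'⟩ := fixedJ5 hS Pd (lt_of_le_of_lt hmu ht2) Bc hB
  refine ⟨Adm5 X 𝔚 D 𝒴 CF, C, errClock X err Bc, hF, ?_, hne' hne, ?_⟩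
  · have : errClock X err Bc = X.T / (X.s₀ - X.rc) * Real.exp Bc * err := by
      unfold errClock; ring
    rw [this]
    calc X.T / (X.s₀ - X.rc) * Real.exp Bc * err ≤ X.T / (X.s₀ - X.rc) * Real.exp Bc * t :=
          mul_le_mul_of_nonneg_left herr (by positivity)
      _ ≤ τ := ht4
  · filter_upwards [center_close hS t ht0] with ε hε
    filter_upwards [hε] with η hη
    rintro P ⟨c, U', JE, S0, hc, hfun, -, -, -, rfl⟩
    obtain ⟨h1, h2, h3, -⟩ := hη c hc.1 hfun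
    have hgap : ‖c.p - X.p₀‖ ^ 4 + (c.s - X.s₀) ^ 4 ≤ ρ := by linarith
    obtain ⟨hl, hd⟩ := hclose c.s c.p hgap
    refine ⟨hl, hd, ?_⟩
    have h4 := lg_ge hS hc.1
    have h5 := hMφ c.s hc.1.s_mem c.p hc.1.p_mem
    have h6 : 8 * cA (fun ζ => 𝔚.dc (c.f ζ) (c.time ζ)) ≤ 8 * (3 * t) := by linarith
    have h7 : A2 * cA (fun ζ => D.N (c.f ζ) (c.time ζ)) ≤ t * (3 * t + Mφ) := by
      have h8 : cA (fun ζ => D.N (c.f ζ) (c.time ζ)) ≤ 3 * t + Mφ := by linarith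
      calc A2 * cA (fun ζ => D.N (c.f ζ) (c.time ζ)) ≤ A2 * (3 * t + Mφ) :=
            mul_le_mul_of_nonneg_left h8 hA20
        _ ≤ t * (3 * t + Mφ) := mul_le_mul_of_nonneg_right hA2 (by positivity)
    show -τ ≤ cA fun ζ => Real.log (c.gam 𝔚 D ζ)
    linarith

end Claimed.Agent.R316
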