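import Claimed.Agent.R316.S5.Fam

/-!
# Row 316, Section 5.2: the family of discs generated by the spray (`S5-D8`, sub-blueprint)

`F z ζ = Sg (f ζ) (z • a ζ)`, `a = hh • cc` (a holomorphic column, small on the circle like `|hh| = p^a ∘ f`).  THE GLUE `spray_family` IS PROVED.

Leaves (each one theorem, or one `section`):
* `S5-SF0` `CircSm.norm`, `CircSm.unit` (the modulus and the phase of a non vanishing smooth function on the circle).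
* `S5-SF1` `spray_tube` : `K' × B̄(0, r₁) ⊆ dom` (generalised tube lemma, `IsSpray.isOpen`, `IsSpray.zero_mem`).
* `S5-SF2` `spray_G_smooth`, `spray_glip` : `(y, τ) ↦ G (Sg y τ)` is smooth in every parametrisation, hence `(G, τ)`-Lipschitz on `K' × B̄(0, r₁)` (`glip_param`).
* `S5-SF3` `sprayDT_glip`, `spray_hasDerivAt` : the same for the `τ`-derivative `sprayDT`; chain rule along rays.
* `S5-SF4` `spray_hadamard` : `G (Sg y τ) - G y = 𝔗(y, τ) τ`, `𝔗 = ∫₀¹ sprayDT (y, sτ) ds` bounded and Lipschitz.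
* `S5-SF5` `spray_walls` : `|δ_i (Sg y τ) - δ_i y| ≤ C |τ|`.
* `S5-SF6` `spray_center` : the centre stays in the chart and in the cylinder, and moves holomorphically.
* `S5-SF7` `spray_fam_smooth`, `S5-SF8` `spray_fam_hol2`, `S5-SF9` `spray_fam_holz` : the structure `IsFam`.
* `S5-SF10` `spray_disp`, `spray_DX`; `S5-SF11` `spray_DZ` : the three estimates (circle analysis: `CCtl` calculus below, `Dsq_sum_le_of_diff`).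
-/

set_option autoImplicit false
set_option maxSynthPendingDepth 3
open scoped ContDiff ComplexOrder Topology Matrix
open MeasureTheory Filter

namespace Claimed.Agent.R316

/-! ### control on the circle (proved) -/

section CCtl

/-- controlled functions on the circle: Lipschitz, sup norm `≤ B`, `D² ≤ D`. -/
def CCtl (B D : ℝ) (f : ℂ → ℂ) : Prop := CircLip f ∧ (∀ ζ ∈ uCirc, ‖f ζ‖ ≤ B) ∧ Dsq f ≤ D

theorem S5Ctl.cctl {B D : ℝ} {f : ℂ → ℂ} (h : S5Ctl B D f) : CCtl B D f :=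
  ⟨h.circLip, h.bd_circ, h.2.2⟩

theorem CCtl.mono {B D B' D' : ℝ} {f : ℂ → ℂ} (h : CCtl B D f) (hB : B ≤ B') (hD : D ≤ D') :
    CCtl B' D' f := ⟨h.1, fun ζ hζ => (h.2.1 ζ hζ).trans hB, h.2.2.trans hD⟩

theorem CCtl.congr {B D : ℝ} {f g : ℂ → ℂ} (h : CCtl B D f) (e : Set.EqOn f g uCirc) :
    CCtl B D g :=
  ⟨h.1.congr e, fun ζ hζ => by rw [← e hζ]; exact h.2.1 ζ hζ, by rw [← Dsq_congr e]; exact h.2.2⟩

theorem cctl_const (c : ℂ) {B D : ℝ} (hB : ‖c‖ ≤ B) (hD : 0 ≤ D) : CCtl B D fun _ => c :=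
  ⟨circLip_const c, fun _ _ => hB, by rw [Dsq_const]; exact hD⟩

theorem CCtl.mul {B D B' D' : ℝ} {f g : ℂ → ℂ} (hf : CCtl B D f) (hg : CCtl B' D' g) :
    CCtl (B * B') (2 * B ^ 2 * D' + 2 * B' ^ 2 * D) fun ζ => f ζ * g ζ := by
  refine ⟨hf.1.mul hg.1, fun ζ hζ => ?_, ?_⟩
  · rw [norm_mul]
    exact mul_le_mul (hf.2.1 ζ hζ) (hg.2.1 ζ hζ) (norm_nonneg _)
      ((norm_nonneg _).trans (hf.2.1 ζ hζ))
  · refine (Dsq_mul_le hf.1 hg.1 hf.2.1 hg.2.1).trans ?_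
    have h1 := mul_le_mul_of_nonneg_left hg.2.2 (by positivity : (0 : ℝ) ≤ 2 * B ^ 2)
    have h2 := mul_le_mul_of_nonneg_left hf.2.2 (by positivity : (0 : ℝ) ≤ 2 * B' ^ 2)
    linarith

theorem CCtl.sum {J : Type} [Fintype J] {B D : ℝ} {f : J → ℂ → ℂ} (h : ∀ j, CCtl B D (f j)) :
    CCtl (Fintype.card J * B) (Fintype.card J * (Fintype.card J * D)) fun ζ => ∑ j, f j ζ := by
  refine ⟨CircLip.sum _ fun j _ => (h j).1, fun ζ hζ => ?_, ?_⟩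
  · calc ‖∑ j, f j ζ‖ ≤ ∑ j, ‖f j ζ‖ := norm_sum_le _ _
      _ ≤ ∑ _j : J, B := Finset.sum_le_sum fun j _ => (h j).2.1 ζ hζ
      _ = Fintype.card J * B := by simp
  · refine (Dsq_sum_le fun j => (h j).1).trans ?_
    refine mul_le_mul_of_nonneg_left ?_ (Nat.cast_nonneg _)
    calc ∑ j, Dsq (f j) ≤ ∑ _j : J, D := Finset.sum_le_sum fun j _ => (h j).2.2
      _ = Fintype.card J * D := by simp

/-- `S5-SF0`.  `‖a‖² = a \bar a` is smooth and positive; `CircSm.comp_real` with `√` on `(0, ∞)`. -/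
theorem CircSm.norm {a : ℂ → ℂ} (ha : CircSm a) (h0 : ∀ ζ ∈ uCirc, a ζ ≠ 0) :
    CircSm fun ζ => (‖a ζ‖ : ℂ) := by
  have h1 : CircSm fun ζ => ((‖a ζ‖ ^ 2 : ℝ) : ℂ) :=
    (ha.mul ha.conj).congr fun ζ _ => by
      show a ζ * (starRingEnd ℂ) (a ζ) = ((‖a ζ‖ ^ 2 : ℝ) : ℂ)
      rw [Complex.mul_conj, Complex.normSq_eq_norm_sq]
  have h2 : ContDiffOn ℝ ∞ Real.sqrt (Set.Ioi 0) := fun x hx =>
    (Real.contDiffAt_sqrt (ne_of_gt hx)).contDiffWithinAt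
  have h3 := CircSm.comp_real (u := fun ζ => ‖a ζ‖ ^ 2) h1 isOpen_Ioi h2 fun ζ hζ => by
    have : 0 < ‖a ζ‖ := norm_pos_iff.2 (h0 ζ hζ)
    exact Set.mem_Ioi.2 (by positivity)
  exact h3.congr fun ζ _ => by
    show ((Real.sqrt (‖a ζ‖ ^ 2) : ℝ) : ℂ) = (‖a ζ‖ : ℂ)
    rw [Real.sqrt_sq (norm_nonneg _)]

theorem CircSm.unit {a : ℂ → ℂ} (ha : CircSm a) (h0 : ∀ ζ ∈ uCirc, a ζ ≠ 0) :
    CircSm fun ζ => a ζ / (‖a ζ‖ : ℂ) := by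
  have h1 := (ha.norm h0).inv fun ζ hζ => by
    simpa using h0 ζ hζ
  exact (ha.mul h1).congr fun ζ _ => by simp [div_eq_mul_inv]

theorem norm_toLp_le {q : ℕ} {v : Fin q → ℂ} {B : ℝ} (hB : 0 ≤ B) (h : ∀ k, ‖v k‖ ≤ B) :
    ‖(WithLp.toLp 2 v : CE (Fin q))‖ ≤ Real.sqrt q * B := by
  rw [EuclideanSpace.norm_eq]
  have h1 : ∑ k, ‖(WithLp.toLp 2 v : CE (Fin q)) k‖ ^ 2 ≤ q * B ^ 2 := by
    calc ∑ k, ‖(WithLp.toLp 2 v : CE (Fin q)) k‖ ^ 2 ≤ ∑ _k : Fin q, B ^ 2 :=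
          Finset.sum_le_sum fun k _ => pow_le_pow_left₀ (norm_nonneg _) (h k) 2
      _ = q * B ^ 2 := by simp
  calc Real.sqrt (∑ k, ‖(WithLp.toLp 2 v : CE (Fin q)) k‖ ^ 2) ≤ Real.sqrt (q * B ^ 2) :=
        Real.sqrt_le_sqrt h1
    _ = Real.sqrt q * B := by rw [Real.sqrt_mul (Nat.cast_nonneg q), Real.sqrt_sq hB]

end CCtl

section Spray

variable {V : Type} [NormedAddCommGroup V] [InnerProductSpace ℝ V] [FiniteDimensional ℝ V]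
variable {n q : ℕ} {𝓜 : CMfd V (Fin n)} {𝒴 : CMfd (CotAmb V) (Fin n ⊕ Fin n)}
variable {G : CotAmb V → CE (Fin q)} {Sg : CotAmb V → CE (Fin q) → CotAmb V}
variable {dom : Set (CotAmb V × CE (Fin q))} {K' : Set (CotAmb V)}

theorem sf_tube_aux {A E : Type} [TopologicalSpace A] [NormedAddCommGroup E]
    {K : Set A} (hK : IsCompact K) {O : Set (A × E)} (hO : IsOpen O)
    (h0 : ∀ y ∈ K, (y, (0 : E)) ∈ O) :
    ∃ r₁ : ℝ, 0 < r₁ ∧ ∀ y ∈ K, ∀ τ : E, ‖τ‖ ≤ r₁ → (y, τ) ∈ O := by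
  have hsub : K ×ˢ ({0} : Set E) ⊆ O := by
    rintro ⟨y, τ⟩ ⟨hy, hτ⟩
    rw [Set.mem_singleton_iff] at hτ
    simp only at hτ hy
    rw [hτ]
    exact h0 y hy
  obtain ⟨u, v, -, hv, hKu, h0v, huv⟩ := generalized_tube_lemma hK isCompact_singleton hO hsub
  obtain ⟨ε, hε, hball⟩ := Metric.isOpen_iff.mp hv 0 (h0v rfl)
  refine ⟨ε / 2, by positivity, fun y hy τ hτ => huv ⟨hKu hy, hball ?_⟩⟩
  rw [mem_ball_zero_iff]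
  linarith

/-- `S5-SF1`. -/
theorem spray_tube (hS : IsSpray 𝓜 𝒴 G Sg dom) (hK' : IsCompact K') (hKY : K' ⊆ 𝒴.carrier) :
    ∃ r₁ : ℝ, 0 < r₁ ∧ ∀ y ∈ K', ∀ τ : CE (Fin q), ‖τ‖ ≤ r₁ → (y, τ) ∈ dom := by
  obtain ⟨O, hO, hdom⟩ := hS.isOpen
  obtain ⟨r₁, hr₁, h⟩ := sf_tube_aux hK' hO fun y hy => by
    have := hS.zero_mem y (hKY hy)
    rw [hdom] at this
    exact this.2
  refine ⟨r₁, hr₁, fun y hy τ hτ => ?_⟩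
  rw [hdom]
  exact ⟨⟨hKY hy, Set.mem_univ _⟩, h y hy τ hτ⟩

/-- `S5-SF2`.  `IsSpray.smooth`, `GImm.smoothOnC`, `contDiffOn_comp_smooth`. -/
theorem spray_G_smooth (hG : GImm 𝒴 G) (hS : IsSpray 𝓜 𝒴 G Sg dom)
    (Ψ : CE (Fin n ⊕ Fin n) → CotAmb V) (W : Set (CE (Fin n ⊕ Fin n))) (hΨ : 𝒴.IsHol Ψ W)
    (k : Fin q) :
    ContDiffOn ℝ ∞ (fun a : CE (Fin n ⊕ Fin n) × CE (Fin q) => G (Sg (Ψ a.1) a.2) k)
      {a | a.1 ∈ W ∧ (Ψ a.1, a.2) ∈ dom} :=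
  contDiffOn_comp_smooth (hS.smooth Ψ W hΨ) (fun a ha => hS.maps _ _ ha.2) isOpen_univ
    (hG.smoothOnC k) (fun _ _ => trivial)

/-- the chart domain of the spray is an open set. -/
theorem spray_isOpen_chartDom (hS : IsSpray 𝓜 𝒴 G Sg dom)
    {Ψ : CE (Fin n ⊕ Fin n) → CotAmb V} {W : Set (CE (Fin n ⊕ Fin n))} (hΨ : 𝒴.IsHol Ψ W) :
    IsOpen {a : CE (Fin n ⊕ Fin n) × CE (Fin q) | a.1 ∈ W ∧ (Ψ a.1, a.2) ∈ dom} := by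
  obtain ⟨O, hO, hdom⟩ := hS.isOpen
  have hc : ContinuousOn (fun a : CE (Fin n ⊕ Fin n) × CE (Fin q) => (Ψ a.1, a.2))
      (W ×ˢ Set.univ) :=
    (((𝒴.isParam hΨ).continuousOn).comp continuous_fst.continuousOn fun a ha => ha.1).prodMk
      continuous_snd.continuousOn
  have h := hc.isOpen_inter_preimage ((CMfd.isOpen_dom hΨ).prod isOpen_univ) hO
  convert h using 1
  ext a
  constructor
  · rintro ⟨h1, h2⟩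
    rw [hdom] at h2
    exact ⟨⟨h1, trivial⟩, h2.2⟩
  · rintro ⟨⟨h1, -⟩, h2⟩
    refine ⟨h1, ?_⟩
    rw [hdom]
    exact ⟨⟨CMfd.mem_carrier hΨ h1, trivial⟩, h2⟩

/-- functions of `(y, τ)` which are smooth in the charts of `dom` are bounded and `(G, τ)`-Lipschitz on `K' × B̄(0, r₁)`. -/
theorem spray_glip_aux (hG : GImm 𝒴 G) (hS : IsSpray 𝓜 𝒴 G Sg dom) (hK' : IsCompact K')
    (hKY : K' ⊆ 𝒴.carrier) {r₁ : ℝ}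
    (hr : ∀ y ∈ K', ∀ τ : CE (Fin q), ‖τ‖ ≤ r₁ → (y, τ) ∈ dom) {β : CotAmb V → CE (Fin q) → ℂ}
    (hβ : ∀ (Ψ : CE (Fin n ⊕ Fin n) → CotAmb V) (W : Set (CE (Fin n ⊕ Fin n))), 𝒴.IsHol Ψ W →
      ContDiffOn ℝ ∞ (fun a : CE (Fin n ⊕ Fin n) × CE (Fin q) => β (Ψ a.1) a.2)
        {a | a.1 ∈ W ∧ (Ψ a.1, a.2) ∈ dom}) :
    ∃ C : ℝ, 0 ≤ C ∧ (∀ y ∈ K', ∀ τ : CE (Fin q), ‖τ‖ ≤ r₁ → ‖β y τ‖ ≤ C) ∧
      ∀ y ∈ K', ∀ y' ∈ K', ∀ τ τ' : CE (Fin q), ‖τ‖ ≤ r₁ → ‖τ'‖ ≤ r₁ →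
        ‖β y τ - β y' τ'‖ ≤ C * (‖G y - G y'‖ + ‖τ - τ'‖) := by
  obtain ⟨O, hO, hdom⟩ := hS.isOpen
  have hA : IsCompact (K' ×ˢ Metric.closedBall (0 : CE (Fin q)) r₁) :=
    hK'.prod (isCompact_closedBall _ _)
  obtain ⟨C, h1, h2⟩ := glip_param hG hA (fun a ha => hKY ha.1) hO (fun a ha => by
      have h3 := hr a.1 ha.1 a.2 (by simpa using ha.2)
      rw [hdom] at h3
      exact h3.2) (β := β) (fun Ψ W hΨ => by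
      refine (hβ Ψ W hΨ).mono ?_
      rintro a ⟨h3, h4⟩
      refine ⟨h3, ?_⟩
      rw [hdom]
      exact ⟨⟨CMfd.mem_carrier hΨ h3, trivial⟩, h4⟩)
  refine ⟨max C 0, le_max_right _ _, fun y hy τ hτ => ?_, fun y hy y' hy' τ τ' hτ hτ' => ?_⟩
  · exact (h1 (y, τ) ⟨hy, by simpa using hτ⟩).trans (le_max_left _ _)
  · refine (h2 (y, τ) ⟨hy, by simpa using hτ⟩ (y', τ') ⟨hy', by simpa using hτ'⟩).trans ?_
    exact mul_le_mul_of_nonneg_right (le_max_left _ _) (by positivity)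

/-- `glip_param` on `A = K' ×ˢ closedBall 0 r₁` for every component; `‖v‖² = ∑ ‖v_k‖²`. -/
theorem spray_glip (hG : GImm 𝒴 G) (hS : IsSpray 𝓜 𝒴 G Sg dom) (hK' : IsCompact K')
    (hKY : K' ⊆ 𝒴.carrier) {r₁ : ℝ}
    (hr : ∀ y ∈ K', ∀ τ : CE (Fin q), ‖τ‖ ≤ r₁ → (y, τ) ∈ dom) :
    ∃ C : ℝ, 0 ≤ C ∧ ∀ y ∈ K', ∀ y' ∈ K', ∀ τ τ' : CE (Fin q), ‖τ‖ ≤ r₁ → ‖τ'‖ ≤ r₁ →
      ‖G (Sg y τ) - G (Sg y' τ')‖ ≤ C * (‖G y - G y'‖ + ‖τ - τ'‖) := by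
  have h1 : ∀ k : Fin q, ∃ C : ℝ, 0 ≤ C ∧
      (∀ y ∈ K', ∀ τ : CE (Fin q), ‖τ‖ ≤ r₁ → ‖G (Sg y τ) k‖ ≤ C) ∧
      ∀ y ∈ K', ∀ y' ∈ K', ∀ τ τ' : CE (Fin q), ‖τ‖ ≤ r₁ → ‖τ'‖ ≤ r₁ →
        ‖G (Sg y τ) k - G (Sg y' τ') k‖ ≤ C * (‖G y - G y'‖ + ‖τ - τ'‖) := fun k =>
    spray_glip_aux hG hS hK' hKY hr (β := fun y τ => G (Sg y τ) k)
      (fun Ψ W hΨ => spray_G_smooth hG hS Ψ W hΨ k)
  choose C hC0 _ hC using h1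
  refine ⟨Real.sqrt q * ∑ k, C k, mul_nonneg (Real.sqrt_nonneg _)
    (Finset.sum_nonneg fun k _ => hC0 k), fun y hy y' hy' τ τ' hτ hτ' => ?_⟩
  have hD : 0 ≤ ‖G y - G y'‖ + ‖τ - τ'‖ := by positivity
  have h2 := norm_toLp_le (q := q) (v := fun k => G (Sg y τ) k - G (Sg y' τ') k)
    (B := (∑ k, C k) * (‖G y - G y'‖ + ‖τ - τ'‖))
    (mul_nonneg (Finset.sum_nonneg fun k _ => hC0 k) hD) (fun k => by
      refine (hC k y hy y' hy' τ τ' hτ hτ').trans ?_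
      exact mul_le_mul_of_nonneg_right
        (Finset.single_le_sum (fun i _ => hC0 i) (Finset.mem_univ k)) hD)
  rw [mul_assoc]
  exact h2

/-- the `τ`-derivative of `G ∘ Sg`. -/
noncomputable def sprayDT (G : CotAmb V → CE (Fin q)) (Sg : CotAmb V → CE (Fin q) → CotAmb V)
    (y : CotAmb V) (τ : CE (Fin q)) : Matrix (Fin q) (Fin q) ℂ :=
  fun k j => fderiv ℝ (fun τ' => G (Sg y τ') k) τ (eb j)

theorem sprayDT_smooth (hG : GImm 𝒴 G) (hS : IsSpray 𝓜 𝒴 G Sg dom)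
    (Ψ : CE (Fin n ⊕ Fin n) → CotAmb V) (W : Set (CE (Fin n ⊕ Fin n))) (hΨ : 𝒴.IsHol Ψ W)
    (k j : Fin q) :
    ContDiffOn ℝ ∞ (fun a : CE (Fin n ⊕ Fin n) × CE (Fin q) => sprayDT G Sg (Ψ a.1) a.2 k j)
      {a | a.1 ∈ W ∧ (Ψ a.1, a.2) ∈ dom} := by
  have hopen := spray_isOpen_chartDom hS hΨ
  have hF := spray_G_smooth hG hS Ψ W hΨ k
  have h1 : ContDiffOn ℝ ∞ (fun a : CE (Fin n ⊕ Fin n) × CE (Fin q) =>
      fderiv ℝ (fun a : CE (Fin n ⊕ Fin n) × CE (Fin q) => G (Sg (Ψ a.1) a.2) k) a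
        ((0 : CE (Fin n ⊕ Fin n)), eb j)) {a | a.1 ∈ W ∧ (Ψ a.1, a.2) ∈ dom} :=
    (hF.fderiv_of_isOpen hopen (by simp)).clm_apply contDiffOn_const
  refine h1.congr fun a ha => ?_
  have hd : DifferentiableAt ℝ
      (fun a : CE (Fin n ⊕ Fin n) × CE (Fin q) => G (Sg (Ψ a.1) a.2) k) (a.1, a.2) :=
    ((hF a ha).contDiffAt (hopen.mem_nhds ha)).differentiableAt (by simp)
  have h2 : HasFDerivAt (fun τ' : CE (Fin q) => (a.1, τ'))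
      (ContinuousLinearMap.inr ℝ (CE (Fin n ⊕ Fin n)) (CE (Fin q))) a.2 :=
    hasFDerivAt_prodMk_right a.1 a.2
  have h3 := (hd.hasFDerivAt.comp a.2 h2).fderiv
  show fderiv ℝ (fun τ' => G (Sg (Ψ a.1) τ') k) a.2 (eb j) = _
  have h4 : (fun τ' => G (Sg (Ψ a.1) τ') k)
      = (fun a : CE (Fin n ⊕ Fin n) × CE (Fin q) => G (Sg (Ψ a.1) a.2) k) ∘
        fun τ' : CE (Fin q) => (a.1, τ') := rfl
  rw [h4, h3]
  rfl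

/-- `S5-SF3`.  In a parametrisation `sprayDT (Ψ p) τ k j = fderiv ℝ (G (Sg (Ψ ·) ·) k) (p, τ) (0, eb j)` on the OPEN set `{p ∈ W, (Ψ p, τ) ∈ dom}`,
smooth by `spray_G_smooth` (`ContDiffOn.fderiv_of_isOpen`); then `glip_param`. -/
theorem sprayDT_glip (hG : GImm 𝒴 G) (hS : IsSpray 𝓜 𝒴 G Sg dom) (hK' : IsCompact K')
    (hKY : K' ⊆ 𝒴.carrier) {r₁ : ℝ}
    (hr : ∀ y ∈ K', ∀ τ : CE (Fin q), ‖τ‖ ≤ r₁ → (y, τ) ∈ dom) :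
    ∃ C : ℝ, 0 ≤ C ∧
      (∀ y ∈ K', ∀ τ : CE (Fin q), ‖τ‖ ≤ r₁ → ∀ k j, ‖sprayDT G Sg y τ k j‖ ≤ C) ∧
      ∀ y ∈ K', ∀ y' ∈ K', ∀ τ τ' : CE (Fin q), ‖τ‖ ≤ r₁ → ‖τ'‖ ≤ r₁ → ∀ k j,
        ‖sprayDT G Sg y τ k j - sprayDT G Sg y' τ' k j‖ ≤ C * (‖G y - G y'‖ + ‖τ - τ'‖) := by
  have h1 : ∀ k j : Fin q, ∃ C : ℝ, 0 ≤ C ∧
      (∀ y ∈ K', ∀ τ : CE (Fin q), ‖τ‖ ≤ r₁ → ‖sprayDT G Sg y τ k j‖ ≤ C) ∧
      ∀ y ∈ K', ∀ y' ∈ K', ∀ τ τ' : CE (Fin q), ‖τ‖ ≤ r₁ → ‖τ'‖ ≤ r₁ →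
        ‖sprayDT G Sg y τ k j - sprayDT G Sg y' τ' k j‖ ≤ C * (‖G y - G y'‖ + ‖τ - τ'‖) :=
    fun k j => spray_glip_aux hG hS hK' hKY hr (β := fun y τ => sprayDT G Sg y τ k j)
      (fun Ψ W hΨ => sprayDT_smooth hG hS Ψ W hΨ k j)
  choose C hC0 hC1 hC2 using h1
  have hle : ∀ k j, C k j ≤ ∑ k, ∑ j, C k j := fun k j =>
    (Finset.single_le_sum (fun i _ => hC0 k i) (Finset.mem_univ j)).trans
      (Finset.single_le_sum (f := fun k => ∑ j, C k j)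
        (fun i _ => Finset.sum_nonneg fun j _ => hC0 i j) (Finset.mem_univ k))
  refine ⟨∑ k, ∑ j, C k j, Finset.sum_nonneg fun k _ => Finset.sum_nonneg fun j _ => hC0 k j,
    fun y hy τ hτ k j => (hC1 k j y hy τ hτ).trans (hle k j),
    fun y hy y' hy' τ τ' hτ hτ' k j => (hC2 k j y hy y' hy' τ τ' hτ hτ').trans ?_⟩
  exact mul_le_mul_of_nonneg_right (hle k j) (by positivity)

/-- the domain of `IsSpray.hol` is an open set. -/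
theorem spray_isOpen_holDom (hS : IsSpray 𝓜 𝒴 G Sg dom)
    {Ψ Ψ' : CE (Fin n ⊕ Fin n) → CotAmb V} {W W' : Set (CE (Fin n ⊕ Fin n))}
    (hΨ : 𝒴.IsHol Ψ W) (hΨ' : 𝒴.IsHol Ψ' W') :
    IsOpen {a : CE (Fin n ⊕ Fin n) × CE (Fin q) |
      a.1 ∈ W ∧ (Ψ a.1, a.2) ∈ dom ∧ Sg (Ψ a.1) a.2 ∈ Ψ' '' W'} := by
  obtain ⟨O, hO, hOeq⟩ := (𝒴.isParam hΨ').exists_isOpen_image (CMfd.isOpen_dom hΨ') subset_rfl
  have h := (hS.smooth Ψ W hΨ).continuousOn.isOpen_inter_preimage (spray_isOpen_chartDom hS hΨ) hO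
  have heq : {a : CE (Fin n ⊕ Fin n) × CE (Fin q) |
      a.1 ∈ W ∧ (Ψ a.1, a.2) ∈ dom ∧ Sg (Ψ a.1) a.2 ∈ Ψ' '' W'}
      = {a | a.1 ∈ W ∧ (Ψ a.1, a.2) ∈ dom} ∩ (fun a => Sg (Ψ a.1) a.2) ⁻¹' O := by
    ext a
    constructor
    · rintro ⟨h1, h2, h3⟩
      rw [hOeq] at h3
      exact ⟨⟨h1, h2⟩, h3.2⟩
    · rintro ⟨⟨h1, h2⟩, h3⟩
      refine ⟨h1, h2, ?_⟩
      rw [hOeq]
      exact ⟨hS.maps _ _ h2, h3⟩
  rw [heq]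
  exact h

/-- `G ∘ Sg` is holomorphic in every parametrisation. -/
theorem spray_G_hol (hG : GImm 𝒴 G) (hS : IsSpray 𝓜 𝒴 G Sg dom)
    {Ψ : CE (Fin n ⊕ Fin n) → CotAmb V} {W : Set (CE (Fin n ⊕ Fin n))} (hΨ : 𝒴.IsHol Ψ W)
    {a : CE (Fin n ⊕ Fin n) × CE (Fin q)} (ha1 : a.1 ∈ W) (ha2 : (Ψ a.1, a.2) ∈ dom) :
    DifferentiableAt ℂ (fun a : CE (Fin n ⊕ Fin n) × CE (Fin q) => G (Sg (Ψ a.1) a.2)) a := by
  have hy' := hS.maps _ _ ha2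
  have hΨ' := 𝒴.isHol_pΦ hy'
  have hmem := 𝒴.mem_image_pΦ hy'
  generalize 𝒴.pΦ (Sg (Ψ a.1) a.2) = Ψ' at hΨ' hmem
  generalize 𝒴.pU (Sg (Ψ a.1) a.2) = W' at hΨ' hmem
  have hopen := spray_isOpen_holDom hS hΨ hΨ'
  have haD : a ∈ {a : CE (Fin n ⊕ Fin n) × CE (Fin q) |
      a.1 ∈ W ∧ (Ψ a.1, a.2) ∈ dom ∧ Sg (Ψ a.1) a.2 ∈ Ψ' '' W'} := ⟨ha1, ha2, hmem⟩
  have h1 : DifferentiableAt ℂ (fun a : CE (Fin n ⊕ Fin n) × CE (Fin q) =>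
      Function.invFunOn Ψ' W' (Sg (Ψ a.1) a.2)) a :=
    (hS.hol Ψ Ψ' W W' hΨ hΨ' a haD).differentiableAt (hopen.mem_nhds haD)
  have h2 : DifferentiableAt ℂ (G ∘ Ψ') (Function.invFunOn Ψ' W' (Sg (Ψ a.1) a.2)) :=
    (hG.hol Ψ' W' hΨ' _ ((𝒴.isParam hΨ').invFunOn_mem hmem)).differentiableAt
      ((CMfd.isOpen_dom hΨ').mem_nhds ((𝒴.isParam hΨ').invFunOn_mem hmem))
  have h3 := h2.comp a h1
  refine h3.congr_of_eventuallyEq ?_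
  filter_upwards [hopen.mem_nhds haD] with b hb
  show _ = G (Ψ' (Function.invFunOn Ψ' W' (Sg (Ψ b.1) b.2)))
  rw [(𝒴.isParam hΨ').rightInv hb.2.2]

/-- `τ ↦ G (Sg y τ)` is holomorphic on the slice of `dom`. -/
theorem spray_G_hol_slice (hG : GImm 𝒴 G) (hS : IsSpray 𝓜 𝒴 G Sg dom) {y : CotAmb V}
    (hy : y ∈ 𝒴.carrier) {τ : CE (Fin q)} (hτ : (y, τ) ∈ dom) :
    DifferentiableAt ℂ (fun τ' : CE (Fin q) => G (Sg y τ')) τ := by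
  have h1 := spray_G_hol hG hS (𝒴.isHol_pΦ hy) (a := (𝒴.co y, τ)) (𝒴.co_mem hy)
    (by rw [𝒴.pΦ_co hy]; exact hτ)
  have h2 : DifferentiableAt ℂ (fun τ' : CE (Fin q) => (𝒴.co y, τ')) τ :=
    (differentiableAt_const _).prodMk differentiableAt_id
  have h3 := h1.comp τ h2
  refine h3.congr_of_eventuallyEq (Eventually.of_forall fun τ' => ?_)
  show _ = G (Sg (𝒴.pΦ y (𝒴.co y)) τ')
  rw [𝒴.pΦ_co hy]

/-- chain rule along the ray `s ↦ s τ`.  `τ' ↦ G (Sg y τ') k` is HOLOMORPHIC on the open slice of `dom` (`IsSpray.hol`, `GImm.hol`), so its real derivative is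
complex linear: `fderiv ℝ … (∑ τ_j e_j) = ∑ τ_j fderiv ℝ … e_j`. -/
theorem spray_hasDerivAt (hG : GImm 𝒴 G) (hS : IsSpray 𝓜 𝒴 G Sg dom) {y : CotAmb V}
    (hy : y ∈ 𝒴.carrier) {τ : CE (Fin q)} {s : ℝ} (hs : (y, (s : ℂ) • τ) ∈ dom) (k : Fin q) :
    HasDerivAt (fun u : ℝ => G (Sg y ((u : ℂ) • τ)) k)
      (∑ j, sprayDT G Sg y ((s : ℂ) • τ) k j * τ j) s := by
  have h0 := spray_G_hol_slice hG hS hy hs
  have h1 : DifferentiableAt ℂ (fun τ' : CE (Fin q) => G (Sg y τ') k) ((s : ℂ) • τ) :=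
    (EuclideanSpace.proj (𝕜 := ℂ) k).differentiableAt.comp _ h0
  have h2 : HasFDerivAt (fun τ' : CE (Fin q) => G (Sg y τ') k)
      ((fderiv ℂ (fun τ' : CE (Fin q) => G (Sg y τ') k) ((s : ℂ) • τ)).restrictScalars ℝ)
      ((s : ℂ) • τ) := h1.hasFDerivAt.restrictScalars ℝ
  have h3 : HasDerivAt (fun u : ℝ => (u : ℂ) • τ) τ s := by
    have := (Complex.ofRealCLM.hasDerivAt (x := s)).smul_const τ
    simpa using this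
  have h4 := h2.comp_hasDerivAt s h3
  have h5 : ∀ j, sprayDT G Sg y ((s : ℂ) • τ) k j
      = fderiv ℂ (fun τ' : CE (Fin q) => G (Sg y τ') k) ((s : ℂ) • τ) (eb j) := fun j => by
    show fderiv ℝ (fun τ' => G (Sg y τ') k) ((s : ℂ) • τ) (eb j) = _
    rw [h2.fderiv]
    rfl
  have h6 : (∑ j, sprayDT G Sg y ((s : ℂ) • τ) k j * τ j)
      = ((fderiv ℂ (fun τ' : CE (Fin q) => G (Sg y τ') k) ((s : ℂ) • τ)).restrictScalars ℝ) τ := by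
    simp only [h5]
    generalize fderiv ℂ (fun τ' : CE (Fin q) => G (Sg y τ') k) ((s : ℂ) • τ) = L
    conv_rhs => rw [CE_eq_sum_complex τ]
    simp only [ContinuousLinearMap.coe_restrictScalars', map_sum, map_smul, smul_eq_mul]
    exact Finset.sum_congr rfl fun j _ => mul_comm _ _
  rw [h6]
  exact h4

/-- `S5-SF4`.  Hadamard's lemma: `𝔗 y τ k j = ∫ s in 0..1, sprayDT G Sg y (s τ) k j`.  Identity: `intervalIntegral.integral_eq_sub_of_hasDerivAt` (`spray_hasDerivAt`,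
continuity in `s` from the Lipschitz bound of `sprayDT_glip`, `IsSpray.balanced`, `IsSpray.zero`); bounds: `intervalIntegral.norm_integral_le_of_norm_le_const` applied to the
integrand and to the difference of two integrands (`‖sτ - sτ'‖ ≤ ‖τ - τ'‖`). -/
theorem spray_hadamard (hG : GImm 𝒴 G) (hS : IsSpray 𝓜 𝒴 G Sg dom) (hK' : IsCompact K')
    (hKY : K' ⊆ 𝒴.carrier) {r₁ : ℝ}
    (hr : ∀ y ∈ K', ∀ τ : CE (Fin q), ‖τ‖ ≤ r₁ → (y, τ) ∈ dom) :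
    ∃ (𝔗 : CotAmb V → CE (Fin q) → Matrix (Fin q) (Fin q) ℂ) (C : ℝ), 0 ≤ C ∧
      (∀ y ∈ K', ∀ τ : CE (Fin q), ‖τ‖ ≤ r₁ → ∀ k,
        G (Sg y τ) k - G y k = ∑ j, 𝔗 y τ k j * τ j) ∧
      (∀ y ∈ K', ∀ τ : CE (Fin q), ‖τ‖ ≤ r₁ → ∀ k j, ‖𝔗 y τ k j‖ ≤ C) ∧
      ∀ y ∈ K', ∀ y' ∈ K', ∀ τ τ' : CE (Fin q), ‖τ‖ ≤ r₁ → ‖τ'‖ ≤ r₁ → ∀ k j,
        ‖𝔗 y τ k j - 𝔗 y' τ' k j‖ ≤ C * (‖G y - G y'‖ + ‖τ - τ'‖) := by
  obtain ⟨C, hC0, hB, hL⟩ := sprayDT_glip hG hS hK' hKY hr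
  have hray : ∀ τ : CE (Fin q), ‖τ‖ ≤ r₁ → ∀ s ∈ Set.Icc (0 : ℝ) 1, ‖(s : ℂ) • τ‖ ≤ r₁ := by
    intro τ hτ s hs
    rw [norm_smul, Complex.norm_real, Real.norm_eq_abs, abs_of_nonneg hs.1]
    exact (mul_le_of_le_one_left (norm_nonneg _) hs.2).trans hτ
  have hcont : ∀ y ∈ K', ∀ τ : CE (Fin q), ‖τ‖ ≤ r₁ → ∀ k j,
      ContinuousOn (fun s : ℝ => sprayDT G Sg y ((s : ℂ) • τ) k j) (Set.Icc 0 1) := by
    intro y hy τ hτ k j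
    have hlip : LipschitzOnWith (Real.toNNReal (C * ‖τ‖))
        (fun s : ℝ => sprayDT G Sg y ((s : ℂ) • τ) k j) (Set.Icc 0 1) := by
      refine LipschitzOnWith.of_dist_le_mul fun s hs s' hs' => ?_
      rw [dist_eq_norm, Real.coe_toNNReal _ (by positivity), dist_eq_norm]
      refine (hL y hy y hy _ _ (hray τ hτ s hs) (hray τ hτ s' hs') k j).trans ?_
      rw [sub_self, norm_zero, zero_add, ← sub_smul, norm_smul, ← Complex.ofReal_sub,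
        Complex.norm_real]
      exact le_of_eq (by ring)
    exact hlip.continuousOn
  have hint : ∀ y ∈ K', ∀ τ : CE (Fin q), ‖τ‖ ≤ r₁ → ∀ k j,
      IntervalIntegrable (fun s : ℝ => sprayDT G Sg y ((s : ℂ) • τ) k j) volume 0 1 := by
    intro y hy τ hτ k j
    refine ContinuousOn.intervalIntegrable ?_
    rw [Set.uIcc_of_le zero_le_one]
    exact hcont y hy τ hτ k j
  have hΙ : ∀ s ∈ Set.uIoc (0 : ℝ) 1, s ∈ Set.Icc (0 : ℝ) 1 := by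
    intro s hs
    rw [Set.uIoc_of_le zero_le_one] at hs
    exact ⟨hs.1.le, hs.2⟩
  refine ⟨fun y τ k j => ∫ s in (0 : ℝ)..1, sprayDT G Sg y ((s : ℂ) • τ) k j, C, hC0,
    fun y hy τ hτ k => ?_, fun y hy τ hτ k j => ?_, fun y hy y' hy' τ τ' hτ hτ' k j => ?_⟩
  · have h1 := intervalIntegral.integral_eq_sub_of_hasDerivAt
      (f := fun u : ℝ => G (Sg y ((u : ℂ) • τ)) k)
      (f' := fun s : ℝ => ∑ j, sprayDT G Sg y ((s : ℂ) • τ) k j * τ j) (a := 0) (b := 1)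
      (fun s hs => by
        rw [Set.uIcc_of_le zero_le_one] at hs
        exact spray_hasDerivAt hG hS (hKY hy) (hr y hy _ (hray τ hτ s hs)) k)
      (by
        have h2 := IntervalIntegrable.sum (μ := volume) (a := (0 : ℝ)) (b := 1) Finset.univ
          (f := fun (j : Fin q) (s : ℝ) => sprayDT G Sg y ((s : ℂ) • τ) k j * τ j)
          fun j _ => (hint y hy τ hτ k j).mul_const _
        have h3 : (∑ j, fun s : ℝ => sprayDT G Sg y ((s : ℂ) • τ) k j * τ j)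
            = fun s : ℝ => ∑ j, sprayDT G Sg y ((s : ℂ) • τ) k j * τ j := by
          funext s
          simp
        rw [← h3]
        exact h2)
    simp only [Complex.ofReal_one, one_smul, Complex.ofReal_zero, zero_smul,
      hS.zero y (hKY hy)] at h1
    rw [← h1, intervalIntegral.integral_finsetSum
      (fun j _ => (hint y hy τ hτ k j).mul_const _)]
    exact Finset.sum_congr rfl fun j _ => intervalIntegral.integral_mul_const _ _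
  · have h1 := intervalIntegral.norm_integral_le_of_norm_le_const (a := (0 : ℝ)) (b := 1)
      (f := fun s : ℝ => sprayDT G Sg y ((s : ℂ) • τ) k j) (C := C)
      (fun s hs => hB y hy _ (hray τ hτ s (hΙ s hs)) k j)
    simpa using h1
  · show ‖(∫ s in (0 : ℝ)..1, sprayDT G Sg y ((s : ℂ) • τ) k j)
      - ∫ s in (0 : ℝ)..1, sprayDT G Sg y' ((s : ℂ) • τ') k j‖ ≤ _
    rw [← intervalIntegral.integral_sub (hint y hy τ hτ k j) (hint y' hy' τ' hτ' k j)]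
    have h1 := intervalIntegral.norm_integral_le_of_norm_le_const (a := (0 : ℝ)) (b := 1)
      (f := fun s : ℝ => sprayDT G Sg y ((s : ℂ) • τ) k j - sprayDT G Sg y' ((s : ℂ) • τ') k j)
      (C := C * (‖G y - G y'‖ + ‖τ - τ'‖))
      (fun s hs => by
        have hs' := hΙ s hs
        refine (hL y hy y' hy' _ _ (hray τ hτ s hs') (hray τ' hτ' s hs') k j).trans ?_
        refine mul_le_mul_of_nonneg_left (add_le_add le_rfl ?_) hC0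
        rw [← smul_sub, norm_smul, Complex.norm_real, Real.norm_eq_abs, abs_of_nonneg hs'.1]
        exact mul_le_of_le_one_left (norm_nonneg _) hs'.2)
    simpa using h1

/-! ### the structure of the family -/

variable {f : ℂ → CotAmb V} {a : ℂ → CE (Fin q)} {r₀ : ℝ}

/-- `S5-SF7`.  At `(z₀, ζ₀)` take a parametrisation `Ψ` around `f ζ₀`; `p = Ψ⁻¹ ∘ f` is smooth within the closed disc near `ζ₀`
(`IsParam.contDiffWithinAt_invFunOn_comp`, `IsParam.eventually_mem_image`), `F z ζ = Sg (Ψ (p ζ)) (z • a ζ)` there; `IsSpray.smooth`. -/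
theorem spray_fam_smooth (hS : IsSpray 𝓜 𝒴 G Sg dom) (hf : IsSmDisc 𝒴 f)
    (ha : ∀ k, HolSm fun ζ => a ζ k)
    (hdom : ∀ z ∈ Metric.ball (0 : ℂ) r₀, ∀ ζ ∈ uDiscC, (f ζ, z • a ζ) ∈ dom) :
    ContDiffOn ℝ ∞ (fun b : ℂ × ℂ => Sg (f b.2) (b.1 • a b.2)) (Metric.ball 0 r₀ ×ˢ uDiscC) := by
  rintro ⟨z₀, ζ₀⟩ ⟨hz₀, hζ₀⟩
  obtain ⟨Ψ₀, W₀, hΨ₀, hmem⟩ := 𝒴.cover (f ζ₀) (hf.2.2 ζ₀ hζ₀)
  have hp : ContDiffWithinAt ℝ ∞ (Function.invFunOn Ψ₀ W₀ ∘ f) uDiscC ζ₀ :=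
    (𝒴.isParam hΨ₀).contDiffWithinAt_invFunOn_comp le_rfl (hf.2.1 ζ₀ hζ₀) hf.2.2 hζ₀ hmem
  have haD : ContDiffWithinAt ℝ ∞ a uDiscC ζ₀ := by
    have h1 : ContDiffWithinAt ℝ ∞ (fun ζ => ((a ζ : CE (Fin q)) : Fin q → ℂ)) uDiscC ζ₀ :=
      contDiffWithinAt_pi.2 fun k => (ha k).2 ζ₀ hζ₀
    exact (PiLp.continuousLinearEquiv 2 ℝ
      (fun _ : Fin q => ℂ)).symm.contDiff.contDiffAt.comp_contDiffWithinAt ζ₀ h1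
  have hsnd : Set.MapsTo (Prod.snd : ℂ × ℂ → ℂ) (Metric.ball 0 r₀ ×ˢ uDiscC) uDiscC :=
    fun b hb => hb.2
  have hd : ContDiffWithinAt ℝ ∞ (fun b : ℂ × ℂ =>
      (((Function.invFunOn Ψ₀ W₀ ∘ f) b.2, b.1 • a b.2) : CE (Fin n ⊕ Fin n) × CE (Fin q)))
      (Metric.ball 0 r₀ ×ˢ uDiscC) (z₀, ζ₀) :=
    (hp.comp (z₀, ζ₀) contDiffWithinAt_snd hsnd).prodMk
      (contDiffWithinAt_fst.smul (haD.comp (z₀, ζ₀) contDiffWithinAt_snd hsnd))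
  have hev : ∀ᶠ b in 𝓝[Metric.ball 0 r₀ ×ˢ uDiscC] ((z₀, ζ₀) : ℂ × ℂ), f b.2 ∈ Ψ₀ '' W₀ :=
    amb_eventually_mem_image (f := fun b : ℂ × ℂ => f b.2)
      (((hf.2.1 ζ₀ hζ₀).continuousWithinAt).comp (x := ((z₀, ζ₀) : ℂ × ℂ))
        continuous_snd.continuousWithinAt hsnd)
      (fun b hb => hf.2.2 _ hb.2) hΨ₀ hmem
  set T : Set (ℂ × ℂ) := (Metric.ball 0 r₀ ×ˢ uDiscC) ∩ {b | f b.2 ∈ Ψ₀ '' W₀} with hT
  have hTm : T ∈ 𝓝[Metric.ball 0 r₀ ×ˢ uDiscC] ((z₀, ζ₀) : ℂ × ℂ) :=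
    Filter.inter_mem self_mem_nhdsWithin hev
  have hmaps : Set.MapsTo (fun b : ℂ × ℂ =>
      (((Function.invFunOn Ψ₀ W₀ ∘ f) b.2, b.1 • a b.2) : CE (Fin n ⊕ Fin n) × CE (Fin q))) T
      {c | c.1 ∈ W₀ ∧ (Ψ₀ c.1, c.2) ∈ dom} := by
    rintro ⟨z, ζ⟩ ⟨⟨hz, hζ⟩, hζ'⟩
    have e : Ψ₀ ((Function.invFunOn Ψ₀ W₀ ∘ f) ζ) = f ζ := Function.invFunOn_eq hζ'
    refine ⟨Function.invFunOn_mem hζ', ?_⟩
    show (Ψ₀ ((Function.invFunOn Ψ₀ W₀ ∘ f) ζ), z • a ζ) ∈ dom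
    rw [e]
    exact hdom z hz ζ hζ
  have hb₀T : ((z₀, ζ₀) : ℂ × ℂ) ∈ T := ⟨⟨hz₀, hζ₀⟩, hmem⟩
  have h1 : ContDiffWithinAt ℝ ∞ (fun b : ℂ × ℂ =>
      Sg (Ψ₀ ((Function.invFunOn Ψ₀ W₀ ∘ f) b.2)) (b.1 • a b.2)) T (z₀, ζ₀) :=
    ContDiffWithinAt.comp (z₀, ζ₀) (hS.smooth Ψ₀ W₀ hΨ₀ _ (hmaps hb₀T))
      (hd.mono Set.inter_subset_left) hmaps
  have h2 : ContDiffWithinAt ℝ ∞ (fun b : ℂ × ℂ => Sg (f b.2) (b.1 • a b.2)) T (z₀, ζ₀) := by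
    refine h1.congr (fun b hb => ?_) ?_
    · have e : Ψ₀ ((Function.invFunOn Ψ₀ W₀ ∘ f) b.2) = f b.2 := Function.invFunOn_eq hb.2
      rw [e]
    · have e : Ψ₀ ((Function.invFunOn Ψ₀ W₀ ∘ f) ζ₀) = f ζ₀ := Function.invFunOn_eq hmem
      show _ = Sg (Ψ₀ ((Function.invFunOn Ψ₀ W₀ ∘ f) ζ₀)) (z₀ • a ζ₀)
      rw [e]
  exact h2.mono_of_mem_nhdsWithin hTm

/-- `S5-SF8`.  At `(z₀, ζ₀)`, `|ζ₀| < 1`: `p = Ψ⁻¹ ∘ f` is holomorphic near `ζ₀` (`IsHolDisc`), `(z, ζ) ↦ (p ζ, z • a ζ)` is holomorphic, `IsSpray.hol Ψ Ψ'`. -/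
theorem spray_fam_hol2 (hS : IsSpray 𝓜 𝒴 G Sg dom) (hf : IsSmDisc 𝒴 f)
    (ha : ∀ k, HolSm fun ζ => a ζ k)
    (hdom : ∀ z ∈ Metric.ball (0 : ℂ) r₀, ∀ ζ ∈ uDiscC, (f ζ, z • a ζ) ∈ dom)
    (Ψ : CE (Fin n ⊕ Fin n) → CotAmb V) (W : Set (CE (Fin n ⊕ Fin n))) (hΨ : 𝒴.IsHol Ψ W) :
    DifferentiableOn ℂ (fun b : ℂ × ℂ => Function.invFunOn Ψ W (Sg (f b.2) (b.1 • a b.2)))
      ((Metric.ball 0 r₀ ×ˢ uDisc) ∩ {b | Sg (f b.2) (b.1 • a b.2) ∈ Ψ '' W}) := by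
  rintro ⟨z₀, ζ₀⟩ ⟨⟨hz₀, hζ₀⟩, hb₀⟩
  have hsub : uDisc ⊆ uDiscC := Metric.ball_subset_closedBall
  obtain ⟨Ψ₀, W₀, hΨ₀, hmem⟩ := 𝒴.cover (f ζ₀) (hf.2.2 ζ₀ (hsub hζ₀))
  have hcurve : IsHolCurve 𝒴 f uDisc := ⟨Metric.isOpen_ball, hf.1.1, hf.1.2.1, hf.1.2.2⟩
  have hopen : IsOpen (uDisc ∩ f ⁻¹' (Ψ₀ '' W₀)) := hcurve.isOpen_inter hΨ₀
  have hp : DifferentiableAt ℂ (Function.invFunOn Ψ₀ W₀ ∘ f) ζ₀ :=
    (hf.1.2.2 Ψ₀ W₀ hΨ₀ ζ₀ ⟨hζ₀, hmem⟩).differentiableAt (hopen.mem_nhds ⟨hζ₀, hmem⟩)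
  have haD : DifferentiableAt ℂ a ζ₀ := by
    rw [differentiableAt_euclidean]
    exact fun k => ((ha k).1 ζ₀ hζ₀).differentiableAt (Metric.isOpen_ball.mem_nhds hζ₀)
  have hd : DifferentiableAt ℂ (fun b : ℂ × ℂ =>
      (((Function.invFunOn Ψ₀ W₀ ∘ f) b.2, b.1 • a b.2) : CE (Fin n ⊕ Fin n) × CE (Fin q)))
      (z₀, ζ₀) := by
    have h1 : DifferentiableAt ℂ (fun b : ℂ × ℂ => (Function.invFunOn Ψ₀ W₀ ∘ f) b.2) (z₀, ζ₀) :=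
      DifferentiableAt.comp (f := Prod.snd) (z₀, ζ₀) hp differentiableAt_snd
    have h2 : DifferentiableAt ℂ (fun b : ℂ × ℂ => a b.2) (z₀, ζ₀) :=
      DifferentiableAt.comp (f := Prod.snd) (z₀, ζ₀) haD differentiableAt_snd
    have h3 : DifferentiableAt ℂ (fun b : ℂ × ℂ => b.1 • a b.2) (z₀, ζ₀) :=
      differentiableAt_fst.smul h2
    exact h1.prodMk h3
  set T : Set (ℂ × ℂ) := ((Metric.ball 0 r₀ ×ˢ uDisc) ∩ {b | Sg (f b.2) (b.1 • a b.2) ∈ Ψ '' W}) ∩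
    Prod.snd ⁻¹' (uDisc ∩ f ⁻¹' (Ψ₀ '' W₀)) with hT
  have hmaps : Set.MapsTo (fun b : ℂ × ℂ =>
      (((Function.invFunOn Ψ₀ W₀ ∘ f) b.2, b.1 • a b.2) : CE (Fin n ⊕ Fin n) × CE (Fin q))) T
      {c | c.1 ∈ W₀ ∧ (Ψ₀ c.1, c.2) ∈ dom ∧ Sg (Ψ₀ c.1) c.2 ∈ Ψ '' W} := by
    rintro ⟨z, ζ⟩ ⟨⟨⟨hz, hζ⟩, hb⟩, _, hζ'⟩
    have e : Ψ₀ ((Function.invFunOn Ψ₀ W₀ ∘ f) ζ) = f ζ := Function.invFunOn_eq hζ'
    refine ⟨Function.invFunOn_mem hζ', ?_, ?_⟩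
    · show (Ψ₀ ((Function.invFunOn Ψ₀ W₀ ∘ f) ζ), z • a ζ) ∈ dom
      rw [e]
      exact hdom z hz ζ (hsub hζ)
    · show Sg (Ψ₀ ((Function.invFunOn Ψ₀ W₀ ∘ f) ζ)) (z • a ζ) ∈ Ψ '' W
      rw [e]
      exact hb
  have hb₀T : ((z₀, ζ₀) : ℂ × ℂ) ∈ T := ⟨⟨⟨hz₀, hζ₀⟩, hb₀⟩, hζ₀, hmem⟩
  have h1 : DifferentiableWithinAt ℂ (fun b : ℂ × ℂ =>
      Function.invFunOn Ψ W (Sg (Ψ₀ ((Function.invFunOn Ψ₀ W₀ ∘ f) b.2)) (b.1 • a b.2))) T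
      (z₀, ζ₀) :=
    DifferentiableWithinAt.comp (z₀, ζ₀) (hS.hol Ψ₀ Ψ W₀ W hΨ₀ hΨ _ (hmaps hb₀T))
      hd.differentiableWithinAt hmaps
  have h2 : DifferentiableWithinAt ℂ (fun b : ℂ × ℂ =>
      Function.invFunOn Ψ W (Sg (f b.2) (b.1 • a b.2))) T (z₀, ζ₀) := by
    refine h1.congr (fun b hb => ?_) ?_
    · have e : Ψ₀ ((Function.invFunOn Ψ₀ W₀ ∘ f) b.2) = f b.2 := Function.invFunOn_eq hb.2.2
      rw [e]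
    · have e : Ψ₀ ((Function.invFunOn Ψ₀ W₀ ∘ f) ζ₀) = f ζ₀ := Function.invFunOn_eq hmem
      show _ = Function.invFunOn Ψ W (Sg (Ψ₀ ((Function.invFunOn Ψ₀ W₀ ∘ f) ζ₀)) (z₀ • a ζ₀))
      rw [e]
  refine h2.mono_of_mem_nhdsWithin ?_
  exact Filter.inter_mem self_mem_nhdsWithin (mem_nhdsWithin_of_mem_nhds
    ((hopen.preimage continuous_snd).mem_nhds ⟨hζ₀, hmem⟩))

/-- `S5-SF9`.  `y` fixed: `IsSpray.maps`, `IsSpray.cont`, `IsSpray.hol Ψ₀ Ψ` with `Ψ₀` around `y` and the holomorphic map `z ↦ (Ψ₀⁻¹ y, z • τ)`. -/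
theorem spray_fam_holz (hS : IsSpray 𝓜 𝒴 G Sg dom) {y : CotAmb V} (hy : y ∈ 𝒴.carrier)
    {τ : CE (Fin q)} (hdom : ∀ z ∈ Metric.ball (0 : ℂ) r₀, (y, z • τ) ∈ dom) :
    IsHolCurve 𝒴 (fun z => Sg y (z • τ)) (Metric.ball 0 r₀) := by
  have hc : Continuous fun z : ℂ => ((y, z • τ) : CotAmb V × CE (Fin q)) :=
    continuous_const.prodMk (continuous_id.smul continuous_const)
  refine ⟨Metric.isOpen_ball, fun z hz => hS.maps _ _ (hdom z hz),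
    hS.cont.comp hc.continuousOn fun z hz => hdom z hz, fun Ψ W hΨ => ?_⟩
  obtain ⟨Ψ₀, W₀, hΨ₀, p₀, hp₀, hp₀y⟩ := 𝒴.cover y hy
  have hd : Differentiable ℂ fun z : ℂ => ((p₀, z • τ) : CE (Fin n ⊕ Fin n) × CE (Fin q)) :=
    (differentiable_const _).prodMk (differentiable_id.smul_const τ)
  have h1 := (hS.hol Ψ₀ Ψ W₀ W hΨ₀ hΨ).comp
    (s := Metric.ball (0 : ℂ) r₀ ∩ (fun z => Sg y (z • τ)) ⁻¹' (Ψ '' W)) hd.differentiableOn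
    (fun z hz => by
      refine ⟨hp₀, ?_, ?_⟩
      · show (Ψ₀ p₀, z • τ) ∈ dom
        rw [hp₀y]
        exact hdom z hz.1
      · show Sg (Ψ₀ p₀) (z • τ) ∈ Ψ '' W
        rw [hp₀y]
        exact hz.2)
  refine h1.congr fun z _ => ?_
  show Function.invFunOn Ψ W (Sg y (z • τ)) = Function.invFunOn Ψ W (Sg (Ψ₀ p₀) (z • τ))
  rw [hp₀y]

theorem spray_isFam (hS : IsSpray 𝓜 𝒴 G Sg dom) (hf : IsSmDisc 𝒴 f)
    (ha : ∀ k, HolSm fun ζ => a ζ k)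
    (hdom : ∀ z ∈ Metric.ball (0 : ℂ) r₀, ∀ ζ ∈ uDiscC, (f ζ, z • a ζ) ∈ dom) :
    IsFam 𝒴 (fun z ζ => Sg (f ζ) (z • a ζ)) r₀ where
  mem := fun z hz ζ hζ => hS.maps _ _ (hdom z hz ζ hζ)
  smooth := spray_fam_smooth hS hf ha hdom
  hol2 := fun Ψ W hΨ => spray_fam_hol2 hS hf ha hdom Ψ W hΨ
  holz := fun ζ hζ => spray_fam_holz hS (hf.2.2 ζ hζ) fun z hz => hdom z hz ζ hζ

/-! ### the estimates -/

/-- `S5-SF10`.  `‖G (Sg y τ) - G (Sg y 0)‖ ≤ C ‖τ‖`, `‖z • (hh • cc)‖ ≤ |z| |hh| √q M₁` (`norm_toLp_le`). -/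
theorem spray_disp {r₁ C : ℝ} (hC : 0 ≤ C)
    (hL : ∀ y ∈ K', ∀ y' ∈ K', ∀ τ τ' : CE (Fin q), ‖τ‖ ≤ r₁ → ‖τ'‖ ≤ r₁ →
      ‖G (Sg y τ) - G (Sg y' τ')‖ ≤ C * (‖G y - G y'‖ + ‖τ - τ'‖))
    (hr₁ : 0 ≤ r₁) (h0 : ∀ y ∈ K', Sg y 0 = y) {M₁ : ℝ} (hM : 0 ≤ M₁) {y : CotAmb V} (hy : y ∈ K')
    {z w : ℂ} {v : Fin q → ℂ} (hv : ∀ k, ‖v k‖ ≤ M₁)
    (hτ : ‖z • (WithLp.toLp 2 fun k => w * v k : CE (Fin q))‖ ≤ r₁) :
    ‖G (Sg y (z • (WithLp.toLp 2 fun k => w * v k : CE (Fin q)))) - G y‖ ≤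
      C * (Real.sqrt q * M₁) * ‖z‖ * ‖w‖ := by
  have h1 := hL y hy y hy _ 0 hτ (by simpa using hr₁)
  rw [h0 y hy, sub_self, norm_zero, zero_add, sub_zero, norm_smul] at h1
  have h2 : ‖(WithLp.toLp 2 fun k => w * v k : CE (Fin q))‖ ≤ Real.sqrt q * (‖w‖ * M₁) :=
    norm_toLp_le (by positivity) fun k => by
      rw [norm_mul]
      exact mul_le_mul_of_nonneg_left (hv k) (norm_nonneg _)
  calc ‖G (Sg y (z • (WithLp.toLp 2 fun k => w * v k : CE (Fin q)))) - G y‖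
      ≤ C * (‖z‖ * ‖(WithLp.toLp 2 fun k => w * v k : CE (Fin q))‖) := h1
    _ ≤ C * (‖z‖ * (Real.sqrt q * (‖w‖ * M₁))) :=
        mul_le_mul_of_nonneg_left (mul_le_mul_of_nonneg_left h2 (norm_nonneg _)) hC
    _ = C * (Real.sqrt q * M₁) * ‖z‖ * ‖w‖ := by ring

/-- the common comparison step of `spray_DX`, `spray_DZ`. -/
theorem spray_cmp (hG : GImm 𝒴 G) {I : Type} [Fintype I] {r₁ C : ℝ}
    {β : I → CotAmb V → CE (Fin q) → ℂ}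
    (hL : ∀ y ∈ K', ∀ y' ∈ K', ∀ τ τ' : CE (Fin q), ‖τ‖ ≤ r₁ → ‖τ'‖ ≤ r₁ →
      ∑ i, ‖β i y τ - β i y' τ'‖ ^ 2 ≤ (C * (‖G y - G y'‖ + ‖τ - τ'‖)) ^ 2) {M₁ : ℝ}
    {f : ℂ → CotAmb V} {hh : ℂ → ℂ} {cc : ℂ → Fin q → ℂ} {z : ℂ}
    (hf : IsSmDisc 𝒴 f) (hfK : ∀ ζ ∈ uCirc, f ζ ∈ K')
    (hDX : DsqV (fun ζ => (G (f ζ) : Fin q → ℂ)) ≤ M₁)
    (hhh : HolSm hh) (hh1 : ∀ ζ ∈ uCirc, ‖hh ζ‖ ≤ 1) (hDh : Dsq hh ≤ M₁)
    (hcc : ∀ k, HolSm fun ζ => cc ζ k) (hccB : ∀ ζ ∈ uCirc, ∀ k, ‖cc ζ k‖ ≤ M₁)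
    (hDcc : DsqV cc ≤ M₁) (hz : ‖z‖ ≤ 1)
    (hτ : ∀ ζ ∈ uCirc, ‖z • (WithLp.toLp 2 fun k => hh ζ * cc ζ k : CE (Fin q))‖ ≤ r₁) :
    (∀ i, CircLip fun ζ =>
      β i (f ζ) (z • (WithLp.toLp 2 fun k => hh ζ * cc ζ k : CE (Fin q)))) ∧
    ∑ i, Dsq (fun ζ => β i (f ζ) (z • (WithLp.toLp 2 fun k => hh ζ * cc ζ k : CE (Fin q)))) ≤
      2 * C ^ 2 * (M₁ + q * (2 * M₁ + 2 * M₁ ^ 3)) := by
  have hM0 : 0 ≤ M₁ := (DsqV_nonneg _).trans hDcc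
  let g : Fin q ⊕ Fin q → ℂ → ℂ :=
    Sum.elim (fun r ζ => G (f ζ) r) (fun k ζ => z * (hh ζ * cc ζ k))
  have hg : ∀ j, CircLip (g j) := by
    rintro (r | k)
    · exact (hf.holSm_G hG r).circSm.circLip
    · exact (circLip_const z).mul (hhh.circSm.circLip.mul (hcc k).circSm.circLip)
  have hc : ∀ _j : Fin q ⊕ Fin q, 0 ≤ 2 * C ^ 2 := fun _ => by positivity
  have hdiff : ∀ ζ ∈ uCirc, ∀ ξ ∈ uCirc,
      ∑ i, ‖β i (f ζ) (z • (WithLp.toLp 2 fun k => hh ζ * cc ζ k : CE (Fin q))) -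
        β i (f ξ) (z • (WithLp.toLp 2 fun k => hh ξ * cc ξ k : CE (Fin q)))‖ ^ 2 ≤
      ∑ j, (2 * C ^ 2) * ‖g j ζ - g j ξ‖ ^ 2 := by
    intro ζ hζ ξ hξ
    have h1 := hL (f ζ) (hfK ζ hζ) (f ξ) (hfK ξ hξ) _ _ (hτ ζ hζ) (hτ ξ hξ)
    have h2 : ‖G (f ζ) - G (f ξ)‖ ^ 2 = ∑ r, ‖G (f ζ) r - G (f ξ) r‖ ^ 2 := by
      rw [EuclideanSpace.norm_sq_eq]
      rfl
    have h3 : ‖z • (WithLp.toLp 2 fun k => hh ζ * cc ζ k : CE (Fin q)) -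
        z • (WithLp.toLp 2 fun k => hh ξ * cc ξ k : CE (Fin q))‖ ^ 2 =
        ∑ k, ‖z * (hh ζ * cc ζ k) - z * (hh ξ * cc ξ k)‖ ^ 2 := by
      rw [EuclideanSpace.norm_sq_eq]
      rfl
    refine h1.trans ?_
    rw [Fintype.sum_sum_type, ← Finset.mul_sum, ← Finset.mul_sum]
    simp only [g, Sum.elim_inl, Sum.elim_inr]
    rw [← h2, ← h3]
    set A := ‖G (f ζ) - G (f ξ)‖
    set B := ‖z • (WithLp.toLp 2 fun k => hh ζ * cc ζ k : CE (Fin q)) -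
        z • (WithLp.toLp 2 fun k => hh ξ * cc ξ k : CE (Fin q))‖
    nlinarith [mul_nonneg (sq_nonneg C) (sq_nonneg (A - B))]
  refine ⟨fun i => circLip_of_diff hg fun ζ hζ ξ hξ =>
    (Finset.single_le_sum (f := fun i =>
      ‖β i (f ζ) (z • (WithLp.toLp 2 fun k => hh ζ * cc ζ k : CE (Fin q))) -
        β i (f ξ) (z • (WithLp.toLp 2 fun k => hh ξ * cc ξ k : CE (Fin q)))‖ ^ 2)
      (fun _ _ => sq_nonneg _) (Finset.mem_univ i)).trans (hdiff ζ hζ ξ hξ), ?_⟩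
  refine (Dsq_sum_le_of_diff hg hc hdiff).trans ?_
  rw [Fintype.sum_sum_type, ← Finset.mul_sum, ← Finset.mul_sum, ← mul_add]
  refine mul_le_mul_of_nonneg_left ?_ (by positivity)
  simp only [g, Sum.elim_inl, Sum.elim_inr]
  have hk : ∀ k : Fin q, Dsq (fun ζ => z * (hh ζ * cc ζ k)) ≤ 2 * M₁ + 2 * M₁ ^ 3 := by
    intro k
    rw [Dsq_const_mul]
    have h1 := Dsq_mul_le hhh.circSm.circLip (hcc k).circSm.circLip hh1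
      (fun ζ hζ => hccB ζ hζ k)
    have h2 : Dsq (fun ζ => cc ζ k) ≤ M₁ :=
      (Finset.single_le_sum (f := fun k => Dsq fun ζ => cc ζ k) (fun _ _ => Dsq_nonneg _)
        (Finset.mem_univ k)).trans hDcc
    have h3 : Dsq (fun ζ => hh ζ * cc ζ k) ≤ 2 * M₁ + 2 * M₁ ^ 3 := by
      have := mul_le_mul_of_nonneg_left hDh (by positivity : (0 : ℝ) ≤ 2 * M₁ ^ 2)
      nlinarith
    have h4 : ‖z‖ ^ 2 ≤ 1 := pow_le_one₀ (norm_nonneg _) hz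
    have h5 := Dsq_nonneg fun ζ => hh ζ * cc ζ k
    nlinarith
  have hs : ∑ k : Fin q, Dsq (fun ζ => z * (hh ζ * cc ζ k)) ≤ q * (2 * M₁ + 2 * M₁ ^ 3) := by
    calc ∑ k : Fin q, Dsq (fun ζ => z * (hh ζ * cc ζ k)) ≤ ∑ _k : Fin q, (2 * M₁ + 2 * M₁ ^ 3) :=
          Finset.sum_le_sum fun k _ => hk k
      _ = q * (2 * M₁ + 2 * M₁ ^ 3) := by
          rw [Finset.sum_const, Finset.card_univ, Fintype.card_fin, nsmul_eq_mul]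
  exact add_le_add hDX hs

/-- comparison principle (`Dsq_sum_le_of_diff` with `J = Fin q ⊕ Fin q`): `D(X_z)² ≤ 2C² (D(X)² + |z|² D(hh cc)²)`, `D(hh cc_k)² ≤ 2 M₁ + 2 M₁³` (`Dsq_mul_le`). -/
theorem spray_DX (hG : GImm 𝒴 G) {r₁ C : ℝ} (hC : 0 ≤ C)
    (hL : ∀ y ∈ K', ∀ y' ∈ K', ∀ τ τ' : CE (Fin q), ‖τ‖ ≤ r₁ → ‖τ'‖ ≤ r₁ →
      ‖G (Sg y τ) - G (Sg y' τ')‖ ≤ C * (‖G y - G y'‖ + ‖τ - τ'‖)) (M₁ : ℝ) :
    ∃ M : ℝ, ∀ (f : ℂ → CotAmb V) (hh : ℂ → ℂ) (cc : ℂ → Fin q → ℂ) (z : ℂ),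
      IsSmDisc 𝒴 f → (∀ ζ ∈ uCirc, f ζ ∈ K') → DsqV (fun ζ => (G (f ζ) : Fin q → ℂ)) ≤ M₁ →
      HolSm hh → (∀ ζ ∈ uCirc, ‖hh ζ‖ ≤ 1) → Dsq hh ≤ M₁ →
      (∀ k, HolSm fun ζ => cc ζ k) → (∀ ζ ∈ uCirc, ∀ k, ‖cc ζ k‖ ≤ M₁) → DsqV cc ≤ M₁ → ‖z‖ ≤ 1 →
      (∀ ζ ∈ uCirc, ‖z • (WithLp.toLp 2 fun k => hh ζ * cc ζ k : CE (Fin q))‖ ≤ r₁) →
      DsqV (fun ζ => (G (Sg (f ζ) (z • (WithLp.toLp 2 fun k => hh ζ * cc ζ k : CE (Fin q)))) :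
        Fin q → ℂ)) ≤ M := by
  refine ⟨2 * C ^ 2 * (M₁ + q * (2 * M₁ + 2 * M₁ ^ 3)), ?_⟩
  intro f hh cc z hf hfK hDX hhh hh1 hDh hcc hccB hDcc hz hτ
  exact (spray_cmp (I := Fin q) (β := fun k y τ => G (Sg y τ) k) (C := C) (r₁ := r₁) hG
    (fun y hy y' hy' τ τ' h1 h2 => by
      have e : ‖G (Sg y τ) - G (Sg y' τ')‖ ^ 2 = ∑ k, ‖G (Sg y τ) k - G (Sg y' τ') k‖ ^ 2 := by
        rw [EuclideanSpace.norm_sq_eq]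
        rfl
      rw [← e]
      exact pow_le_pow_left₀ (norm_nonneg _) (hL y hy y' hy' τ τ' h1 h2) 2)
    hf hfK hDX hhh hh1 hDh hcc hccB hDcc hz hτ).2

/-- `S5-SF11`.  On the circle `(X_z - X_0)_k / |hh| = ∑_j 𝔗(f, τ)_{kj} · z · (hh / |hh|) · cc_j`; every factor is `CCtl` (`𝔗 ∘ (f, τ)`: `circLip_of_diff`, `Dsq_le_of_diff` as in `spray_DX`;
`hh / |hh|`: `CircSm.unit`, modulus one); `CCtl.mul`, `CCtl.sum`, `CCtl.congr`. -/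
theorem spray_DZ (hG : GImm 𝒴 G) {r₁ C : ℝ} (hC : 0 ≤ C)
    {𝔗 : CotAmb V → CE (Fin q) → Matrix (Fin q) (Fin q) ℂ}
    (hT1 : ∀ y ∈ K', ∀ τ : CE (Fin q), ‖τ‖ ≤ r₁ → ∀ k,
      G (Sg y τ) k - G y k = ∑ j, 𝔗 y τ k j * τ j)
    (hT2 : ∀ y ∈ K', ∀ τ : CE (Fin q), ‖τ‖ ≤ r₁ → ∀ k j, ‖𝔗 y τ k j‖ ≤ C)
    (hT3 : ∀ y ∈ K', ∀ y' ∈ K', ∀ τ τ' : CE (Fin q), ‖τ‖ ≤ r₁ → ‖τ'‖ ≤ r₁ → ∀ k j,
      ‖𝔗 y τ k j - 𝔗 y' τ' k j‖ ≤ C * (‖G y - G y'‖ + ‖τ - τ'‖)) (M₁ : ℝ) :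
    ∃ M : ℝ, ∀ (f : ℂ → CotAmb V) (hh : ℂ → ℂ) (cc : ℂ → Fin q → ℂ) (z : ℂ),
      IsSmDisc 𝒴 f → (∀ ζ ∈ uCirc, f ζ ∈ K') → DsqV (fun ζ => (G (f ζ) : Fin q → ℂ)) ≤ M₁ →
      HolSm hh → (∀ ζ ∈ uCirc, hh ζ ≠ 0) → (∀ ζ ∈ uCirc, ‖hh ζ‖ ≤ 1) → Dsq hh ≤ M₁ →
      Dsq (fun ζ => hh ζ / (‖hh ζ‖ : ℂ)) ≤ M₁ →
      (∀ k, HolSm fun ζ => cc ζ k) → (∀ ζ ∈ uCirc, ∀ k, ‖cc ζ k‖ ≤ M₁) → DsqV cc ≤ M₁ → ‖z‖ ≤ 1 →
      (∀ ζ ∈ uCirc, ‖z • (WithLp.toLp 2 fun k => hh ζ * cc ζ k : CE (Fin q))‖ ≤ r₁) →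
      DsqV (fun ζ k => (G (Sg (f ζ) (z • (WithLp.toLp 2 fun k => hh ζ * cc ζ k : CE (Fin q)))) k
        - G (f ζ) k) / (‖hh ζ‖ : ℂ)) ≤ M := by
  refine ⟨q * (Fintype.card (Fin q) * (Fintype.card (Fin q) *
    (2 * C ^ 2 * (2 * (1 : ℝ) ^ 2 * (2 * (1 : ℝ) ^ 2 * M₁ + 2 * M₁ ^ 2 * M₁) +
      2 * (1 * M₁) ^ 2 * 0) +
      2 * (1 * (1 * M₁)) ^ 2 * (2 * C ^ 2 * (M₁ + q * (2 * M₁ + 2 * M₁ ^ 3)))))), ?_⟩
  intro f hh cc z hf hfK hDX hhh hh0 hh1 hDh hDu hcc hccB hDcc hz hτ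
  have hM0 : 0 ≤ M₁ := (DsqV_nonneg _).trans hDcc
  have hT : ∀ k j, CCtl C (2 * C ^ 2 * (M₁ + q * (2 * M₁ + 2 * M₁ ^ 3))) fun ζ =>
      𝔗 (f ζ) (z • (WithLp.toLp 2 fun k => hh ζ * cc ζ k : CE (Fin q))) k j := by
    intro k j
    have h1 := spray_cmp (I := Unit) (β := fun _ y τ => 𝔗 y τ k j) (C := C) (r₁ := r₁) hG
      (fun y hy y' hy' τ τ' h1 h2 => by
        simpa using pow_le_pow_left₀ (norm_nonneg _) (hT3 y hy y' hy' τ τ' h1 h2 k j) 2)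
      hf hfK hDX hhh hh1 hDh hcc hccB hDcc hz hτ
    exact ⟨h1.1 (), fun ζ hζ => hT2 _ (hfK ζ hζ) _ (hτ ζ hζ) k j, by simpa using h1.2⟩
  have hU : CCtl 1 M₁ fun ζ => hh ζ / (‖hh ζ‖ : ℂ) :=
    ⟨(hhh.circSm.unit hh0).circLip, fun ζ hζ => by
      have : ‖hh ζ‖ ≠ 0 := norm_ne_zero_iff.2 (hh0 ζ hζ)
      rw [norm_div, Complex.norm_real, norm_norm, div_self this], hDu⟩
  have hc : ∀ j, CCtl M₁ M₁ fun ζ => cc ζ j := fun j =>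
    ⟨(hcc j).circSm.circLip, fun ζ hζ => hccB ζ hζ j,
      (Finset.single_le_sum (f := fun k => Dsq fun ζ => cc ζ k) (fun _ _ => Dsq_nonneg _)
        (Finset.mem_univ j)).trans hDcc⟩
  have hZ : CCtl 1 0 fun _ : ℂ => z := cctl_const z hz le_rfl
  have hk : ∀ k, Dsq (fun ζ =>
      (G (Sg (f ζ) (z • (WithLp.toLp 2 fun k => hh ζ * cc ζ k : CE (Fin q)))) k
        - G (f ζ) k) / (‖hh ζ‖ : ℂ)) ≤ _ := fun k =>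
    ((CCtl.sum fun j => (hT k j).mul (hZ.mul (hU.mul (hc j)))).congr fun ζ hζ => by
      show ∑ j, 𝔗 (f ζ) (z • (WithLp.toLp 2 fun k => hh ζ * cc ζ k : CE (Fin q))) k j *
          (z * (hh ζ / (‖hh ζ‖ : ℂ) * cc ζ j)) =
        (G (Sg (f ζ) (z • (WithLp.toLp 2 fun k => hh ζ * cc ζ k : CE (Fin q)))) k
          - G (f ζ) k) / (‖hh ζ‖ : ℂ)
      rw [hT1 _ (hfK ζ hζ) _ (hτ ζ hζ) k, Finset.sum_div]
      refine Finset.sum_congr rfl fun j _ => ?_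
      show _ = 𝔗 (f ζ) (z • (WithLp.toLp 2 fun k => hh ζ * cc ζ k : CE (Fin q))) k j *
        (z * (hh ζ * cc ζ j)) / (‖hh ζ‖ : ℂ)
      ring).2.2
  unfold DsqV
  refine (Finset.sum_le_sum fun k _ => hk k).trans (le_of_eq ?_)
  simp

end Spray

section Ctx

variable {V : Type} [NormedAddCommGroup V] [InnerProductSpace ℝ V] [FiniteDimensional ℝ V]
variable [MeasurableSpace V] [BorelSpace V]
variable {n : ℕ} {𝓜 : CMfd V (Fin n)} {g : HFam V (Fin n)} {o : V}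
variable {D : FlowData 𝓜 g o} {𝒴 : CMfd (CotAmb V) (Fin n ⊕ Fin n)}
variable {X : S5Ctx V n} {𝔚 : Walls V} {err A1 A2 : ℝ}
variable {Sg : CotAmb V → CE (Fin X.q) → CotAmb V} {dom : Set (CotAmb V × CE (Fin X.q))}
variable {K' : Set (CotAmb V)}

/-- `S5-SF5`.  `K'' = Sg '' (K' × B̄(0, r₁))` is a compact subset of `Y` (`IsSpray.cont`, `IsSpray.maps`) containing `K'`; `δ₁ ∘ π`, `δ₂` are smooth on `Y` (`smooth_base`), hence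
`G`-Lipschitz on `K''` (`glip_of_smooth`, time independent as in `S4.pois_glip`); `spray_glip` with `y' = y`, `τ' = 0`. -/
theorem spray_walls (h : Std5 X 𝔚 D 𝒴 err A1 A2) (hS : IsSpray 𝓜 𝒴 X.G Sg dom)
    (hK' : IsCompact K') (hKY : K' ⊆ 𝒴.carrier) {r₁ : ℝ} (hr₁ : 0 ≤ r₁)
    (hr : ∀ y ∈ K', ∀ τ : CE (Fin X.q), ‖τ‖ ≤ r₁ → (y, τ) ∈ dom) :
    ∃ C : ℝ, 0 ≤ C ∧ ∀ y ∈ K', ∀ τ : CE (Fin X.q), ‖τ‖ ≤ r₁ →
      |𝔚.δ1 (Sg y τ).1 - 𝔚.δ1 y.1| ≤ C * ‖τ‖ ∧ |𝔚.δ2 (Sg y τ) - 𝔚.δ2 y| ≤ C * ‖τ‖ := by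
  have hG := h.valid.imm
  obtain ⟨CL, hCL0, hL⟩ := spray_glip hG hS hK' hKY hr
  set K'' : Set (CotAmb V) := (fun a : CotAmb V × CE (Fin X.q) => Sg a.1 a.2) ''
    (K' ×ˢ Metric.closedBall (0 : CE (Fin X.q)) r₁) with hK''def
  have hsub : K' ×ˢ Metric.closedBall (0 : CE (Fin X.q)) r₁ ⊆ dom := by
    rintro ⟨y, τ⟩ ⟨hy, hτ⟩
    exact hr y hy τ (by simpa using hτ)
  have hK'' : IsCompact K'' :=
    (hK'.prod (isCompact_closedBall _ _)).image_of_continuousOn (hS.cont.mono hsub)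
  have hK''Y : K'' ⊆ 𝒴.carrier := by
    rintro _ ⟨a, ha, rfl⟩
    exact hS.maps _ _ (hsub ha)
  have hmem : ∀ y ∈ K', ∀ τ : CE (Fin X.q), ‖τ‖ ≤ r₁ → Sg y τ ∈ K'' := fun y hy τ hτ =>
    ⟨(y, τ), ⟨hy, by simpa using hτ⟩, rfl⟩
  have hmem0 : ∀ y ∈ K', y ∈ K'' := fun y hy => by
    have := hmem y hy 0 (by simpa using hr₁)
    rwa [hS.zero y (hKY hy)] at this
  have key : ∀ u : CotAmb V → ℝ, 𝒴.SmoothST (Set.Icc 0 0) (fun _ y => u y) →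
      ∃ C : ℝ, 0 ≤ C ∧ ∀ y ∈ K', ∀ τ : CE (Fin X.q), ‖τ‖ ≤ r₁ →
        |u (Sg y τ) - u y| ≤ C * ‖τ‖ := by
    intro u hu
    obtain ⟨C, -, h2⟩ := glip_of_smooth hG hK'' hK''Y (T := 0) (β := fun y _ => (u y : ℂ))
      (fun Ψ W hΨ => Complex.ofRealCLM.contDiff.comp_contDiffOn (hu Ψ W hΨ))
    refine ⟨|C| * CL, by positivity, fun y hy τ hτ => ?_⟩
    have h3 := h2 _ (hmem y hy τ hτ) _ (hmem0 y hy) 0 (by simp) 0 (by simp)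
    rw [sub_self, abs_zero, add_zero, ← Complex.ofReal_sub, Complex.norm_real,
      Real.norm_eq_abs] at h3
    have h4 := hL y hy y hy τ 0 hτ (by simpa using hr₁)
    rw [hS.zero y (hKY hy), sub_self, norm_zero, zero_add, sub_zero] at h4
    calc |u (Sg y τ) - u y| ≤ C * ‖X.G (Sg y τ) - X.G y‖ := h3
      _ ≤ |C| * ‖X.G (Sg y τ) - X.G y‖ :=
          mul_le_mul_of_nonneg_right (le_abs_self C) (norm_nonneg _)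
      _ ≤ |C| * (CL * ‖τ‖) := mul_le_mul_of_nonneg_left h4 (abs_nonneg C)
      _ = |C| * CL * ‖τ‖ := by ring
  obtain ⟨C1, hC1, h1⟩ := key (fun y => 𝔚.δ1 y.1) (h.sδ1 _)
  obtain ⟨C2, hC2, h2⟩ := key 𝔚.δ2 (h.sδ2 _)
  refine ⟨max C1 C2, hC1.trans (le_max_left _ _), fun y hy τ hτ => ⟨?_, ?_⟩⟩
  · exact (h1 y hy τ hτ).trans (mul_le_mul_of_nonneg_right (le_max_left _ _) (norm_nonneg _))
  · exact (h2 y hy τ hτ).trans (mul_le_mul_of_nonneg_right (le_max_right _ _) (norm_nonneg _))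

/-- `S5-SF6`.  `Ψ = cotParam X.Φ` on `cotDom X.U`.  `Ψ '' ball p₀ rc = Y ∩ O'` with `O'` open (`IsParam.exists_isOpen_image`); the set `{(y, τ) ∈ dom | Sg y τ ∈ O'}` is relatively open (`IsSpray.cont`, `IsSpray.isOpen`) and
contains the compact `Ψ '' closedBall p₀ (rc/2) × {0}`: tube lemma gives `r₂`.  `pz z = Ψ⁻¹ (Sg (Ψ p) (z • τ₀))`, holomorphic by `IsSpray.hol Ψ Ψ`. -/
theorem spray_center (h : Std5 X 𝔚 D 𝒴 err A1 A2) (hS : IsSpray 𝓜 𝒴 X.G Sg dom) :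
    ∃ r₂ : ℝ, 0 < r₂ ∧ ∀ p ∈ Metric.closedBall X.p₀ (X.rc / 2), ∀ (τ₀ : CE (Fin X.q)) (r : ℝ),
      r * ‖τ₀‖ ≤ r₂ →
      ∃ pz : ℂ → CE (Fin n ⊕ Fin n), pz 0 = p ∧ DifferentiableOn ℂ pz (Metric.ball 0 r) ∧
        ∀ z ∈ Metric.ball (0 : ℂ) r, pz z ∈ Metric.closedBall X.p₀ X.rc ∧
          Sg (cotParam X.Φ p) (z • τ₀) = cotParam X.Φ (pz z) := by
  set Ψ : CE (Fin n ⊕ Fin n) → CotAmb V := cotParam X.Φ with hΨdef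
  set W : Set (CE (Fin n ⊕ Fin n)) := cotDom X.U with hWdef
  have hΨ : 𝒴.IsHol Ψ W := h.cot.isHol h.valid.isHol
  have hP := 𝒴.isParam hΨ
  have hrc := h.valid.rc_pos
  have hBW : Metric.ball X.p₀ X.rc ⊆ W := Metric.ball_subset_closedBall.trans h.valid.ball
  obtain ⟨O', hO', hO'eq⟩ := hP.exists_isOpen_image Metric.isOpen_ball hBW
  obtain ⟨O, hO, hOeq⟩ := hS.isOpen
  -- the chart domain of the spray
  have hc1 : ContinuousOn (fun a : CE (Fin n ⊕ Fin n) × CE (Fin X.q) => (Ψ a.1, a.2))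
      (W ×ˢ (Set.univ : Set (CE (Fin X.q)))) :=
    (hP.continuousOn.comp continuousOn_fst fun a ha => ha.1).prodMk continuousOn_snd
  have hA : IsOpen ((W ×ˢ (Set.univ : Set (CE (Fin X.q)))) ∩
      (fun a : CE (Fin n ⊕ Fin n) × CE (Fin X.q) => (Ψ a.1, a.2)) ⁻¹' O) :=
    hc1.isOpen_inter_preimage (hP.isOpen.prod isOpen_univ) hO
  have hAdom : ∀ a ∈ (W ×ˢ (Set.univ : Set (CE (Fin X.q)))) ∩
      (fun a : CE (Fin n ⊕ Fin n) × CE (Fin X.q) => (Ψ a.1, a.2)) ⁻¹' O, (Ψ a.1, a.2) ∈ dom := by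
    intro a ha
    rw [hOeq]
    exact ⟨⟨hP.mem ha.1.1, Set.mem_univ _⟩, ha.2⟩
  have hc2 : ContinuousOn (fun a : CE (Fin n ⊕ Fin n) × CE (Fin X.q) => Sg (Ψ a.1) a.2)
      ((W ×ˢ (Set.univ : Set (CE (Fin X.q)))) ∩
      (fun a : CE (Fin n ⊕ Fin n) × CE (Fin X.q) => (Ψ a.1, a.2)) ⁻¹' O) :=
    hS.cont.comp (hc1.mono Set.inter_subset_left) hAdom
  have hA' := hc2.isOpen_inter_preimage hA hO'
  have hK : Metric.closedBall X.p₀ (X.rc / 2) ×ˢ ({0} : Set (CE (Fin X.q))) ⊆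
      ((W ×ˢ (Set.univ : Set (CE (Fin X.q)))) ∩
      (fun a : CE (Fin n ⊕ Fin n) × CE (Fin X.q) => (Ψ a.1, a.2)) ⁻¹' O) ∩
      (fun a : CE (Fin n ⊕ Fin n) × CE (Fin X.q) => Sg (Ψ a.1) a.2) ⁻¹' O' := by
    rintro ⟨p, τ⟩ ⟨hp, hτ⟩
    have hτ0 : τ = 0 := hτ
    subst hτ0
    have hpB : p ∈ Metric.ball X.p₀ X.rc := by
      have h1 : dist p X.p₀ ≤ X.rc / 2 := Metric.mem_closedBall.1 hp
      exact Metric.mem_ball.2 (by linarith)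
    have hpW : p ∈ W := hBW hpB
    have hmem := hS.zero_mem (Ψ p) (hP.mem hpW)
    rw [hOeq] at hmem
    refine ⟨⟨⟨hpW, Set.mem_univ _⟩, hmem.2⟩, ?_⟩
    show Sg (Ψ p) 0 ∈ O'
    rw [hS.zero _ (hP.mem hpW)]
    have : Ψ p ∈ 𝒴.carrier ∩ O' := hO'eq ▸ ⟨p, hpB, rfl⟩
    exact this.2
  obtain ⟨u, v, -, hv, hsu, htv, huv⟩ :=
    generalized_tube_lemma (isCompact_closedBall X.p₀ (X.rc / 2)) isCompact_singleton hA' hK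
  obtain ⟨ε, hε, hεv⟩ := Metric.isOpen_iff.1 hv 0 (htv rfl)
  refine ⟨ε / 2, by positivity, ?_⟩
  intro p hp τ₀ r hr
  have hpW : p ∈ W := h.valid.ball (Metric.closedBall_subset_closedBall (by linarith) hp)
  have hin : ∀ z ∈ Metric.ball (0 : ℂ) r, ((p, z • τ₀) : CE (Fin n ⊕ Fin n) × CE (Fin X.q)) ∈
      ((W ×ˢ (Set.univ : Set (CE (Fin X.q)))) ∩
      (fun a : CE (Fin n ⊕ Fin n) × CE (Fin X.q) => (Ψ a.1, a.2)) ⁻¹' O) ∩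
      (fun a : CE (Fin n ⊕ Fin n) × CE (Fin X.q) => Sg (Ψ a.1) a.2) ⁻¹' O' := by
    intro z hz
    refine huv ⟨hsu hp, hεv ?_⟩
    rw [Metric.mem_ball, dist_zero_right, norm_smul]
    have hz' : ‖z‖ ≤ r := by simpa using (Metric.mem_ball.1 hz).le
    have := mul_le_mul_of_nonneg_right hz' (norm_nonneg τ₀)
    linarith
  have himg : ∀ z ∈ Metric.ball (0 : ℂ) r, Sg (Ψ p) (z • τ₀) ∈ Ψ '' Metric.ball X.p₀ X.rc := by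
    intro z hz
    rw [hO'eq]
    exact ⟨hS.maps _ _ (hAdom _ (hin z hz).1), (hin z hz).2⟩
  refine ⟨fun z => Function.invFunOn Ψ W (Sg (Ψ p) (z • τ₀)), ?_, ?_, ?_⟩
  · show Function.invFunOn Ψ W (Sg (Ψ p) ((0 : ℂ) • τ₀)) = p
    rw [zero_smul, hS.zero _ (hP.mem hpW)]
    exact hP.leftInv hpW
  · have hd : Differentiable ℂ fun z : ℂ => ((p, z • τ₀) : CE (Fin n ⊕ Fin n) × CE (Fin X.q)) :=
      (differentiable_const _).prodMk (differentiable_id.smul_const τ₀)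
    exact (hS.hol Ψ Ψ W W hΨ hΨ).comp hd.differentiableOn fun z hz =>
      ⟨hpW, hAdom _ (hin z hz).1, Set.image_mono hBW (himg z hz)⟩
  · intro z hz
    obtain ⟨w, hw, hwe⟩ := himg z hz
    have e : Function.invFunOn Ψ W (Sg (Ψ p) (z • τ₀)) = w := by
      rw [← hwe]
      exact hP.leftInv (hBW hw)
    refine ⟨?_, ?_⟩
    · show Function.invFunOn Ψ W (Sg (Ψ p) (z • τ₀)) ∈ _
      rw [e]
      exact Metric.ball_subset_closedBall hw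
    · show Sg (Ψ p) (z • τ₀) = Ψ (Function.invFunOn Ψ W (Sg (Ψ p) (z • τ₀)))
      rw [e, hwe]

/-- the boundary stays in the open region. -/
theorem spray_reg (h : Std5 X 𝔚 D 𝒴 err A1 A2) (hS : IsSpray 𝓜 𝒴 X.G Sg dom) {r₁ Cw : ℝ}
    (hr : ∀ y ∈ K', ∀ τ : CE (Fin X.q), ‖τ‖ ≤ r₁ → (y, τ) ∈ dom)
    (hw : ∀ y ∈ K', ∀ τ : CE (Fin X.q), ‖τ‖ ≤ r₁ →
      |𝔚.δ1 (Sg y τ).1 - 𝔚.δ1 y.1| ≤ Cw * ‖τ‖ ∧ |𝔚.δ2 (Sg y τ) - 𝔚.δ2 y| ≤ Cw * ‖τ‖)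
    {y : CotAmb V} (hy : y ∈ K') (hyr : y ∈ 𝔚.reg 𝒴) {τ : CE (Fin X.q)} (hτ : ‖τ‖ ≤ r₁)
    (hτ2 : Cw * ‖τ‖ ≤ 𝔚.pw y ^ 𝔚.a / 2) : Sg y τ ∈ 𝔚.reg 𝒴 := by
  refine ⟨hS.maps _ _ (hr y hy τ hτ), ?_⟩
  obtain ⟨w1, w2⟩ := hw y hy τ hτ
  have hp := pw_mem h hyr
  have d1 := h.walls.δ1_mem y.1 (h.base_mem hyr.1)
  have d2 := h.walls.δ2_mem y hyr.1
  have ha : 1 ≤ 𝔚.a := le_trans (by norm_num) h.walls.two_le_a
  have hpa : 𝔚.pw y ^ 𝔚.a ≤ 𝔚.pw y := by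
    calc 𝔚.pw y ^ 𝔚.a ≤ 𝔚.pw y ^ 1 := pow_le_pow_of_le_one hp.1.le hp.2 ha
      _ = 𝔚.pw y := pow_one _
  have e : 𝔚.pw y = 𝔚.δ1 y.1 * 𝔚.δ2 y := rfl
  have p1 : 𝔚.pw y ≤ 𝔚.δ1 y.1 := by rw [e]; nlinarith [d1.1, d1.2, d2.1, d2.2]
  have p2 : 𝔚.pw y ≤ 𝔚.δ2 y := by rw [e]; nlinarith [d1.1, d1.2, d2.1, d2.2]
  have q1 : 0 < 𝔚.δ1 (Sg y τ).1 := by
    have := (abs_le.1 w1).1
    linarith [hp.1]
  have q2 : 0 < 𝔚.δ2 (Sg y τ) := by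
    have := (abs_le.1 w2).1
    linarith [hp.1]
  exact mul_pos q1 q2

/-- `S5-D8`.  The family generated by the spray.  Fixed: an interior compact `K'`, a bound `M₁` for the coefficients.  GLUE (proved). -/
theorem spray_family (h : Std5 X 𝔚 D 𝒴 err A1 A2) (hS : IsSpray 𝓜 𝒴 X.G Sg dom)
    (hK' : IsCompact K') (hKY : K' ⊆ 𝒴.carrier) (M₁ : ℝ) :
    ∃ r₀ M : ℝ, 0 < r₀ ∧ ∀ (c : Config V n) (hh : ℂ → ℂ) (cc : ℂ → Fin X.q → ℂ),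
      IsAdm X 𝔚 𝒴 c → (∀ ζ ∈ uDiscC, c.f ζ ∈ K') → ‖c.p - X.p₀‖ ≤ X.rc / 2 →
      DsqV (fun ζ => (X.G (c.f ζ) : Fin X.q → ℂ)) ≤ M₁ →
      HolSm hh → (∀ ζ ∈ uCirc, ‖hh ζ‖ = c.mw 𝔚 ζ) → (∀ ζ ∈ uDiscC, ‖hh ζ‖ ≤ 1) → Dsq hh ≤ M₁ →
      Dsq (fun ζ => hh ζ / (‖hh ζ‖ : ℂ)) ≤ M₁ →
      (∀ k, HolSm fun ζ => cc ζ k) → (∀ ζ ∈ uDiscC, ∀ k, ‖cc ζ k‖ ≤ M₁) → DsqV cc ≤ M₁ →
      ∃ pz : ℂ → CE (Fin n ⊕ Fin n),
        IsDeform X 𝔚 𝒴 c hh (fun ζ => hh ζ • (poisM 𝓜 X.G (c.f ζ) *ᵥ cc ζ))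
          (fun z ζ => Sg (c.f ζ) (z • (WithLp.toLp 2 fun k => hh ζ * cc ζ k : CE (Fin X.q))))
          pz r₀ M := by
  classical
  have hG := h.valid.imm
  obtain ⟨r₁, hr₁, htube⟩ := spray_tube hS hK' hKY
  obtain ⟨CL, hCL0, hL⟩ := spray_glip hG hS hK' hKY htube
  obtain ⟨𝔗, CT, hCT0, hT1, hT2, hT3⟩ := spray_hadamard hG hS hK' hKY htube
  obtain ⟨Cw, hCw0, hw⟩ := spray_walls h hS hK' hKY hr₁.le htube
  obtain ⟨r₂, hr₂, hcen⟩ := spray_center h hS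
  obtain ⟨MX, hMX⟩ := spray_DX hG hCL0 hL M₁
  obtain ⟨MZ, hMZ⟩ := spray_DZ hG hCT0 hT1 hT2 hT3 M₁
  set B : ℝ := Real.sqrt X.q * |M₁| + 1 with hB
  have hBpos : 0 < B := by positivity
  set r₀ : ℝ := min 1 (min (min r₁ r₂ / B) (1 / (2 * (Cw + 1) * B))) with hr₀
  have hr₀pos : 0 < r₀ := by
    refine lt_min one_pos (lt_min (div_pos (lt_min hr₁ hr₂) hBpos) (by positivity))
  have hr₀1 : r₀ ≤ 1 := min_le_left _ _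
  have hr₀B : r₀ * B ≤ min r₁ r₂ := by
    have : r₀ ≤ min r₁ r₂ / B := (min_le_right _ _).trans (min_le_left _ _)
    rwa [le_div_iff₀ hBpos] at this
  have hr₀w : Cw * (r₀ * B) ≤ 1 / 2 := by
    have h1 : r₀ ≤ 1 / (2 * (Cw + 1) * B) := (min_le_right _ _).trans (min_le_right _ _)
    rw [le_div_iff₀ (by positivity)] at h1
    nlinarith [mul_pos hr₀pos hBpos]
  refine ⟨r₀, max (CL * (Real.sqrt X.q * |M₁|)) (max MX MZ), hr₀pos, ?_⟩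
  intro c hh cc hc hfK hp hDX hhh hmod hh1 hDh hDu hcc hccB hDcc
  have hM0 : 0 ≤ M₁ := (DsqV_nonneg _).trans hDcc
  have habs : |M₁| = M₁ := abs_of_nonneg hM0
  have hsub : uCirc ⊆ uDiscC := Metric.sphere_subset_closedBall
  set a : ℂ → CE (Fin X.q) := fun ζ => WithLp.toLp 2 fun k => hh ζ * cc ζ k with ha
  have hna : ∀ ζ ∈ uDiscC, ‖a ζ‖ ≤ B * ‖hh ζ‖ := by
    intro ζ hζ
    have h1 : ‖a ζ‖ ≤ Real.sqrt X.q * (‖hh ζ‖ * M₁) :=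
      norm_toLp_le (by positivity) fun k => by
        rw [norm_mul]
        exact mul_le_mul_of_nonneg_left (hccB ζ hζ k) (norm_nonneg _)
    rw [hB, habs]
    nlinarith [norm_nonneg (hh ζ)]
  have hnz : ∀ z ∈ Metric.ball (0 : ℂ) r₀, ∀ ζ ∈ uDiscC, ‖z • a ζ‖ ≤ r₀ * B * ‖hh ζ‖ := by
    intro z hz ζ hζ
    rw [norm_smul]
    have hz' : ‖z‖ ≤ r₀ := by simpa using (Metric.mem_ball.1 hz).le
    calc ‖z‖ * ‖a ζ‖ ≤ r₀ * (B * ‖hh ζ‖) :=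
          mul_le_mul hz' (hna ζ hζ) (norm_nonneg _) hr₀pos.le
      _ = r₀ * B * ‖hh ζ‖ := by ring
  have hnz1 : ∀ z ∈ Metric.ball (0 : ℂ) r₀, ∀ ζ ∈ uDiscC, ‖z • a ζ‖ ≤ r₁ := by
    intro z hz ζ hζ
    have h1 : r₀ * B * ‖hh ζ‖ ≤ r₀ * B * 1 :=
      mul_le_mul_of_nonneg_left (hh1 ζ hζ) (by positivity)
    linarith [hnz z hz ζ hζ, hr₀B.trans (min_le_left _ _)]
  have hdom : ∀ z ∈ Metric.ball (0 : ℂ) r₀, ∀ ζ ∈ uDiscC, (c.f ζ, z • a ζ) ∈ dom :=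
    fun z hz ζ hζ => htube _ (hfK ζ hζ) _ (hnz1 z hz ζ hζ)
  have haH : ∀ k, HolSm fun ζ => a ζ k := fun k => hhh.mul (hcc k)
  have hfam : IsFam 𝒴 (fun z ζ => Sg (c.f ζ) (z • a ζ)) r₀ := spray_isFam hS hc.disc haH hdom
  have h0mem : (0 : ℂ) ∈ uDiscC := by simp
  have hpm : c.p ∈ Metric.closedBall X.p₀ (X.rc / 2) := by
    rw [Metric.mem_closedBall, dist_eq_norm]; exact hp
  obtain ⟨pz, hpz0, hpzh, hpz⟩ := hcen c.p hpm (a 0) r₀ (by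
    have h1 := hna 0 h0mem
    have h2 : B * ‖hh 0‖ ≤ B * 1 := mul_le_mul_of_nonneg_left (hh1 0 h0mem) hBpos.le
    have h3 : r₀ * ‖a 0‖ ≤ r₀ * (B * 1) := mul_le_mul_of_nonneg_left (h1.trans h2) hr₀pos.le
    linarith [hr₀B.trans (min_le_right _ _)])
  have hh0 : ∀ ζ ∈ uCirc, hh ζ ≠ 0 := by
    intro ζ hζ h0
    have h1 := hmod ζ hζ
    rw [h0, norm_zero] at h1
    have h2 : 0 < c.mw 𝔚 ζ := pow_pos (hc.bdry ζ hζ).2 _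
    linarith
  have hz1 : ∀ z ∈ Metric.ball (0 : ℂ) r₀, ‖z‖ ≤ 1 := fun z hz => by
    have : ‖z‖ < r₀ := by simpa using Metric.mem_ball.1 hz
    linarith
  refine ⟨pz, ?_⟩
  refine
    { adm := fun z hz => ?_
      F_zero := fun ζ hζ => ?_
      pz_zero := hpz0
      pz_hol := hpzh
      smooth := hfam.smooth
      hol2 := hfam.hol2
      holz := hfam.holz
      first := fun ζ hζ k => ?_
      disp := fun z hz ζ hζ => ?_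
      D_X := fun z hz => ?_
      D_Z := fun z hz => ?_ }
  · refine
      { p_mem := (hpz z hz).1
        s_mem := hc.s_mem
        disc := hfam.isSmDisc hz
        w_hol := hc.w_hol
        f_zero := ?_
        w_zero := hc.w_zero
        time_lt := hc.time_lt
        bdry := fun ζ hζ => ?_ }
    · show Sg (c.f 0) (z • a 0) = cotParam X.Φ (pz z)
      rw [hc.f_zero]
      exact (hpz z hz).2
    · show Sg (c.f ζ) (z • a ζ) ∈ 𝔚.reg 𝒴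
      refine spray_reg h hS htube hw (hfK ζ (hsub hζ)) (hc.bdry ζ hζ) (hnz1 z hz ζ (hsub hζ)) ?_
      have h1 := hnz z hz ζ (hsub hζ)
      rw [hmod ζ hζ] at h1
      have h2 : 0 ≤ c.mw 𝔚 ζ := (pow_pos (hc.bdry ζ hζ).2 _).le
      have h3 : Cw * ‖z • a ζ‖ ≤ Cw * (r₀ * B * c.mw 𝔚 ζ) := mul_le_mul_of_nonneg_left h1 hCw0
      have h4 : Cw * (r₀ * B) * c.mw 𝔚 ζ ≤ 1 / 2 * c.mw 𝔚 ζ := mul_le_mul_of_nonneg_right hr₀w h2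
      have h5 : c.mw 𝔚 ζ = 𝔚.pw (c.f ζ) ^ 𝔚.a := rfl
      rw [← h5]
      linarith
  · show Sg (c.f ζ) ((0 : ℂ) • a ζ) = c.f ζ
    rw [zero_smul]
    exact hS.zero _ (hc.disc.2.2 ζ hζ)
  · have h1 := hS.first (c.f ζ) (hc.disc.2.2 ζ hζ) (a ζ) k
    rw [h1]
    have h2 : ((a ζ : CE (Fin X.q)) : Fin X.q → ℂ) = hh ζ • cc ζ := by
      ext j; simp [ha]
    rw [h2, Matrix.mulVec_smul]
  · have h1 := spray_disp (Sg := Sg) (G := X.G) hCL0 hL hr₁.le (fun y hy => hS.zero y (hKY hy)) hM0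
      (hfK ζ (hsub hζ)) (z := z) (w := hh ζ) (v := cc ζ) (hccB ζ (hsub hζ))
      (hnz1 z hz ζ (hsub hζ))
    refine h1.trans ?_
    rw [habs]
    have h2 : CL * (Real.sqrt X.q * M₁) ≤ max (CL * (Real.sqrt X.q * M₁)) (max MX MZ) :=
      le_max_left _ _
    exact mul_le_mul_of_nonneg_right (mul_le_mul_of_nonneg_right h2 (norm_nonneg _))
      (norm_nonneg _)
  · exact (hMX c.f hh cc z hc.disc (fun ζ hζ => hfK ζ (hsub hζ)) hDX hhh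
      (fun ζ hζ => hh1 ζ (hsub hζ)) hDh hcc (fun ζ hζ => hccB ζ (hsub hζ)) hDcc (hz1 z hz)
      (fun ζ hζ => hnz1 z hz ζ (hsub hζ))).trans ((le_max_left _ _).trans (le_max_right _ _))
  · exact (hMZ c.f hh cc z hc.disc (fun ζ hζ => hfK ζ (hsub hζ)) hDX hhh hh0
      (fun ζ hζ => hh1 ζ (hsub hζ)) hDh hDu hcc (fun ζ hζ => hccB ζ (hsub hζ)) hDcc (hz1 z hz)
      (fun ζ hζ => hnz1 z hz ζ (hsub hζ))).trans ((le_max_right _ _).trans (le_max_right _ _))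

end Ctx

end Claimed.Agent.R316
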