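import Claimed.Agent.R316.S5.FromS4
import Claimed.Agent.R316.Pack008

/-!
# Row 316, Section 5: the standing hypotheses `Std5` (moved here from `S5/Local.lean`, so that the smooth data of
`S5/SymData.lean` are available in `S5/Local.lean`)
-/

set_option autoImplicit false
set_option maxSynthPendingDepth 3
open scoped ContDiff ComplexOrder Topology Matrix
open MeasureTheory Filter

namespace Claimed.Agent.R316

variable {V : Type} [NormedAddCommGroup V] [InnerProductSpace ℝ V] [FiniteDimensional ℝ V]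
variable [MeasurableSpace V] [BorelSpace V]
variable {n : ℕ} {𝓜 : CMfd V (Fin n)} {g : HFam V (Fin n)} {o : V}

/-- standing hypotheses of Section 5 at a fixed `j`. -/
structure Std5 (X : S5Ctx V n) (𝔚 : Walls V) (D : FlowData 𝓜 g o)
    (𝒴 : CMfd (CotAmb V) (Fin n ⊕ Fin n)) (err A1 A2 : ℝ) : Prop where
  init : InitialData 𝓜 g
  cot : IsCotangent 𝓜 𝒴
  valid : X.Valid D 𝒴
  walls : IsWalls 𝔚 D 𝒴 X.T err A1 A2

variable {D : FlowData 𝓜 g o} {𝒴 : CMfd (CotAmb V) (Fin n ⊕ Fin n)}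
variable {X : S5Ctx V n} {𝔚 : Walls V} {err A1 A2 : ℝ}

theorem Std5.base_mem (h : Std5 X 𝔚 D 𝒴 err A1 A2) {y : CotAmb V} (hy : y ∈ 𝒴.carrier) :
    y.1 ∈ 𝓜.carrier := by
  rw [h.cot.carrier_eq] at hy
  exact hy.1

end Claimed.Agent.R316
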