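import Claimed.Agent.R316.S5.Local
import Claimed.Agent.R316.S5.SymData

/-!
# Row 316, Section 5.2: the symbol bounds (5.14)-(5.16) and the field `ok` of `FixedJ`

The smooth data, the `G`-Lipschitz bounds (`S5-G3`, `S5-G4`) and the smoothness along the boundary are in `S5/SymData.lean`.
* `S5-S1` `Tb_ok`;  `S5-S2` `om_ok`;  `S5-S3` `packet_ok` (assembly).
-/

set_option autoImplicit false
set_option linter.unusedSectionVars false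
set_option maxSynthPendingDepth 3
open scoped ContDiff ComplexOrder Topology Matrix
open MeasureTheory Filter

namespace Claimed.Agent.R316

open Claimed.Agent.R316.S6

section Sym

variable {V : Type} [NormedAddCommGroup V] [InnerProductSpace ℝ V] [FiniteDimensional ℝ V]
variable [MeasurableSpace V] [BorelSpace V]
variable {n : ℕ} {𝓜 : CMfd V (Fin n)} {g : HFam V (Fin n)} {o : V}
variable {D : FlowData 𝓜 g o} {𝒴 : CMfd (CotAmb V) (Fin n ⊕ Fin n)}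
variable {X : S5Ctx V n} {𝔚 : Walls V} {err A1 A2 : ℝ} {c : Config V n}

/-- the sandwich `Uᴴ W U` on the circle: Lipschitz, bounded, `D²` bound. -/
theorem sym_sandwich {α γ : Type} [Fintype α] [Fintype γ] {U : ℂ → Matrix α γ ℂ}
    {W : ℂ → Matrix α α ℂ} {B DU DW : ℝ}
    (hU : ∀ r i, CircLip fun ζ => U ζ r i) (hW : ∀ r s, CircLip fun ζ => W ζ r s)
    (hU1 : ∀ ζ ∈ uCirc, ∀ r i, ‖U ζ r i‖ ≤ 1) (hWB : ∀ ζ ∈ uCirc, ∀ r s, ‖W ζ r s‖ ≤ B)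
    (hDU : ∀ r i, Dsq (fun ζ => U ζ r i) ≤ DU) (hDW : ∀ r s, Dsq (fun ζ => W ζ r s) ≤ DW)
    (i j : γ) :
    CircLip (fun ζ => ((U ζ)ᴴ * W ζ * U ζ) i j) ∧
    (∀ ζ ∈ uCirc, ‖((U ζ)ᴴ * W ζ * U ζ) i j‖ ≤ (Fintype.card (α × α) : ℝ) * B) ∧
    Dsq (fun ζ => ((U ζ)ᴴ * W ζ * U ζ) i j) ≤
      (Fintype.card (α × α) : ℝ) * ((Fintype.card (α × α) : ℝ) * (6 * B ^ 2 * DU + 4 * DW)) := by
  have e : ∀ ζ, ((U ζ)ᴴ * W ζ * U ζ) i j =
      ∑ p : α × α, ((starRingEnd ℂ) (U ζ p.1 i) * W ζ p.1 p.2) * U ζ p.2 j := by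
    intro ζ
    rw [Matrix.mul_apply, Fintype.sum_prod_type, Finset.sum_comm]
    refine Finset.sum_congr rfl fun s _ => ?_
    rw [Matrix.mul_apply, Finset.sum_mul]
    rfl
  have e' : (fun ζ => ((U ζ)ᴴ * W ζ * U ζ) i j) = fun ζ =>
      ∑ p : α × α, ((starRingEnd ℂ) (U ζ p.1 i) * W ζ p.1 p.2) * U ζ p.2 j := funext e
  have hL1 : ∀ p : α × α, CircLip fun ζ => (starRingEnd ℂ) (U ζ p.1 i) * W ζ p.1 p.2 :=
    fun p => (hU p.1 i).conj.mul (hW p.1 p.2)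
  have hL : ∀ p : α × α, CircLip fun ζ =>
      ((starRingEnd ℂ) (U ζ p.1 i) * W ζ p.1 p.2) * U ζ p.2 j :=
    fun p => (hL1 p).mul (hU p.2 j)
  have hc1 : ∀ ζ ∈ uCirc, ∀ r i, ‖(starRingEnd ℂ) (U ζ r i)‖ ≤ 1 := fun ζ hζ r i => by
    rw [RCLike.norm_conj]; exact hU1 ζ hζ r i
  have hN1 : ∀ p : α × α, ∀ ζ ∈ uCirc, ‖(starRingEnd ℂ) (U ζ p.1 i) * W ζ p.1 p.2‖ ≤ B :=
    fun p ζ hζ => by
      rw [norm_mul]
      have h1 := hc1 ζ hζ p.1 i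
      have h2 := hWB ζ hζ p.1 p.2
      calc _ ≤ 1 * B := mul_le_mul h1 h2 (norm_nonneg _) zero_le_one
        _ = B := one_mul B
  have hN : ∀ p : α × α, ∀ ζ ∈ uCirc,
      ‖((starRingEnd ℂ) (U ζ p.1 i) * W ζ p.1 p.2) * U ζ p.2 j‖ ≤ B := fun p ζ hζ => by
    rw [norm_mul]
    have h1 := hN1 p ζ hζ
    have h2 := hU1 ζ hζ p.2 j
    calc _ ≤ B * 1 := mul_le_mul h1 h2 (norm_nonneg _) ((norm_nonneg _).trans h1)
      _ = B := mul_one B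
  have hD : ∀ p : α × α, Dsq (fun ζ =>
      ((starRingEnd ℂ) (U ζ p.1 i) * W ζ p.1 p.2) * U ζ p.2 j) ≤ 6 * B ^ 2 * DU + 4 * DW := by
    intro p
    have d1 := Dsq_mul_le (hU p.1 i).conj (hW p.1 p.2) (A := 1) (B := B)
      (fun ζ hζ => hc1 ζ hζ p.1 i) (fun ζ hζ => hWB ζ hζ p.1 p.2)
    have d2 := Dsq_mul_le (hL1 p) (hU p.2 j) (A := B) (B := 1) (hN1 p)
      (fun ζ hζ => hU1 ζ hζ p.2 j)
    rw [Dsq_conj] at d1
    have d3 := hDU p.1 i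
    have d4 := hDU p.2 j
    have d5 := hDW p.1 p.2
    have hB2 : 0 ≤ B ^ 2 := sq_nonneg B
    have d6 := mul_le_mul_of_nonneg_left d3 hB2
    have d7 := mul_le_mul_of_nonneg_left d4 hB2
    linarith
  refine ⟨?_, fun ζ hζ => ?_, ?_⟩
  · rw [e']
    exact CircLip.sum _ fun p _ => hL p
  · rw [e ζ]
    refine (norm_sum_le _ _).trans ?_
    refine (Finset.sum_le_sum fun p _ => hN p ζ hζ).trans (le_of_eq ?_)
    rw [Finset.sum_const, nsmul_eq_mul]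
    rfl
  · rw [e']
    refine (Dsq_sum_le hL).trans ?_
    refine mul_le_mul_of_nonneg_left ?_ (Nat.cast_nonneg _)
    refine (Finset.sum_le_sum fun p _ => hD p).trans (le_of_eq ?_)
    rw [Finset.sum_const, nsmul_eq_mul]
    rfl

/-- (5.16). -/
theorem Tb_ok (h : Std5 X 𝔚 D 𝒴 err A1 A2) (CF : ℝ) :
    ∃ C : ℝ, ∀ (c : Config V n) (U : ℂ → Matrix (Fin X.q) (Fin n ⊕ Fin n) ℂ)
      (JE : ℂ → Matrix (Fin n ⊕ Fin n) (Fin n ⊕ Fin n) ℂ), IsAdm X 𝔚 𝒴 c →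
      IsFrame 𝓜 X.G c.f U JE → FrameBd CF X.G c.f U JE →
      (∀ i j, CircLip fun ζ => c.Tb X 𝔚 D 𝒴 U ζ i j) ∧
      (∀ ζ ∈ uCirc, (c.Tb X 𝔚 D 𝒴 U ζ).IsHermitian) ∧
      (∀ ζ ∈ uCirc, frobSq (c.Tb X 𝔚 D 𝒴 U ζ) ≤ C) ∧
      DsqM (c.Tb X 𝔚 D 𝒴 U) ≤ C * (1 + energy5 X 𝔚 𝓜 g c) := by
  obtain ⟨C0, hC0⟩ := symb_glip h
  set Q : ℝ := (Fintype.card (Fin X.q × Fin X.q) : ℝ) with hQ
  set Nn : ℝ := (Fintype.card (Fin n ⊕ Fin n) : ℝ) with hNn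
  have hQ0 : 0 ≤ Q := Nat.cast_nonneg _
  have hN0 : 0 ≤ Nn := Nat.cast_nonneg _
  refine ⟨Nn * (Nn * (Q * C0) ^ 2) + Nn * (Nn * (Q * (Q * (6 * C0 ^ 2 * |CF| +
    4 * (2 * C0 ^ 2 * (1 + 4 * X.T ^ 2)))))), fun c U JE hc hF hFB => ?_⟩
  have hs : 0 < c.s := lt_of_lt_of_le h.valid.s_lo hc.s_mem.1
  obtain ⟨ht1, ht2⟩ := Dsq_time_le hc hs
  have hX : ∀ r, CircLip fun ζ => X.G (c.f ζ) r :=
    fun r => (hc.disc.holSm_G h.valid.imm r).circSm.circLip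
  have htI : ∀ ζ ∈ uCirc, c.time ζ ∈ Set.Icc 0 X.T := fun ζ hζ =>
    ⟨(mul_pos hs (Real.exp_pos _)).le, (hc.time_lt ζ (Metric.sphere_subset_closedBall hζ)).le⟩
  have hW := fun r s => Dsq_comp_le (hC0 r s) hX ht1.circLip hc.bdry htI
  have hE : 0 ≤ energy5 X 𝔚 𝓜 g c := energy5_nonneg h hc
  have a1 := areaG_nonneg h hc
  have a2 := DsqV_nonneg (fun ζ => (X.G (c.f ζ) : Fin X.q → ℂ))
  have a3 := Dsq_nonneg c.w
  have a4 := DsqR_nonneg (fun ζ => Real.log (𝔚.pw (c.f ζ)))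
  have hE1 : DsqV (fun ζ => (X.G (c.f ζ) : Fin X.q → ℂ)) ≤ energy5 X 𝔚 𝓜 g c := by
    unfold energy5; linarith
  have hE2 : Dsq c.w ≤ energy5 X 𝔚 𝓜 g c := by
    unfold energy5; linarith
  set E : ℝ := energy5 X 𝔚 𝓜 g c with hEdef
  have hU : ∀ r i, CircLip fun ζ => U ζ r i := fun r i => (hF.U_hol r i).circSm.circLip
  have hU1 : ∀ ζ ∈ uCirc, ∀ r i, ‖U ζ r i‖ ≤ 1 := by
    intro ζ hζ r i
    have h1 := hFB.U_le ζ hζ (Pi.single i 1)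
    have h2 : ∑ k, ‖(Pi.single i (1 : ℂ) : Fin n ⊕ Fin n → ℂ) k‖ ^ 2 = 1 := by
      rw [Finset.sum_eq_single i]
      · simp
      · intro k _ hk
        simp [Pi.single_eq_of_ne hk]
      · intro hi
        exact absurd (Finset.mem_univ i) hi
    rw [h2] at h1
    have h3 : ‖U ζ r i‖ ^ 2 ≤ ∑ k, ‖(U ζ *ᵥ Pi.single i 1) k‖ ^ 2 := by
      have := Finset.single_le_sum (f := fun k => ‖(U ζ *ᵥ Pi.single i 1) k‖ ^ 2)
        (fun _ _ => sq_nonneg _) (Finset.mem_univ r)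
      simpa [Matrix.mulVec_single_one] using this
    have h4 : ‖U ζ r i‖ ^ 2 ≤ 1 := h3.trans h1
    exact (sq_le_one_iff₀ (norm_nonneg _)).1 h4
  have hDU : ∀ r i, Dsq (fun ζ => U ζ r i) ≤ |CF| * (1 + E) := by
    intro r i
    have h1 : Dsq (fun ζ => U ζ r i) ≤ DsqM U := by
      unfold DsqM
      refine le_trans ?_ (Finset.single_le_sum (f := fun r => ∑ j, Dsq fun ζ => U ζ r j)
        (fun _ _ => Finset.sum_nonneg fun _ _ => Dsq_nonneg _) (Finset.mem_univ r))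
      exact Finset.single_le_sum (f := fun j => Dsq fun ζ => U ζ r j)
        (fun _ _ => Dsq_nonneg _) (Finset.mem_univ i)
    refine h1.trans (hFB.U_D.trans ?_)
    calc CF * (1 + DsqV fun ζ => (X.G (c.f ζ) : Fin X.q → ℂ))
        ≤ |CF| * (1 + DsqV fun ζ => (X.G (c.f ζ) : Fin X.q → ℂ)) :=
          mul_le_mul_of_nonneg_right (le_abs_self _) (by linarith)
      _ ≤ |CF| * (1 + E) := mul_le_mul_of_nonneg_left (by linarith) (abs_nonneg _)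
  have hDW : ∀ r s, Dsq (fun ζ => 𝔚.symb D 𝒴 X.G (c.f ζ) (c.time ζ) r s) ≤
      2 * C0 ^ 2 * (1 + 4 * X.T ^ 2) * (1 + E) := by
    intro r s
    refine (hW r s).2.trans ?_
    rw [mul_assoc (2 * C0 ^ 2)]
    refine mul_le_mul_of_nonneg_left ?_ (by positivity)
    have h5 : 4 * X.T ^ 2 * Dsq c.w ≤ 4 * X.T ^ 2 * E :=
      mul_le_mul_of_nonneg_left hE2 (by positivity)
    nlinarith [sq_nonneg X.T]
  have key := fun i j => sym_sandwich (W := fun ζ => 𝔚.symb D 𝒴 X.G (c.f ζ) (c.time ζ)) hU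
    (fun r s => (hW r s).1) hU1
    (fun ζ hζ r s => (hC0 r s).1 _ (hc.bdry ζ hζ) _ (htI ζ hζ)) hDU hDW i j
  have hpos1 : 0 ≤ Nn * (Nn * (Q * C0) ^ 2) := by positivity
  have hpos2 : 0 ≤ Nn * (Nn * (Q * (Q * (6 * C0 ^ 2 * |CF| +
      4 * (2 * C0 ^ 2 * (1 + 4 * X.T ^ 2)))))) := by positivity
  refine ⟨fun i j => (key i j).1, fun ζ hζ => ?_, fun ζ hζ => ?_, ?_⟩
  · exact Matrix.isHermitian_conjTranspose_mul_mul _ (symb_isHermitian h (hc.bdry ζ hζ) (htI ζ hζ))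
  · have h1 : frobSq (c.Tb X 𝔚 D 𝒴 U ζ) ≤ Nn * (Nn * (Q * C0) ^ 2) := by
      unfold frobSq
      have h2 : ∀ i j, ‖c.Tb X 𝔚 D 𝒴 U ζ i j‖ ^ 2 ≤ (Q * C0) ^ 2 := fun i j =>
        pow_le_pow_left₀ (norm_nonneg _) ((key i j).2.1 ζ hζ) 2
      refine (Finset.sum_le_sum fun i _ => Finset.sum_le_sum fun j _ => h2 i j).trans
        (le_of_eq ?_)
      simp only [Finset.sum_const, nsmul_eq_mul]
      rfl
    linarith
  · have h1 : DsqM (c.Tb X 𝔚 D 𝒴 U) ≤ Nn * (Nn * (Q * (Q * (6 * C0 ^ 2 * (|CF| * (1 + E)) +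
        4 * (2 * C0 ^ 2 * (1 + 4 * X.T ^ 2) * (1 + E)))))) := by
      unfold DsqM
      refine (Finset.sum_le_sum fun i _ => Finset.sum_le_sum fun j _ => (key i j).2.2).trans
        (le_of_eq ?_)
      simp only [Finset.sum_const, nsmul_eq_mul]
      rfl
    refine h1.trans ?_
    have h3 : 0 ≤ Nn * (Nn * (Q * C0) ^ 2) * (1 + E) := mul_nonneg hpos1 (by linarith)
    nlinarith

/-- the weight `om = (t/s) γ m⁻⁴`; `B` bounds `A1 ⟨d⟩ + A2 ⟨N⟩`. -/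
theorem om_ok (h : Std5 X 𝔚 D 𝒴 err A1 A2) (B : ℝ) :
    ∃ C : ℝ, ∀ c : Config V n, IsAdm X 𝔚 𝒴 c →
      A1 * cA (fun ζ => 𝔚.dc (c.f ζ) (c.time ζ)) + A2 * cA (fun ζ => D.N (c.f ζ) (c.time ζ)) ≤ B →
      CircSm (fun ζ => ((c.time ζ / c.s * c.gam 𝔚 D ζ * (c.mw 𝔚 ζ ^ 4)⁻¹ : ℝ) : ℂ)) ∧
      (∀ ζ ∈ uCirc, 0 < c.time ζ / c.s * c.gam 𝔚 D ζ * (c.mw 𝔚 ζ ^ 4)⁻¹) ∧
      (∀ ζ ∈ uCirc, c.time ζ / c.s * c.gam 𝔚 D ζ * (c.mw 𝔚 ζ ^ 4)⁻¹ ≤ C) ∧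
      cA (fun ζ => Real.log (c.time ζ / c.s * c.gam 𝔚 D ζ * (c.mw 𝔚 ζ ^ 4)⁻¹)) =
        cA (fun ζ => Real.log (c.gam 𝔚 D ζ)) - 4 * cA (fun ζ => Real.log (c.mw 𝔚 ζ)) := by
  obtain ⟨C1, -, hC1⟩ := gam0_glip h
  have hlo := h.valid.s_lo
  refine ⟨X.T / (X.s₀ - X.rc) * (|C1| * Real.exp B), fun c hc hB => ?_⟩
  have hs := h.s_pos hc
  have htm := h.time_mem hc
  have ht := (Dsq_time_le hc hs).1
  have hg := circSm_g0 h hc
  have hgpos := g0_pos (D := D) hc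
  have hp := circSm_pw h hc
  have hppos : ∀ ζ ∈ uCirc, 0 < 𝔚.pw (c.f ζ) := fun ζ hζ => (hc.bdry ζ hζ).2
  have hA : Real.exp (-B) ≤ cA (c.g0 𝔚 D) :=
    (Real.exp_le_exp.2 (neg_le_neg hB)).trans (sym_cA_g0_ge h hc)
  have hApos : 0 < cA (c.g0 𝔚 D) := (Real.exp_pos _).trans_le hA
  have hgam : ∀ ζ ∈ uCirc, 0 < c.gam 𝔚 D ζ := fun ζ hζ => div_pos (hgpos ζ hζ) hApos
  have hmw : ∀ ζ ∈ uCirc, 0 < c.mw 𝔚 ζ := fun ζ hζ => pow_pos (hppos ζ hζ) _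
  have hts : ∀ ζ, c.time ζ / c.s = Real.exp (2 * (c.w ζ).re) := fun ζ => by
    unfold Config.time
    field_simp
  have sgam : CircSm fun ζ => ((c.gam 𝔚 D ζ : ℝ) : ℂ) := by
    refine (hg.mul (circSm_const (((cA (c.g0 𝔚 D))⁻¹ : ℝ) : ℂ))).congr fun ζ _ => ?_
    unfold Config.gam
    rw [div_eq_mul_inv]
    push_cast
    rfl
  have smw : CircSm fun ζ => ((c.mw 𝔚 ζ : ℝ) : ℂ) :=
    h.circSm hc (smoothST_pow (h.spw _) 𝔚.a)
  refine ⟨?_, fun ζ hζ => ?_, fun ζ hζ => ?_, ?_⟩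
  · have s4 : CircSm fun ζ => ((c.mw 𝔚 ζ : ℝ) : ℂ) * ((c.mw 𝔚 ζ : ℝ) : ℂ) *
        (((c.mw 𝔚 ζ : ℝ) : ℂ) * ((c.mw 𝔚 ζ : ℝ) : ℂ)) := (smw.mul smw).mul (smw.mul smw)
    have n4 : ∀ ζ ∈ uCirc, ((c.mw 𝔚 ζ : ℝ) : ℂ) * ((c.mw 𝔚 ζ : ℝ) : ℂ) *
        (((c.mw 𝔚 ζ : ℝ) : ℂ) * ((c.mw 𝔚 ζ : ℝ) : ℂ)) ≠ 0 := fun ζ hζ => by
      have : ((c.mw 𝔚 ζ : ℝ) : ℂ) ≠ 0 := Complex.ofReal_ne_zero.2 (hmw ζ hζ).ne'
      exact mul_ne_zero (mul_ne_zero this this) (mul_ne_zero this this)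
    refine (((ht.mul (circSm_const (((c.s)⁻¹ : ℝ) : ℂ))).mul sgam).mul (s4.inv n4)).congr
      fun ζ _ => ?_
    show ((c.time ζ : ℝ) : ℂ) * (((c.s)⁻¹ : ℝ) : ℂ) * ((c.gam 𝔚 D ζ : ℝ) : ℂ) *
      (((c.mw 𝔚 ζ : ℝ) : ℂ) * ((c.mw 𝔚 ζ : ℝ) : ℂ) *
        (((c.mw 𝔚 ζ : ℝ) : ℂ) * ((c.mw 𝔚 ζ : ℝ) : ℂ)))⁻¹ = _
    rw [div_eq_mul_inv]
    push_cast
    congr 2
    ring
  · exact mul_pos (mul_pos (div_pos (htm ζ hζ).1 hs) (hgam ζ hζ))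
      (inv_pos.2 (pow_pos (hmw ζ hζ) 4))
  · have b1 : c.time ζ / c.s ≤ X.T / (X.s₀ - X.rc) :=
      div_le_div₀ ((htm ζ hζ).1.le.trans (htm ζ hζ).2.le) (htm ζ hζ).2.le hlo hc.s_mem.1
    have b2 : c.gam 𝔚 D ζ * (c.mw 𝔚 ζ ^ 4)⁻¹ ≤ |C1| * Real.exp B := by
      have e1 : c.gam 𝔚 D ζ * (c.mw 𝔚 ζ ^ 4)⁻¹ =
          (𝔚.gam0 D (c.f ζ) (c.time ζ) * (𝔚.pw (c.f ζ) ^ (4 * 𝔚.a))⁻¹) *
            (cA (c.g0 𝔚 D))⁻¹ := by
        unfold Config.gam Config.mw Config.g0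
        rw [← pow_mul, mul_comm 𝔚.a 4, div_eq_mul_inv]
        ring
      have e2 := hC1.1 _ (hc.bdry ζ hζ) _ (Set.Ioo_subset_Icc_self (htm ζ hζ))
      rw [Complex.norm_real, Real.norm_eq_abs] at e2
      have e3 : 𝔚.gam0 D (c.f ζ) (c.time ζ) * (𝔚.pw (c.f ζ) ^ (4 * 𝔚.a))⁻¹ ≤ |C1| :=
        (le_abs_self _).trans (e2.trans (le_abs_self _))
      have e4 : (cA (c.g0 𝔚 D))⁻¹ ≤ Real.exp B := by
        have := inv_anti₀ (Real.exp_pos _) hA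
        rwa [Real.exp_neg, inv_inv] at this
      rw [e1]
      exact mul_le_mul e3 e4 (inv_pos.2 hApos).le (abs_nonneg _)
    rw [mul_assoc]
    exact mul_le_mul b1 b2 (mul_pos (hgam ζ hζ) (inv_pos.2 (pow_pos (hmw ζ hζ) 4))).le
      (div_nonneg ((htm ζ hζ).1.le.trans (htm ζ hζ).2.le) hlo.le)
  · have cw : Continuous (B14.bd c.w) := hc.w_hol.circSm.continuous
    have cre : Continuous fun θ => (B14.bd c.w θ).re := Complex.continuous_re.comp cw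
    have cgam : Continuous fun θ => Real.log (B14.bd (c.gam 𝔚 D) θ) :=
      (sym_cont sgam).log fun θ => (hgam _ (circleMap_mem_uCirc θ)).ne'
    have cmw : Continuous fun θ => Real.log (B14.bd (c.mw 𝔚) θ) :=
      (sym_cont smw).log fun θ => (hmw _ (circleMap_mem_uCirc θ)).ne'
    have e1 : cA (fun ζ => Real.log (c.time ζ / c.s * c.gam 𝔚 D ζ * (c.mw 𝔚 ζ ^ 4)⁻¹)) =
        cA fun ζ => 2 * (c.w ζ).re + Real.log (c.gam 𝔚 D ζ) - 4 * Real.log (c.mw 𝔚 ζ) :=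
      cA_congr fun ζ hζ => by
        show Real.log (c.time ζ / c.s * c.gam 𝔚 D ζ * (c.mw 𝔚 ζ ^ 4)⁻¹) = _
        rw [hts ζ, Real.log_mul (mul_pos (Real.exp_pos _) (hgam ζ hζ)).ne'
          (inv_pos.2 (pow_pos (hmw ζ hζ) 4)).ne', Real.log_mul (Real.exp_pos _).ne'
          (hgam ζ hζ).ne', Real.log_exp, Real.log_inv, Real.log_pow]
        push_cast
        ring
    have e2 : cA (fun ζ => 2 * (c.w ζ).re + Real.log (c.gam 𝔚 D ζ) - 4 * Real.log (c.mw 𝔚 ζ)) =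
        2 * B14.pavg (fun θ => (B14.bd c.w θ).re) +
          B14.pavg (fun θ => Real.log (B14.bd (c.gam 𝔚 D) θ)) -
          4 * B14.pavg (fun θ => Real.log (B14.bd (c.mw 𝔚) θ)) := by
      have cre' : Continuous fun θ => 2 * (B14.bd c.w θ).re := continuous_const.mul cre
      have cmw' : Continuous fun θ => 4 * Real.log (B14.bd (c.mw 𝔚) θ) :=
        continuous_const.mul cmw
      have cs' : Continuous fun θ => 2 * (B14.bd c.w θ).re +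
          Real.log (B14.bd (c.gam 𝔚 D) θ) := cre'.add cgam
      rw [← B14.pavg_const_mul_real, ← B14.pavg_const_mul_real,
        ← B14.pavg_add cre' cgam, ← B14.pavg_sub cs' cmw']
      rfl
    have e3 : B14.pavg (fun θ => (B14.bd c.w θ).re) = 0 := by
      rw [← B14.pavg_re cw]
      have : B14.pavg (B14.bd c.w) = c.w 0 := hc.w_hol.cA_eq
      rw [this, hc.w_zero, Complex.zero_re]
    rw [e1, e2, e3, mul_zero, zero_add]
    rfl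

/-- the field `ok` of `FixedJ`. -/
theorem packet_ok (h : Std5 X 𝔚 D 𝒴 err A1 A2) (CF : ℝ) :
    ∃ C : ℝ, ∀ᶠ ε in 𝓝[>] (0 : ℝ), ∀ᶠ η in 𝓝[>] (0 : ℝ), ∀ P, Adm5 X 𝔚 D 𝒴 CF ε η P →
      P.Ok (Jstd (Fin n)) C := by
  obtain ⟨CT, hCT⟩ := Tb_ok h CF
  obtain ⟨Mφ, -, hMφ⟩ := phi_bound (X := X) h.valid.smooth
  obtain ⟨Md, hMd⟩ := dphi_bound (X := X) h.valid.smooth
  set μ₀ : ℝ := mu5 X 𝔚 D 𝒴 0 with hμ₀
  set B : ℝ := A1 * (μ₀ + 1) + A2 * (μ₀ + 1 + Mφ) with hB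
  obtain ⟨Co, hCo⟩ := om_ok h B
  obtain ⟨Cc, hCc⟩ := frame_center h.cot h.valid.imm h.valid.isHol
    (isCompact_closedBall X.p₀ X.rc) h.valid.ball CF
  refine ⟨max CT (max CF (max Co (max Md B))), ?_⟩
  filter_upwards [center_close h 1 one_pos] with ε h1
  filter_upwards [h1] with η h2 P hP
  obtain ⟨c, U, JE, S0, hc, hfun, hF, hFB, hS0, rfl⟩ := hP
  have hadm := hc.1
  obtain ⟨-, hd, hN, -⟩ := h2 c hadm hfun
  have hBc : A1 * cA (fun ζ => 𝔚.dc (c.f ζ) (c.time ζ)) +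
      A2 * cA (fun ζ => D.N (c.f ζ) (c.time ζ)) ≤ B := by
    have a1 := h.walls.A1_nonneg
    have a2 := h.walls.A2_nonneg
    have b1 := hMφ c.s hadm.s_mem c.p hadm.p_mem
    have b2 : cA (fun ζ => D.N (c.f ζ) (c.time ζ)) ≤ μ₀ + 1 + Mφ := by linarith
    have b3 := mul_le_mul_of_nonneg_left hd a1
    have b4 := mul_le_mul_of_nonneg_left b2 a2
    linarith
  obtain ⟨t1, t2, t3, t4⟩ := hCT c U JE hadm hF hFB
  obtain ⟨o1, o2, o3, o4⟩ := hCo c hadm hBc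
  obtain ⟨s1, s2, -, -⟩ := hCc c.f U JE S0 c.p hF hFB hadm.p_mem hadm.f_zero hS0
  have hEn := energy5_nonneg h hadm
  exact
    { En_nonneg := hEn
      Tb_lip := t1
      Tb_herm := t2
      Tb_le := fun ζ hζ => (t3 ζ hζ).trans (le_max_left _ _)
      Tb_D := t4.trans (mul_le_mul_of_nonneg_right (le_max_left _ _) (by
        show 0 ≤ 1 + energy5 X 𝔚 𝓜 g c
        linarith))
      JE_hol := hF.JE_hol
      JE_le := fun ζ hζ => (hFB.JE_le ζ (Metric.sphere_subset_closedBall hζ)).trans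
        ((le_max_left _ _).trans (le_max_right _ _))
      S0_unit := s1
      JE_zero := s2
      om_sm := o1
      om_pos := o2
      om_le := fun ζ hζ => (o3 ζ hζ).trans
        ((le_max_left _ _).trans ((le_max_right _ _).trans (le_max_right _ _)))
      h0_pos := Real.exp_pos _
      om_log := by
        show cA (fun ζ => Real.log (c.time ζ / c.s * c.gam 𝔚 D ζ * (c.mw 𝔚 ζ ^ 4)⁻¹)) =
          cA (fun ζ => Real.log (c.gam 𝔚 D ζ)) -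
            4 * Real.log (Real.exp (cA fun ζ => Real.log (c.mw 𝔚 ζ)))
        rw [Real.log_exp]
        exact o4
      Wc_herm := levi_test_herm h.valid.smooth _ _
      ds_le := (hMd c.s hadm.s_mem c.p hadm.p_mem).trans
        ((le_max_left _ _).trans ((le_max_right _ _).trans
          ((le_max_right _ _).trans (le_max_right _ _))))
      lg_ge := by
        have e1 := lg_ge h hadm
        have e2 : B ≤ max CT (max CF (max Co (max Md B))) :=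
          (le_max_right _ _).trans ((le_max_right _ _).trans
            ((le_max_right _ _).trans (le_max_right _ _)))
        show -(max CT (max CF (max Co (max Md B)))) ≤ cA fun ζ => Real.log (c.gam 𝔚 D ζ)
        linarith
      lg_le := lg_le h hadm }

end Sym

end Claimed.Agent.R316
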