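import Claimed.Agent.R316.S5.WallsDef
import Claimed.Agent.R316.S3.Geom
import Claimed.Agent.R316.Base.Vol.Time

/-!
# Row 316, Section 5.1 + 5.4: the compact region (`S5-W3` `compact_region`) and elementary facts on the profiles

Owner helper26.  No `sorry`.
-/

set_option autoImplicit false
set_option maxSynthPendingDepth 3
open scoped ContDiff ComplexOrder Topology Matrix
open MeasureTheory Filter

namespace Claimed.Agent.R316

open Claimed.Agent.R316.S6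

variable {V : Type} [NormedAddCommGroup V] [InnerProductSpace ℝ V] [FiniteDimensional ℝ V]
variable [MeasurableSpace V] [BorelSpace V]
variable {n : ℕ} {𝓜 : CMfd V (Fin n)} {g : HFam V (Fin n)} {o : V}
variable {𝒴 : CMfd (CotAmb V) (Fin n ⊕ Fin n)}

/-- a bound of the dual norm bounds the fibre coordinate, uniformly on compact subsets of a chart. -/
theorem wl_fib_bound (I : InitialData 𝓜 g) (D : FlowData 𝓜 g o) {Φ : CE (Fin n) → V}
    {U : Set (CE (Fin n))} (hΦ : 𝓜.IsHol Φ U) {Bz : Set (CE (Fin n))} (hB : IsCompact Bz)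
    (hBU : Bz ⊆ U) (C : ℝ) :
    ∃ R : ℝ, ∀ z ∈ Bz, ∀ ζ : CE (Fin n), nloc (D.h 0) Φ (cJoin z ζ) ≤ C → ‖ζ‖ ≤ R := by
  have hg : IsMetric 𝓜 g := I.kahler.toIsMetric
  set φ : CE (Fin n) × CE (Fin n) → ℝ := fun q => nloc (D.h 0) Φ (cJoin q.1 q.2) with hφ
  have hφq : ∀ (z ζ : CE (Fin n)), nloc (D.h 0) Φ (cJoin z ζ) = qf (bmat (D.h 0) Φ z) ζ := by
    intro z ζ
    unfold nloc
    rw [cBase_cJoin, s6g_cFib_cJoin]
  have hφc : ContinuousOn φ (Bz ×ˢ Metric.sphere (0 : CE (Fin n)) 1) := by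
    have h1 := (s6f_contDiffOn_nloc D hg hΦ).continuousOn
    have h2 : Continuous fun q : CE (Fin n) × CE (Fin n) =>
        (((0 : ℝ), cJoin q.1 q.2) : ℝ × CE (Fin n ⊕ Fin n)) :=
      continuous_const.prodMk s6_continuous_cJoin
    have h3 := ContinuousOn.comp (g := fun q : ℝ × CE (Fin n ⊕ Fin n) => nloc (D.h q.1) Φ q.2)
      (f := fun q : CE (Fin n) × CE (Fin n) => (((0 : ℝ), cJoin q.1 q.2) : ℝ × CE (Fin n ⊕ Fin n)))
      (s := Bz ×ˢ Metric.sphere (0 : CE (Fin n)) 1) (t := Set.Ici 0 ×ˢ cotDom U) h1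
      h2.continuousOn fun q hq => ⟨Set.self_mem_Ici, s6g_cJoin_mem_cotDom (hBU hq.1) q.2⟩
    exact h3
  rcases (Bz ×ˢ Metric.sphere (0 : CE (Fin n)) 1).eq_empty_or_nonempty with he | hne
  · refine ⟨0, fun z hz ζ _ => ?_⟩
    by_contra hpos
    push Not at hpos
    have : (z, (‖ζ‖⁻¹ : ℝ) • ζ) ∈ Bz ×ˢ Metric.sphere (0 : CE (Fin n)) 1 := by
      refine ⟨hz, ?_⟩
      rw [mem_sphere_zero_iff_norm, norm_smul, Real.norm_eq_abs, abs_of_pos (inv_pos.2 hpos),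
        inv_mul_cancel₀ hpos.ne']
    rw [he] at this
    exact this
  obtain ⟨q, hq, hmin⟩ := (hB.prod (isCompact_sphere _ _)).exists_isMinOn hne hφc
  have hpos : 0 < φ q := by
    have hq0 : (q.2 : Fin n → ℂ) ≠ 0 := by
      intro h0
      have hq1 : ‖q.2‖ = 1 := mem_sphere_zero_iff_norm.1 hq.2
      have : q.2 = 0 := by
        ext k
        exact congrFun h0 k
      rw [this, norm_zero] at hq1
      exact zero_ne_one hq1
    show 0 < nloc (D.h 0) Φ (cJoin q.1 q.2)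
    rw [hφq]
    exact qf_pos (s6g_bmat_posDef (s6g_h_metric D le_rfl) hΦ (hBU hq.1)) hq0
  refine ⟨Real.sqrt (|C| / φ q), fun z hz ζ hζ => ?_⟩
  rcases eq_or_ne ζ 0 with rfl | hζ0
  · rw [norm_zero]
    positivity
  have hn : 0 < ‖ζ‖ := norm_pos_iff.2 hζ0
  have hmem : (z, (‖ζ‖⁻¹ : ℝ) • ζ) ∈ Bz ×ˢ Metric.sphere (0 : CE (Fin n)) 1 := by
    refine ⟨hz, ?_⟩
    rw [mem_sphere_zero_iff_norm, norm_smul, Real.norm_eq_abs, abs_of_pos (inv_pos.2 hn),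
      inv_mul_cancel₀ hn.ne']
  have h1 : φ q ≤ φ (z, (‖ζ‖⁻¹ : ℝ) • ζ) := isMinOn_iff.1 hmin _ hmem
  have h2 : φ (z, (‖ζ‖⁻¹ : ℝ) • ζ) = (‖ζ‖⁻¹) ^ 2 * nloc (D.h 0) Φ (cJoin z ζ) := by
    show nloc (D.h 0) Φ (cJoin z ((‖ζ‖⁻¹ : ℝ) • ζ)) = _
    rw [hφq, hφq]
    have e : (((‖ζ‖⁻¹ : ℝ) • ζ : CE (Fin n)) : Fin n → ℂ) = ((‖ζ‖⁻¹ : ℝ) : ℂ) • (ζ : Fin n → ℂ) := by
      funext k
      simp
    rw [e, qf_smul_vec, Complex.norm_real, Real.norm_eq_abs, sq_abs]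
  rw [h2] at h1
  have h3 : φ q * ‖ζ‖ ^ 2 ≤ |C| := by
    have h4 : (‖ζ‖⁻¹) ^ 2 * nloc (D.h 0) Φ (cJoin z ζ) ≤ (‖ζ‖⁻¹) ^ 2 * |C| :=
      mul_le_mul_of_nonneg_left (hζ.trans (le_abs_self C)) (by positivity)
    have h5 := h1.trans h4
    have h6 := mul_le_mul_of_nonneg_right h5 (by positivity : 0 ≤ ‖ζ‖ ^ 2)
    calc φ q * ‖ζ‖ ^ 2 ≤ (‖ζ‖⁻¹) ^ 2 * |C| * ‖ζ‖ ^ 2 := h6
      _ = |C| := by field_simp
  refine Real.le_sqrt_of_sq_le ?_
  rw [le_div_iff₀ hpos]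
  linarith

/-- fibre bounded sets over compact sets lie in a compact subset of `Y`. -/
theorem wl_exists_compact (I : InitialData 𝓜 g) (D : FlowData 𝓜 g o) (hY : IsCotangent 𝓜 𝒴)
    {K₀ : Set V} (hK₀ : IsCompact K₀) (hsub : K₀ ⊆ 𝓜.carrier) (C : ℝ) :
    ∃ Q : Set (CotAmb V), IsCompact Q ∧ Q ⊆ 𝒴.carrier ∧
      {y : CotAmb V | y ∈ 𝒴.carrier ∧ y.1 ∈ K₀ ∧ D.N y 0 ≤ C} ⊆ Q := by
  refine hK₀.induction_on (p := fun K => ∃ Q : Set (CotAmb V), IsCompact Q ∧ Q ⊆ 𝒴.carrier ∧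
    {y : CotAmb V | y ∈ 𝒴.carrier ∧ y.1 ∈ K ∧ D.N y 0 ≤ C} ⊆ Q) ?_ ?_ ?_ ?_
  · exact ⟨∅, isCompact_empty, Set.empty_subset _, fun y hy => hy.2.1⟩
  · rintro s t hst ⟨Q, hQ, hQY, hQs⟩
    exact ⟨Q, hQ, hQY, fun y hy => hQs ⟨hy.1, hst hy.2.1, hy.2.2⟩⟩
  · rintro s t ⟨Q, hQ, hQY, hQs⟩ ⟨Q', hQ', hQY', hQs'⟩
    refine ⟨Q ∪ Q', hQ.union hQ', Set.union_subset hQY hQY', fun y hy => ?_⟩
    rcases hy.2.1 with h | h
    · exact Or.inl (hQs ⟨hy.1, h, hy.2.2⟩)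
    · exact Or.inr (hQs' ⟨hy.1, h, hy.2.2⟩)
  · intro x hx
    have hxM := hsub hx
    have hΦ := 𝓜.isHol_pΦ hxM
    set Φ := 𝓜.pΦ x with hΦdef
    set U := 𝓜.pU x with hUdef
    have hz₀ : 𝓜.co x ∈ U := 𝓜.co_mem hxM
    have hU : IsOpen U := CMfd.isOpen_dom hΦ
    have hP := 𝓜.isParam hΦ
    obtain ⟨r, hr, hrU⟩ := Metric.nhds_basis_closedBall.mem_iff.1 (hU.mem_nhds hz₀)
    obtain ⟨R, hR⟩ := wl_fib_bound I D hΦ (isCompact_closedBall (𝓜.co x) r) hrU C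
    refine ⟨Φ '' Metric.closedBall (𝓜.co x) r, ?_, ?_⟩
    · have h1 : Φ '' Metric.closedBall (𝓜.co x) r ∈ 𝓝[𝓜.carrier] x := by
        have := hP.map_nhds_eq hz₀
        have e : Φ (𝓜.co x) = x := 𝓜.pΦ_co hxM
        rw [e] at this
        rw [← this]
        exact image_mem_map (Metric.closedBall_mem_nhds _ hr)
      exact nhdsWithin_mono x hsub h1
    · refine ⟨(fun q : CE (Fin n) × CE (Fin n) => cotParam Φ (cJoin q.1 q.2)) ''
        (Metric.closedBall (𝓜.co x) r ×ˢ Metric.closedBall 0 R), ?_, ?_, ?_⟩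
      · refine ((isCompact_closedBall _ _).prod (isCompact_closedBall _ _)).image_of_continuousOn ?_
        intro q hq
        have h1 : cJoin q.1 q.2 ∈ cotDom U := s6g_cJoin_mem_cotDom (hrU hq.1) q.2
        exact (ContinuousAt.comp (g := cotParam Φ)
          (f := fun q : CE (Fin n) × CE (Fin n) => cJoin q.1 q.2)
          (s6g_continuousAt_cotParam hY hΦ h1)
          s6_continuous_cJoin.continuousAt).continuousWithinAt
      · rintro _ ⟨q, hq, rfl⟩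
        exact s6g_cotParam_mem hY hΦ (s6g_cJoin_mem_cotDom (hrU hq.1) q.2)
      · rintro y ⟨hy, ⟨z, hz, hzy⟩, hb⟩
        obtain ⟨ζ, hζ⟩ := s6g_exists_cotParam hY hy hΦ (hrU hz) hzy.symm
        refine ⟨(z, ζ), ⟨hz, ?_⟩, hζ.symm⟩
        rw [mem_closedBall_zero_iff]
        refine hR z hz ζ ?_
        rw [← s6g_N_chart D hΦ (s6g_cJoin_mem_cotDom (hrU hz) ζ) le_rfl, ← hζ]
        exact hb

/-- the closed boundary region is compact in `Y`. -/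
theorem wl_compact_region (I : InitialData 𝓜 g) (ho : o ∈ 𝓜.carrier) (Pd : PrelimData 𝓜 g o)
    (D : FlowData 𝓜 g o) (hY : IsCotangent 𝓜 𝒴) (A B : ℝ) :
    IsCompact {y : CotAmb V | y ∈ 𝒴.carrier ∧ Pd.u y.1 ≤ A ∧ D.N y 0 ≤ B ^ 2} := by
  have hg : IsMetric 𝓜 g := I.kahler.toIsMetric
  have hK₀ := S3.geo_isCompact_le I ho Pd A
  obtain ⟨Q, hQ, hQY, hsubQ⟩ := wl_exists_compact I D hY hK₀ (fun x hx => hx.1) (B ^ 2)
  have hsub : {y : CotAmb V | y ∈ 𝒴.carrier ∧ Pd.u y.1 ≤ A ∧ D.N y 0 ≤ B ^ 2} ⊆ Q :=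
    fun y hy => hsubQ ⟨hy.1, ⟨s6g_base_mem hY hy.1, hy.2.1⟩, hy.2.2⟩
  have hc1 : ContinuousOn (fun y : CotAmb V => Pd.u y.1) Q :=
    Pd.u_smooth.continuousOn.comp continuous_fst.continuousOn
      fun y hy => s6g_base_mem hY (hQY hy)
  have hc2 : ContinuousOn (fun y : CotAmb V => D.N y 0) Q := (s6g_N0_continuousOn D hg hY).mono hQY
  have hcl : IsClosed ((Q ∩ (fun y : CotAmb V => Pd.u y.1) ⁻¹' Set.Iic A) ∩
      (Q ∩ (fun y : CotAmb V => D.N y 0) ⁻¹' Set.Iic (B ^ 2))) :=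
    (hc1.preimage_isClosed_of_isClosed hQ.isClosed isClosed_Iic).inter
      (hc2.preimage_isClosed_of_isClosed hQ.isClosed isClosed_Iic)
  refine hQ.of_isClosed_subset ?_ hsub
  convert hcl using 1
  ext y
  constructor
  · intro hy
    exact ⟨⟨hsub hy, hy.2.1⟩, ⟨hsub hy, hy.2.2⟩⟩
  · rintro ⟨⟨h1, h2⟩, ⟨_, h3⟩⟩
    exact ⟨hQY h1, h2, h3⟩

theorem wl_chiW1_contDiff : ContDiff ℝ ∞ chiW1 :=
  Real.smoothTransition.contDiff.comp (contDiff_const.mul (contDiff_const.sub contDiff_id))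

theorem wl_chiW2_contDiff : ContDiff ℝ ∞ chiW2 :=
  Real.smoothTransition.contDiff.comp (contDiff_const.mul (contDiff_const.sub contDiff_id))

theorem wl_thW1_contDiff : ContDiff ℝ ∞ thW1 :=
  Real.smoothTransition.contDiff.comp ((contDiff_const.mul contDiff_id).sub contDiff_const)

theorem wl_thW2_contDiff : ContDiff ℝ ∞ thW2 :=
  Real.smoothTransition.contDiff.comp ((contDiff_const.mul contDiff_id).sub contDiff_const)

theorem wl_chiW1_pos {x : ℝ} (hx : x < 1) : 0 < chiW1 x :=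
  Real.smoothTransition.pos_of_pos (by linarith)

theorem wl_chiW2_pos {x : ℝ} (hx : x < 1) : 0 < chiW2 x :=
  Real.smoothTransition.pos_of_pos (by linarith)

theorem wl_lt_of_chiW1_pos {x : ℝ} (h : 0 < chiW1 x) : x < 1 := by
  by_contra hx
  push Not at hx
  have : chiW1 x = 0 := Real.smoothTransition.zero_of_nonpos (by linarith)
  rw [this] at h
  exact lt_irrefl _ h

theorem wl_lt_of_chiW2_pos {x : ℝ} (h : 0 < chiW2 x) : x < 1 := by
  by_contra hx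
  push Not at hx
  have : chiW2 x = 0 := Real.smoothTransition.zero_of_nonpos (by linarith)
  rw [this] at h
  exact lt_irrefl _ h

theorem wl_chiW1_one {x : ℝ} (hx : x ≤ 2 / 3) : chiW1 x = 1 :=
  Real.smoothTransition.one_of_one_le (by linarith)

theorem wl_chiW2_one {x : ℝ} (hx : x ≤ 1 / 2) : chiW2 x = 1 :=
  Real.smoothTransition.one_of_one_le (by linarith)

theorem wl_lt_of_thW1_ne_one {x : ℝ} (h : thW1 x ≠ 1) : x < 1 / 2 := by
  by_contra hx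
  push Not at hx
  exact h (Real.smoothTransition.one_of_one_le (by linarith))

theorem wl_lt_of_thW2_ne_one {x : ℝ} (h : thW2 x ≠ 1) : x < 1 / 4 := by
  by_contra hx
  push Not at hx
  exact h (Real.smoothTransition.one_of_one_le (by linarith))

theorem wl_lt_of_thW1_ne_zero {x : ℝ} (h : thW1 x ≠ 0) : 1 / 3 < x := by
  by_contra hx
  push Not at hx
  exact h (Real.smoothTransition.zero_of_nonpos (by linarith))

theorem wl_lt_of_thW2_ne_zero {x : ℝ} (h : thW2 x ≠ 0) : 1 / 8 < x := by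
  by_contra hx
  push Not at hx
  exact h (Real.smoothTransition.zero_of_nonpos (by linarith))

end Claimed.Agent.R316
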