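import Claimed.Agent.R316.S5.Symbol

/-!
# Row 316, Section 5.1 + 5.4: construction of the localisation data (`IsWalls`): DEFINITIONS and profiles
((5.2)-(5.5), (5.20)-(5.23))

SIMPLIFICATION.  The fibre wall error (5.20) is bounded INDEPENDENTLY of `B` by fibre scaling `μ_B (x, ξ) = (x, B ξ)`: in cotangent coordinates
`levi (β ∘ μ_B) = Λᴴ (levi β ∘ μ_B) Λ`, `Λ = diag(1, B)`, `Λ Jstd Λᵀ = B Jstd`, hence `p(dd(β ∘ μ_B)) = B² p(dd β) ∘ μ_B`.  With `N_t ∘ μ_B = B² N_t` and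
`k₂^B ∘ μ_B = k₂^1` the error at `μ_B y'` is `B⁻² [2 B² p(W_N, W_κ) + 2 p(W_d, W_κ) + p(W_κ)](y')`, `p(·,·)` the polarisation, with all tensors evaluated on the FIXED
compact `{u ≤ A, N(·,0) ≤ 1}`; after clearing denominators (`δ₁³ W_d`, `δ₂³ W_κ` are smooth on `Y`) everything is bounded there.  So `c₃ = 6`, `a = 2`, `c = 1`, `A1 = 8`.

Leaves: `S5-W1` (profiles), `S5-W2` `tail_wall`, `S5-W3` `compact_region`, `S5-W4` `base_wall_error`, `S5-W5` `fiber_wall_error`,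
`S5-W6` `isWalls_mkWalls` (assembly of `IsWalls`), `S5-W7` `walls_exist` (choice of `j`, `A`, `B`).
-/

set_option autoImplicit false
set_option maxSynthPendingDepth 3
open scoped ContDiff ComplexOrder Topology Matrix
open MeasureTheory Filter

namespace Claimed.Agent.R316

/-- profile of `δ₁`: `1` on `x ≤ 2/3`, positive exactly on `x < 1`. -/
noncomputable def chiW1 (x : ℝ) : ℝ := Real.smoothTransition (3 * (1 - x))

/-- profile of `δ₂`: `1` on `x ≤ 1/2`, positive exactly on `x < 1`. -/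
noncomputable def chiW2 (x : ℝ) : ℝ := Real.smoothTransition (2 * (1 - x))

/-- profile of `χ₁`: `0` on `x ≤ 1/3`, `1` on `x ≥ 1/2`. -/
noncomputable def thW1 (x : ℝ) : ℝ := Real.smoothTransition (6 * x - 2)

/-- profile of `χ₂`: `0` on `x ≤ 1/8`, `1` on `x ≥ 1/4`. -/
noncomputable def thW2 (x : ℝ) : ℝ := Real.smoothTransition (8 * x - 1)

theorem s5w_bdd_of_supp {f : ℝ → ℝ} (hf : Continuous f) (h0 : ∀ t, t < 0 → f t = 0)
    (h1 : ∀ t, 1 < t → f t = 0) : ∃ M : ℝ, 0 ≤ M ∧ ∀ t, |f t| ≤ M := by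
  obtain ⟨M, hM⟩ := (isCompact_Icc (a := (0 : ℝ)) (b := 1)).exists_bound_of_continuousOn
    hf.continuousOn
  refine ⟨|M|, abs_nonneg _, fun t => ?_⟩
  rcases lt_or_ge t 0 with h | h
  · rw [h0 t h, abs_zero]
    exact abs_nonneg _
  rcases lt_or_ge 1 t with h' | h'
  · rw [h1 t h', abs_zero]
    exact abs_nonneg _
  · exact (hM t ⟨h, h'⟩).trans (le_abs_self M)

theorem s5w_deriv_st_zero {t : ℝ} (h : t < 0 ∨ 1 < t) : deriv Real.smoothTransition t = 0 := by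
  rcases h with h | h
  · have : Real.smoothTransition =ᶠ[𝓝 t] fun _ => 0 := by
      filter_upwards [Iio_mem_nhds h] with y hy
      exact Real.smoothTransition.zero_of_nonpos (le_of_lt hy)
    rw [this.deriv_eq, deriv_const]
  · have : Real.smoothTransition =ᶠ[𝓝 t] fun _ => 1 := by
      filter_upwards [Ioi_mem_nhds h] with y hy
      exact Real.smoothTransition.one_of_one_le (le_of_lt hy)
    rw [this.deriv_eq, deriv_const]

theorem s5w_deriv2_st_zero {t : ℝ} (h : t < 0 ∨ 1 < t) :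
    deriv (deriv Real.smoothTransition) t = 0 := by
  have : deriv Real.smoothTransition =ᶠ[𝓝 t] fun _ => 0 := by
    rcases h with h | h
    · filter_upwards [Iio_mem_nhds h] with y hy
      exact s5w_deriv_st_zero (Or.inl hy)
    · filter_upwards [Ioi_mem_nhds h] with y hy
      exact s5w_deriv_st_zero (Or.inr hy)
  rw [this.deriv_eq, deriv_const]

theorem s5w_st_contDiff1 : ContDiff ℝ 1 (deriv Real.smoothTransition) := by
  have h : ContDiff ℝ (1 + 1) Real.smoothTransition := Real.smoothTransition.contDiff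
  exact (contDiff_succ_iff_deriv.1 h).2.2

theorem s5w_st_bounds : ∃ M₁ M₂ : ℝ, 0 ≤ M₁ ∧ 0 ≤ M₂ ∧
    (∀ t, |deriv Real.smoothTransition t| ≤ M₁) ∧
    ∀ t, |deriv (deriv Real.smoothTransition) t| ≤ M₂ := by
  obtain ⟨M₁, h0, h1⟩ := s5w_bdd_of_supp s5w_st_contDiff1.continuous
    (fun t ht => s5w_deriv_st_zero (Or.inl ht)) (fun t ht => s5w_deriv_st_zero (Or.inr ht))
  obtain ⟨M₂, h2, h3⟩ := s5w_bdd_of_supp (s5w_st_contDiff1.continuous_deriv le_rfl)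
    (fun t ht => s5w_deriv2_st_zero (Or.inl ht)) (fun t ht => s5w_deriv2_st_zero (Or.inr ht))
  exact ⟨M₁, M₂, h0, h2, h1, h3⟩

/-- the reciprocal of the profile `x ↦ smoothTransition (c (1 - x))`. -/
theorem s5w_recip {M₁ M₂ : ℝ} (hM₁ : 0 ≤ M₁) (hM₂ : 0 ≤ M₂)
    (h1 : ∀ t, |deriv Real.smoothTransition t| ≤ M₁)
    (h2 : ∀ t, |deriv (deriv Real.smoothTransition) t| ≤ M₂) {c : ℝ} (hc : 0 < c) {x : ℝ}
    (hx : x < 1) :
    |deriv (fun y => (Real.smoothTransition (c * (1 - y)))⁻¹) x| ≤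
      c * M₁ * (Real.smoothTransition (c * (1 - x)))⁻¹ ^ 2 ∧
    |deriv (deriv fun y => (Real.smoothTransition (c * (1 - y)))⁻¹) x| ≤
      (c ^ 2 * M₂ + 2 * (c * M₁) ^ 2) * (Real.smoothTransition (c * (1 - x)))⁻¹ ^ 3 := by
  set s := Real.smoothTransition with hs
  have hsd : ∀ t, HasDerivAt s (deriv s t) t := fun t =>
    ((Real.smoothTransition.contDiff (n := 1)).differentiable one_ne_zero t).hasDerivAt
  have hsd2 : ∀ t, HasDerivAt (deriv s) (deriv (deriv s) t) t := fun t =>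
    (s5w_st_contDiff1.differentiable one_ne_zero t).hasDerivAt
  have hin : ∀ y : ℝ, HasDerivAt (fun y => c * (1 - y)) (-c) y := fun y => by
    have := ((hasDerivAt_id y).const_sub 1).const_mul c
    simpa using this
  have hχ : ∀ y, HasDerivAt (fun y => s (c * (1 - y))) (deriv s (c * (1 - y)) * -c) y := fun y => by
    have := HasDerivAt.comp (h₂ := s) (h := fun y => c * (1 - y)) y (hsd (c * (1 - y))) (hin y)
    exact this
  have hχ' : ∀ y, HasDerivAt (fun y => deriv s (c * (1 - y)) * -c)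
      (deriv (deriv s) (c * (1 - y)) * -c * -c) y := fun y => by
    have := HasDerivAt.comp (h₂ := deriv s) (h := fun y => c * (1 - y)) y (hsd2 (c * (1 - y)))
      (hin y)
    exact this.mul_const (-c)
  have hpos : ∀ y, y < 1 → 0 < s (c * (1 - y)) := fun y hy =>
    Real.smoothTransition.pos_of_pos (mul_pos hc (by linarith))
  have hinv : ∀ y, y < 1 → HasDerivAt (fun y => (s (c * (1 - y)))⁻¹)
      (-(deriv s (c * (1 - y)) * -c) / s (c * (1 - y)) ^ 2) y := fun y hy =>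
    (hχ y).inv (hpos y hy).ne'
  have hev : deriv (fun y => (s (c * (1 - y)))⁻¹) =ᶠ[𝓝 x]
      fun y => -(deriv s (c * (1 - y)) * -c) / s (c * (1 - y)) ^ 2 := by
    filter_upwards [Iio_mem_nhds hx] with y hy
    exact (hinv y hy).deriv
  have h2nd : HasDerivAt (fun y => -(deriv s (c * (1 - y)) * -c) / s (c * (1 - y)) ^ 2)
      ((-(deriv (deriv s) (c * (1 - x)) * -c * -c) * s (c * (1 - x)) ^ 2 -
        -(deriv s (c * (1 - x)) * -c) * (2 * s (c * (1 - x)) ^ (2 - 1) *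
          (deriv s (c * (1 - x)) * -c))) / (s (c * (1 - x)) ^ 2) ^ 2) x :=
    ((hχ' x).neg).div ((hχ x).pow 2) (pow_ne_zero 2 (hpos x hx).ne')
  set p := s (c * (1 - x)) with hp
  have hp0 : 0 < p := hpos x hx
  have hp1 : p ≤ 1 := Real.smoothTransition.le_one _
  set d1 := deriv s (c * (1 - x)) with hd1
  set d2 := deriv (deriv s) (c * (1 - x)) with hd2
  have b1 : |d1| ≤ M₁ := h1 _
  have b2 : |d2| ≤ M₂ := h2 _
  constructor
  · rw [(hinv x hx).deriv]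
    have e : -(d1 * -c) / p ^ 2 = c * d1 * p⁻¹ ^ 2 := by
      field_simp
    rw [e, abs_mul, abs_mul, abs_of_pos hc, abs_of_nonneg (by positivity : 0 ≤ p⁻¹ ^ 2)]
    gcongr
  · rw [hev.deriv_eq, h2nd.deriv]
    have e : (-(d2 * -c * -c) * p ^ 2 - -(d1 * -c) * (2 * p ^ (2 - 1) * (d1 * -c))) / (p ^ 2) ^ 2
        = -(c ^ 2 * d2) * p⁻¹ ^ 2 + 2 * (c * d1) ^ 2 * p⁻¹ ^ 3 := by
      have : p ^ (2 - 1) = p := by norm_num
      rw [this]
      field_simp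
      ring
    rw [e]
    have hq : 1 ≤ p⁻¹ := (one_le_inv₀ hp0).2 hp1
    have hq2 : p⁻¹ ^ 2 ≤ p⁻¹ ^ 3 := pow_le_pow_right₀ hq (by norm_num)
    have t1 : |-(c ^ 2 * d2) * p⁻¹ ^ 2| ≤ c ^ 2 * M₂ * p⁻¹ ^ 3 := by
      rw [abs_mul, abs_neg, abs_mul, abs_of_nonneg (by positivity : 0 ≤ c ^ 2),
        abs_of_nonneg (by positivity : 0 ≤ p⁻¹ ^ 2)]
      gcongr
    have t2 : |2 * (c * d1) ^ 2 * p⁻¹ ^ 3| ≤ 2 * (c * M₁) ^ 2 * p⁻¹ ^ 3 := by
      rw [abs_of_nonneg (by positivity)]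
      have : (c * d1) ^ 2 ≤ (c * M₁) ^ 2 := by
        rw [← sq_abs (c * d1), abs_mul, abs_of_pos hc]
        gcongr
      gcongr
    calc |-(c ^ 2 * d2) * p⁻¹ ^ 2 + 2 * (c * d1) ^ 2 * p⁻¹ ^ 3|
        ≤ |-(c ^ 2 * d2) * p⁻¹ ^ 2| + |2 * (c * d1) ^ 2 * p⁻¹ ^ 3| := abs_add_le _ _
      _ ≤ c ^ 2 * M₂ * p⁻¹ ^ 3 + 2 * (c * M₁) ^ 2 * p⁻¹ ^ 3 := add_le_add t1 t2
      _ = _ := by ring

/-- derivative bounds of the reciprocal profile: `|(1/χ)'| ≤ C χ⁻²`, `|(1/χ)''| ≤ C χ⁻³` where `χ > 0`. -/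
theorem chiW_recip_bounds :
    ∃ C : ℝ, ∀ x : ℝ, x < 1 →
      |deriv (fun y => (chiW1 y)⁻¹) x| ≤ C * (chiW1 x)⁻¹ ^ 2 ∧
      |deriv (deriv fun y => (chiW1 y)⁻¹) x| ≤ C * (chiW1 x)⁻¹ ^ 3 ∧
      |deriv (fun y => (chiW2 y)⁻¹) x| ≤ C * (chiW2 x)⁻¹ ^ 2 ∧
      |deriv (deriv fun y => (chiW2 y)⁻¹) x| ≤ C * (chiW2 x)⁻¹ ^ 3 := by
  obtain ⟨M₁, M₂, hM₁, hM₂, h1, h2⟩ := s5w_st_bounds
  refine ⟨3 * M₁ + (3 ^ 2 * M₂ + 2 * (3 * M₁) ^ 2), fun x hx => ?_⟩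
  obtain ⟨a1, a2⟩ := s5w_recip hM₁ hM₂ h1 h2 (c := 3) (by norm_num) hx
  obtain ⟨a3, a4⟩ := s5w_recip hM₁ hM₂ h1 h2 (c := 2) (by norm_num) hx
  have q1 : 0 ≤ (chiW1 x)⁻¹ := inv_nonneg.2 (Real.smoothTransition.nonneg _)
  have q2 : 0 ≤ (chiW2 x)⁻¹ := inv_nonneg.2 (Real.smoothTransition.nonneg _)
  refine ⟨a1.trans ?_, a2.trans ?_, a3.trans ?_, a4.trans ?_⟩
  · refine mul_le_mul_of_nonneg_right ?_ (by positivity)
    nlinarith [sq_nonneg M₁]
  · refine mul_le_mul_of_nonneg_right ?_ (by positivity)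
    nlinarith [sq_nonneg M₁]
  · refine mul_le_mul_of_nonneg_right ?_ (by positivity)
    nlinarith [sq_nonneg M₁]
  · refine mul_le_mul_of_nonneg_right ?_ (by positivity)
    nlinarith [sq_nonneg M₁]

variable {V : Type} [NormedAddCommGroup V] [InnerProductSpace ℝ V] [FiniteDimensional ℝ V]
variable [MeasurableSpace V] [BorelSpace V]
variable {n : ℕ} {𝓜 : CMfd V (Fin n)} {g : HFam V (Fin n)} {o : V}
variable {𝒴 : CMfd (CotAmb V) (Fin n ⊕ Fin n)}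

/-- the concrete localisation data. -/
noncomputable def mkWalls (Pd : PrelimData 𝓜 g o) (D : FlowData 𝓜 g o) (d0 d0t : ℝ → V → ℝ)
    (A B c1 c2 : ℝ) : Walls V where
  d0 := d0
  d0t := d0t
  δ1 := fun x => chiW1 (Pd.u x / A)
  δ2 := fun y => chiW2 (D.N y 0 / B ^ 2)
  χ1 := fun x => thW1 (Pd.u x / A)
  χ2 := fun y => thW2 (D.N y 0 / B ^ 2)
  a := 2
  c1 := c1
  c2 := c2

/-- what is needed of the base cost `d_{0,j}` (5.2). -/
structure IsBaseCost (D : FlowData 𝓜 g o) (T : ℝ) (d0 d0t : ℝ → V → ℝ) : Prop where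
  smooth : 𝓜.SmoothST (Set.Icc 0 T) d0
  smooth_t : 𝓜.SmoothST (Set.Icc 0 T) d0t
  deriv : ∀ t ∈ Set.Icc (0 : ℝ) T, ∀ x ∈ 𝓜.carrier,
    HasDerivWithinAt (fun s => d0 s x) (d0t t x) (Set.Icc 0 T) t
  nonneg : ∀ t ∈ Set.Icc (0 : ℝ) T, ∀ x ∈ 𝓜.carrier, 0 ≤ d0 t x
  super : ∀ t ∈ Set.Icc (0 : ℝ) T, ∀ x ∈ 𝓜.carrier, 0 ≤ d0t t x - lap 𝓜 (D.h t) (d0 t) x

end Claimed.Agent.R316
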